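import Mathlib

/-!
# P347: flows of fields of linear growth

A field on a finite time interval which is Lipschitz on balls and grows at most linearly has a
solution from every start; it is unique and depends continuously on the start.
-/

namespace P347.Zero

open Set Metric
open scoped NNReal

noncomputable section

variable {X : Type} [NormedAddCommGroup X] [NormedSpace ℝ X] [FiniteDimensional ℝ X]

/-- A field on `[0, T]`, continuous, Lipschitz on balls and of linear growth. -/
structure Field (G : ℝ → X → X) (T : ℝ) : Prop where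
  cont : ContinuousOn (fun z : ℝ × X => G z.1 z.2) (Icc 0 T ×ˢ univ)
  locLip : ∀ R : ℝ, ∃ K : ℝ≥0, ∀ t ∈ Icc 0 T, LipschitzOnWith K (G t) (closedBall 0 R)
  grow : ∃ A : ℝ≥0, ∀ t ∈ Icc 0 T, ∀ x, ‖G t x‖ ≤ A * (1 + ‖x‖)

/-- `u` solves the equation of `G` on `[0, T]`. -/
def Solves (G : ℝ → X → X) (T : ℝ) (u : ℝ → X) : Prop :=
  ∀ t ∈ Icc 0 T, HasDerivWithinAt u (G t (u t)) (Icc 0 T) t

variable {G : ℝ → X → X} {T : ℝ}

omit [FiniteDimensional ℝ X] in
theorem Solves.continuousOn {u : ℝ → X} (hu : Solves G T u) : ContinuousOn u (Icc 0 T) :=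
  fun t ht => (hu t ht).continuousWithinAt

omit [FiniteDimensional ℝ X] in
theorem Solves.derivIci {u : ℝ → X} (hu : Solves G T u) {t : ℝ} (ht : t ∈ Ico 0 T) :
    HasDerivWithinAt u (G t (u t)) (Ici t) t :=
  (hu t (Ico_subset_Icc_self ht)).mono_of_mem_nhdsWithin
    (Filter.mem_of_superset (Icc_mem_nhdsGE ht.2) (Icc_subset_Icc_left ht.1))

/-- Radial projection to the ball of radius `R`. -/
def clamp (R : ℝ) (x : X) : X := min 1 (R / ‖x‖) • x

omit [FiniteDimensional ℝ X] in
theorem norm_clamp_le {R : ℝ} (hR : 0 ≤ R) (x : X) : ‖clamp R x‖ ≤ R := by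
  rcases eq_or_ne x 0 with rfl | hx
  · simpa [clamp] using hR
  have hn : 0 < ‖x‖ := norm_pos_iff.2 hx
  rw [clamp, norm_smul, Real.norm_eq_abs, abs_of_nonneg (le_min zero_le_one (by positivity))]
  calc min 1 (R / ‖x‖) * ‖x‖ ≤ R / ‖x‖ * ‖x‖ :=
        mul_le_mul_of_nonneg_right (min_le_right _ _) hn.le
    _ = R := div_mul_cancel₀ R hn.ne'

omit [FiniteDimensional ℝ X] in
theorem clamp_eq {R : ℝ} {x : X} (hx : ‖x‖ ≤ R) : clamp R x = x := by
  rcases eq_or_ne x 0 with rfl | hne
  · simp [clamp]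
  rw [clamp, min_eq_left, one_smul]
  rw [le_div_iff₀ (norm_pos_iff.2 hne), one_mul]
  exact hx

omit [FiniteDimensional ℝ X] in
theorem lipschitz_clamp {R : ℝ} (hR : 0 ≤ R) : LipschitzWith 2 (clamp (X := X) R) := by
  refine LipschitzWith.of_dist_le_mul fun x y => ?_
  rw [dist_eq_norm, dist_eq_norm, NNReal.coe_ofNat]
  wlog h : ‖y‖ ≤ ‖x‖ generalizing x y
  · rw [norm_sub_rev, norm_sub_rev x]
    exact this y x (le_of_not_ge h)
  rcases eq_or_ne x 0 with rfl | hx
  · rw [norm_zero] at h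
    rw [norm_le_zero_iff.1 h]; simp
  have hn : 0 < ‖x‖ := norm_pos_iff.2 hx
  set a := min 1 (R / ‖x‖)
  set b := min 1 (R / ‖y‖)
  have ha0 : 0 ≤ a := le_min zero_le_one (by positivity)
  have ha1 : a ≤ 1 := min_le_left _ _
  have key : |a - b| * ‖y‖ ≤ ‖x‖ - ‖y‖ := by
    rcases eq_or_ne y 0 with rfl | hy
    · simp
    have hm : 0 < ‖y‖ := norm_pos_iff.2 hy
    have hab : a ≤ b := min_le_min le_rfl (div_le_div_of_nonneg_left hR hm h)
    rw [abs_of_nonpos (by linarith), neg_sub]
    rcases le_or_gt 1 (R / ‖x‖) with h1 | h1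
    · rw [show a = 1 from min_eq_left h1]
      have : b ≤ 1 := min_le_left _ _
      nlinarith
    · rw [show a = R / ‖x‖ from min_eq_right h1.le]
      have hbR : b * ‖y‖ ≤ R := by
        calc b * ‖y‖ ≤ R / ‖y‖ * ‖y‖ := mul_le_mul_of_nonneg_right (min_le_right _ _) hm.le
          _ = R := div_mul_cancel₀ R hm.ne'
      have h2 : R ≤ ‖x‖ := by rw [div_lt_one hn] at h1; exact h1.le
      have h3 : R - R / ‖x‖ * ‖y‖ ≤ ‖x‖ - ‖y‖ := by
        have : R - R / ‖x‖ * ‖y‖ = R / ‖x‖ * (‖x‖ - ‖y‖) := by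
          rw [mul_sub, div_mul_cancel₀ R hn.ne']
        rw [this]
        exact mul_le_of_le_one_left (by linarith) h1.le
      linarith [h3]
  have e : clamp R x - clamp R y = a • (x - y) + (a - b) • y := by
    simp only [clamp, a, b]
    module
  rw [e]
  refine (norm_add_le _ _).trans ?_
  rw [norm_smul, norm_smul, Real.norm_eq_abs, Real.norm_eq_abs, abs_of_nonneg ha0]
  have : a * ‖x - y‖ ≤ ‖x - y‖ := mul_le_of_le_one_left (norm_nonneg _) ha1
  linarith [norm_sub_norm_le x y]

omit [FiniteDimensional ℝ X] in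
/-- A bound for all solutions from a ball. -/
theorem Field.bound (hG : Field G T) (R : ℝ) : ∃ M : ℝ, R ≤ M ∧
    ∀ u, ‖u 0‖ ≤ R → Solves G T u → ∀ t ∈ Icc 0 T, ‖u t‖ ≤ M := by
  obtain ⟨A, hA⟩ := hG.grow
  refine ⟨max R (gronwallBound (max R 0) A A T), le_max_left _ _, fun u hu0 hu t ht => ?_⟩
  have h1 := norm_le_gronwallBound_of_norm_deriv_right_le (δ := max R 0) (K := A) (ε := A)
    hu.continuousOn (fun s hs => hu.derivIci hs) (hu0.trans (le_max_left _ _))
    (fun s hs => by have := hA s (Ico_subset_Icc_self hs) (u s); linarith [mul_add (A : ℝ) 1 ‖u s‖])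
    t ht
  refine h1.trans ((gronwallBound_mono (le_max_right R 0) A.2 A.2 ?_).trans (le_max_right _ _))
  linarith [ht.2]

/-- There is a solution from every start. -/
theorem Field.exists_solves (hG : Field G T) (hT : 0 ≤ T) (x : X) :
    ∃ u, u 0 = x ∧ Solves G T u := by
  obtain ⟨A, hA⟩ := hG.grow
  set M : ℝ := gronwallBound ‖x‖ (2 * A) A T
  have hgm : Monotone (gronwallBound ‖x‖ (2 * (A : ℝ)) A) :=
    gronwallBound_mono (norm_nonneg x) A.2 (by positivity)
  have hM : 0 ≤ M := by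
    have := hgm hT
    rw [gronwallBound_x0] at this
    exact (norm_nonneg x).trans this
  obtain ⟨K, hK⟩ := hG.locLip M
  set H : ℝ → X → X := fun t z => G t (clamp M z)
  have hbd : ∀ t ∈ Icc 0 T, ∀ z, ‖H t z‖ ≤ (A : ℝ) * (1 + M) := fun t ht z =>
    (hA t ht _).trans (by gcongr; exact norm_clamp_le hM z)
  set L : ℝ≥0 := A * (1 + M.toNNReal) with hLdef
  set a : ℝ≥0 := L * T.toNNReal with hadef
  have hPL : IsPicardLindelof H (tmin := 0) (tmax := T) ⟨0, le_rfl, hT⟩ x a 0 L (K * 2) :=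
    { lipschitzOnWith := fun t ht =>
        (hK t ht).comp (lipschitz_clamp hM).lipschitzOnWith
          (fun z _ => mem_closedBall_zero_iff.2 (norm_clamp_le hM z))
      continuousOn := fun z _ =>
        hG.cont.comp (continuous_id.prodMk continuous_const).continuousOn
          fun t ht => ⟨ht, mem_univ _⟩
      norm_le := fun t ht z _ => by simpa [hLdef, Real.coe_toNNReal M hM] using hbd t ht z
      mul_max_le := by simp [hadef, max_eq_left hT] }
  obtain ⟨u, hu0, hu⟩ := hPL.exists_eq_forall_mem_Icc_hasDerivWithinAt₀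
  refine ⟨u, hu0, fun t ht => ?_⟩
  have hsol : Solves H T u := hu
  have hle : ∀ s ∈ Icc 0 T, ‖u s‖ ≤ M := by
    intro s hs
    have h1 := norm_le_gronwallBound_of_norm_deriv_right_le (δ := ‖x‖) (K := 2 * A) (ε := A)
      hsol.continuousOn (fun r hr => hsol.derivIci hr) (by rw [hu0])
      (fun r hr => ?_) s hs
    · exact h1.trans (hgm (by linarith [hs.2]))
    · refine (hA r (Ico_subset_Icc_self hr) _).trans ?_
      have hc : ‖clamp M (u r)‖ ≤ ‖u r‖ := by
        rw [clamp, norm_smul, Real.norm_eq_abs, abs_of_nonneg (le_min zero_le_one (by positivity))]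
        exact mul_le_of_le_one_left (norm_nonneg _) (min_le_left _ _)
      nlinarith [A.2, norm_nonneg (u r)]
  have := hu t ht
  simp only [H, clamp_eq (hle t ht)] at this
  exact this

omit [FiniteDimensional ℝ X] in
/-- Solutions from a ball stay Lipschitz close. -/
theorem Field.lip_solves (hG : Field G T) (R : ℝ) : ∃ C : ℝ, 0 ≤ C ∧
    ∀ u v, ‖u 0‖ ≤ R → ‖v 0‖ ≤ R → Solves G T u → Solves G T v →
      ∀ t ∈ Icc 0 T, dist (u t) (v t) ≤ C * dist (u 0) (v 0) := by
  obtain ⟨M, _, hM⟩ := hG.bound R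
  obtain ⟨K, hK⟩ := hG.locLip M
  refine ⟨Real.exp (K * T), (Real.exp_pos _).le, fun u v hu0 hv0 hu hv t ht => ?_⟩
  have h := dist_le_of_trajectories_ODE_of_mem (v := G) (s := fun _ => closedBall 0 M) (K := K)
    (fun s hs => hK s (Ico_subset_Icc_self hs)) hu.continuousOn (fun s hs => hu.derivIci hs)
    (fun s hs => mem_closedBall_zero_iff.2 (hM u hu0 hu s (Ico_subset_Icc_self hs)))
    hv.continuousOn (fun s hs => hv.derivIci hs)
    (fun s hs => mem_closedBall_zero_iff.2 (hM v hv0 hv s (Ico_subset_Icc_self hs)))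
    le_rfl t ht
  refine h.trans ?_
  rw [mul_comm]
  gcongr
  linarith [ht.2]

omit [FiniteDimensional ℝ X] in
/-- Solutions are unique. -/
theorem Field.solves_unique (hG : Field G T) {u v : ℝ → X} (hu : Solves G T u) (hv : Solves G T v)
    (h0 : u 0 = v 0) {t : ℝ} (ht : t ∈ Icc 0 T) : u t = v t := by
  obtain ⟨C, _, hC⟩ := hG.lip_solves ‖u 0‖
  have := hC u v le_rfl (by rw [h0]) hu hv t ht
  rw [h0, dist_self, mul_zero] at this
  exact dist_le_zero.1 this

omit [FiniteDimensional ℝ X] in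
/-- Any family of solutions is continuous in the start. -/
theorem Field.continuous_solves (hG : Field G T) {Φ : ℝ → X → X}
    (h0 : ∀ x, Φ 0 x = x) (hΦ : ∀ x, Solves G T fun t => Φ t x) {t : ℝ} (ht : t ∈ Icc 0 T) :
    Continuous (Φ t) := by
  refine continuous_iff_continuousAt.2 fun x => ?_
  obtain ⟨C, hC0, hC⟩ := hG.lip_solves (‖x‖ + 1)
  have hlip : LipschitzOnWith C.toNNReal (Φ t) (closedBall 0 (‖x‖ + 1)) := by
    refine LipschitzOnWith.of_dist_le_mul fun a ha b hb => ?_
    have := hC (fun s => Φ s a) (fun s => Φ s b) (by simpa [h0] using ha) (by simpa [h0] using hb)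
      (hΦ a) (hΦ b) t ht
    simpa [h0, Real.coe_toNNReal C hC0] using this
  refine hlip.continuousOn.continuousAt (Filter.mem_of_superset (isOpen_ball.mem_nhds ?_)
    ball_subset_closedBall)
  simp

end

end P347.Zero
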