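import Vale.Agent.P347.Zero.Det
import Vale.Agent.P347.Quarter.Jac
import Vale.Agent.P347.Quarter.Gav

/-!
# P347, gamma* = 0: a density that solves the continuity equation is carried along the flow

No derivative of the flow in its starting point is used. An Euler step has an exact Jacobian, so a
step of length `δ` moves the density to the next one up to `o(δ)` in `L¹`; the Euler maps converge
to the flow pointwise.
-/

namespace P347.Zero

open MeasureTheory Filter Topology Set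
open scoped RealInnerProductSpace

noncomputable section

set_option linter.unusedSectionVars false

variable {E : Type} [NormedAddCommGroup E] [InnerProductSpace ℝ E] [FiniteDimensional ℝ E]
  [MeasurableSpace E] [BorelSpace E]

/-- A field `v` on `[0, Q]` and a density `h` solving the continuity equation. -/
structure Pair (v : ℝ → E → E) (Dv : ℝ → E → E →L[ℝ] E)
    (h : ℝ → E → ℝ) (Dh : ℝ → E → ℝ × E →L[ℝ] ℝ) (Q L K C : ℝ) : Prop where
  Q_nonneg : 0 ≤ Q
  vd : ∀ q ∈ Icc 0 Q, ∀ x, HasFDerivAt (v q) (Dv q x) x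
  v_cont : ContinuousOn (fun z : ℝ × E => v z.1 z.2) (Icc 0 Q ×ˢ univ)
  Dv_cont : ContinuousOn (fun z : ℝ × E => Dv z.1 z.2) (Icc 0 Q ×ˢ univ)
  L_bound : ∀ q ∈ Icc 0 Q, ∀ x, ‖Dv q x‖ ≤ L
  growth : ∀ q ∈ Icc 0 Q, ∀ x, ‖v q x‖ ≤ K * (1 + ‖x‖)
  hd : ∀ q ∈ Icc 0 Q, ∀ x, HasFDerivAt (fun z : ℝ × E => h z.1 z.2) (Dh q x) (q, x)
  Dh_cont : ContinuousOn (fun z : ℝ × E => Dh z.1 z.2) (Icc 0 Q ×ˢ univ)
  dom : ∀ q ∈ Icc 0 Q, ∀ x,
    |h q x| + ‖Dh q x‖ * (1 + ‖x‖) ≤ C * Real.exp (-(‖x‖ ^ 2 / 8))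
  eqn : ∀ q ∈ Icc 0 Q, ∀ x, Dh q x (1, v q x) + h q x * dtr (Dv q x) = 0

variable {v : ℝ → E → E} {Dv : ℝ → E → E →L[ℝ] E}
  {h : ℝ → E → ℝ} {Dh : ℝ → E → ℝ × E →L[ℝ] ℝ} {Q L K C : ℝ}

theorem Pair.L_nonneg (P : Pair v Dv h Dh Q L K C) : 0 ≤ L :=
  (norm_nonneg _).trans (P.L_bound 0 ⟨le_rfl, P.Q_nonneg⟩ 0)

theorem Pair.K_nonneg (P : Pair v Dv h Dh Q L K C) : 0 ≤ K := by
  have h1 := (norm_nonneg _).trans (P.growth 0 ⟨le_rfl, P.Q_nonneg⟩ 0)
  simpa using h1

theorem Pair.C_nonneg (P : Pair v Dv h Dh Q L K C) : 0 ≤ C := by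
  have h1 := le_trans (by positivity) (P.dom 0 ⟨le_rfl, P.Q_nonneg⟩ 0)
  simpa using h1

theorem Pair.v_slice (P : Pair v Dv h Dh Q L K C) {q : ℝ} (hq : q ∈ Icc 0 Q) :
    Continuous (v q) :=
  continuous_iff_continuousAt.2 fun x => (P.vd q hq x).continuousAt

theorem Pair.Dv_slice (P : Pair v Dv h Dh Q L K C) {q : ℝ} (hq : q ∈ Icc 0 Q) :
    Continuous (Dv q) :=
  P.Dv_cont.comp_continuous (by fun_prop : Continuous fun x : E => (q, x))
    fun x => ⟨hq, mem_univ x⟩

theorem Pair.h_slice (P : Pair v Dv h Dh Q L K C) {q : ℝ} (hq : q ∈ Icc 0 Q) :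
    Continuous (h q) :=
  continuous_iff_continuousAt.2 fun x =>
    ((P.hd q hq x).continuousAt.comp
      (continuous_const.prodMk continuous_id).continuousAt : _)

theorem Pair.lip (P : Pair v Dv h Dh Q L K C) {q : ℝ} (hq : q ∈ Icc 0 Q) (x y : E) :
    ‖v q x - v q y‖ ≤ L * ‖x - y‖ :=
  convex_univ.norm_image_sub_le_of_norm_hasFDerivWithin_le
    (fun z _ => (P.vd q hq z).hasFDerivWithinAt) (fun z _ => P.L_bound q hq z) (mem_univ y)
    (mem_univ x)

theorem Pair.integrable_slice (P : Pair v Dv h Dh Q L K C) {q : ℝ} (hq : q ∈ Icc 0 Q) :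
    Integrable (h q) := by
  refine ((integrable_gauss (E := E) (a := 1 / 8) (by norm_num)).const_mul C).mono'
    (P.h_slice hq).aestronglyMeasurable (Eventually.of_forall fun x => ?_)
  have h1 := P.dom q hq x
  have h2 : 0 ≤ ‖Dh q x‖ * (1 + ‖x‖) := by positivity
  rw [Real.norm_eq_abs, show -(1 / 8) * ‖x‖ ^ 2 = -(‖x‖ ^ 2 / 8) by ring]
  linarith

/-! ### One step -/

/-- The next density pulled back by one Euler step of length `τ`. -/
def pull (v : ℝ → E → E) (Dv : ℝ → E → E →L[ℝ] E)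
    (h : ℝ → E → ℝ) (x : E) (q τ : ℝ) : ℝ :=
  h (q + τ) (x + τ • v q x) * (1 + τ • Dv q x).det

/-- Its derivative in `τ`. -/
def pullD (v : ℝ → E → E) (Dv : ℝ → E → E →L[ℝ] E)
    (h : ℝ → E → ℝ) (Dh : ℝ → E → ℝ × E →L[ℝ] ℝ) (x : E) (z : ℝ × ℝ) :
    ℝ :=
  Dh (z.1 + z.2) (x + z.2 • v z.1 x) (1, v z.1 x) * (1 + z.2 • Dv z.1 x).det
    + h (z.1 + z.2) (x + z.2 • v z.1 x) * detD (Dv z.1 x) z.2

/-- The steps allowed. -/
def window (Q δ₀ : ℝ) : Set (ℝ × ℝ) :=
  {z | 0 ≤ z.1 ∧ 0 ≤ z.2 ∧ z.2 ≤ δ₀ ∧ z.1 + z.2 ≤ Q}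

theorem isCompact_window (Q δ₀ : ℝ) : IsCompact (window Q δ₀) := by
  refine ((isCompact_Icc (a := (0 : ℝ)) (b := Q)).prod (isCompact_Icc (a := (0 : ℝ)) (b := δ₀)))
    |>.of_isClosed_subset ?_ fun z hz => ?_
  · simp only [window, ofPred_and]
    exact (isClosed_le continuous_const continuous_fst).inter
      ((isClosed_le continuous_const continuous_snd).inter
        ((isClosed_le continuous_snd continuous_const).inter
          (isClosed_le (continuous_fst.add continuous_snd) continuous_const)))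
  · exact ⟨⟨hz.1, by linarith [hz.2.1, hz.2.2.2]⟩, hz.2.1, hz.2.2.1⟩

theorem Pair.hasDerivAt_pull (P : Pair v Dv h Dh Q L K C) {δ₀ : ℝ} {z : ℝ × ℝ}
    (hz : z ∈ window Q δ₀) (x : E) :
    HasDerivAt (pull v Dv h x z.1) (pullD v Dv h Dh x z) z.2 := by
  obtain ⟨h1, h2, -, h4⟩ := hz
  have hp : HasDerivAt (fun s : ℝ => (z.1 + s, x + s • v z.1 x)) (1, v z.1 x) z.2 := by
    refine ((hasDerivAt_id z.2).const_add z.1).prodMk ?_
    simpa using ((hasDerivAt_id z.2).smul_const (v z.1 x)).const_add x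
  exact ((P.hd _ ⟨by linarith, h4⟩ _).comp_hasDerivAt z.2 hp).mul (hasDerivAt_det _ _)

theorem Pair.pullD_zero (P : Pair v Dv h Dh Q L K C) {q : ℝ} (hq : q ∈ Icc 0 Q) (x : E) :
    pullD v Dv h Dh x (q, 0) = 0 := by
  simpa [pullD, detD_zero, ContinuousLinearMap.det] using P.eqn q hq x

theorem Pair.continuousOn_pullD (P : Pair v Dv h Dh Q L K C) (δ₀ : ℝ) (x : E) :
    ContinuousOn (pullD v Dv h Dh x) (window Q δ₀) := by
  have m1 : MapsTo (fun z : ℝ × ℝ => (z.1, x)) (window Q δ₀) (Icc 0 Q ×ˢ univ) :=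
    fun z hz => ⟨⟨hz.1, by linarith [hz.2.1, hz.2.2.2]⟩, mem_univ _⟩
  have c1 : ContinuousOn (fun z : ℝ × ℝ => v z.1 x) (window Q δ₀) :=
    P.v_cont.comp (by fun_prop) m1
  have c2 : ContinuousOn (fun z : ℝ × ℝ => Dv z.1 x) (window Q δ₀) :=
    P.Dv_cont.comp (by fun_prop) m1
  have c3 : ContinuousOn (fun z : ℝ × ℝ => (z.1 + z.2, x + z.2 • v z.1 x)) (window Q δ₀) :=
    (continuousOn_fst.add continuousOn_snd).prodMk
      (continuousOn_const.add (continuousOn_snd.smul c1))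
  have m3 : MapsTo (fun z : ℝ × ℝ => (z.1 + z.2, x + z.2 • v z.1 x)) (window Q δ₀)
      (Icc 0 Q ×ˢ univ) :=
    fun z hz => ⟨⟨add_nonneg hz.1 hz.2.1, hz.2.2.2⟩, mem_univ _⟩
  have c4 : ContinuousOn (fun z : ℝ × E => h z.1 z.2) (Icc 0 Q ×ˢ univ) :=
    fun p hp => (P.hd p.1 hp.1 p.2).continuousAt.continuousWithinAt
  have e1 : ContinuousOn (fun z : ℝ × ℝ => Dh (z.1 + z.2) (x + z.2 • v z.1 x)) (window Q δ₀) :=
    P.Dh_cont.comp c3 m3
  have e2 : ContinuousOn (fun z : ℝ × ℝ => h (z.1 + z.2) (x + z.2 • v z.1 x)) (window Q δ₀) :=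
    c4.comp c3 m3
  have c6 : ContinuousOn (fun z : ℝ × ℝ => ((1 : ℝ), v z.1 x)) (window Q δ₀) :=
    continuousOn_const.prodMk c1
  have c5 : ContinuousOn (fun z : ℝ × ℝ => 1 + z.2 • Dv z.1 x) (window Q δ₀) :=
    continuousOn_const.add (continuousOn_snd.smul c2)
  have e3 : ContinuousOn (fun z : ℝ × ℝ => (1 + z.2 • Dv z.1 x).det) (window Q δ₀) :=
    ContinuousLinearMap.continuous_det.comp_continuousOn c5
  have e4 : ContinuousOn (fun z : ℝ × ℝ => detD (Dv z.1 x) z.2) (window Q δ₀) :=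
    continuousOn_detD c2 continuousOn_snd
  have e5 : ContinuousOn (fun z : ℝ × ℝ => Dh (z.1 + z.2) (x + z.2 • v z.1 x) (1, v z.1 x))
      (window Q δ₀) := e1.clm_apply c6
  unfold pullD
  exact (e5.mul e3).add (e2.mul e4)

theorem Pair.pullD_bound (P : Pair v Dv h Dh Q L K C) :
    ∃ δ₀ : ℝ, 0 < δ₀ ∧ δ₀ ≤ 1 ∧ δ₀ * L < 1 ∧ ∃ A : ℝ, ∀ x, ∀ z ∈ window Q δ₀,
      ‖pullD v Dv h Dh x z‖ ≤ A * Real.exp (-(1 / 64) * ‖x‖ ^ 2) := by
  have hL := P.L_nonneg
  have hK := P.K_nonneg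
  have hC := P.C_nonneg
  obtain ⟨B, hB⟩ := (isCompact_closedBall (0 : E →L[ℝ] E) L).prod
    (isCompact_Icc (a := (0 : ℝ)) (b := 1)) |>.exists_bound_of_continuousOn
    (f := fun p : (E →L[ℝ] E) × ℝ => |(1 + p.2 • p.1).det| + |detD p.1 p.2|)
    (((ContinuousLinearMap.continuous_det.comp (by fun_prop)).abs.add
      continuous_detD.abs).continuousOn)
  refine ⟨1 / (2 * (K + L + 1)), by positivity, ?_, ?_,
    (4 * (K + 1) + 1) * C * B * Real.exp (1 / 8), fun x z hz => ?_⟩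
  · rw [div_le_one (by positivity)]; linarith
  · rw [div_mul_eq_mul_div, div_lt_one (by positivity)]; linarith
  obtain ⟨h1, h2, h3, h4⟩ := hz
  have hq : z.1 ∈ Icc 0 Q := ⟨h1, by linarith⟩
  have hq' : z.1 + z.2 ∈ Icc 0 Q := ⟨by linarith, h4⟩
  have hτ : z.2 * (2 * (K + L + 1)) ≤ 1 := (le_div_iff₀ (by positivity)).1 h3
  have hv := P.growth _ hq x
  set x' := x + z.2 • v z.1 x
  have hx : ‖x‖ ≤ ‖x'‖ + 1 / 2 * (1 + ‖x‖) := by
    have e1 := norm_sub_le x' (z.2 • v z.1 x)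
    rw [add_sub_cancel_right, norm_smul, Real.norm_eq_abs, abs_of_nonneg h2] at e1
    have e2 := mul_le_mul_of_nonneg_left hv h2
    have e3 : z.2 * K ≤ 1 / 2 := by nlinarith
    nlinarith [mul_le_mul_of_nonneg_right e3 (by positivity : 0 ≤ 1 + ‖x‖)]
  have hexp : Real.exp (-(‖x'‖ ^ 2 / 8)) ≤ Real.exp (1 / 8) * Real.exp (-(1 / 64) * ‖x‖ ^ 2) := by
    rw [← Real.exp_add, Real.exp_le_exp]
    have e1 : ‖x‖ ^ 2 ≤ (2 * ‖x'‖ + 1) ^ 2 := pow_le_pow_left₀ (norm_nonneg x) (by linarith) 2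
    nlinarith [sq_nonneg (2 * ‖x'‖ - 1)]
  have hb := hB (Dv z.1 x, z.2) ⟨mem_closedBall_zero_iff.2 (P.L_bound _ hq x), h2,
    h3.trans (by rw [div_le_one (by positivity)]; linarith)⟩
  rw [Real.norm_eq_abs, abs_of_nonneg (by positivity)] at hb
  have hdom := P.dom _ hq' x'
  have hDh : |Dh (z.1 + z.2) x' (1, v z.1 x)|
      ≤ 4 * (K + 1) * (‖Dh (z.1 + z.2) x'‖ * (1 + ‖x'‖)) := by
    rw [← Real.norm_eq_abs]
    refine (ContinuousLinearMap.le_opNorm _ _).trans ?_
    rw [mul_comm (4 * (K + 1)), mul_assoc]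
    refine mul_le_mul_of_nonneg_left ?_ (norm_nonneg _)
    rw [Prod.norm_def, max_le_iff]
    refine ⟨?_, hv.trans ?_⟩
    · simp; nlinarith [norm_nonneg x']
    · nlinarith [norm_nonneg x']
  have hh : |h (z.1 + z.2) x'| ≤ C * Real.exp (-(‖x'‖ ^ 2 / 8)) := by
    have e1 : 0 ≤ ‖Dh (z.1 + z.2) x'‖ * (1 + ‖x'‖) := by positivity
    linarith
  have hg : ‖Dh (z.1 + z.2) x'‖ * (1 + ‖x'‖) ≤ C * Real.exp (-(‖x'‖ ^ 2 / 8)) := by
    linarith [abs_nonneg (h (z.1 + z.2) x')]
  set m := (1 + z.2 • Dv z.1 x).det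
  set m' := detD (Dv z.1 x) z.2
  have hB0 : 0 ≤ B := le_trans (by positivity) hb
  calc ‖pullD v Dv h Dh x z‖
      ≤ |Dh (z.1 + z.2) x' (1, v z.1 x)| * |m| + |h (z.1 + z.2) x'| * |m'| := by
        rw [← abs_mul, ← abs_mul, Real.norm_eq_abs]; exact abs_add_le _ _
    _ ≤ 4 * (K + 1) * (C * Real.exp (-(‖x'‖ ^ 2 / 8))) * B
        + C * Real.exp (-(‖x'‖ ^ 2 / 8)) * B := by
        refine add_le_add (mul_le_mul (hDh.trans (mul_le_mul_of_nonneg_left hg (by positivity)))
          ?_ (abs_nonneg _) (by positivity)) (mul_le_mul hh ?_ (abs_nonneg _) (by positivity))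
        · linarith [abs_nonneg m']
        · linarith [abs_nonneg m]
    _ = (4 * (K + 1) + 1) * C * B * Real.exp (-(‖x'‖ ^ 2 / 8)) := by ring
    _ ≤ _ := by
        rw [mul_assoc _ (Real.exp (1 / 8))]
        exact mul_le_mul_of_nonneg_left hexp (by positivity)

/-- One Euler step. -/
def estep (v : ℝ → E → E) (δ : ℝ) (k : ℕ) (x : E) : E :=
  x + δ • v (k * δ) x

/-- Euler steps `k, …, k + m - 1`. -/
def erun (v : ℝ → E → E) (δ : ℝ) : ℕ → ℕ → E → E
  | 0, _, x => x
  | m + 1, k, x => erun v δ m (k + 1) (estep v δ k x)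

theorem grid_mem {δ : ℝ} (hδ : 0 ≤ δ) {n : ℕ} (hn : (n : ℝ) * δ = Q) {j : ℕ} (hj : j ≤ n) :
    (j : ℝ) * δ ∈ Icc 0 Q :=
  ⟨by positivity, hn ▸ mul_le_mul_of_nonneg_right (by exact_mod_cast hj) hδ⟩

theorem Pair.continuous_erun (P : Pair v Dv h Dh Q L K C) {δ : ℝ} (hδ : 0 ≤ δ) {n : ℕ}
    (hn : (n : ℝ) * δ = Q) : ∀ m k, k + m ≤ n → Continuous (erun v δ m k)
  | 0, _, _ => continuous_id
  | m + 1, k, hk => (P.continuous_erun hδ hn m (k + 1) (by omega)).comp
      (continuous_id.add ((P.v_slice (grid_mem hδ hn (by omega))).const_smul δ))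

/-- The error of the step from `k δ` to `(k + 1) δ`. -/
def stepErr (v : ℝ → E → E) (Dv : ℝ → E → E →L[ℝ] E)
    (h : ℝ → E → ℝ) (δ : ℝ) (k : ℕ) (x : E) : ℝ :=
  |h (k * δ) x - pull v Dv h x (k * δ) δ|

theorem Pair.stepErr_le (P : Pair v Dv h Dh Q L K C) {δ δ₀ η : ℝ} (hδ : 0 ≤ δ) (hδ₀ : δ ≤ δ₀)
    {n k : ℕ} (hn : (n : ℝ) * δ = Q) (hk : k < n) (x : E)
    (hη : ∀ τ ∈ Icc 0 δ, ‖pullD v Dv h Dh x ((k : ℝ) * δ, τ)‖ ≤ η) :
    stepErr v Dv h δ k x ≤ η * δ := by
  have hw : ∀ τ ∈ Icc (0 : ℝ) δ, ((k : ℝ) * δ, τ) ∈ window Q δ₀ := fun τ hτ =>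
    ⟨by positivity, hτ.1, hτ.2.trans hδ₀, by
      have := (grid_mem hδ hn (j := k + 1) hk).2
      push_cast at this
      nlinarith [hτ.2]⟩
  have h1 := (convex_Icc (0 : ℝ) δ).norm_image_sub_le_of_norm_hasDerivWithin_le
    (f := pull v Dv h x ((k : ℝ) * δ))
    (fun τ hτ => (P.hasDerivAt_pull (hw τ hτ) x).hasDerivWithinAt) hη
    (left_mem_Icc.2 hδ) (right_mem_Icc.2 hδ)
  rw [Real.norm_eq_abs, Real.norm_eq_abs, abs_sub_comm, sub_zero, abs_of_nonneg hδ] at h1
  simpa [stepErr, pull, ContinuousLinearMap.det] using h1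

theorem Pair.small_step (P : Pair v Dv h Dh Q L K C) {q δ : ℝ} (hq : q ∈ Icc 0 Q) (hδ : 0 ≤ δ)
    (hδL : δ * L < 1) :
    Quarter.Small (fun x => δ • v q x) (fun x => δ • Dv q x) (δ * L) :=
  ⟨fun x => (P.vd q hq x).const_smul δ, (P.Dv_slice hq).const_smul δ, fun x => by
    rw [norm_smul, Real.norm_eq_abs, abs_of_nonneg hδ]
    exact mul_le_mul_of_nonneg_left (P.L_bound q hq x) hδ, hδL⟩

theorem Pair.continuous_stepErr (P : Pair v Dv h Dh Q L K C) {δ : ℝ} (hδ : 0 ≤ δ) {n k : ℕ}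
    (hn : (n : ℝ) * δ = Q) (hk : k < n) : Continuous (stepErr v Dv h δ k) := by
  have h0 := grid_mem hδ hn hk.le
  have h1 := grid_mem hδ hn (j := k + 1) hk
  push_cast at h1
  rw [add_one_mul] at h1
  exact ((P.h_slice h0).sub (((P.h_slice h1).comp
    (continuous_id.add ((P.v_slice h0).const_smul δ))).mul
    (ContinuousLinearMap.continuous_det.comp
      (continuous_const.add ((P.Dv_slice h0).const_smul δ))))).abs

theorem Pair.telescope (P : Pair v Dv h Dh Q L K C) {δ δ₀ A : ℝ} (hδ : 0 ≤ δ) (hδ₀ : δ ≤ δ₀)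
    (hδL : δ * L < 1)
    (hA : ∀ x, ∀ z ∈ window Q δ₀, ‖pullD v Dv h Dh x z‖ ≤ A * Real.exp (-(1 / 64) * ‖x‖ ^ 2))
    {n : ℕ} (hn : (n : ℝ) * δ = Q) :
    ∀ m k, k + m ≤ n → ∀ f : E → ℝ, Continuous f → ∀ M : ℝ, 0 ≤ M → (∀ x, |f x| ≤ M) →
      |(∫ x, h (k * δ) x * f (erun v δ m k x)) - ∫ x, h ((k + m : ℕ) * δ) x * f x|
        ≤ M * ∑ j ∈ Finset.range m, ∫ x, stepErr v Dv h δ (k + j) x
  | 0, k, _, f, _, M, _, _ => by simp [erun]
  | m + 1, k, hk, f, hf, M, hM, hfb => by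
    have ih := P.telescope hδ hδ₀ hδL hA hn m (k + 1) (by omega) f hf M hM hfb
    rw [Finset.sum_range_succ', mul_add, show k + (m + 1) = k + 1 + m by omega]
    rw [Finset.sum_congr rfl fun j _ => by rw [show k + (j + 1) = k + 1 + j by omega], add_zero]
    refine (abs_sub_le _ (∫ x, h ((k + 1 : ℕ) * δ) x * f (erun v δ m (k + 1) x)) _).trans ?_
    rw [add_comm]
    refine add_le_add ih ?_
    set g := fun y => f (erun v δ m (k + 1) y)
    have hg : Continuous g := hf.comp (P.continuous_erun hδ hn m (k + 1) (by omega))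
    have h0 := grid_mem hδ hn (j := k) (by omega)
    have h1 := grid_mem hδ hn (j := k + 1) (by omega)
    have hS := P.small_step h0 hδ hδL
    have e1 := hS.integral_comp (volume : Measure (E))
      (fun y => h ((k + 1 : ℕ) * δ) y * g y)
    have he : ∀ x, h ((k + 1 : ℕ) * δ) (Quarter.shift (fun x => δ • v (k * δ) x) x)
        * (1 + δ • Dv (k * δ) x).det = pull v Dv h x (k * δ) δ := fun x => by
      simp [pull, Quarter.shift, add_mul]
    change |(∫ x, h (k * δ) x * g (estep v δ k x)) - ∫ y, h ((k + 1 : ℕ) * δ) y * g y| ≤ _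
    rw [← e1]
    have hc0 : Continuous fun x => g (estep v δ k x) :=
      hg.comp (continuous_id.add ((P.v_slice h0).const_smul δ))
    have hi0 : Integrable fun x => h (k * δ) x * g (estep v δ k x) :=
      ((P.integrable_slice h0).norm.mul_const M).mono'
        ((P.h_slice h0).mul hc0).aestronglyMeasurable
        (Eventually.of_forall fun x => by
          rw [Real.norm_eq_abs, abs_mul, Real.norm_eq_abs]
          exact mul_le_mul_of_nonneg_left (hfb _) (abs_nonneg _))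
    have hiE : Integrable (stepErr v Dv h δ k) :=
      ((integrable_gauss (E := E) (a := 1 / 64) (by norm_num)).const_mul (A * δ)).mono'
        (P.continuous_stepErr hδ hn (by omega)).aestronglyMeasurable
        (Eventually.of_forall fun x => by
          rw [Real.norm_eq_abs, stepErr, abs_abs, mul_right_comm]
          refine P.stepErr_le hδ hδ₀ hn (by omega) x fun τ hτ => hA x _ ?_
          have := h1.2
          push_cast at this
          exact ⟨h0.1, hτ.1, hτ.2.trans hδ₀, by linarith [hτ.2]⟩)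
    have hiE1 : Integrable fun x =>
        (h (k * δ) x - pull v Dv h x (k * δ) δ) * g (estep v δ k x) := by
      refine (hiE.mul_const M).mono' (((P.h_slice h0).sub ?_).mul hc0).aestronglyMeasurable
        (Eventually.of_forall fun x => ?_)
      · rw [← funext he]
        exact ((P.h_slice h1).comp (continuous_id.add ((P.v_slice h0).const_smul δ))).mul
          (ContinuousLinearMap.continuous_det.comp
            (continuous_const.add ((P.Dv_slice h0).const_smul δ)))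
      · rw [Real.norm_eq_abs, abs_mul]
        exact mul_le_mul_of_nonneg_left (hfb _) (abs_nonneg _)
    have e2 : (fun x => (1 + δ • Dv (k * δ) x).det
        * (h ((k + 1 : ℕ) * δ) (Quarter.shift (fun x => δ • v (k * δ) x) x)
          * g (Quarter.shift (fun x => δ • v (k * δ) x) x)))
        = fun x => pull v Dv h x (k * δ) δ * g (estep v δ k x) := funext fun x => by
      rw [← he x]; simp [estep, Quarter.shift]; ring
    rw [e2]
    have hi1 : Integrable fun x => pull v Dv h x (k * δ) δ * g (estep v δ k x) := by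
      have := hi0.sub hiE1
      refine this.congr (Eventually.of_forall fun x => ?_)
      simp only [Pi.sub_apply]; ring
    rw [← integral_sub hi0 hi1, ← integral_const_mul, ← Real.norm_eq_abs]
    refine norm_integral_le_of_norm_le (hiE.const_mul M) (Eventually.of_forall fun x => ?_)
    rw [Real.norm_eq_abs, ← sub_mul, abs_mul, mul_comm M]
    exact mul_le_mul_of_nonneg_left (hfb _) (abs_nonneg _)

theorem Pair.euler_tendsto (P : Pair v Dv h Dh Q L K C) {w : ℝ → E}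
    (hw : ∀ q ∈ Icc 0 Q, HasDerivWithinAt w (v q (w q)) (Icc 0 Q) q) :
    Tendsto (fun n : ℕ => erun v (Q / n) n 0 (w 0)) atTop (𝓝 (w Q)) := by
  have hL := P.L_nonneg
  have hc : ContinuousOn (fun q => v q (w q)) (Icc 0 Q) :=
    P.v_cont.comp (continuousOn_id.prodMk fun q hq => (hw q hq).continuousWithinAt)
      fun q hq => ⟨hq, mem_univ _⟩
  have hu := isCompact_Icc.uniformContinuousOn_of_continuous hc
  rw [Metric.tendsto_atTop]
  intro ε hε
  set η := ε / (2 * (Q + 1) * Real.exp (L * Q))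
  have hη : 0 < η := by have := P.Q_nonneg; positivity
  obtain ⟨θ, hθ, hθ'⟩ := Metric.uniformContinuousOn_iff_le.1 hu η hη
  obtain ⟨N, hN⟩ := exists_nat_gt (Q / θ)
  refine ⟨max N 1, fun n hn => ?_⟩
  have hn1 : (1 : ℝ) ≤ n := by exact_mod_cast le_of_max_le_right hn
  set δ := Q / (n : ℝ)
  have hδ : 0 ≤ δ := div_nonneg P.Q_nonneg (by linarith)
  have hnδ : (n : ℝ) * δ = Q := mul_div_cancel₀ _ (by linarith)
  have hδθ : δ ≤ θ := by
    rw [div_le_iff₀ (by linarith)]
    have : Q / θ < n := hN.trans_le (by exact_mod_cast le_of_max_le_left hn)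
    rw [div_lt_iff₀ hθ] at this
    linarith
  have key : ∀ m k, k + m = n → ∀ x,
      ‖erun v δ m k x - w Q‖ ≤ (1 + δ * L) ^ m * (‖x - w (k * δ)‖ + m * (δ * η)) := by
    intro m
    induction m with
    | zero =>
      intro k hk x
      simp only [add_zero] at hk
      subst hk
      simp [erun, hnδ]
    | succ m ih =>
      intro k hk x
      refine (ih (k + 1) (by omega) (estep v δ k x)).trans ?_
      have h0 := grid_mem hδ hnδ (j := k) (by omega)
      have h1 := grid_mem hδ hnδ (j := k + 1) (by omega)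
      have hstep : ‖w ((k + 1 : ℕ) * δ) - w (k * δ) - δ • v (k * δ) (w (k * δ))‖ ≤ δ * η := by
        have hsub : Icc ((k : ℝ) * δ) ((k + 1 : ℕ) * δ) ⊆ Icc 0 Q := Icc_subset_Icc h0.1 h1.2
        have hle : (k : ℝ) * δ ≤ ((k + 1 : ℕ) : ℝ) * δ := by push_cast; linarith
        have hm := (convex_Icc ((k : ℝ) * δ) ((k + 1 : ℕ) * δ)).norm_image_sub_le_of_norm_hasDerivWithin_le
          (f := fun q => w q - q • v (k * δ) (w (k * δ)))
          (fun q hq => ((hw q (hsub hq)).mono hsub).sub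
            ((hasDerivWithinAt_id q _).smul_const (v (k * δ) (w (k * δ)))))
          (C := η) (fun q hq => by
            simp only [one_smul]
            rw [← dist_eq_norm]
            refine hθ' q (hsub hq) _ h0 ?_
            rw [Real.dist_eq, abs_of_nonneg (by linarith [hq.1])]
            have := hq.2
            push_cast at this
            linarith)
          (left_mem_Icc.2 hle) (right_mem_Icc.2 hle)
        rw [Real.norm_eq_abs, abs_of_nonneg (by linarith)] at hm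
        have e : w ((k + 1 : ℕ) * δ) - w (k * δ) - δ • v (k * δ) (w (k * δ))
            = (w ((k + 1 : ℕ) * δ) - (((k + 1 : ℕ) : ℝ) * δ) • v (k * δ) (w (k * δ)))
              - (w (k * δ) - ((k : ℝ) * δ) • v (k * δ) (w (k * δ))) := by
          push_cast; module
        rw [e]
        refine hm.trans (le_of_eq ?_)
        push_cast; ring
      have e2 : ‖estep v δ k x - w ((k + 1 : ℕ) * δ)‖
          ≤ (1 + δ * L) * ‖x - w (k * δ)‖ + δ * η := by
        have e : estep v δ k x - w ((k + 1 : ℕ) * δ)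
            = (x - w (k * δ)) + δ • (v (k * δ) x - v (k * δ) (w (k * δ)))
              - (w ((k + 1 : ℕ) * δ) - w (k * δ) - δ • v (k * δ) (w (k * δ))) := by
          rw [estep]; module
        rw [e]
        refine (norm_sub_le _ _).trans (add_le_add ((norm_add_le _ _).trans ?_) hstep)
        rw [norm_smul, Real.norm_eq_abs, abs_of_nonneg hδ, one_add_mul, mul_assoc]
        exact add_le_add le_rfl (mul_le_mul_of_nonneg_left (P.lip h0 _ _) hδ)
      rw [pow_succ, mul_assoc]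
      refine mul_le_mul_of_nonneg_left ?_ (by positivity)
      push_cast at e2 ⊢
      nlinarith [mul_nonneg (mul_nonneg hδ hL) (by positivity : 0 ≤ ((m : ℝ) + 1) * (δ * η))]
  have h2 := key n 0 (zero_add n) (w 0)
  simp only [Nat.cast_zero, zero_mul, sub_self, norm_zero, zero_add] at h2
  rw [dist_eq_norm]
  refine h2.trans_lt ?_
  have h3 : (1 + δ * L) ^ n ≤ Real.exp (L * Q) := by
    refine (pow_le_pow_left₀ (by positivity) (le_of_le_of_eq (Real.add_one_le_exp (δ * L)) rfl |>.trans'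
      (le_of_eq (add_comm 1 (δ * L)))) n).trans (le_of_eq ?_)
    rw [← Real.exp_nat_mul, ← mul_assoc, hnδ, mul_comm]
  rw [show (n : ℝ) * (δ * η) = Q * η by rw [← mul_assoc, hnδ]]
  calc (1 + δ * L) ^ n * (Q * η) ≤ Real.exp (L * Q) * ((Q + 1) * η) :=
        mul_le_mul h3 (by nlinarith) (by have := P.Q_nonneg; positivity) (Real.exp_pos _).le
    _ = ε / 2 := by
        have h4 : Q + 1 ≠ 0 := by linarith [P.Q_nonneg]
        simp only [η]; field_simp
    _ < ε := by linarith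

theorem Pair.sum_stepErr_tendsto (P : Pair v Dv h Dh Q L K C) {δ₀ A : ℝ} (hδ₀ : 0 < δ₀)
    (hA : ∀ x, ∀ z ∈ window Q δ₀, ‖pullD v Dv h Dh x z‖ ≤ A * Real.exp (-(1 / 64) * ‖x‖ ^ 2)) :
    Tendsto (fun n : ℕ => ∑ j ∈ Finset.range n, ∫ x, stepErr v Dv h (Q / n) j x) atTop (𝓝 0) := by
  have hQ := P.Q_nonneg
  have hev : ∀ᶠ n : ℕ in atTop, 1 ≤ n ∧ Q / n ≤ δ₀ :=
    (eventually_ge_atTop 1).and
      ((tendsto_const_div_atTop_nhds_zero_nat Q).eventually_le_const hδ₀)
  have hb : ∀ n : ℕ, 1 ≤ n → Q / n ≤ δ₀ → ∀ j < n, ∀ x,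
      stepErr v Dv h (Q / n) j x ≤ A * Real.exp (-(1 / 64) * ‖x‖ ^ 2) * (Q / n) := by
    intro n hn hn' j hj x
    have h0 : (0 : ℝ) ≤ Q / n := by positivity
    have hnδ : (n : ℝ) * (Q / n) = Q := mul_div_cancel₀ _ (by positivity)
    refine P.stepErr_le h0 hn' hnδ hj x fun τ hτ => hA x _ ?_
    have := (grid_mem h0 hnδ (j := j + 1) hj).2
    push_cast at this
    exact ⟨by positivity, hτ.1, hτ.2.trans hn', by linarith [hτ.2]⟩
  have hd : Tendsto (fun n : ℕ => ∫ x, ∑ j ∈ Finset.range n, stepErr v Dv h (Q / n) j x) atTop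
      (𝓝 (∫ _ : E, (0 : ℝ))) := by
    refine tendsto_integral_filter_of_dominated_convergence
      (fun x => A * Real.exp (-(1 / 64) * ‖x‖ ^ 2) * Q) ?_ ?_
      (((integrable_gauss (E := E) (a := 1 / 64) (by norm_num)).const_mul A).mul_const Q) ?_
    · filter_upwards [hev] with n hn
      refine (continuous_finsetSum _ fun j hj => ?_).aestronglyMeasurable
      exact P.continuous_stepErr (by positivity) (mul_div_cancel₀ _ (by
        have := hn.1; positivity)) (Finset.mem_range.1 hj)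
    · filter_upwards [hev] with n hn
      refine Eventually.of_forall fun x => ?_
      have h0 : 0 ≤ ∑ j ∈ Finset.range n, stepErr v Dv h (Q / n) j x :=
        Finset.sum_nonneg fun j _ => abs_nonneg _
      rw [Real.norm_eq_abs, abs_of_nonneg h0]
      refine (Finset.sum_le_sum fun j hj => hb n hn.1 hn.2 j (Finset.mem_range.1 hj) x).trans
        (le_of_eq ?_)
      rw [Finset.sum_const, Finset.card_range, nsmul_eq_mul, mul_left_comm,
        mul_div_cancel₀ _ (by have := hn.1; positivity)]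
    · refine Eventually.of_forall fun x => ?_
      rw [Metric.tendsto_atTop]
      intro ε hε
      set η := ε / (2 * (Q + 1))
      have hη : 0 < η := by positivity
      obtain ⟨θ, hθ, hθ'⟩ := Metric.uniformContinuousOn_iff_le.1
        ((isCompact_window Q δ₀).uniformContinuousOn_of_continuous (P.continuousOn_pullD δ₀ x)) η hη
      obtain ⟨N, hN⟩ := eventually_atTop.1 (hev.and
        ((tendsto_const_div_atTop_nhds_zero_nat Q).eventually_le_const hθ))
      refine ⟨N, fun n hn => ?_⟩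
      obtain ⟨⟨hn1, hn2⟩, hn3⟩ := hN n hn
      have h0 : (0 : ℝ) ≤ Q / n := by positivity
      have hnδ : (n : ℝ) * (Q / n) = Q := mul_div_cancel₀ _ (by positivity)
      have hs : ∀ j < n, stepErr v Dv h (Q / n) j x ≤ η * (Q / n) := fun j hj => by
        refine P.stepErr_le h0 hn2 hnδ hj x fun τ hτ => ?_
        have hj1 := (grid_mem h0 hnδ (j := j + 1) hj).2
        push_cast at hj1
        have hj0 := grid_mem h0 hnδ (j := j) hj.le
        have := hθ' ((j : ℝ) * (Q / n), τ) ⟨hj0.1, hτ.1, hτ.2.trans hn2, by linarith [hτ.2]⟩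
          ((j : ℝ) * (Q / n), 0) ⟨hj0.1, le_rfl, hδ₀.le, by linarith [hj0.2]⟩ (by
            rw [Prod.dist_eq, dist_self, Real.dist_eq, sub_zero, abs_of_nonneg hτ.1,
              max_eq_right hτ.1]
            linarith [hτ.2])
        rwa [P.pullD_zero hj0, dist_zero_right] at this
      rw [Real.dist_eq, sub_zero,
        abs_of_nonneg (Finset.sum_nonneg fun j _ => abs_nonneg _)]
      refine (Finset.sum_le_sum fun j hj => hs j (Finset.mem_range.1 hj)).trans_lt ?_
      rw [Finset.sum_const, Finset.card_range, nsmul_eq_mul, mul_left_comm, hnδ]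
      calc η * Q ≤ η * (Q + 1) := by nlinarith
        _ = ε / 2 := by simp only [η]; field_simp
        _ < ε := by linarith
  rw [integral_zero] at hd
  refine hd.congr' ?_
  filter_upwards [hev] with n hn
  refine integral_finsetSum _ fun j hj => ?_
  refine ((((integrable_gauss (E := E) (a := 1 / 64) (by norm_num)).const_mul A).mul_const
    (Q / n)).mono' ?_ (Eventually.of_forall fun x => ?_))
  · exact (P.continuous_stepErr (by positivity) (mul_div_cancel₀ _ (by
      have := hn.1; positivity)) (Finset.mem_range.1 hj)).aestronglyMeasurable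
  · rw [Real.norm_eq_abs, stepErr, abs_abs]
    exact hb n hn.1 hn.2 j (Finset.mem_range.1 hj) x

/-- **The flow carries the first density to the last one.** -/
theorem Pair.transport (P : Pair v Dv h Dh Q L K C) {w : ℝ → E → E}
    (h0 : ∀ x, w 0 x = x)
    (hw : ∀ x, ∀ q ∈ Icc 0 Q, HasDerivWithinAt (fun s => w s x) (v q (w q x)) (Icc 0 Q) q)
    {f : E → ℝ} (hf : Continuous f) {M : ℝ} (hfb : ∀ x, |f x| ≤ M) :
    ∫ x, h 0 x * f (w Q x) = ∫ x, h Q x * f x := by
  obtain ⟨δ₀, hδ₀, -, hδL, A, hA⟩ := P.pullD_bound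
  have hQ := P.Q_nonneg
  have hM : 0 ≤ M := (abs_nonneg _).trans (hfb 0)
  have hev : ∀ᶠ n : ℕ in atTop, 1 ≤ n ∧ Q / n ≤ δ₀ :=
    (eventually_ge_atTop 1).and
      ((tendsto_const_div_atTop_nhds_zero_nat Q).eventually_le_const hδ₀)
  have hlim : Tendsto (fun n : ℕ => ∫ x, h 0 x * f (erun v (Q / n) n 0 x)) atTop
      (𝓝 (∫ x, h 0 x * f (w Q x))) := by
    refine tendsto_integral_filter_of_dominated_convergence (fun x => ‖h 0 x‖ * M) ?_ ?_
      ((P.integrable_slice ⟨le_rfl, hQ⟩).norm.mul_const M) (Eventually.of_forall fun x => ?_)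
    · filter_upwards [hev] with n hn
      exact ((P.h_slice ⟨le_rfl, hQ⟩).mul (hf.comp (P.continuous_erun (by positivity)
        (mul_div_cancel₀ _ (by have := hn.1; positivity)) n 0 (by omega)))).aestronglyMeasurable
    · filter_upwards with n
      refine Eventually.of_forall fun x => ?_
      rw [norm_mul]
      exact mul_le_mul_of_nonneg_left ((Real.norm_eq_abs _).trans_le (hfb _)) (norm_nonneg _)
    · have := P.euler_tendsto (w := fun s => w s x) (hw x)
      simp only [h0] at this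
      exact ((hf.tendsto _).comp this).const_mul (h 0 x)
  refine tendsto_nhds_unique hlim ?_
  rw [tendsto_iff_norm_sub_tendsto_zero]
  refine squeeze_zero' (Eventually.of_forall fun _ => norm_nonneg _) ?_
    (by simpa using (P.sum_stepErr_tendsto hδ₀ hA).const_mul M)
  filter_upwards [hev] with n hn
  have hd0 : (0 : ℝ) ≤ Q / n := by positivity
  have hnδ : (n : ℝ) * (Q / n) = Q := mul_div_cancel₀ _ (by have := hn.1; positivity)
  have := P.telescope hd0 hn.2 ((mul_le_mul_of_nonneg_right hn.2 P.L_nonneg).trans_lt hδL) hA hnδ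
    n 0 (by omega) f hf M hM hfb
  simpa [hnδ] using this

end

end P347.Zero
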