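import Vale.Agent.P347.Zero.Posterior
import Vale.Agent.P347.Zero.Transport
import Vale.Agent.P347.Zero.Ode

/-!
# P347, gamma* = 0: the exact flow towards finer scales and its law
-/

namespace P347.Zero

open MeasureTheory ProbabilityTheory Filter Topology Set P347.Quarter
open scoped RealInnerProductSpace BoundedContinuousFunction

noncomputable section

variable {d : ℕ} {V : Space d → ℝ}

/-- The field of the flow. -/
def flowV (V : Space d → ℝ) (y : Space d) (t q : ℝ) (x : Space d) : Space d :=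
  score V (t - q ^ 2) (y + q • x)

/-- Its derivative in the point. -/
def flowDv (V : Space d → ℝ) (y : Space d) (t q : ℝ) (x : Space d) : Space d →L[ℝ] Space d :=
  q • fderiv ℝ (score V (t - q ^ 2)) (y + q • x)

/-- The density of the flow, up to the constant `smooth V t y`. -/
def flowDens (V : Space d → ℝ) (y : Space d) (t : ℝ) (z : ℝ × Space d) : ℝ :=
  gden d z.2 * sd V [] (t - z.1 ^ 2, y + z.1 • z.2)

theorem contDiff_gden (d : ℕ) : ContDiff ℝ 1 (gden d) := by
  unfold gden halfSq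
  exact ((((contDiff_id (𝕜 := ℝ) (E := Space d)).norm_sq ℝ).div_const 2).neg.exp).div_const _

theorem sd_nil (V : Space d → ℝ) (r : ℝ) (z : Space d) : sd V [] (r, z) = smooth V r z := rfl

theorem continuous_score_comp (hV : InClass V) {α : Type} [TopologicalSpace α] {r : α → ℝ}
    {z : α → Space d} (hr : Continuous r) (hz : Continuous z) :
    Continuous fun a => score V (r a) (z a) := by
  have h := (continuous_score hV).comp (hr.prodMk hz)
  simpa only [Function.comp_def] using h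

theorem continuous_smooth_comp (hV : InClass V) {α : Type} [TopologicalSpace α] {r : α → ℝ}
    {z : α → Space d} (hr : Continuous r) (hz : Continuous z) :
    Continuous fun a => smooth V (r a) (z a) := by
  have h := (continuous_smooth hV).comp (hr.prodMk hz)
  simpa only [Function.comp_def] using h

theorem hasFDerivAt_sd_nil (hV : InClass V) {r : ℝ} (hr : 0 < r) (z : Space d) :
    ∃ D : ℝ × Space d →L[ℝ] ℝ, HasFDerivAt (sd V []) D (r, z) ∧ ∀ a b, D (a, b)
      = a * (1 / 2 * ∑ i, sd V [i, i] (r, z)) + ⟪smooth V r z • score V r z, b⟫ := by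
  have hd : HasFDerivAt (sd V []) (fderiv ℝ (sd V []) (r, z)) (r, z) :=
    (((contDiffOn_sd hV 1 []).contDiffAt (isOpen_times.mem_nhds (x := (r, z)) ⟨hr, trivial⟩))
      |>.differentiableAt one_ne_zero).hasFDerivAt
  refine ⟨_, hd, fun a b => ?_⟩
  have h1 : fderiv ℝ (sd V []) (r, z) (1, 0) = 1 / 2 * ∑ i, sd V [i, i] (r, z) := by
    have := hd.comp_hasDerivAt r (f := fun r' : ℝ => (r', z))
      ((hasDerivAt_id' r).prodMk (hasDerivAt_const r z))
    exact this.unique (hasDerivAt_pd_smooth hV hr [] z)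
  have h2 : fderiv ℝ (sd V []) (r, z) (0, b) = ⟪smooth V r z • score V r z, b⟫ := by
    have := hd.comp z (f := fun z' : Space d => (r, z')) (hasFDerivAt_prodMk_right r z)
    have e := congrArg (fun A : Space d →L[ℝ] ℝ => A b)
      (this.unique (hasFDerivAt_smooth hV r z))
    simp only [ContinuousLinearMap.comp_apply, ContinuousLinearMap.inr_apply,
      innerSL_apply_apply] at e
    rw [e, score_eq hV, smul_neg, smul_smul, mul_inv_cancel₀ (smooth_pos' hV r z).ne', one_smul]
  rw [show ((a, b) : ℝ × Space d) = a • ((1 : ℝ), (0 : Space d)) + ((0 : ℝ), b) by simp,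
    map_add, map_smul, h1, h2, smul_eq_mul]

theorem hasFDerivAt_flowDens (hV : InClass V) (y : Space d) {t q : ℝ} (hq : q ^ 2 < t)
    (x : Space d) :
    HasFDerivAt (flowDens V y t) (fderiv ℝ (flowDens V y t) (q, x)) (q, x) ∧
    ∀ a b, fderiv ℝ (flowDens V y t) (q, x) (a, b)
      = gden d x * (-(2 * q * a) * (1 / 2 * ∑ i, sd V [i, i] (t - q ^ 2, y + q • x))
          + ⟪smooth V (t - q ^ 2) (y + q • x) • score V (t - q ^ 2) (y + q • x), a • x + q • b⟫)
        - smooth V (t - q ^ 2) (y + q • x) * gden d x * ⟪x, b⟫ := by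
  obtain ⟨D, hD, hDf⟩ := hasFDerivAt_sd_nil hV (r := t - q ^ 2) (by linarith) (y + q • x)
  have hp1 : HasFDerivAt (fun z : ℝ × Space d => t - z.1 ^ 2)
      (-((2 * q) • ContinuousLinearMap.fst ℝ ℝ (Space d))) (q, x) := by
    have h0 : HasFDerivAt (fun z : ℝ × Space d => z.1) (ContinuousLinearMap.fst ℝ ℝ (Space d))
        (q, x) := hasFDerivAt_fst
    have h1 := (h0.fun_mul h0).const_sub t
    simp only [← sq] at h1
    refine h1.congr_fderiv ?_
    ext u <;> simp
    ring
  have hp2 : HasFDerivAt (fun z : ℝ × Space d => y + z.1 • z.2)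
      (q • ContinuousLinearMap.snd ℝ ℝ (Space d)
        + (ContinuousLinearMap.fst ℝ ℝ (Space d)).smulRight x) (q, x) := by
    have h0 : HasFDerivAt (fun z : ℝ × Space d => z.1) (ContinuousLinearMap.fst ℝ ℝ (Space d))
        (q, x) := hasFDerivAt_fst
    have h1 : HasFDerivAt (fun z : ℝ × Space d => z.2) (ContinuousLinearMap.snd ℝ ℝ (Space d))
        (q, x) := hasFDerivAt_snd
    exact (h0.fun_smul h1).const_add y
  have hg : HasFDerivAt (fun z : ℝ × Space d => gden d z.2)
      ((gden d x • -innerSL ℝ x).comp (ContinuousLinearMap.snd ℝ ℝ (Space d))) (q, x) := by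
    refine HasFDerivAt.comp (g := gden d) (f := Prod.snd) (q, x) ?_ hasFDerivAt_snd
    have h1 := ((hasFDerivAt_id x).norm_sq.mul_const (2⁻¹ : ℝ)).neg.exp.mul_const (gaussZ d)⁻¹
    simp only [id_eq] at h1
    refine (h1.congr_of_eventuallyEq (Eventually.of_forall fun u => ?_)).congr_fderiv ?_
    · simp [gden, halfSq, div_eq_mul_inv]
    · ext w
      simp [gden, halfSq, div_eq_mul_inv]
      ring
  have h : HasFDerivAt (flowDens V y t) _ (q, x) :=
    hg.mul (hD.comp (q, x) (f := fun z : ℝ × Space d => (t - z.1 ^ 2, y + z.1 • z.2))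
      (hp1.prodMk hp2))
  refine ⟨h.differentiableAt.hasFDerivAt, fun a b => ?_⟩
  rw [h.fderiv]
  simp [hDf, sd, pd, inner_add_right, inner_smul_right]
  ring

theorem inner_fderiv_score (hV : InClass V) {r : ℝ} (hr : 0 < r) (z : Space d) (i : Fin d) :
    ⟪bv i, fderiv ℝ (score V r) z (bv i)⟫ = ld V [i, i] (r, z) := by
  have h1 := (innerSL ℝ (bv i)).hasFDerivAt.comp z
    ((differentiable_score hV hr).differentiable one_ne_zero z).hasFDerivAt
  have e : (fun u => innerSL ℝ (bv i) (score V r u)) = fun u => ld V [i] (r, u) :=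
    funext fun u => by
      simp [bv, EuclideanSpace.inner_single_left, score_apply]
  rw [Function.comp_def, e] at h1
  show _ = fderiv ℝ (fun u => ld V [i] (r, u)) z (bv i)
  rw [h1.fderiv]
  rfl

theorem hasFDerivAt_flowV (hV : InClass V) (y : Space d) {t q : ℝ} (hq : q ^ 2 < t) (x : Space d) :
    HasFDerivAt (flowV V y t q) (flowDv V y t q x) x := by
  have h1 := ((differentiable_score hV (r := t - q ^ 2) (by linarith)).differentiable
    one_ne_zero (y + q • x)).hasFDerivAt.comp x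
    (((hasFDerivAt_id x).const_smul q).const_add y)
  refine h1.congr_fderiv ?_
  ext w
  simp [flowDv]

theorem continuousOn_flowDv (hV : InClass V) (y : Space d) {t Q : ℝ} (hQ : Q ^ 2 < t) :
    ContinuousOn (fun z : ℝ × Space d => flowDv V y t z.1 z.2) (Icc 0 Q ×ˢ univ) := by
  intro z hz
  have hz1 : z.1 ^ 2 < t := by nlinarith [hz.1.1, hz.1.2]
  have hC : ContDiffAt ℝ 1 (fun p : ℝ × Space d => score V p.1 p.2) _ :=
    (contDiffOn_score hV 1).contDiffAt
      (isOpen_times.mem_nhds (x := (t - z.1 ^ 2, y + z.1 • z.2)) ⟨by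
        show 0 < t - z.1 ^ 2; linarith, trivial⟩)
  have e : ∀ᶠ u : ℝ × Space d in 𝓝 z, flowDv V y t u.1 u.2
      = u.1 • (fderiv ℝ (fun p : ℝ × Space d => score V p.1 p.2)
        (t - u.1 ^ 2, y + u.1 • u.2)).comp (ContinuousLinearMap.inr ℝ ℝ (Space d)) := by
    filter_upwards [(by fun_prop : Continuous fun u : ℝ × Space d => t - u.1 ^ 2).continuousAt
      |>.preimage_mem_nhds (Ioi_mem_nhds (show 0 < t - z.1 ^ 2 by linarith))] with u hu
    have h1 := (((contDiffOn_score hV 1).contDiffAt (isOpen_times.mem_nhds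
      (x := (t - u.1 ^ 2, y + u.1 • u.2)) ⟨hu, trivial⟩)).differentiableAt
        one_ne_zero).hasFDerivAt.comp (y + u.1 • u.2)
        (f := fun p : Space d => (t - u.1 ^ 2, p))
        (hasFDerivAt_prodMk_right (t - u.1 ^ 2) (y + u.1 • u.2))
    have h1' : HasFDerivAt (score V (t - u.1 ^ 2)) _ (y + u.1 • u.2) := h1
    rw [flowDv, h1'.fderiv]
  refine (ContinuousAt.congr ?_ (e.mono fun u hu => hu.symm)).continuousWithinAt
  have hc : ContinuousAt (fderiv ℝ fun p : ℝ × Space d => score V p.1 p.2)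
      (t - z.1 ^ 2, y + z.1 • z.2) := (hC.fderiv_right (m := 0) (by simp)).continuousAt
  have hcomp : ContinuousAt (fun u : ℝ × Space d => fderiv ℝ
      (fun p : ℝ × Space d => score V p.1 p.2) (t - u.1 ^ 2, y + u.1 • u.2)) z :=
    hc.comp (f := fun u : ℝ × Space d => (t - u.1 ^ 2, y + u.1 • u.2)) (by fun_prop)
  exact continuousAt_fst.smul (hcomp.clm_comp continuousAt_const)

theorem continuousOn_fderiv_flowDens (hV : InClass V) (y : Space d) {t Q : ℝ} (hQ : Q ^ 2 < t) :
    ContinuousOn (fun z : ℝ × Space d => fderiv ℝ (flowDens V y t) (z.1, z.2))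
      (Icc 0 Q ×ˢ univ) := by
  intro z hz
  have hz1 : z.1 ^ 2 < t := by nlinarith [hz.1.1, hz.1.2]
  have hC : ContDiffAt ℝ 1 (flowDens V y t) z :=
    ((contDiff_gden d).contDiffAt.comp z contDiffAt_snd).mul
      (((contDiffOn_sd hV 1 []).contDiffAt (isOpen_times.mem_nhds
        (x := (t - z.1 ^ 2, y + z.1 • z.2)) ⟨by show 0 < t - z.1 ^ 2; linarith,
          trivial⟩)).comp z
        (f := fun u : ℝ × Space d => (t - u.1 ^ 2, y + u.1 • u.2)) (by fun_prop))
  exact ((hC.fderiv_right (m := 0) (by simp)).continuousAt : _).continuousWithinAt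

theorem flowDens_dom (hV : InClass V) (y : Space d) {t q b : ℝ} (hq0 : 0 ≤ q) (hq1 : q ≤ 1)
    (hqt : q ^ 2 < t) (hb0 : 0 ≤ b) (hB : ∀ z, |∑ i, sd V [i, i] (t - q ^ 2, z)| ≤ b) (x : Space d) :
    |flowDens V y t (q, x)| + ‖fderiv ℝ (flowDens V y t) (q, x)‖ * (1 + ‖x‖)
      ≤ (gaussZ d)⁻¹ * (1 + 12 * (b + 3)) * Real.exp (-(‖x‖ ^ 2 / 8)) := by
  set r := t - q ^ 2
  set z := y + q • x
  set g := gden d x
  have hg : 0 ≤ g := gden_nonneg x
  have hs1 : |smooth V r z| ≤ 1 := by
    rw [abs_of_pos (smooth_pos' hV r z)]; exact smooth_le_one hV r z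
  have hgs : ‖smooth V r z • score V r z‖ ≤ 2 := by
    rw [norm_smul, Real.norm_eq_abs, abs_of_pos (smooth_pos' hV r z)]
    exact smooth_mul_score_le hV r z
  have hD : ‖fderiv ℝ (flowDens V y t) (q, x)‖ ≤ g * ((b + 3) * (1 + ‖x‖)) := by
    refine ContinuousLinearMap.opNorm_le_bound _ (by positivity) fun p => ?_
    obtain ⟨a, u⟩ := p
    rw [(hasFDerivAt_flowDens hV y hqt x).2, Real.norm_eq_abs]
    have ha : |a| ≤ ‖((a, u) : ℝ × Space d)‖ := le_max_left _ _
    have hu : ‖u‖ ≤ ‖((a, u) : ℝ × Space d)‖ := le_max_right _ _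
    set m := ‖((a, u) : ℝ × Space d)‖
    have hm : 0 ≤ m := norm_nonneg _
    have e1 : |(-(2 * q * a)) * (1 / 2 * ∑ i, sd V [i, i] (r, z))| ≤ m * b := by
      rw [show -(2 * q * a) * (1 / 2 * ∑ i, sd V [i, i] (r, z))
        = -(q * a) * ∑ i, sd V [i, i] (r, z) by ring, abs_mul, abs_neg, abs_mul,
        abs_of_nonneg hq0]
      exact mul_le_mul ((mul_le_of_le_one_left (abs_nonneg a) hq1).trans ha) (hB z)
        (abs_nonneg _) hm
    have e2 : |⟪smooth V r z • score V r z, a • x + q • u⟫| ≤ 2 * (m * ‖x‖ + m) := by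
      refine (abs_real_inner_le_norm _ _).trans (mul_le_mul hgs ((norm_add_le _ _).trans ?_)
        (norm_nonneg _) zero_le_two)
      rw [norm_smul, norm_smul, Real.norm_eq_abs, Real.norm_eq_abs, abs_of_nonneg hq0]
      exact add_le_add (mul_le_mul_of_nonneg_right ha (norm_nonneg x))
        ((mul_le_of_le_one_left (norm_nonneg u) hq1).trans hu)
    have e3 : |smooth V r z * g * ⟪x, u⟫| ≤ g * (‖x‖ * m) := by
      rw [abs_mul, abs_mul, abs_of_nonneg hg]
      refine mul_le_mul (mul_le_of_le_one_left hg hs1) ((abs_real_inner_le_norm _ _).trans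
        (mul_le_mul_of_nonneg_left hu (norm_nonneg x))) (abs_nonneg _) hg
    change |g * (-(2 * q * a) * (1 / 2 * ∑ i, sd V [i, i] (r, z))
        + ⟪smooth V r z • score V r z, a • x + q • u⟫) - smooth V r z * g * ⟪x, u⟫| ≤ _
    refine (abs_sub _ _).trans ?_
    rw [abs_mul g, abs_of_nonneg hg]
    have e4 := mul_le_mul_of_nonneg_left ((abs_add_le _ _).trans (add_le_add e1 e2)) hg
    refine (add_le_add e4 e3).trans ?_
    nlinarith [mul_nonneg (mul_nonneg hg hm) (mul_nonneg hb0 (norm_nonneg x)),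
      mul_nonneg hg hm]
  have he : g * (1 + ‖x‖) ^ 2 ≤ 12 * (gaussZ d)⁻¹ * Real.exp (-(‖x‖ ^ 2 / 8)) := by
    simp only [g, gden, halfSq]
    have h1 : Real.exp (-(‖x‖ ^ 2 / 2)) * (1 + ‖x‖) ^ 2
        ≤ 12 * Real.exp (-(‖x‖ ^ 2 / 8)) := by
      have h2 := Real.add_one_le_exp (3 * ‖x‖ ^ 2 / 8)
      have h3 : Real.exp (-(‖x‖ ^ 2 / 2)) * Real.exp (3 * ‖x‖ ^ 2 / 8)
          = Real.exp (-(‖x‖ ^ 2 / 8)) := by rw [← Real.exp_add]; ring_nf
      have h4 : (1 + ‖x‖) ^ 2 ≤ 12 * Real.exp (3 * ‖x‖ ^ 2 / 8) := by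
        nlinarith [sq_nonneg (‖x‖ - 1), norm_nonneg x]
      nlinarith [mul_le_mul_of_nonneg_left h4 (Real.exp_nonneg (-(‖x‖ ^ 2 / 2)))]
    rw [div_mul_eq_mul_div, div_le_iff₀ (gaussZ_pos d)]
    refine h1.trans (le_of_eq ?_)
    have := (gaussZ_pos d).ne'
    field_simp
  have hh : |flowDens V y t (q, x)| ≤ (gaussZ d)⁻¹ * Real.exp (-(‖x‖ ^ 2 / 8)) := by
    simp only [flowDens, sd, pd]
    rw [abs_mul, abs_of_nonneg hg]
    refine (mul_le_of_le_one_right hg hs1).trans ?_
    simp only [g, gden, halfSq]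
    rw [div_eq_inv_mul]
    refine mul_le_mul_of_nonneg_left (Real.exp_le_exp.2 ?_) (inv_nonneg.2 (gaussZ_pos d).le)
    nlinarith [sq_nonneg ‖x‖]
  have e5 := mul_le_mul_of_nonneg_right hD (by positivity : 0 ≤ 1 + ‖x‖)
  have e6 := mul_le_mul_of_nonneg_left he (by linarith : 0 ≤ b + 3)
  nlinarith

theorem flowDens_eqn (hV : InClass V) (y : Space d) {t q : ℝ} (hq : q ^ 2 < t) (x : Space d) :
    fderiv ℝ (flowDens V y t) (q, x) (1, flowV V y t q x)
      + flowDens V y t (q, x) * dtr (flowDv V y t q x) = 0 := by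
  set r := t - q ^ 2
  set z := y + q • x
  have hr0 : 0 < r := by linarith
  have hP := (smooth_pos' hV r z).ne'
  rw [(hasFDerivAt_flowDens hV y hq x).2, dtr_eq_sum
    (EuclideanSpace.basisFun (Fin d) ℝ)]
  have e1 : ∀ i, ⟪EuclideanSpace.basisFun (Fin d) ℝ i,
      flowDv V y t q x (EuclideanSpace.basisFun (Fin d) ℝ i)⟫
      = q * (sd V [i, i] (r, z) / smooth V r z - ld V [i] (r, z) ^ 2) := fun i => by
    rw [flowDv, _root_.smul_apply, real_inner_smul_right,
      show EuclideanSpace.basisFun (Fin d) ℝ i = bv i from rfl, inner_fderiv_score hV hr0,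
      ld_pair hV hr0]
    rfl
  simp only [e1, ← Finset.mul_sum, Finset.sum_sub_distrib, ← Finset.sum_div]
  have e2 : ∑ i, ld V [i] (r, z) ^ 2 = ⟪score V r z, score V r z⟫ := by
    rw [real_inner_self_eq_norm_sq, EuclideanSpace.norm_sq_eq]
    exact Finset.sum_congr rfl fun i _ => by rw [score_apply, Real.norm_eq_abs, sq_abs]
  rw [e2]
  simp only [flowV, flowDens, sd, pd, one_smul, inner_add_right, real_inner_smul_left,
    real_inner_smul_right, real_inner_comm x]
  field_simp
  ring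

theorem flow_pair (hV : InClass V) (y : Space d) {t Q : ℝ} (ht1 : t ≤ 1) (hQ0 : 0 ≤ Q)
    (hQ : Q ^ 2 < t) :
    ∃ K C : ℝ, Pair (flowV V y t) (flowDv V y t) (fun q x => flowDens V y t (q, x))
      (fun q x => fderiv ℝ (flowDens V y t) (q, x)) Q 2 K C := by
  set s := t - Q ^ 2
  have hs : 0 < s := by linarith
  have hr : ∀ q ∈ Icc 0 Q, s ≤ t - q ^ 2 ∧ t - q ^ 2 ≤ 1 ∧ q ≤ 1 ∧ q ^ 2 < t := fun q hq => by
    have h1 := pow_le_pow_left₀ hq.1 hq.2 2
    refine ⟨by simp only [s]; linarith, by nlinarith [sq_nonneg q], ?_, by linarith⟩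
    nlinarith [hq.1]
  choose B hB using fun i : Fin d => (reg_smooth hV hs).bdd [i, i]
  have hB' : ∀ q ∈ Icc 0 Q, ∀ z, |∑ i, sd V [i, i] (t - q ^ 2, z)| ≤ ∑ i, B i := fun q hq z =>
    (Finset.abs_sum_le_sum_abs _ _).trans (Finset.sum_le_sum fun i _ => by
      rw [sd, pd_smooth_eq hV hs (hr q hq).1]
      exact ((hB i).gav _).bound z)
  have hv : Continuous fun z : ℝ × Space d => flowV V y t z.1 z.2 :=
    continuous_score_comp hV (by fun_prop) (by fun_prop)
  refine ⟨4 * √(d : ℝ) + 2 * ‖y‖ + 2, (gaussZ d)⁻¹ * (1 + 12 * ((∑ i, B i) + 3)),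
    ⟨hQ0, fun q hq x => hasFDerivAt_flowV hV y (hr q hq).2.2.2 x, hv.continuousOn,
      continuousOn_flowDv hV y hQ, fun q hq x => ?_, fun q hq x => ?_,
      fun q hq x => (hasFDerivAt_flowDens hV y (hr q hq).2.2.2 x).1,
      continuousOn_fderiv_flowDens hV y hQ,
      fun q hq x => flowDens_dom hV y hq.1 (hr q hq).2.2.1 (hr q hq).2.2.2
        (Finset.sum_nonneg fun i _ => (hB i).nonneg) (hB' q hq) x,
      fun q hq x => flowDens_eqn hV y (hr q hq).2.2.2 x⟩⟩
  · rw [flowDv, norm_smul, Real.norm_eq_abs, abs_of_nonneg hq.1]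
    have := norm_scoreD_le hV (r := t - q ^ 2) (by linarith [(hr q hq).1]) (y + q • x)
    nlinarith [(hr q hq).2.2.1, norm_nonneg (fderiv ℝ (score V (t - q ^ 2)) (y + q • x))]
  · refine (norm_score_le hV (by linarith [(hr q hq).1]) _).trans ?_
    have h1 : √((d : ℝ) * (t - q ^ 2)) ≤ √(d : ℝ) :=
      Real.sqrt_le_sqrt (mul_le_of_le_one_right d.cast_nonneg (hr q hq).2.1)
    have h2 := norm_add_le y (q • x)
    rw [norm_smul, Real.norm_eq_abs, abs_of_nonneg hq.1] at h2
    nlinarith [norm_nonneg x, norm_nonneg y, Real.sqrt_nonneg (d : ℝ),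
      mul_le_mul_of_nonneg_right (hr q hq).2.2.1 (norm_nonneg x)]

/-- The field of one branch of the flow, in the time `|q|`. -/
def flowG1 (V : Space d → ℝ) (y : Space d) (t σ τ : ℝ) (x : Space d) : Space d :=
  σ • score V (t - τ ^ 2) (y + (σ * τ) • x)

theorem field_flowG1 (hV : InClass V) (y : Space d) {t : ℝ} (ht : 0 < t) (ht1 : t ≤ 1) {σ : ℝ}
    (hσ : |σ| = 1) : Field (flowG1 V y t σ) √t := by
  set T := √t
  have hT : 0 < T := Real.sqrt_pos.2 ht
  have hT2 : T ^ 2 = t := Real.sq_sqrt ht.le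
  have hr : ∀ τ ∈ Icc 0 T, 0 ≤ t - τ ^ 2 ∧ t - τ ^ 2 ≤ 1 ∧ |σ * τ| ≤ 1 := fun τ hτ => by
    have h1 := pow_le_pow_left₀ hτ.1 hτ.2 2
    refine ⟨by linarith, by nlinarith [sq_nonneg τ], ?_⟩
    rw [abs_mul, hσ, one_mul, abs_of_nonneg hτ.1]
    nlinarith [hτ.1]
  refine ⟨?_, fun R => ⟨2, fun τ hτ => ?_⟩,
    ⟨(4 * √(d : ℝ) + 2 * ‖y‖ + 2).toNNReal, fun τ hτ x => ?_⟩⟩
  · exact ((continuous_score_comp hV (by fun_prop) (by fun_prop) : Continuous fun z : ℝ × Space d =>
      score V (t - z.1 ^ 2) (y + (σ * z.1) • z.2)).const_smul σ).continuousOn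
  · refine (LipschitzWith.of_dist_le_mul fun a b => ?_).lipschitzOnWith
    simp only [flowG1]
    rw [dist_smul₀, Real.norm_eq_abs, hσ, one_mul]
    refine ((lipschitz_score hV (hr τ hτ).1).dist_le_mul _ _).trans ?_
    rw [dist_add_left, dist_smul₀, Real.norm_eq_abs]
    exact mul_le_mul_of_nonneg_left (mul_le_of_le_one_left dist_nonneg (hr τ hτ).2.2)
      (by norm_num)
  · simp only [flowG1]
    rw [norm_smul, Real.norm_eq_abs, hσ, one_mul, Real.coe_toNNReal _ (by positivity)]
    refine (norm_score_le hV (hr τ hτ).1 _).trans ?_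
    have h1 : √((d : ℝ) * (t - τ ^ 2)) ≤ √(d : ℝ) :=
      Real.sqrt_le_sqrt (mul_le_of_le_one_right d.cast_nonneg (hr τ hτ).2.1)
    have h2 := norm_add_le y ((σ * τ) • x)
    rw [norm_smul, Real.norm_eq_abs] at h2
    nlinarith [norm_nonneg x, norm_nonneg y, Real.sqrt_nonneg (d : ℝ),
      mul_le_mul_of_nonneg_right (hr τ hτ).2.2 (norm_nonneg x)]

theorem glue_flow {y : Space d} {t : ℝ} (ht : 0 < t) {p n : ℝ → Space d} (hz0 : p 0 = n 0)
    (hp : Solves (flowG1 V y t 1) √t p) (hn : Solves (flowG1 V y t (-1)) √t n) {q : ℝ}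
    (hq : q ^ 2 < t) :
    HasDerivAt (fun u => if 0 ≤ u then p u else n (-u))
      (score V (t - q ^ 2) (y + q • if 0 ≤ q then p q else n (-q))) q := by
  have hT : 0 < √t := Real.sqrt_pos.2 ht
  have hqT : |q| < √t := by
    rw [← Real.sqrt_sq_eq_abs]; exact Real.sqrt_lt_sqrt (sq_nonneg q) hq
  rw [abs_lt] at hqT
  set w := fun q' : ℝ => if 0 ≤ q' then p q' else n (-q')
  show HasDerivAt w (score V (t - q ^ 2) (y + q • w q)) q
  have hpos : ∀ q, 0 ≤ q → q < √t →
      HasDerivWithinAt w (score V (t - q ^ 2) (y + q • w q)) (Ici 0) q := fun q h0 h1 => by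
    have hm : Icc (0 : ℝ) √t ∈ 𝓝[Ici 0] q :=
      mem_nhdsWithin.2 ⟨Iio (√t), isOpen_Iio, h1, fun u hu => ⟨hu.2, le_of_lt hu.1⟩⟩
    have h := (hp q ⟨h0, h1.le⟩).mono_of_mem_nhdsWithin hm
    rw [show flowG1 V y t 1 q (p q) = score V (t - q ^ 2) (y + q • p q) by
      simp [flowG1]] at h
    have e : w q = p q := if_pos h0
    rw [e]
    exact h.congr (fun u hu => if_pos hu) e
  have hneg : ∀ q, q ≤ 0 → -√t < q →
      HasDerivWithinAt w (score V (t - q ^ 2) (y + q • w q)) (Iic 0) q := fun q h0 h1 => by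
    have hm : Icc (0 : ℝ) √t ∈ 𝓝[Ici 0] (-q) :=
      mem_nhdsWithin.2 ⟨Iio (√t), isOpen_Iio, mem_Iio.2 (by linarith),
        fun u hu => ⟨hu.2, le_of_lt hu.1⟩⟩
    have h := (hn (-q) ⟨by linarith, by linarith⟩).mono_of_mem_nhdsWithin hm
    have h' := h.scomp q ((hasDerivWithinAt_id q (Iic (0 : ℝ))).neg)
      (fun u hu => by simpa using hu)
    simp only [flowG1, neg_smul, one_smul, neg_mul, one_mul, neg_neg, neg_sq,
      Function.comp_def] at h'
    have e : ∀ u ≤ (0 : ℝ), w u = n (-u) := fun u hu => by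
      rcases hu.eq_or_lt with rfl | h
      · simp [w, hz0]
      · exact if_neg (not_le.2 h)
    rw [e q h0]
    exact h'.congr (fun u hu => e u hu) (e q h0)
  rcases lt_trichotomy q 0 with h | h | h
  · exact (hneg q h.le hqT.1).hasDerivAt (Iic_mem_nhds h)
  · subst h
    have := (hneg 0 le_rfl (by linarith)).union (hpos 0 le_rfl hT)
    rw [Iic_union_Ici] at this
    exact hasDerivWithinAt_univ.1 this
  · exact (hpos q h.le hqT.2).hasDerivAt (Ici_mem_nhds h)

/-- The flow exists. -/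
theorem exists_flow (hV : InClass V) (y : Space d) {t : ℝ} (ht : 0 < t) (ht1 : t ≤ 1) :
    ∃ w, IsFlow V y t w := by
  have hT : 0 < √t := Real.sqrt_pos.2 ht
  have hp' := field_flowG1 hV y ht ht1 (σ := 1) abs_one
  have hn' := field_flowG1 hV y ht ht1 (σ := -1) (by norm_num)
  choose p hp0 hp using fun ξ => hp'.exists_solves hT.le ξ
  choose n hn0 hn using fun ξ => hn'.exists_solves hT.le ξ
  refine ⟨fun q ξ => if 0 ≤ q then p ξ q else n ξ (-q), fun ξ => by simp [hp0],
    fun ξ q hq => glue_flow ht ((hp0 ξ).trans (hn0 ξ).symm) (hp ξ) (hn ξ) hq, fun q hq => ?_⟩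
  have hqT : |q| < √t := by
    rw [← Real.sqrt_sq_eq_abs]; exact Real.sqrt_lt_sqrt (sq_nonneg q) hq
  rw [abs_lt] at hqT
  rcases le_or_gt 0 q with h | h
  · simp only [h, if_true]
    exact hp'.continuous_solves (Φ := fun τ ξ => p ξ τ) hp0 hp ⟨h, hqT.2.le⟩
  · simp only [not_le.2 h, if_false]
    exact hn'.continuous_solves (Φ := fun τ ξ => n ξ τ) hn0 hn ⟨by linarith, by linarith⟩

theorem IsFlow.transport (hV : InClass V) {y : Space d} {t : ℝ} {w : ℝ → Space d → Space d}
    (hw : IsFlow V y t w) (ht1 : t ≤ 1) {Q : ℝ} (hQ0 : 0 ≤ Q) (hQ : Q ^ 2 < t)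
    {f : Space d → ℝ} (hf : Continuous f) {M : ℝ} (hfb : ∀ x, |f x| ≤ M) :
    smooth V t y * ∫ ξ, f (w Q ξ) ∂stdGaussian (Space d)
      = ∫ x, smooth V (t - Q ^ 2) (y + Q • x) * f x ∂stdGaussian (Space d) := by
  obtain ⟨K, C, P⟩ := flow_pair hV y ht1 hQ0 hQ
  have h := P.transport hw.init
    (fun x q hq => (hw.deriv x q (by nlinarith [hq.1, hq.2])).hasDerivWithinAt) hf hfb
  rw [integral_stdGaussian_eq, integral_stdGaussian_eq, ← integral_const_mul]
  refine Eq.trans ?_ (h.trans ?_) <;>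
    refine integral_congr_ae (Eventually.of_forall fun x => ?_) <;>
    simp [flowDens, sd, pd] <;> ring

/-- The law of the flow at time `Q`. -/
theorem IsFlow.map_eq (hV : InClass V) {y : Space d} {t : ℝ} {w : ℝ → Space d → Space d}
    (hw : IsFlow V y t w) (ht1 : t ≤ 1) {Q : ℝ} (hQ0 : 0 ≤ Q) (hQ : Q ^ 2 < t) :
    (stdGaussian (Space d)).map (w Q)
      = (stdGaussian (Space d)).withDensity fun x =>
          ENNReal.ofReal (smooth V (t - Q ^ 2) (y + Q • x) / smooth V t y) := by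
  set g := fun x => smooth V (t - Q ^ 2) (y + Q • x) / smooth V t y
  have hg0 : ∀ x, 0 ≤ g x := fun x => div_nonneg (smooth_pos' hV _ _).le (smooth_pos' hV _ _).le
  have hgc : Continuous g :=
    (continuous_smooth_comp hV continuous_const (by fun_prop)).div_const _
  have hgi : Integrable g (stdGaussian (Space d)) :=
    Integrable.of_bound hgc.aestronglyMeasurable (1 / smooth V t y) (Eventually.of_forall fun x => by
      rw [Real.norm_eq_abs, abs_of_nonneg (hg0 x)]
      exact div_le_div_of_nonneg_right (smooth_le_one hV _ _) (smooth_pos' hV _ _).le)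
  have : IsFiniteMeasure ((stdGaussian (Space d)).withDensity fun x => ENNReal.ofReal (g x)) :=
    isFiniteMeasure_withDensity_ofReal hgi.2
  have hwc : Continuous (w Q) := hw.cont Q hQ
  refine ext_of_forall_integral_eq_of_IsFiniteMeasure fun f => ?_
  rw [integral_map hwc.aemeasurable f.continuous.aestronglyMeasurable,
    integral_withDensity_eq_integral_toReal_smul hgc.measurable.ennreal_ofReal
      (Eventually.of_forall fun _ => ENNReal.ofReal_lt_top)]
  simp only [ENNReal.toReal_ofReal (hg0 _), smul_eq_mul, g, div_mul_eq_mul_div]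
  rw [integral_div, eq_div_iff (smooth_pos' hV t y).ne', mul_comm]
  exact hw.transport hV ht1 hQ0 hQ f.continuous (M := ‖f‖)
    fun x => (Real.norm_eq_abs _).symm.trans_le (f.norm_coe_le_norm x)

/-- Module 1, second part. -/
theorem flow_spec : FlowSpec := by
  intro d V hV y t ht ht1
  obtain ⟨w, hw⟩ := exists_flow hV y ht ht1
  refine ⟨w, hw, fun f hf hf01 s hs hst => ?_, fun s hs hst => ?_⟩
  all_goals
    have hQ0 : 0 ≤ √(t - s) := Real.sqrt_nonneg _
    have hQ2 : √(t - s) ^ 2 = t - s := Real.sq_sqrt (sub_nonneg.2 hst)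
    have hQ : √(t - s) ^ 2 < t := by linarith
    have hts : t - √(t - s) ^ 2 = s := by linarith
  · have h := hw.transport hV ht1 hQ0 hQ (f := fun x => f (y + √(t - s) • x)) (by fun_prop)
      (M := 1) fun x => abs_le.2 ⟨by linarith [(hf01 (y + √(t - s) • x)).1], (hf01 _).2⟩
    rw [condMean, eq_div_iff (smooth_pos' hV t y).ne', mul_comm, h, hts]
    simp only [mul_comm]
  · have hwc : Continuous (w √(t - s)) := hw.cont _ hQ
    set F := fun x : Space d => score V s (y + √(t - s) • x)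
    have hF : Continuous F := continuous_score_comp hV continuous_const (by fun_prop)
    have hP : Continuous fun x : Space d => smooth V s (y + √(t - s) • x) / smooth V t y :=
      (continuous_smooth_comp hV continuous_const (by fun_prop)).div_const _
    show ∫ ξ, F (w √(t - s) ξ) ∂stdGaussian (Space d) = _
    rw [← integral_map hwc.aemeasurable hF.aestronglyMeasurable, hw.map_eq hV ht1 hQ0 hQ, hts,
      integral_withDensity_eq_integral_toReal_smul hP.measurable.ennreal_ofReal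
        (Eventually.of_forall fun _ => ENNReal.ofReal_lt_top)]
    have hint : Integrable (fun x => (smooth V s (y + √(t - s) • x) / smooth V t y) • F x)
        (stdGaussian (Space d)) := by
      refine Integrable.of_bound (hP.smul hF).aestronglyMeasurable
        (2 / smooth V t y) (Eventually.of_forall fun x => ?_)
      rw [norm_smul, Real.norm_eq_abs,
        abs_of_nonneg (div_nonneg (smooth_pos' hV _ _).le (smooth_pos' hV _ _).le),
        div_mul_eq_mul_div]
      exact div_le_div_of_nonneg_right (smooth_mul_score_le hV _ _) (smooth_pos' hV _ _).le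
    simp only [ENNReal.toReal_ofReal
      (div_nonneg (smooth_pos' hV _ _).le (smooth_pos' hV _ _).le)]
    ext i
    rw [score_apply, ld_single hV ht]
    calc (∫ x, (smooth V s (y + √(t - s) • x) / smooth V t y) • F x ∂stdGaussian (Space d)) i
        = ∫ x, ((smooth V s (y + √(t - s) • x) / smooth V t y) • F x) i
            ∂stdGaussian (Space d) :=
          ((EuclideanSpace.proj i : Space d →L[ℝ] ℝ).integral_comp_comm hint).symm
      _ = ∫ x, pd [i] (smooth V s) (y + √(t - s) • x) / smooth V t y ∂stdGaussian (Space d) := by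
          refine integral_congr_ae (Eventually.of_forall fun x => ?_)
          simp only [F, WithLp.ofLp_smul, Pi.smul_apply, smul_eq_mul, score_apply, ld_single hV hs,
            sd, pd]
          have := (smooth_pos' hV s (y + √(t - s) • x)).ne'
          field_simp
      _ = _ := by
          rw [integral_div]
          simp only [sd]
          rw [pd_smooth_eq hV hs hst]
          rfl

end

end P347.Zero
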