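import Vale.Agent.P347.Zero.Base
import Vale.Agent.P347.Any.Scale

/-!
# P347, gamma* = 0: the score is two-Lipschitz and is close to minus the gradient at small variance

In a rescaled variable the posterior is the Gibbs law of a potential with Hessian between `1` and
`2`, tilted linearly; its means move with Lipschitz constant one in the tilt.
-/

namespace P347.Zero

open MeasureTheory ProbabilityTheory Filter Topology P347.Quarter
open scoped RealInnerProductSpace

noncomputable section

variable {d : ℕ} {V : Space d → ℝ}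

/-- The scale of the posterior. -/
def lam (r : ℝ) : ℝ := √(r / (1 + r))

/-- The posterior potential in the scale `lam r`. -/
def postPot (V : Space d → ℝ) (r : ℝ) (x : Space d) : ℝ :=
  V (lam r • x) + ‖x‖ ^ 2 / (2 * (1 + r))

theorem lam_pos {r : ℝ} (hr : 0 < r) : 0 < lam r := Real.sqrt_pos.2 (by positivity)

theorem lam_sq {r : ℝ} (hr : 0 ≤ r) : lam r ^ 2 = r / (1 + r) := Real.sq_sqrt (by positivity)

theorem hasFDerivAt_postPot (hV : InClass V) (r : ℝ) (x : Space d) :
    HasFDerivAt (postPot V r)
      (innerSL ℝ (lam r • gradient V (lam r • x) + (1 + r)⁻¹ • x)) x := by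
  have h1 : HasFDerivAt (fun x : Space d => V (lam r • x))
      ((fderiv ℝ V (lam r • x)).comp (lam r • ContinuousLinearMap.id ℝ (Space d))) x :=
    (hV.smooth.differentiable (by norm_num) _).hasFDerivAt.comp x
      ((hasFDerivAt_id x).const_smul (lam r))
  have h2 := ((hasFDerivAt_id x).norm_sq.mul_const (2 * (1 + r))⁻¹)
  simp only [id_eq] at h2
  refine (h1.add h2).congr_fderiv ?_
  ext w
  simp
  ring

theorem gradient_postPot (hV : InClass V) (r : ℝ) :
    gradient (postPot V r) = fun x => lam r • gradient V (lam r • x) + (1 + r)⁻¹ • x :=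
  funext fun x => ext_inner_right ℝ fun w => by
    rw [P347.inner_gradient, (hasFDerivAt_postPot hV r x).fderiv, innerSL_apply_apply]

theorem potential_postPot (hV : InClass V) {r : ℝ} (hr : 0 < r) :
    Potential (postPot V r) (lam r ^ 2 * (3 / 2) + (1 + r)⁻¹) (lam r ^ 2 / 2) := by
  have hl := lam_sq hr.le
  have hp : 0 < (1 + r)⁻¹ := by positivity
  have h1 : lam r ^ 2 + (1 + r)⁻¹ = 1 := by rw [hl]; field_simp; ring
  have hl0 := sq_nonneg (lam r)
  refine ⟨fun x => (hasFDerivAt_postPot hV r x).differentiableAt, ?_, ?_, fun z v => ?_,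
    by positivity, by linarith, by linarith⟩
  · rw [gradient_postPot hV]
    have hgd : Differentiable ℝ (gradient V) :=
      (contDiff_gradient hV.smooth).differentiable one_ne_zero
    fun_prop
  · refine ⟨?_, by simp [postPot, hV.zero], fun x t => ?_, fun x => ?_, fun x => ?_⟩
    · rw [gradient_postPot hV]
      have hgc : Continuous (gradient V) := (contDiff_gradient hV.smooth).continuous
      fun_prop
    · have g0 : HasDerivAt (fun t : ℝ => t • x) x t := by
        simpa only [one_smul, id_eq] using (hasDerivAt_id t).smul_const x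
      rw [P347.inner_gradient, (hasFDerivAt_postPot hV r (t • x)).fderiv]
      exact HasFDerivAt.comp_hasDerivAt (l := postPot V r) (f := fun t : ℝ => t • x) t
        (hasFDerivAt_postPot hV r (t • x)) g0
    all_goals
      simp only [gradient_postPot hV, inner_add_left, real_inner_smul_left,
        real_inner_self_eq_norm_sq]
    · have h := hV.model.block.lower (lam r • x)
      rw [real_inner_smul_right, norm_smul, mul_pow, Real.norm_eq_abs, sq_abs] at h
      nlinarith
    · have h := hV.model.block.upper (lam r • x)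
      rw [real_inner_smul_right, norm_smul, mul_pow, Real.norm_eq_abs, sq_abs] at h
      nlinarith [mul_nonneg hp.le (sq_nonneg ‖x‖)]
  · have h := hV.model.cross (lam r • z) (lam r • v)
    rw [← smul_add, norm_smul (lam r) v, Real.norm_eq_abs, abs_of_pos (lam_pos hr)] at h
    simp only [gradient_postPot hV]
    rw [show lam r • gradient V (lam r • (z + v)) + (1 + r)⁻¹ • (z + v)
        - (lam r • gradient V (lam r • z) + (1 + r)⁻¹ • z)
        - (lam r ^ 2 * (3 / 2) + (1 + r)⁻¹) • v
        = lam r • (gradient V (lam r • (z + v)) - gradient V (lam r • z)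
          - (3 / 2 : ℝ) • lam r • v) by module]
    rw [norm_smul, Real.norm_eq_abs, abs_of_pos (lam_pos hr)]
    refine (mul_le_mul_of_nonneg_left h (lam_pos hr).le).trans (le_of_eq ?_)
    ring

theorem postPot_gap {r : ℝ} (hr : 0 < r) :
    lam r ^ 2 * (3 / 2) + (1 + r)⁻¹ - lam r ^ 2 / 2 = 1 := by
  rw [lam_sq hr.le]; field_simp; ring

/-- The tilt of the posterior at the point `y`. -/
def postTilt (r : ℝ) (y : Space d) : Space d := (lam r / r) • y

/-- Gaussian averages as integrals against the posterior weight. -/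
theorem gav_eq_post (V : Space d → ℝ) {r : ℝ} (hr : 0 < r) (y : Space d) :
    ∃ c : ℝ, 0 < c ∧ ∀ g : Space d → ℝ, gav √r (fun u => expNeg V u * g u) y
      = c * ∫ x, g (lam r • x) * Real.exp (-tilt (postPot V r) (postTilt r y) x) := by
  have hs : √r ^ 2 = r := Real.sq_sqrt hr.le
  have hs0 : 0 < √r := Real.sqrt_pos.2 hr
  set a := lam r / √r with ha
  have ha0 : 0 < a := div_pos (lam_pos hr) hs0
  refine ⟨|a ^ Module.finrank ℝ (Space d)| * (Real.exp (-(‖y‖ ^ 2 / (2 * r))) / gaussZ d),
    mul_pos (abs_pos.2 (by positivity)) (div_pos (Real.exp_pos _) (gaussZ_pos d)), fun g => ?_⟩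
  rw [gav, integral_stdGaussian_eq]
  set F := fun u : Space d => gden d u • (expNeg V (y + √r • u) * g (y + √r • u))
  change ∫ u, F u = _
  have e1 : ∫ u, F u
      = |a ^ Module.finrank ℝ (Space d)| * ∫ x, F (-((√r)⁻¹ • y) + a • x) := by
    rw [← integral_add_left_eq_self (μ := (volume : Measure (Space d))) F (-((√r)⁻¹ • y))]
    rw [Measure.integral_comp_smul (volume : Measure (Space d))
      (fun x => F (-((√r)⁻¹ • y) + x)) a, smul_eq_mul, ← mul_assoc, abs_inv,
      mul_inv_cancel₀ (by positivity), one_mul]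
  rw [e1, mul_assoc]
  congr 1
  rw [← integral_const_mul]
  refine integral_congr_ae (Eventually.of_forall fun x => ?_)
  have e2 : y + √r • (-((√r)⁻¹ • y) + a • x) = lam r • x := by
    rw [smul_add, smul_neg, smul_smul, mul_inv_cancel₀ hs0.ne', one_smul, smul_smul, ha,
      mul_div_cancel₀ _ hs0.ne']
    abel
  have hl := lam_sq hr.le
  have e3 : -V (lam r • x) + -halfSq d (-((√r)⁻¹ • y) + a • x)
      = -(‖y‖ ^ 2 / (2 * r)) + -tilt (postPot V r) (postTilt r y) x := by
    simp only [halfSq, tilt, postPot, postTilt, norm_add_sq_real, norm_neg, norm_smul, mul_pow,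
      Real.norm_eq_abs, sq_abs, inner_neg_left, real_inner_smul_left, real_inner_smul_right, ha,
      div_pow, inv_pow, hs, hl]
    field_simp
    ring_nf
    rw [hs]
    ring
  simp only [F, e2, smul_eq_mul, gden, expNeg]
  rw [show Real.exp (-halfSq d (-((√r)⁻¹ • y) + a • x)) / gaussZ d
      * (Real.exp (-V (lam r • x)) * g (lam r • x))
      = Real.exp (-V (lam r • x) + -halfSq d (-((√r)⁻¹ • y) + a • x)) / gaussZ d
        * g (lam r • x) by rw [Real.exp_add]; ring, e3, Real.exp_add]
  ring

/-- The score is the posterior mean of minus the gradient. -/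
theorem inner_score (hV : InClass V) {r : ℝ} (hr : 0 < r) (y w : Space d) :
    ⟪score V r y, w⟫
      = -∫ x, ⟪gradient V (lam r • x), w⟫ ∂gibbs (tilt (postPot V r) (postTilt r y)) := by
  obtain ⟨c, hc, hg⟩ := gav_eq_post V hr y
  rw [score_eq hV, inner_neg_left, real_inner_smul_left, real_inner_comm,
    Quarter.inner_gav (bdd_gradExp hV), (potential_postPot hV hr).integral_tilt]
  have e : (fun u => ⟪w, gradExp V u⟫) = fun u => expNeg V u * ⟪gradient V u, w⟫ :=
    funext fun u => by rw [gradExp, real_inner_smul_right, real_inner_comm]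
  have e1 : smooth V r y = c * ∫ x, Real.exp (-tilt (postPot V r) (postTilt r y) x) := by
    have := hg fun _ => 1
    simpa [smooth_def] using this
  rw [e, hg, e1, inv_mul_eq_div, mul_div_mul_left _ _ hc.ne', ← integral_div]

/-- Means of Lipschitz functions under tilted laws. -/
theorem shift_lin {W : Space d → ℝ} {a e : ℝ} (hW : Potential W a e) (v v' : Space d)
    {g : Space d → ℝ} {L : ℝ} (hL : 0 ≤ L) (hl : ∀ x y, |g x - g y| ≤ L * ‖x - y‖) :
    |∫ x, g x ∂gibbs (tilt W v) - ∫ x, g x ∂gibbs (tilt W v')| ≤ L * (‖v - v'‖ / (a - e)) := by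
  have := hW.tilt_prob v
  have := hW.tilt_prob v'
  have hc : Continuous g := (LipschitzWith.of_dist_le' fun x y => by rw [Real.dist_eq, dist_eq_norm]; exact hl x y).continuous
  set clip := fun (n : ℕ) (x : Space d) => max (-((n : ℝ) + 1)) (min ((n : ℝ) + 1) (g x))
  have hclip : ∀ n x, |clip n x| ≤ |g x| := fun n x => by
    have : (0 : ℝ) ≤ n := n.cast_nonneg
    refine abs_le.2 ⟨le_max_of_le_right (le_min ?_ (neg_abs_le _)), max_le ?_ ?_⟩
    · linarith [abs_nonneg (g x)]
    · linarith [abs_nonneg (g x)]
    · exact (min_le_right _ _).trans (le_abs_self _)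
  have hcc : ∀ n, Continuous (clip n) := fun n => by fun_prop
  have hint : ∀ u, Integrable g (gibbs (tilt W u)) := fun u => by
    refine ((hW.integrable_gibbs u).const_mul (|g 0| + L)).mono' hc.aestronglyMeasurable
      (Eventually.of_forall fun x => ?_)
    have h := hl x 0
    rw [sub_zero] at h
    rw [Real.norm_eq_abs]
    nlinarith [abs_sub_abs_le_abs_sub (g x) (g 0), abs_nonneg (g 0), norm_nonneg x,
      mul_nonneg (abs_nonneg (g 0)) (norm_nonneg x)]
  have hb : ∀ n : ℕ, |∫ x, clip n x ∂gibbs (tilt W v) - ∫ x, clip n x ∂gibbs (tilt W v')|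
      ≤ L * (‖v - v'‖ / (a - e)) := fun n => by
    set N : ℝ := (n : ℝ) + 1
    have hN : 0 < N := by positivity
    have hG : Test fun x => (clip n x + N) / (2 * N) :=
      ⟨(((hcc n).add continuous_const).div_const _).measurable, fun x => by
        have : -N ≤ clip n x := le_max_left _ _
        exact div_nonneg (by linarith) (by positivity), fun x => by
        have : clip n x ≤ N := max_le (by linarith) (min_le_left _ _)
        rw [div_le_one (by positivity)]; linarith⟩
    have h := hW.shift v v' hG (L := L / (2 * N)) (by positivity) fun x y => by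
      rw [← sub_div, add_sub_add_right_eq_sub, abs_div, abs_of_pos (by positivity : 0 < 2 * N),
        div_mul_eq_mul_div]
      refine div_le_div_of_nonneg_right (le_trans ?_ (hl x y)) (by positivity)
      refine (abs_max_sub_max_le_max _ _ _ _).trans (max_le (by simp) ?_)
      exact (abs_min_sub_min_le_max _ _ _ _).trans (max_le (by simp) le_rfl)
    have hi : ∀ u, Integrable (clip n) (gibbs (tilt W u)) := fun u =>
      (hint u).norm.mono' (hcc n).aestronglyMeasurable (Eventually.of_forall fun x => by
        simpa [Real.norm_eq_abs] using hclip n x)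
    rw [integral_div, integral_div, integral_add (hi v) (integrable_const _),
      integral_add (hi v') (integrable_const _), ← sub_div] at h
    simp only [integral_const, probReal_univ, smul_eq_mul, one_mul, add_sub_add_right_eq_sub] at h
    rw [abs_div, abs_of_pos (by positivity : 0 < 2 * N), div_le_iff₀ (by positivity)] at h
    refine h.trans (le_of_eq ?_)
    field_simp
  refine le_of_tendsto' (x := atTop) (Tendsto.abs (Tendsto.sub ?_ ?_)) hb
  all_goals
    refine tendsto_integral_of_dominated_convergence (fun x => |g x|)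
      (fun n => (hcc n).aestronglyMeasurable) (hint _).abs
      (fun n => Eventually.of_forall fun x => by simpa [Real.norm_eq_abs] using hclip n x)
      (Eventually.of_forall fun x => tendsto_const_nhds.congr' ?_)
    filter_upwards [eventually_ge_atTop ⌈|g x|⌉₊] with n hn
    have h1 : |g x| ≤ n := (Nat.le_ceil _).trans (by exact_mod_cast hn)
    rw [abs_le] at h1
    simp only [clip]
    rw [min_eq_right (by linarith), max_eq_right (by linarith)]

/-- **The score is two-Lipschitz.** -/
theorem lipschitz_score (hV : InClass V) {r : ℝ} (hr : 0 ≤ r) : LipschitzWith 2 (score V r) := by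
  refine LipschitzWith.of_dist_le_mul fun y y' => ?_
  rw [dist_eq_norm, dist_eq_norm, NNReal.coe_ofNat]
  rcases hr.eq_or_lt with h | h
  · subst h
    rw [score_zero hV, score_zero hV, neg_sub_neg, norm_sub_rev y y']
    simpa using hV.model.lip y (y' - y)
  · set w := score V r y - score V r y'
    have hl := lam_sq h.le
    have hg : ∀ x x', |⟪gradient V (lam r • x), w⟫ - ⟪gradient V (lam r • x'), w⟫|
        ≤ 2 * lam r * ‖w‖ * ‖x - x'‖ := fun x x' => by
      rw [← inner_sub_left]
      refine (abs_real_inner_le_norm _ _).trans ?_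
      have := hV.model.lip (lam r • x') (lam r • x - lam r • x')
      rw [add_sub_cancel, ← smul_sub, norm_smul, Real.norm_eq_abs, abs_of_pos (lam_pos h)] at this
      nlinarith [norm_nonneg w]
    have h1 := shift_lin (potential_postPot hV h) (postTilt r y') (postTilt r y)
      (by have := lam_pos h; positivity) hg
    rw [postPot_gap h, div_one] at h1
    have h2 : ‖w‖ ^ 2 ≤ 2 * lam r * ‖w‖ * ‖postTilt r y' - postTilt r y‖ := by
      rw [← real_inner_self_eq_norm_sq,
        show ⟪w, w⟫ = ⟪score V r y, w⟫ - ⟪score V r y', w⟫ from inner_sub_left _ _ _,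
        inner_score hV h, inner_score hV h, neg_sub_neg]
      exact (le_abs_self _).trans h1
    rw [postTilt, postTilt, ← smul_sub, norm_smul, Real.norm_eq_abs,
      abs_of_pos (div_pos (lam_pos h) h), norm_sub_rev y' y] at h2
    have h3 : lam r * (lam r / r) ≤ 1 := by
      rw [← mul_div_assoc, ← sq, hl, div_div, div_le_one (by positivity)]
      nlinarith
    rcases (norm_nonneg w).eq_or_lt with hw | hw
    · rw [← hw]; positivity
    · refine le_of_mul_le_mul_left (?_ : ‖w‖ * ‖w‖ ≤ ‖w‖ * _) hw
      nlinarith [mul_le_mul_of_nonneg_right h3 (by positivity : 0 ≤ 2 * ‖w‖ * ‖y - y'‖)]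

theorem norm_scoreD_le (hV : InClass V) {r : ℝ} (hr : 0 ≤ r) (z : Space d) :
    ‖fderiv ℝ (score V r) z‖ ≤ 2 := by
  simpa using norm_fderiv_le_of_lipschitz ℝ (x₀ := z) (lipschitz_score hV hr)

/-- The first moment when the minimum is at the origin. -/
theorem moment_le {W : Space d → ℝ} (hd : Differentiable ℝ W) (h0 : W 0 = 0)
    (hmono : ∀ z v, 0 ≤ ⟪gradient W (z + v) - gradient W z, v⟫)
    (hlow : ∀ x, ‖x‖ ^ 2 / 2 ≤ W x)
    (hint : Integrable fun x => (1 + ‖x‖) * Real.exp (-W x)) :
    ∫ x, ‖x‖ * Real.exp (-W x) ≤ √(3 * d) * ∫ x, Real.exp (-W x) := by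
  rcases Nat.eq_zero_or_pos d with hd0 | hd0
  · subst hd0
    simp [Subsingleton.elim (α := Space 0) _ 0]
  set F := fun x : Space d => Real.exp (-W x)
  have hF : Continuous F := hd.continuous.neg.rexp
  have hiF : Integrable F := hint.mono' hF.aestronglyMeasurable (Eventually.of_forall fun x => by
    rw [Real.norm_eq_abs, Real.abs_exp]
    exact le_mul_of_one_le_left (Real.exp_nonneg _) (by linarith [norm_nonneg x]))
  have hiN : Integrable fun x : Space d => ‖x‖ * F x :=
    hint.mono' (continuous_norm.mul hF).aestronglyMeasurable (Eventually.of_forall fun x => by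
      rw [norm_mul, norm_norm, Real.norm_eq_abs, Real.abs_exp]
      nlinarith [Real.exp_nonneg (-W x)])
  have half : ∀ x, W ((1 / 2 : ℝ) • x) ≤ W x / 2 := fun x => by
    set g := fun c : ℝ => W (c • x)
    have hg : ∀ c, HasDerivAt g ⟪gradient W (c • x), x⟫ c := fun c => by
      have g0 : HasDerivAt (fun c : ℝ => c • x) x c := by
        simpa using (hasDerivAt_id c).smul_const x
      rw [P347.inner_gradient]
      exact (hd (c • x)).hasFDerivAt.comp_hasDerivAt c g0
    obtain ⟨c1, hc1, e1⟩ := exists_hasDerivAt_eq_slope g (fun c => ⟪gradient W (c • x), x⟫)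
      (show (0 : ℝ) < 1 / 2 by norm_num) (fun c _ => (hg c).continuousAt.continuousWithinAt)
      fun c _ => hg c
    obtain ⟨c2, hc2, e2⟩ := exists_hasDerivAt_eq_slope g (fun c => ⟪gradient W (c • x), x⟫)
      (show (1 / 2 : ℝ) < 1 by norm_num) (fun c _ => (hg c).continuousAt.continuousWithinAt)
      fun c _ => hg c
    have hm := hmono (c1 • x) ((c2 - c1) • x)
    rw [← add_smul, add_sub_cancel, real_inner_smul_right, inner_sub_left] at hm
    have hle : ⟪gradient W (c1 • x), x⟫ ≤ ⟪gradient W (c2 • x), x⟫ := by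
      have : 0 < c2 - c1 := by linarith [hc1.2, hc2.1]
      nlinarith
    simp only [g, one_smul, zero_smul, h0] at e1 e2
    rw [e1, e2] at hle
    norm_num at hle
    norm_num
    linarith
  set G := fun x : Space d => Real.exp (-(W x / 2))
  have hiG : Integrable G := by
    refine (integrable_gauss (E := Space d) (a := 1 / 4) (by norm_num)).mono'
      (hd.continuous.div_const 2).neg.rexp.aestronglyMeasurable (Eventually.of_forall fun x => ?_)
    rw [Real.norm_eq_abs, Real.abs_exp, Real.exp_le_exp]
    linarith [hlow x]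
  have hG : ∫ x, G x ≤ (2 : ℝ) ^ d * ∫ x, F x := by
    have hc := Measure.integral_comp_smul (volume : Measure (Space d)) F (1 / 2 : ℝ)
    rw [finrank_euclideanSpace, Fintype.card_fin, smul_eq_mul] at hc
    simp only [one_div, inv_pow, inv_inv, abs_pow, abs_two] at hc
    rw [← hc]
    refine integral_mono hiG (hiF.comp_smul (by norm_num)) fun x => ?_
    simp only [G, F, Real.exp_le_exp, neg_le_neg_iff]
    simpa using half x
  set K := (d : ℝ) * Real.log 2
  have key : ∀ x, W x * F x ≤ 2 * (K - 1) * F x + 2 * Real.exp (-K) * G x := fun x => by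
    have h := Real.add_one_le_exp (W x / 2 - K)
    have e : Real.exp (W x / 2 - K) * F x = Real.exp (-K) * G x := by
      simp only [F, G, ← Real.exp_add]; ring_nf
    nlinarith [Real.exp_pos (-W x), e, mul_le_mul_of_nonneg_right h (Real.exp_nonneg (-W x))]
  have hK : Real.exp (-K) * (2 : ℝ) ^ d = 1 := by
    rw [Real.exp_neg, show K = Real.log ((2 : ℝ) ^ d) by rw [Real.log_pow],
      Real.exp_log (by positivity), inv_mul_cancel₀ (by positivity)]
  have hKd : K ≤ 7 / 10 * d := by
    have := Real.log_two_lt_d9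
    simp only [K]; nlinarith
  set c := √(3 * (d : ℝ))
  have hc : 0 < c := Real.sqrt_pos.2 (by positivity)
  have hc2 : c ^ 2 = 3 * d := Real.sq_sqrt (by positivity)
  have h1 : ∀ x : Space d, ‖x‖ * F x
      ≤ c⁻¹ * (2 * (K - 1) * F x + 2 * Real.exp (-K) * G x) + c / 2 * F x := fun x => by
    have e1 : ‖x‖ ≤ c⁻¹ * W x + c / 2 := by
      rw [← div_eq_inv_mul, div_add_div _ _ hc.ne' two_ne_zero, le_div_iff₀ (by positivity)]
      nlinarith [sq_nonneg (‖x‖ - c), hlow x]
    have e2 := mul_le_mul_of_nonneg_right e1 (Real.exp_nonneg (-W x))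
    have e3 := mul_le_mul_of_nonneg_left (key x) (inv_nonneg.2 hc.le)
    simp only [F] at e3 ⊢
    nlinarith
  calc ∫ x, ‖x‖ * F x
      ≤ ∫ x, (c⁻¹ * (2 * (K - 1) * F x + 2 * Real.exp (-K) * G x) + c / 2 * F x) :=
        integral_mono hiN ((((hiF.const_mul _).add (hiG.const_mul _)).const_mul _).add
          (hiF.const_mul _)) h1
    _ = c⁻¹ * (2 * (K - 1) * (∫ x, F x) + 2 * Real.exp (-K) * ∫ x, G x)
        + c / 2 * ∫ x, F x := by
        have hFG : Integrable fun x => 2 * (K - 1) * F x + 2 * Real.exp (-K) * G x :=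
          (hiF.const_mul _).add (hiG.const_mul _)
        rw [integral_add (hFG.const_mul c⁻¹) (hiF.const_mul _), integral_const_mul,
          integral_add (hiF.const_mul _) (hiG.const_mul _),
          integral_const_mul, integral_const_mul, integral_const_mul]
    _ ≤ c⁻¹ * (2 * K * ∫ x, F x) + c / 2 * ∫ x, F x := by
        refine add_le_add (mul_le_mul_of_nonneg_left ?_ (inv_nonneg.2 hc.le)) le_rfl
        have := mul_le_mul_of_nonneg_left hG (Real.exp_nonneg (-K))
        rw [← mul_assoc, hK, one_mul] at this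
        linarith
    _ ≤ c * ∫ x, F x := by
        have hI : 0 ≤ ∫ x, F x := integral_nonneg fun x => Real.exp_nonneg _
        have : c⁻¹ * (2 * K) ≤ c / 2 := by
          rw [inv_mul_le_iff₀ hc]; nlinarith
        nlinarith

/-- **The score at small variance.** -/
theorem score_sub_gradient (hV : InClass V) {r : ℝ} (hr : 0 < r) (z : Space d) :
    ‖score V r z + gradient V z‖ ≤ 4 * √(d * r) + 4 * r * ‖z‖ := by
  set W := postPot V r
  have hW := potential_postPot hV hr
  have hlp := lam_pos hr
  have hl := lam_sq hr.le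
  set x0 := (lam r)⁻¹ • z
  have hx0 : lam r • x0 = z := by simp [x0, smul_smul, mul_inv_cancel₀ hlp.ne']
  set v0 := gradient W x0
  set g := fun x : Space d => ‖lam r • x - z‖
  have hg : ∀ x x', |g x - g x'| ≤ lam r * ‖x - x'‖ := fun x x' => by
    refine (abs_norm_sub_norm_le _ _).trans (le_of_eq ?_)
    rw [sub_sub_sub_cancel_right, ← smul_sub, norm_smul, Real.norm_eq_abs, abs_of_pos hlp]
  have hmono : ∀ p q, ‖q‖ ^ 2 ≤ ⟪gradient W (p + q) - gradient W p, q⟫ := fun p q => by
    have h := hW.cross p q
    have h2 := abs_real_inner_le_norm (gradient W (p + q) - gradient W p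
      - (lam r ^ 2 * (3 / 2) + (1 + r)⁻¹) • q) q
    rw [inner_sub_left, real_inner_smul_left, real_inner_self_eq_norm_sq, abs_le] at h2
    nlinarith [postPot_gap hr, mul_le_mul_of_nonneg_right h (norm_nonneg q)]
  -- the mean distance when the tilt puts the mode at `x0`
  have h0 : ∫ x, g x ∂gibbs (tilt W v0) ≤ lam r * √(3 * d) := by
    set C := centred W x0
    have eC : ∀ u, Real.exp (-tilt W v0 (x0 + u))
        = Real.exp (-(W x0 - ⟪v0, x0⟫)) * Real.exp (-C u) := fun u => by
      rw [← Real.exp_add]
      congr 1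
      simp only [tilt, C, centred, v0, inner_add_right]; ring
    rw [hW.integral_tilt, integral_div]
    rw [← integral_add_left_eq_self (μ := (volume : Measure (Space d)))
      (fun u => g u * Real.exp (-tilt W v0 u)) x0,
      ← integral_add_left_eq_self (μ := (volume : Measure (Space d)))
      (fun u => Real.exp (-tilt W v0 u)) x0]
    have eg : ∀ u, g (x0 + u) = lam r * ‖u‖ := fun u => by
      simp [g, smul_add, hx0, norm_smul, abs_of_pos hlp]
    have e2 : ∀ u, lam r * ‖u‖ * (Real.exp (-(W x0 - ⟪v0, x0⟫)) * Real.exp (-C u))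
        = lam r * Real.exp (-(W x0 - ⟪v0, x0⟫)) * (‖u‖ * Real.exp (-C u)) := fun u => by ring
    simp only [eg, eC, e2, integral_const_mul]
    have hcd : Differentiable ℝ C := fun u => (centred_deriv hW.diff x0 u).differentiableAt
    have hmC : ∀ p q, ‖q‖ ^ 2 ≤ ⟪gradient C (p + q) - gradient C p, q⟫ := fun p q => by
      rw [gradient_centred hW.diff, gradient_centred hW.diff, sub_sub_sub_cancel_right,
        ← add_assoc]
      exact hmono _ _
    have hC0 : C 0 = 0 := by simp [C, centred]
    have hlow : ∀ u, ‖u‖ ^ 2 / 2 ≤ C u := fun u => by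
      set f := fun c : ℝ => C (c • u) - c ^ 2 * (‖u‖ ^ 2 / 2)
      have hf : ∀ c, HasDerivAt f (⟪gradient C (c • u), u⟫ - c * ‖u‖ ^ 2) c := fun c => by
        have g0 : HasDerivAt (fun c : ℝ => c • u) u c := by
          simpa using (hasDerivAt_id c).smul_const u
        rw [P347.inner_gradient]
        refine ((hcd (c • u)).hasFDerivAt.comp_hasDerivAt c g0).sub ?_
        refine ((hasDerivAt_pow 2 c).mul_const (‖u‖ ^ 2 / 2)).congr_deriv ?_
        simp; ring
      obtain ⟨c, hc, e⟩ := exists_hasDerivAt_eq_slope f _ one_pos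
        (fun c _ => (hf c).continuousAt.continuousWithinAt) fun c _ => hf c
      have := hmC 0 (c • u)
      rw [zero_add, real_inner_smul_right, norm_smul, mul_pow, Real.norm_eq_abs, sq_abs,
        gradient_centred hW.diff x0 0, add_zero, sub_self, sub_zero] at this
      simp only [f, one_smul, zero_smul, hC0] at e
      have hc' : c * ‖u‖ ^ 2 ≤ ⟪gradient C (c • u), u⟫ := by nlinarith [hc.1]
      nlinarith
    have hint : Integrable fun u => (1 + ‖u‖) * Real.exp (-C u) := by
      refine ((integrable_gauss (E := Space d) (a := 1 / 4) (by norm_num)).const_mul 3).mono'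
        ((continuous_const.add continuous_norm).mul hcd.continuous.neg.rexp).aestronglyMeasurable
        (Eventually.of_forall fun u => ?_)
      rw [norm_mul, Real.norm_eq_abs, Real.norm_eq_abs, Real.abs_exp,
        abs_of_nonneg (by positivity)]
      have h1 : Real.exp (-C u) ≤ Real.exp (-(1 / 4) * ‖u‖ ^ 2) / Real.exp (‖u‖ ^ 2 / 4) := by
        rw [← Real.exp_sub, Real.exp_le_exp]; linarith [hlow u]
      refine (mul_le_mul_of_nonneg_left h1 (by positivity)).trans ?_
      rw [mul_div_assoc', div_le_iff₀ (Real.exp_pos _)]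
      have h2 := Real.add_one_le_exp (‖u‖ ^ 2 / 4)
      nlinarith [sq_nonneg (‖u‖ - 2), Real.exp_pos (-(1 / 4) * ‖u‖ ^ 2)]
    have h := moment_le hcd hC0 (fun p q => (sq_nonneg _).trans (hmC p q)) hlow hint
    have hK := Real.exp_pos (-(W x0 - ⟪v0, x0⟫))
    have hI : 0 ≤ ∫ u, Real.exp (-C u) := integral_nonneg fun u => Real.exp_nonneg _
    refine div_le_of_le_mul₀ (mul_nonneg hK.le hI) (by positivity) ?_
    nlinarith [mul_le_mul_of_nonneg_left h (mul_nonneg hlp.le hK.le)]
  -- move to the posterior tilt
  have h1 : ∫ x, g x ∂gibbs (tilt W (postTilt r z)) ≤ lam r * √(3 * d) + r * (2 * ‖z‖) := by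
    have hs := (abs_le.1 (shift_lin hW (postTilt r z) v0 hlp.le hg)).2
    rw [postPot_gap hr, div_one] at hs
    have e : postTilt r z - v0 = -(lam r • gradient V z) := by
      simp only [v0, W, gradient_postPot hV, hx0, postTilt, x0, smul_smul]
      rw [show (1 + r)⁻¹ * (lam r)⁻¹ = lam r / r by
        field_simp; rw [hl]; field_simp]
      abel
    rw [e, norm_neg, norm_smul, Real.norm_eq_abs, abs_of_pos hlp, ← mul_assoc, ← sq] at hs
    have : lam r ^ 2 * ‖gradient V z‖ ≤ r * (2 * ‖z‖) :=
      mul_le_mul (by rw [hl]; exact div_le_self hr.le (by linarith)) (gradient_zero_le hV z)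
        (norm_nonneg _) hr.le
    linarith
  set w := score V r z + gradient V z
  have hprob := hW.tilt_prob (postTilt r z)
  have hgi : Integrable g (gibbs (tilt W (postTilt r z))) := by
    refine ((hW.integrable_gibbs (postTilt r z)).const_mul (lam r + ‖z‖)).mono'
      ((continuous_id.const_smul (lam r)).sub continuous_const).norm.aestronglyMeasurable
      (Eventually.of_forall fun x => ?_)
    simp only [g, norm_norm]
    refine (norm_sub_le _ _).trans ?_
    rw [norm_smul, Real.norm_eq_abs, abs_of_pos hlp]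
    nlinarith [norm_nonneg x, norm_nonneg z]
  have h2 : ⟪w, w⟫ ≤ 2 * ‖w‖ * ∫ x, g x ∂gibbs (tilt W (postTilt r z)) := by
    have hww : ⟪w, w⟫ = ⟪score V r z, w⟫ + ⟪gradient V z, w⟫ := inner_add_left _ _ _
    rw [hww]
    have hgb : ∀ x, ‖⟪gradient V z, w⟫ - ⟪gradient V (lam r • x), w⟫‖ ≤ 2 * ‖w‖ * g x := by
      intro x
      rw [← inner_sub_left, Real.norm_eq_abs]
      refine (abs_real_inner_le_norm _ _).trans ?_
      rw [norm_sub_rev]
      have := hV.model.lip z (lam r • x - z)
      rw [add_sub_cancel] at this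
      simp only [g]
      nlinarith [norm_nonneg w]
    have hi : Integrable (fun x => ⟪gradient V z, w⟫ - ⟪gradient V (lam r • x), w⟫)
        (gibbs (tilt W (postTilt r z))) :=
      (hgi.const_mul (2 * ‖w‖)).mono' (continuous_const.sub (((contDiff_gradient
        hV.smooth).continuous.comp (continuous_const_smul _)).inner
          continuous_const)).aestronglyMeasurable (Eventually.of_forall hgb)
    have hi' : Integrable (fun x => ⟪gradient V (lam r • x), w⟫)
        (gibbs (tilt W (postTilt r z))) := by
      refine ((integrable_const ⟪gradient V z, w⟫).sub hi).congr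
        (Eventually.of_forall fun x => ?_)
      simp only [Pi.sub_apply]
      ring
    rw [inner_score hV hr, neg_add_eq_sub]
    calc ⟪gradient V z, w⟫ - ∫ x, ⟪gradient V (lam r • x), w⟫ ∂gibbs (tilt W (postTilt r z))
        = ∫ x, (⟪gradient V z, w⟫ - ⟪gradient V (lam r • x), w⟫)
            ∂gibbs (tilt W (postTilt r z)) := by
          rw [integral_sub (integrable_const _) hi']; simp
      _ ≤ _ := by
          rw [← integral_const_mul]
          exact integral_mono hi (hgi.const_mul _) fun x => (le_abs_self _).trans (hgb x)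
  rw [real_inner_self_eq_norm_sq] at h2
  have h3 : lam r * √(3 * d) ≤ 2 * √(d * r) := by
    rw [show 2 * √((d : ℝ) * r) = √(4 * (d * r)) by
      rw [Real.sqrt_mul (by norm_num : (0 : ℝ) ≤ 4), show √(4 : ℝ) = 2 by
        rw [show (4 : ℝ) = 2 ^ 2 by norm_num, Real.sqrt_sq (by norm_num)]]]
    rw [lam, ← Real.sqrt_mul (by positivity)]
    refine Real.sqrt_le_sqrt ?_
    have : r / (1 + r) ≤ r := div_le_self hr.le (by linarith)
    nlinarith [(d.cast_nonneg : (0 : ℝ) ≤ d)]
  rcases (norm_nonneg w).eq_or_lt with hw | hw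
  · rw [← hw]; positivity
  · refine le_of_mul_le_mul_left ?_ hw
    nlinarith

theorem score_zero_point (hV : InClass V) {r : ℝ} (hr : 0 < r) :
    ‖score V r 0‖ ≤ 4 * √(d * r) := by
  simpa [hV.grad0] using score_sub_gradient hV hr 0

theorem norm_score_le (hV : InClass V) {r : ℝ} (hr : 0 ≤ r) (z : Space d) :
    ‖score V r z‖ ≤ 4 * √(d * r) + 2 * ‖z‖ := by
  have h0 : ‖score V r 0‖ ≤ 4 * √(d * r) := by
    rcases hr.eq_or_lt with h | h
    · subst h; simp [score_zero hV, hV.grad0]
    · exact score_zero_point hV h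
  have h := (lipschitz_score hV hr).dist_le_mul z 0
  rw [dist_eq_norm, dist_zero_right, NNReal.coe_ofNat] at h
  linarith [norm_sub_norm_le (score V r z) (score V r 0)]

/-- Module 1, first part. -/
theorem score_spec : ScoreSpec := fun _ _ hV =>
  ⟨fun r y => smooth_pos' hV r y, fun _ => lipschitz_score hV,
    fun _ hr _ => score_zero_point hV hr, (continuous_score hV).continuousOn,
    contDiffOn_score hV⟩

end

end P347.Zero
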