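import Vale.Agent.P347.Zero.Specs

/-!
# P347: calls of valid oracles at blurred ideal centres

The ideal is a random element `r` of law `μ`. A layer of calls has centres which are functions of
the ideal, blurs which are Gaussians independent of the ideal and of each other, and arguments
which are close to centre plus blur. The outputs are then close to scores plus Gaussians which are
again independent of the ideal and of each other.
-/

namespace P347.Zero

open MeasureTheory ProbabilityTheory
open scoped RealInnerProductSpace ENNReal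

noncomputable section

variable {d : ℕ}

/-- The square of the `L²` norm. -/
theorem eLpNorm_two_sq {α : Type} [MeasurableSpace α] (μ : Measure α) (f : α → Space d) :
    eLpNorm f 2 μ ^ 2 = ∫⁻ x, ENNReal.ofReal (‖f x‖ ^ 2) ∂μ := by
  rw [eLpNorm_eq_lintegral_rpow_enorm_toReal two_ne_zero ENNReal.ofNat_ne_top,
    ← ENNReal.rpow_natCast, ← ENNReal.rpow_mul]
  norm_num

/-- The ideal and the blurs of a layer. -/
abbrev blurLaw {R : Type} [MeasurableSpace R] (μ : Measure R) (d : ℕ) (ι : Type) [Fintype ι] :
    Measure (R × (ι → Space d)) :=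
  μ.prod (Measure.pi fun _ : ι => stdGaussian (Space d))

variable {ι R Ω₀ : Type} [Fintype ι] [MeasurableSpace R] [MeasurableSpace Ω₀]
variable {Ωs : ι → Type} [∀ i, MeasurableSpace (Ωs i)]

theorem measurePreserving_single {μ : Measure R} [IsProbabilityMeasure μ] {P₀ : Measure Ω₀}
    [IsProbabilityMeasure P₀] {r : Ω₀ → R} {N : Ω₀ → ι → Space d}
    (hN : MeasurePreserving (fun w => (r w, N w)) P₀ (blurLaw μ d ι))
    (P : ∀ i, Measure (Ωs i)) [∀ i, IsProbabilityMeasure (P i)] (i : ι) :
    MeasurePreserving (fun w : Ω₀ × (∀ i, Ωs i) => (r w.1, (N w.1 i, w.2 i)))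
      (P₀.prod (Measure.pi P)) (μ.prod ((stdGaussian (Space d)).prod (P i))) := by
  have h1 : MeasurePreserving (fun w : Ω₀ × (∀ i, Ωs i) => ((r w.1, N w.1 i), w.2 i))
      (P₀.prod (Measure.pi P)) ((μ.prod (stdGaussian (Space d))).prod (P i)) :=
    (((MeasurePreserving.id μ).prod (measurePreserving_eval
      (fun _ : ι => stdGaussian (Space d)) i)).comp hN).prod (measurePreserving_eval P i)
  exact (measurePreserving_prodAssoc μ (stdGaussian (Space d)) (P i)).comp h1

/-- A layer of calls. -/
theorem Valid.layer {μ : Measure R} [IsProbabilityMeasure μ] {P₀ : Measure Ω₀}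
    [IsProbabilityMeasure P₀] {V : Space d → ℝ} (hV : Quarter.InClass V)
    {P : ∀ i, Measure (Ωs i)} [∀ i, IsProbabilityMeasure (P i)]
    {A : ∀ i, Alg d (Ωs i × Space d) (Space d)} (hA : ∀ i, (A i).Meas)
    {rad τ ρ δ L : ι → ℝ} (hδ : ∀ i, 0 ≤ δ i)
    (h : ∀ i, Valid (P i) (A i) V (rad i) (τ i) (ρ i) (δ i) (L i))
    (hs : ∀ i, Measurable (score V (rad i)))
    {r : Ω₀ → R} {N : Ω₀ → ι → Space d}
    (hN : MeasurePreserving (fun w => (r w, N w)) P₀ (blurLaw μ d ι))
    {c : ι → R → Space d} (hc : ∀ i, Measurable (c i))
    {Y : Ω₀ → ι → Space d} (hY : Measurable Y) :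
    ∃ Z : Ω₀ × (∀ i, Ωs i) → ι → Space d,
      MeasurePreserving (fun w => (r w.1, Z w)) (P₀.prod (Measure.pi P)) (blurLaw μ d ι) ∧
      ∀ i, eLpNorm (fun w : Ω₀ × (∀ i, Ωs i) => (A i).eval (oracle V) (w.2 i, Y w.1 i)
          - (score V (rad i) (c i (r w.1)) + ρ i • Z w i)) 2 (P₀.prod (Measure.pi P))
        ≤ ENNReal.ofReal (δ i) * (ENNReal.ofReal √d + eLpNorm (c i) 2 μ)
          + ENNReal.ofReal (L i)
            * eLpNorm (fun w => Y w i - (c i (r w) + τ i • N w i)) 2 P₀ := by
  choose Z0 hZm hZlaw hZerr using fun i => (h i).law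
  let Φ : R → (ι → Space d) × (∀ i, Ωs i) → ι → Space d :=
    fun x z i => Z0 i (c i x) (z.1 i, z.2 i)
  have hrm : Measurable r := measurable_fst.comp hN.measurable
  have hNm : Measurable N := measurable_snd.comp hN.measurable
  refine ⟨fun w => Φ (r w.1) (N w.1, w.2), ?_, fun i => ?_⟩
  · have hprod : MeasurePreserving (fun w : Ω₀ × (∀ i, Ωs i) => ((r w.1, N w.1), w.2))
        (P₀.prod (Measure.pi P)) ((blurLaw μ d ι).prod (Measure.pi P)) :=
      hN.prod (MeasurePreserving.id _)
    have hass : MeasurePreserving (fun z : (R × (ι → Space d)) × (∀ i, Ωs i) =>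
        (z.1.1, (z.1.2, z.2))) ((blurLaw μ d ι).prod (Measure.pi P))
        (μ.prod ((Measure.pi fun _ : ι => stdGaussian (Space d)).prod (Measure.pi P))) :=
      measurePreserving_prodAssoc _ _ _
    have hΦm : Measurable (Function.uncurry Φ) :=
      measurable_pi_lambda _ fun i => (hZm i).comp
        (((hc i).comp measurable_fst).prodMk
          (((measurable_pi_apply i).comp (measurable_fst.comp measurable_snd)).prodMk
            ((measurable_pi_apply i).comp (measurable_snd.comp measurable_snd))))
    have hΦ : ∀ x, MeasurePreserving (Φ x)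
        ((Measure.pi fun _ : ι => stdGaussian (Space d)).prod (Measure.pi P))
        (Measure.pi fun _ : ι => stdGaussian (Space d)) := by
      intro x
      have h1 : MeasurePreserving (fun (z : ∀ i, Space d × Ωs i) i => Z0 i (c i x) (z i))
          (Measure.pi fun i => (stdGaussian (Space d)).prod (P i))
          (Measure.pi fun _ : ι => stdGaussian (Space d)) :=
        measurePreserving_pi _ _ fun i =>
          ⟨(hZm i).comp (measurable_const.prodMk measurable_id), hZlaw i (c i x)⟩
      have h2 : MeasurePreserving
          (fun (z : (ι → Space d) × (∀ i, Ωs i)) (i : ι) => (z.1 i, z.2 i))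
          ((Measure.pi fun _ : ι => stdGaussian (Space d)).prod (Measure.pi P))
          (Measure.pi fun i => (stdGaussian (Space d)).prod (P i)) := by
        have hm : Measurable
            (fun (z : (ι → Space d) × (∀ i, Ωs i)) (i : ι) => (z.1 i, z.2 i)) :=
          measurable_pi_lambda _ fun i => ((measurable_pi_apply i).comp measurable_fst).prodMk
            ((measurable_pi_apply i).comp measurable_snd)
        refine ⟨hm, (Measure.pi_eq_generateFrom (fun i => generateFrom_prod)
          (fun i => isPiSystem_prod) (fun i => ?_) fun s hs => ?_).symm⟩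
        · exact
            { set := fun _ => Set.univ
              set_mem := fun _ => ⟨Set.univ, by simp, Set.univ, by simp, Set.univ_prod_univ⟩
              finite := fun _ => measure_lt_top _ _
              spanning := Set.iUnion_const _ }
        · choose a ha b hb hab using hs
          have hrect : Set.univ.pi s = Set.univ.pi fun i => a i ×ˢ b i :=
            congrArg _ (funext fun i => (hab i).symm)
          have hms : MeasurableSet (Set.univ.pi fun i => a i ×ˢ b i) :=
            MeasurableSet.univ_pi fun i =>
              MeasurableSet.prod (show MeasurableSet (a i) from ha i)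
                (show MeasurableSet (b i) from hb i)
          rw [Measure.map_apply hm (hrect ▸ hms),
            hrect, show (fun (z : (ι → Space d) × (∀ i, Ωs i)) (i : ι) => (z.1 i, z.2 i)) ⁻¹'
              Set.univ.pi (fun i => a i ×ˢ b i) = Set.univ.pi a ×ˢ Set.univ.pi b from
              Set.ext fun z => by simp [forall_and],
            Measure.prod_prod, Measure.pi_pi, Measure.pi_pi, ← Finset.prod_mul_distrib]
          exact Finset.prod_congr rfl fun i _ => by rw [← hab i, Measure.prod_prod]
      exact h1.comp h2
    exact ((MeasurePreserving.id μ).skew_product (g := Φ) hΦm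
      (Filter.Eventually.of_forall fun x => (hΦ x).map_eq)).comp (hass.comp hprod)
  · set Q := P₀.prod (Measure.pi P)
    have hO := Quarter.measurable_oracle hV.smooth
    have hev : Measurable fun z : Ωs i × Space d => (A i).eval (oracle V) z :=
      (hA i).eval (O := fun _ => oracle V) (hO.comp measurable_snd) measurable_id
    let G : R × (Space d × Ωs i) → Space d := fun z =>
      (A i).eval (oracle V) (z.2.2, c i z.1 + τ i • z.2.1)
        - (score V (rad i) (c i z.1) + ρ i • Z0 i (c i z.1) z.2)
    have hGm : Measurable G := by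
      refine Measurable.sub (hev.comp ((measurable_snd.comp measurable_snd).prodMk
        (((hc i).comp measurable_fst).add ((measurable_fst.comp measurable_snd).const_smul (τ i))))) ?_
      exact ((hs i).comp ((hc i).comp measurable_fst)).add
        (((hZm i).comp (((hc i).comp measurable_fst).prodMk measurable_snd)).const_smul (ρ i))
    have hπ := measurePreserving_single hN P i
    have hG : eLpNorm G 2 (μ.prod ((stdGaussian (Space d)).prod (P i)))
        ≤ ENNReal.ofReal (δ i) * (ENNReal.ofReal √d + eLpNorm (c i) 2 μ) := by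
      have key : eLpNorm G 2 (μ.prod ((stdGaussian (Space d)).prod (P i)))
          ≤ eLpNorm (fun x => δ i * (√d + ‖c i x‖)) 2 μ := by
        rw [eLpNorm_eq_lintegral_rpow_enorm_toReal two_ne_zero ENNReal.ofNat_ne_top,
          eLpNorm_eq_lintegral_rpow_enorm_toReal two_ne_zero ENNReal.ofNat_ne_top]
        refine ENNReal.rpow_le_rpow ?_ (by norm_num)
        simp only [ENNReal.toReal_ofNat, ENNReal.rpow_two]
        rw [lintegral_prod _ (hGm.enorm.pow_const 2).aemeasurable]
        refine lintegral_mono fun x => ?_
        have hGx : Measurable fun y => G (x, y) :=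
          hGm.comp (measurable_const.prodMk measurable_id)
        rw [lintegral_prod (fun y => ‖G (x, y)‖ₑ ^ 2) (hGx.enorm.pow_const 2).aemeasurable]
        have hx : 0 ≤ δ i * (√d + ‖c i x‖) := by have := hδ i; positivity
        rw [Real.enorm_eq_ofReal hx, ← ENNReal.ofReal_pow hx]
        refine le_trans (le_of_eq (lintegral_congr fun n => lintegral_congr fun ω => ?_))
          (hZerr i (c i x))
        rw [← ofReal_norm, ← ENNReal.ofReal_pow (norm_nonneg _)]
      refine key.trans ?_
      have e : (fun x => δ i * (√d + ‖c i x‖)) = δ i • fun x => √d + ‖c i x‖ := by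
        funext x; simp
      rw [e, eLpNorm_const_smul, Real.enorm_eq_ofReal (hδ i)]
      refine mul_le_mul_right ?_ _
      refine (eLpNorm_add_le aestronglyMeasurable_const
        (hc i).norm.aestronglyMeasurable one_le_two).trans ?_
      rw [eLpNorm_norm (c i) (p := 2), eLpNorm_const _ two_ne_zero (NeZero.ne μ)]
      simp [Real.enorm_eq_ofReal (Real.sqrt_nonneg _)]
    let Bd : Ω₀ → Space d := fun w => Y w i - (c i (r w) + τ i • N w i)
    have hBd : Measurable Bd := ((measurable_pi_apply i).comp hY).sub
      (((hc i).comp hrm).add (((measurable_pi_apply i).comp hNm).const_smul (τ i)))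
    let F : Ω₀ × (∀ i, Ωs i) → Space d := fun w => (A i).eval (oracle V) (w.2 i, Y w.1 i)
      - (A i).eval (oracle V) (w.2 i, c i (r w.1) + τ i • N w.1 i)
    have hFm : Measurable F := (hev.comp (((measurable_pi_apply i).comp measurable_snd).prodMk
      (((measurable_pi_apply i).comp hY).comp measurable_fst))).sub
      (hev.comp (((measurable_pi_apply i).comp measurable_snd).prodMk
      ((((hc i).comp hrm).add (((measurable_pi_apply i).comp hNm).const_smul (τ i))).comp
        measurable_fst)))
    have hF : eLpNorm F 2 Q ≤ ENNReal.ofReal (L i) * eLpNorm Bd 2 P₀ := by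
      rw [← eLpNorm_comp_measurePreserving (f := fun w : Ω₀ × (∀ i, Ωs i) => w.1)
        hBd.aestronglyMeasurable (measurePreserving_fst (μ := P₀) (ν := Measure.pi P))]
      refine (eLpNorm_le_mul_eLpNorm_of_ae_le_mul (g := Bd ∘ fun w : Ω₀ × (∀ i, Ωs i) => w.1)
        (c := L i) (Filter.Eventually.of_forall fun w => ?_) 2).trans le_rfl
      exact (h i).lip _ _ _
    have e : (fun w : Ω₀ × (∀ i, Ωs i) => (A i).eval (oracle V) (w.2 i, Y w.1 i)
        - (score V (rad i) (c i (r w.1)) + ρ i • Φ (r w.1) (N w.1, w.2) i))
        = F + G ∘ fun w => (r w.1, (N w.1 i, w.2 i)) := by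
      funext w; simp [F, G, Φ]
    rw [e, add_comm (ENNReal.ofReal (δ i) * _)]
    refine (eLpNorm_add_le hFm.aestronglyMeasurable
      (hGm.comp hπ.measurable).aestronglyMeasurable one_le_two).trans (add_le_add hF ?_)
    rw [eLpNorm_comp_measurePreserving hGm.aestronglyMeasurable hπ]
    exact hG

end

end P347.Zero
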