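import Vale.Agent.P347.Zero.Quad

/-!
# P347: quadrature on grids and Picard iteration, in mean square

A grid of cells carries the nodes of the rules of `Quad`; the weights give the integral from the
start of the grid to every node and to the end. An integral equation read at the nodes is solved by
iteration, and every error is measured in mean square over a parameter.
-/

namespace P347.Zero

open MeasureTheory Set Polynomial
open scoped ENNReal

noncomputable section

variable {F : Type} [NormedAddCommGroup F] [NormedSpace ℝ F]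

/-- The integral from `0` to `c`. -/
def intTo (c : ℝ) : ℝ[X] →ₗ[ℝ] ℝ where
  toFun p := ∫ s in (0 : ℝ)..c, p.eval s
  map_add' p q := by
    simp only [eval_add]
    exact intervalIntegral.integral_add (p.continuous.intervalIntegrable 0 c)
      (q.continuous.intervalIntegrable 0 c)
  map_smul' a p := by
    simp only [eval_smul, smul_eq_mul, RingHom.id_apply]
    exact intervalIntegral.integral_const_mul a _

lemma intTo_X_pow (c : ℝ) (k : ℕ) : intTo c (X ^ k : ℝ[X]) = c ^ (k + 1) / ((k : ℝ) + 1) := by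
  show ∫ s in (0 : ℝ)..c, ((X : ℝ[X]) ^ k).eval s = _
  simp [integral_pow]

lemma IsJet.mono {D : ℕ → ℝ → F} {n : ℕ} {a b a' b' : ℝ} (h : IsJet D n a b) (ha : a ≤ a')
    (hb : b' ≤ b) : IsJet D n a' b' :=
  ⟨fun k hk x hx => (h.deriv k hk x (Icc_subset_Icc ha hb hx)).mono (Icc_subset_Icc ha hb),
    h.cont.mono (Icc_subset_Icc ha hb)⟩

lemma ruleSize_nonneg (M : ℕ) (φ : ℝ[X] →ₗ[ℝ] ℝ) : 0 ≤ ruleSize M φ :=
  Finset.sum_nonneg fun _ _ => abs_nonneg _

/-- A bound for the sizes of all rules used on a cell. -/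
def toSize (M : ℕ) : ℝ := 1 + ruleSize M intFun + ∑ i, ruleSize M (intTo (node M i))

lemma ruleSize_le_toSize (M : ℕ) : 1 + ruleSize M intFun ≤ toSize M :=
  le_add_of_nonneg_right (Finset.sum_nonneg fun _ _ => ruleSize_nonneg _ _)

lemma ruleSize_intTo_le (M : ℕ) (i : Fin M) : 1 + ruleSize M (intTo (node M i)) ≤ toSize M := by
  have h := Finset.single_le_sum (fun j (_ : j ∈ Finset.univ) =>
    ruleSize_nonneg M (intTo (node M j))) (Finset.mem_univ i)
  have := ruleSize_nonneg M intFun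
  unfold toSize
  linarith

lemma one_le_toSize (M : ℕ) : 1 ≤ toSize M :=
  le_trans (le_add_of_nonneg_right (ruleSize_nonneg M intFun)) (ruleSize_le_toSize M)

variable [CompleteSpace F]

/-- Quadrature on a part of a cell from the nodes of the whole cell. -/
theorem cell_quadrature_to {a b c : ℝ} (hab : a ≤ b) (hc : c ∈ Icc (0 : ℝ) 1) (n : ℕ)
    (D : ℕ → ℝ → F) (hD : IsJet D (n + 1) a b) :
    ‖(∫ s in a..a + (b - a) * c, D 0 s) -
        (b - a) • ∑ i, ruleWeight (n + 1) (intTo c) i • D 0 (a + (b - a) * node (n + 1) i)‖ ≤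
      (1 + ruleSize (n + 1) (intTo c)) * (b - a) ^ (n + 1) * ∫ s in a..b, ‖D (n + 1) s‖ := by
  set I := ∫ s in a..b, ‖D (n + 1) s‖
  have hh : 0 ≤ b - a := sub_nonneg.2 hab
  have hI : 0 ≤ I := intervalIntegral.integral_nonneg hab fun _ _ => norm_nonneg _
  have hac : a ≤ a + (b - a) * c := by nlinarith [hc.1]
  have hcb : a + (b - a) * c ≤ b := by nlinarith [hc.2]
  have hJ : Continuous (jetEval D (n + 1) a) := by unfold jetEval; fun_prop
  have hT := norm_sub_jetEval_le hab n D hD
  have eJ : ∫ s in a..a + (b - a) * c, jetEval D (n + 1) a s = (b - a) •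
      ∑ k ∈ Finset.range (n + 1),
        ((b - a) ^ k / (k.factorial : ℝ) * intTo c (X ^ k)) • D k a := by
    rw [integral_jetEval, Finset.smul_sum, Finset.smul_sum]
    refine Finset.sum_congr rfl fun k _ => ?_
    rw [add_sub_cancel_left, smul_smul, smul_smul, intTo_X_pow, intFun_X_pow, mul_pow, pow_succ]
    congr 1
    ring
  have e : (∫ s in a..a + (b - a) * c, D 0 s) -
      (b - a) • ∑ i, ruleWeight (n + 1) (intTo c) i • D 0 (a + (b - a) * node (n + 1) i) =
      (∫ s in a..a + (b - a) * c, (D 0 s - jetEval D (n + 1) a s)) -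
      (b - a) • ∑ i, ruleWeight (n + 1) (intTo c) i •
        (D 0 (a + (b - a) * node (n + 1) i) -
          jetEval D (n + 1) a (a + (b - a) * node (n + 1) i)) := by
    simp only [smul_sub, Finset.sum_sub_distrib, rule_jetEval]
    rw [intervalIntegral.integral_sub
      (((hD.continuousOn (by omega)).mono (Icc_subset_Icc_right hcb)).intervalIntegrable_of_Icc hac)
      (hJ.intervalIntegrable _ _), eJ]
    abel
  rw [e]
  refine (norm_sub_le _ _).trans ?_
  have h1 : ‖∫ s in a..a + (b - a) * c, (D 0 s - jetEval D (n + 1) a s)‖ ≤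
      (b - a) ^ n * I * (b - a) := by
    refine (intervalIntegral.norm_integral_le_of_norm_le_const (C := (b - a) ^ n * I)
      fun s hs => ?_).trans ?_
    · rw [uIoc_of_le hac] at hs
      exact hT s ⟨hs.1.le, hs.2.trans hcb⟩
    · rw [add_sub_cancel_left, abs_of_nonneg (mul_nonneg hh hc.1)]
      exact mul_le_mul_of_nonneg_left (mul_le_of_le_one_right hh hc.2)
        (mul_nonneg (pow_nonneg hh n) hI)
  have h2 := norm_rule_le (intTo c)
    (fun i => D 0 (a + (b - a) * node (n + 1) i) -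
      jetEval D (n + 1) a (a + (b - a) * node (n + 1) i))
    fun i => hT _ (mem_cell hab i)
  rw [norm_smul, Real.norm_eq_abs, abs_of_nonneg hh]
  calc _ ≤ (b - a) ^ n * I * (b - a) + (b - a) * (ruleSize (n + 1) (intTo c) * ((b - a) ^ n * I)) :=
        add_le_add h1 (mul_le_mul_of_nonneg_left h2 hh)
    _ = (1 + ruleSize (n + 1) (intTo c)) * (b - a) ^ (n + 1) * I := by ring

/-! ## Grids -/

variable {J M : ℕ}

/-- The node `i` of cell `j` of the grid `g`. -/
def gridNode (g : ℕ → ℝ) (p : Fin J × Fin M) : ℝ :=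
  g p.1 + (g (p.1 + 1) - g p.1) * node M p.2

/-- The weights of the integral from the start of the grid to a node. -/
def gridWeight (g : ℕ → ℝ) (p q : Fin J × Fin M) : ℝ :=
  if q.1 < p.1 then (g (q.1 + 1) - g q.1) * ruleWeight M intFun q.2
  else if q.1 = p.1 then (g (q.1 + 1) - g q.1) * ruleWeight M (intTo (node M p.2)) q.2
  else 0

/-- The weights of the integral over the whole grid. -/
def gridFull (g : ℕ → ℝ) (q : Fin J × Fin M) : ℝ :=
  (g (q.1 + 1) - g q.1) * ruleWeight M intFun q.2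

variable {g : ℕ → ℝ}

lemma gridNode_mem_cell (hg : Monotone g) (p : Fin J × Fin M) :
    gridNode g p ∈ Icc (g p.1) (g (p.1 + 1)) :=
  mem_cell (hg (Nat.le_succ _)) p.2

lemma gridNode_mem (hg : Monotone g) (p : Fin J × Fin M) :
    gridNode g p ∈ Icc (g 0) (g J) :=
  ⟨(hg (Nat.zero_le _)).trans (gridNode_mem_cell hg p).1,
    (gridNode_mem_cell hg p).2.trans (hg p.1.isLt)⟩

lemma sum_cells (g : ℕ → ℝ) (J : ℕ) :
    ∑ j : Fin J, (g ((j : ℕ) + 1) - g j) = g J - g 0 := by
  rw [Fin.sum_univ_eq_sum_range (fun j => g (j + 1) - g j) J, Finset.sum_range_sub]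

lemma sum_abs_gridFull_le (hg : Monotone g) :
    ∑ q : Fin J × Fin M, |gridFull g q| ≤ toSize M * (g J - g 0) := by
  have hh : ∀ j : Fin J, 0 ≤ g ((j : ℕ) + 1) - g j := fun j => sub_nonneg.2 (hg (Nat.le_succ _))
  rw [Fintype.sum_prod_type, ← sum_cells g J, Finset.mul_sum]
  refine Finset.sum_le_sum fun j _ => ?_
  simp only [gridFull, abs_mul, abs_of_nonneg (hh j), ← Finset.mul_sum]
  rw [mul_comm (toSize M)]
  refine mul_le_mul_of_nonneg_left ?_ (hh j)
  have h := ruleSize_le_toSize M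
  unfold ruleSize at h
  linarith

lemma sum_abs_gridWeight_le (hg : Monotone g) (p : Fin J × Fin M) :
    ∑ q, |gridWeight g p q| ≤ toSize M * (g J - g 0) := by
  have hh : ∀ j : Fin J, 0 ≤ g ((j : ℕ) + 1) - g j := fun j => sub_nonneg.2 (hg (Nat.le_succ _))
  rw [Fintype.sum_prod_type, ← sum_cells g J, Finset.mul_sum]
  refine Finset.sum_le_sum fun j _ => ?_
  rcases lt_trichotomy j p.1 with hj | hj | hj
  · simp only [gridWeight, if_pos hj, abs_mul, abs_of_nonneg (hh j), ← Finset.mul_sum]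
    rw [mul_comm (toSize M)]
    refine mul_le_mul_of_nonneg_left ?_ (hh j)
    have h := ruleSize_le_toSize M
    unfold ruleSize at h
    linarith
  · subst hj
    simp only [gridWeight, lt_irrefl, if_false, if_true, abs_mul, abs_of_nonneg (hh p.1),
      ← Finset.mul_sum]
    rw [mul_comm (toSize M)]
    refine mul_le_mul_of_nonneg_left ?_ (hh p.1)
    have h := ruleSize_intTo_le M p.2
    unfold ruleSize at h
    linarith
  · simp only [gridWeight, if_neg hj.asymm, if_neg hj.ne', abs_zero, Finset.sum_const_zero]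
    exact mul_nonneg (le_trans zero_le_one (one_le_toSize M)) (hh j)

/-- Quadrature from the start of the grid to a node. -/
theorem grid_quadrature (hg : Monotone g) {n : ℕ} (D : ℕ → ℝ → F)
    (hD : IsJet D (n + 1) (g 0) (g J)) (p : Fin J × Fin (n + 1)) :
    ‖(∫ s in g 0..gridNode g p, D 0 s) - ∑ q, gridWeight g p q • D 0 (gridNode g q)‖ ≤
      toSize (n + 1) * ∑ j : Fin J, (g ((j : ℕ) + 1) - g j) ^ (n + 1) *
        ∫ s in g j..g ((j : ℕ) + 1), ‖D (n + 1) s‖ := by
  have hcell : ∀ j : Fin J, IsJet D (n + 1) (g j) (g ((j : ℕ) + 1)) := fun j =>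
    hD.mono (hg (Nat.zero_le _)) (hg j.isLt)
  set up : ℕ → ℝ := fun k => if k ≤ p.1 then g k else gridNode g p with hup
  have hi : ∀ k < (p.1 : ℕ) + 1, IntervalIntegrable (D 0) volume (up k) (up (k + 1)) := by
    intro k hk
    have hkp : k ≤ p.1 := by omega
    have hkJ : k < J := lt_of_le_of_lt hkp p.1.isLt
    have hm := gridNode_mem_cell hg p
    refine ((hD.continuousOn (Nat.zero_le _)).mono fun x hx => ?_).intervalIntegrable
    have h1 : up k ∈ Icc (g 0) (g J) := by
      simp only [hup, if_pos hkp]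
      exact ⟨hg (Nat.zero_le _), hg hkJ.le⟩
    have h2 : up (k + 1) ∈ Icc (g 0) (g J) := by
      simp only [hup]
      split_ifs
      · exact ⟨hg (Nat.zero_le _), hg hkJ⟩
      · exact gridNode_mem hg p
    exact uIcc_subset_Icc h1 h2 hx
  have hsplit := intervalIntegral.sum_integral_adjacent_intervals hi
  simp only [hup, Nat.zero_le, if_true, show ¬ ((p.1 : ℕ) + 1 ≤ p.1) by omega, if_false] at hsplit
  rw [← hsplit, Finset.sum_range, Finset.mul_sum]
  have e : ∑ q, gridWeight g p q • D 0 (gridNode g q) =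
      ∑ j : Fin J, ∑ i, gridWeight g p (j, i) • D 0 (gridNode g (j, i)) :=
    Fintype.sum_prod_type _
  rw [e]
  set A : Fin J → F := fun j =>
    if (j : ℕ) < p.1 then ∫ s in g j..g ((j : ℕ) + 1), D 0 s
    else if j = p.1 then ∫ s in g j..gridNode g p, D 0 s else 0
  have eA : ∑ k : Fin ((p.1 : ℕ) + 1), (∫ s in (if (k : ℕ) ≤ p.1 then g k else gridNode g p)..
      (if (k : ℕ) + 1 ≤ p.1 then g ((k : ℕ) + 1) else gridNode g p), D 0 s) = ∑ j, A j := by
    set a : ℕ → F := fun j => if j < p.1 then ∫ s in g j..g (j + 1), D 0 s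
      else if j = p.1 then ∫ s in g j..gridNode g p, D 0 s else 0 with ha
    have eR : ∑ j, A j = ∑ j : Fin J, a j := Finset.sum_congr rfl fun j _ => by
      simp only [A, ha, Fin.val_inj]
    rw [eR, Fin.sum_univ_eq_sum_range a J,
      ← Finset.sum_subset (Finset.range_mono p.1.isLt : Finset.range ((p.1 : ℕ) + 1) ⊆ _)
        (fun j _ hj => by
          simp only [Finset.mem_range, not_lt] at hj
          simp only [ha, if_neg (show ¬ j < (p.1 : ℕ) by omega),
            if_neg (show ¬ j = (p.1 : ℕ) by omega)]),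
      Finset.sum_range]
    refine Finset.sum_congr rfl fun k _ => ?_
    have hk := k.isLt
    rcases Nat.lt_or_ge (k : ℕ) p.1 with h | h
    · simp only [ha, if_pos h, if_pos h.le, if_pos (show (k : ℕ) + 1 ≤ p.1 by omega)]
    · have hkp : (k : ℕ) = p.1 := by omega
      simp only [ha, hkp, le_refl, lt_irrefl, if_true, if_false,
        show ¬ ((p.1 : ℕ) + 1 ≤ p.1) by omega]
  rw [eA, ← Finset.sum_sub_distrib]
  refine (norm_sum_le _ _).trans (Finset.sum_le_sum fun j _ => ?_)
  have hh : g j ≤ g ((j : ℕ) + 1) := hg (Nat.le_succ _)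
  have hI : 0 ≤ (g ((j : ℕ) + 1) - g j) ^ (n + 1) *
      ∫ s in g j..g ((j : ℕ) + 1), ‖D (n + 1) s‖ :=
    mul_nonneg (pow_nonneg (sub_nonneg.2 hh) _)
      (intervalIntegral.integral_nonneg hh fun _ _ => norm_nonneg _)
  rcases lt_trichotomy j p.1 with hj | hj | hj
  · simp only [A, if_pos (Fin.lt_def.1 hj), gridWeight, if_pos hj, gridNode, mul_smul,
      ← Finset.smul_sum]
    refine (cell_quadrature hh n D (hcell j)).trans ?_
    rw [mul_assoc]
    exact mul_le_mul_of_nonneg_right (ruleSize_le_toSize _) hI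
  · subst hj
    simp only [A, lt_irrefl, if_false, if_true, gridWeight, mul_smul, ← Finset.smul_sum]
    simp only [gridNode]
    refine (cell_quadrature_to hh (Ioc_subset_Icc_self (node_mem _ _)) n D (hcell p.1)).trans ?_
    rw [mul_assoc]
    exact mul_le_mul_of_nonneg_right (ruleSize_intTo_le _ _) hI
  · simp only [A, if_neg (fun h => hj.asymm (Fin.lt_def.2 h)), if_neg hj.ne', gridWeight,
      if_neg hj.asymm, zero_smul, Finset.sum_const_zero, sub_zero, norm_zero]
    exact mul_nonneg (le_trans zero_le_one (one_le_toSize _)) hI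

/-- Quadrature over the whole grid. -/
theorem grid_quadrature_full (hg : Monotone g) {n : ℕ} (D : ℕ → ℝ → F)
    (hD : IsJet D (n + 1) (g 0) (g J)) :
    ‖(∫ s in g 0..g J, D 0 s) -
        ∑ q : Fin J × Fin (n + 1), gridFull g q • D 0 (gridNode g q)‖ ≤
      toSize (n + 1) * ∑ j : Fin J, (g ((j : ℕ) + 1) - g j) ^ (n + 1) *
        ∫ s in g j..g ((j : ℕ) + 1), ‖D (n + 1) s‖ := by
  have hi : ∀ k < J, IntervalIntegrable (D 0) volume (g k) (g (k + 1)) := fun k hk =>
    ((hD.continuousOn (Nat.zero_le _)).mono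
      (Icc_subset_Icc (hg (Nat.zero_le _)) (hg hk))).intervalIntegrable_of_Icc (hg (Nat.le_succ _))
  rw [← intervalIntegral.sum_integral_adjacent_intervals hi, Finset.sum_range,
    Fintype.sum_prod_type, ← Finset.sum_sub_distrib, Finset.mul_sum]
  refine (norm_sum_le _ _).trans (Finset.sum_le_sum fun j _ => ?_)
  have hh : g j ≤ g ((j : ℕ) + 1) := hg (Nat.le_succ _)
  simp only [gridFull, gridNode, mul_smul, ← Finset.smul_sum]
  refine (cell_quadrature hh n D (hD.mono (hg (Nat.zero_le _)) (hg j.isLt))).trans ?_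
  rw [mul_assoc]
  exact mul_le_mul_of_nonneg_right (ruleSize_le_toSize _)
    (mul_nonneg (pow_nonneg (sub_nonneg.2 hh) _)
      (intervalIntegral.integral_nonneg hh fun _ _ => norm_nonneg _))

/-! ## Mean square -/

variable {Ω : Type} [MeasurableSpace Ω] {μ : Measure Ω}

omit [NormedSpace ℝ F] [CompleteSpace F] in
/-- The integral over an interval is at most the length times the mean square bound. -/
theorem eLpNorm_integral_norm_le [SFinite μ] {a b B : ℝ} (hab : a ≤ b) (hB : 0 ≤ B)
    {f : Ω → ℝ → F} (hc : ∀ w, ContinuousOn (f w) (Icc a b))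
    (hm : ∀ s ∈ Icc a b, StronglyMeasurable fun w => f w s)
    (hf : ∀ s ∈ Icc a b, eLpNorm (fun w => f w s) 2 μ ≤ ENNReal.ofReal B) :
    eLpNorm (fun w => ∫ s in a..b, ‖f w s‖) 2 μ ≤ ENNReal.ofReal ((b - a) * B) := by
  set u : Ω → ℝ → ℝ := fun w s => ‖f w (projIcc a b hab s)‖ with hu
  have hum : Measurable (Function.uncurry u) := by
    have h : StronglyMeasurable (Function.uncurry fun s w => u w s) :=
      stronglyMeasurable_uncurry_of_continuous_of_stronglyMeasurable
        (fun w => ((hc w).norm).comp_continuous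
          (continuous_subtype_val.comp continuous_projIcc) fun s => (projIcc a b hab s).2)
        (fun s => (hm _ (projIcc a b hab s).2).norm)
    exact h.measurable.comp measurable_swap
  have hus : ∀ w, ∀ s ∈ Icc a b, u w s = ‖f w s‖ := fun w s hs => by
    simp only [hu, projIcc_of_mem hab hs]
  have hsq : ∀ w, ENNReal.ofReal ((∫ s in a..b, ‖f w s‖) ^ 2) ≤
      ENNReal.ofReal (b - a) * ∫⁻ s in Ioc a b, ENNReal.ofReal (u w s ^ 2) := by
    intro w
    refine (ENNReal.ofReal_le_ofReal (sq_intervalIntegral_le hab (hc w).norm)).trans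
      (le_of_eq ?_)
    rw [ENNReal.ofReal_mul (sub_nonneg.2 hab), intervalIntegral.integral_of_le hab,
      setIntegral_congr_fun measurableSet_Ioc
        (fun s hs => by simp only [hus w s (Ioc_subset_Icc_self hs)] : EqOn (fun s => ‖f w s‖ ^ 2)
          (fun s => u w s ^ 2) (Ioc a b)),
      ofReal_integral_eq_lintegral_ofReal]
    · have : IntegrableOn (fun s => ‖f w s‖ ^ 2) (Ioc a b) :=
        ((hc w).norm.pow 2).integrableOn_Icc.mono_set Ioc_subset_Icc_self
      exact this.congr_fun (fun s hs => by simp only [hus w s (Ioc_subset_Icc_self hs)])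
        measurableSet_Ioc
    · exact Filter.Eventually.of_forall fun s => sq_nonneg _
  have key : ∫⁻ w, ‖∫ s in a..b, ‖f w s‖‖ₑ ^ 2 ∂μ ≤ ENNReal.ofReal (((b - a) * B) ^ 2) := by
    calc ∫⁻ w, ‖∫ s in a..b, ‖f w s‖‖ₑ ^ 2 ∂μ
        ≤ ∫⁻ w, ENNReal.ofReal (b - a) * (∫⁻ s in Ioc a b, ENNReal.ofReal (u w s ^ 2)) ∂μ := by
          refine lintegral_mono fun w => le_trans (le_of_eq ?_) (hsq w)
          rw [← ofReal_norm, Real.norm_eq_abs, ← ENNReal.ofReal_pow (abs_nonneg _),
            sq_abs]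
      _ = ENNReal.ofReal (b - a) * ∫⁻ s in Ioc a b, ∫⁻ w, ENNReal.ofReal (u w s ^ 2) ∂μ := by
          rw [lintegral_const_mul' _ _ ENNReal.ofReal_ne_top,
            lintegral_lintegral_swap (f := fun w s => ENNReal.ofReal (u w s ^ 2))
              (ENNReal.measurable_ofReal.comp (hum.pow_const 2)).aemeasurable]
      _ ≤ ENNReal.ofReal (b - a) * ∫⁻ _s in Ioc a b, ENNReal.ofReal (B ^ 2) := by
          refine mul_le_mul' le_rfl (setLIntegral_mono measurable_const fun s hs => ?_)
          have h2 := hf s (Ioc_subset_Icc_self hs)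
          rw [eLpNorm_eq_lintegral_rpow_enorm_toReal two_ne_zero ENNReal.ofNat_ne_top] at h2
          have h3 := ENNReal.rpow_le_rpow h2 (show (0 : ℝ) ≤ 2 by norm_num)
          rw [← ENNReal.rpow_mul] at h3
          simp only [ENNReal.toReal_ofNat, ENNReal.rpow_two] at h3
          norm_num at h3
          rw [← ENNReal.ofReal_pow hB] at h3
          refine le_trans (le_of_eq (lintegral_congr fun w => ?_)) h3
          rw [hus w s (Ioc_subset_Icc_self hs), ← ofReal_norm,
            ← ENNReal.ofReal_pow (norm_nonneg _)]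
      _ = _ := by
          rw [setLIntegral_const, Real.volume_Ioc, mul_comm (ENNReal.ofReal (B ^ 2)), ← mul_assoc,
            ← ENNReal.ofReal_mul (sub_nonneg.2 hab), ← ENNReal.ofReal_mul (by nlinarith)]
          congr 1
          ring
  rw [eLpNorm_eq_lintegral_rpow_enorm_toReal two_ne_zero ENNReal.ofNat_ne_top]
  simp only [ENNReal.toReal_ofNat, ENNReal.rpow_two]
  refine (ENNReal.rpow_le_rpow key (by norm_num)).trans (le_of_eq ?_)
  rw [ENNReal.ofReal_rpow_of_nonneg (sq_nonneg _) (by norm_num)]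
  congr 1
  rw [← Real.sqrt_eq_rpow, Real.sqrt_sq (mul_nonneg (sub_nonneg.2 hab) hB)]

omit [CompleteSpace F] in
/-- A weighted sum of functions bounded in mean square. -/
theorem eLpNorm_weighted_sum_le {ι : Type} [Fintype ι] (W : ι → ℝ) {f : ι → Ω → F}
    (hf : ∀ i, AEStronglyMeasurable (f i) μ) {B : ι → ℝ}
    (hB : ∀ i, 0 ≤ B i) (h : ∀ i, eLpNorm (f i) 2 μ ≤ ENNReal.ofReal (B i)) :
    eLpNorm (fun w => ∑ i, W i • f i w) 2 μ ≤ ENNReal.ofReal (∑ i, |W i| * B i) := by
  have e : (fun w => ∑ i, W i • f i w) = ∑ i, W i • f i := by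
    funext w; simp [Finset.sum_apply]
  rw [e, ENNReal.ofReal_sum_of_nonneg fun i _ => mul_nonneg (abs_nonneg _) (hB i)]
  refine (eLpNorm_sum_le (fun i _ => (hf i).const_smul _) one_le_two).trans
    (Finset.sum_le_sum fun i _ => ?_)
  rw [eLpNorm_const_smul, ENNReal.ofReal_mul (abs_nonneg _), ← Real.enorm_eq_ofReal_abs]
  exact mul_le_mul' le_rfl (h i)

omit [CompleteSpace F] in
theorem grid_error_sq [SFinite μ] (hg : Monotone g) {n : ℕ} {D : Ω → ℕ → ℝ → F}
    (hD : ∀ w, IsJet (D w) (n + 1) (g 0) (g J))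
    (hm : ∀ s ∈ Icc (g 0) (g J), StronglyMeasurable fun w => D w (n + 1) s)
    {B : Fin J → ℝ} (hB : ∀ j, 0 ≤ B j)
    (hf : ∀ j : Fin J, ∀ s ∈ Icc (g j) (g ((j : ℕ) + 1)),
      eLpNorm (fun w => D w (n + 1) s) 2 μ ≤ ENNReal.ofReal (B j)) :
    eLpNorm (fun w => toSize (n + 1) * ∑ j : Fin J, (g ((j : ℕ) + 1) - g j) ^ (n + 1) *
        ∫ s in g j..g ((j : ℕ) + 1), ‖D w (n + 1) s‖) 2 μ ≤
      ENNReal.ofReal (toSize (n + 1) *
        ∑ j : Fin J, (g ((j : ℕ) + 1) - g j) ^ (n + 2) * B j) := by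
  have hh : ∀ j : Fin J, g j ≤ g ((j : ℕ) + 1) := fun j => hg (Nat.le_succ _)
  have hsub : ∀ j : Fin J, Icc (g j) (g ((j : ℕ) + 1)) ⊆ Icc (g 0) (g J) := fun j =>
    Icc_subset_Icc (hg (Nat.zero_le _)) (hg j.isLt)
  set I : Fin J → Ω → ℝ := fun j w => ∫ s in g j..g ((j : ℕ) + 1), ‖D w (n + 1) s‖
  have hIm : ∀ j, AEStronglyMeasurable (I j) μ := fun j => by
    refine StronglyMeasurable.aestronglyMeasurable ?_
    have h : StronglyMeasurable (Function.uncurry fun w s =>
        ‖D w (n + 1) (projIcc _ _ (hh j) s)‖) := by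
      have h' : StronglyMeasurable (Function.uncurry fun s w =>
          ‖D w (n + 1) (projIcc _ _ (hh j) s)‖) :=
        stronglyMeasurable_uncurry_of_continuous_of_stronglyMeasurable
          (fun w => (((hD w).cont.mono (hsub j)).norm).comp_continuous
            (continuous_subtype_val.comp continuous_projIcc) fun s => (projIcc _ _ (hh j) s).2)
          (fun s => (hm _ (hsub j (projIcc _ _ (hh j) s).2)).norm)
      exact h'.comp_measurable measurable_swap
    have e : I j = fun w => ∫ s in Ioc (g j) (g ((j : ℕ) + 1)),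
        ‖D w (n + 1) (projIcc _ _ (hh j) s)‖ := by
      funext w
      simp only [I, intervalIntegral.integral_of_le (hh j)]
      exact setIntegral_congr_fun measurableSet_Ioc fun s hs => by
        simp only [projIcc_of_mem (hh j) (Ioc_subset_Icc_self hs)]
    rw [e]
    exact h.integral_prod_right
  have hT : 0 ≤ toSize (n + 1) := le_trans zero_le_one (one_le_toSize _)
  have e : (fun w => toSize (n + 1) * ∑ j : Fin J, (g ((j : ℕ) + 1) - g j) ^ (n + 1) * I j w) =
      fun w => ∑ j : Fin J, (toSize (n + 1) * (g ((j : ℕ) + 1) - g j) ^ (n + 1)) • I j w := by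
    funext w
    simp only [Finset.mul_sum, smul_eq_mul, mul_assoc]
  rw [e]
  refine (eLpNorm_weighted_sum_le _ hIm
    (B := fun j => (g ((j : ℕ) + 1) - g j) * B j)
    (fun j => mul_nonneg (sub_nonneg.2 (hh j)) (hB j)) fun j => ?_).trans (le_of_eq ?_)
  · exact eLpNorm_integral_norm_le (hh j) (hB j) (fun w => (hD w).cont.mono (hsub j))
      (fun s hs => hm s (hsub j hs)) (hf j)
  · rw [Finset.mul_sum]
    congr 1
    refine Finset.sum_congr rfl fun j _ => ?_
    rw [abs_of_nonneg (mul_nonneg hT (pow_nonneg (sub_nonneg.2 (hh j)) _)), pow_succ _ (n + 1)]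
    ring

/-- Quadrature from the start of the grid to a node, in mean square. -/
theorem eLpNorm_grid_quadrature [SFinite μ] (hg : Monotone g) {n : ℕ} {D : Ω → ℕ → ℝ → F}
    (hD : ∀ w, IsJet (D w) (n + 1) (g 0) (g J))
    (hm : ∀ s ∈ Icc (g 0) (g J), StronglyMeasurable fun w => D w (n + 1) s)
    {B : Fin J → ℝ} (hB : ∀ j, 0 ≤ B j)
    (hf : ∀ j : Fin J, ∀ s ∈ Icc (g j) (g ((j : ℕ) + 1)),
      eLpNorm (fun w => D w (n + 1) s) 2 μ ≤ ENNReal.ofReal (B j))
    (p : Fin J × Fin (n + 1)) :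
    eLpNorm (fun w => (∫ s in g 0..gridNode g p, D w 0 s) -
        ∑ q, gridWeight g p q • D w 0 (gridNode g q)) 2 μ ≤
      ENNReal.ofReal (toSize (n + 1) *
        ∑ j : Fin J, (g ((j : ℕ) + 1) - g j) ^ (n + 2) * B j) := by
  refine le_trans ?_ (grid_error_sq hg hD hm hB hf)
  exact eLpNorm_mono_real fun w => grid_quadrature hg (D w) (hD w) p

/-- Quadrature over the whole grid, in mean square. -/
theorem eLpNorm_grid_quadrature_full [SFinite μ] (hg : Monotone g) {n : ℕ} {D : Ω → ℕ → ℝ → F}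
    (hD : ∀ w, IsJet (D w) (n + 1) (g 0) (g J))
    (hm : ∀ s ∈ Icc (g 0) (g J), StronglyMeasurable fun w => D w (n + 1) s)
    {B : Fin J → ℝ} (hB : ∀ j, 0 ≤ B j)
    (hf : ∀ j : Fin J, ∀ s ∈ Icc (g j) (g ((j : ℕ) + 1)),
      eLpNorm (fun w => D w (n + 1) s) 2 μ ≤ ENNReal.ofReal (B j)) :
    eLpNorm (fun w => (∫ s in g 0..g J, D w 0 s) -
        ∑ q : Fin J × Fin (n + 1), gridFull g q • D w 0 (gridNode g q)) 2 μ ≤
      ENNReal.ofReal (toSize (n + 1) *
        ∑ j : Fin J, (g ((j : ℕ) + 1) - g j) ^ (n + 2) * B j) := by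
  refine le_trans ?_ (grid_error_sq hg hD hm hB hf)
  exact eLpNorm_mono_real fun w => grid_quadrature_full hg (D w) (hD w)

omit [CompleteSpace F] in
/-- Picard iteration at the nodes, in mean square. -/
theorem eLpNorm_picard_le {ι : Type} [Fintype ι] (W : ι → ι → ℝ) {G : ι → Ω → F → F} {L : ι → ℝ}
    (hL : ∀ j, 0 ≤ L j) (hG : ∀ j w u v, ‖G j w u - G j w v‖ ≤ L j * ‖u - v‖)
    {x0 : Ω → F} {x : ι → Ω → F} {y : ℕ → ι → Ω → F}
    (hxm : ∀ i, AEStronglyMeasurable (x i) μ) (hym : ∀ k i, AEStronglyMeasurable (y k i) μ)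
    (h0m : AEStronglyMeasurable x0 μ)
    (hGx : ∀ j, AEStronglyMeasurable (fun w => G j w (x j w)) μ)
    (hGy : ∀ k j, AEStronglyMeasurable (fun w => G j w (y k j w)) μ)
    {q e E0 η : ℝ} (hq : 0 ≤ q) (he : 0 ≤ e) (hE : 0 ≤ E0) (hη0 : 0 ≤ η) (hη : η ≤ 1 / 2)
    (hW : ∀ i, ∑ j, |W i j| * L j ≤ η)
    (hx : ∀ i, eLpNorm (fun w => x i w - (x0 w + ∑ j, W i j • G j w (x j w))) 2 μ ≤
      ENNReal.ofReal q)
    (hy : ∀ k i, eLpNorm (fun w => y (k + 1) i w - (x0 w + ∑ j, W i j • G j w (y k j w))) 2 μ ≤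
      ENNReal.ofReal e)
    (h0 : ∀ i, eLpNorm (fun w => y 0 i w - x i w) 2 μ ≤ ENNReal.ofReal E0) :
    ∀ k i, eLpNorm (fun w => y k i w - x i w) 2 μ ≤
      ENNReal.ofReal (η ^ k * E0 + 2 * (q + e)) := by
  intro k
  induction k with
  | zero =>
    intro i
    refine (h0 i).trans (ENNReal.ofReal_le_ofReal ?_)
    simp only [pow_zero, one_mul]
    linarith
  | succ k ih =>
    intro i
    set Ek := η ^ k * E0 + 2 * (q + e)
    have hEk : 0 ≤ Ek := by positivity
    set u : Ω → F := fun w => y (k + 1) i w - (x0 w + ∑ j, W i j • G j w (y k j w))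
    set v : Ω → F := fun w => x i w - (x0 w + ∑ j, W i j • G j w (x j w))
    set z : Ω → F := fun w => ∑ j, W i j • (G j w (y k j w) - G j w (x j w))
    have hum : AEStronglyMeasurable u μ :=
      (hym _ i).sub (h0m.add
        (Finset.aestronglyMeasurable_fun_sum _ fun j _ => (hGy k j).const_smul (W i j)))
    have hvm : AEStronglyMeasurable v μ :=
      (hxm i).sub (h0m.add
        (Finset.aestronglyMeasurable_fun_sum _ fun j _ => (hGx j).const_smul (W i j)))
    have hzm : AEStronglyMeasurable z μ :=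
      Finset.aestronglyMeasurable_fun_sum _ fun j _ =>
        ((hGy k j).sub (hGx j)).const_smul (W i j)
    have hz : eLpNorm z 2 μ ≤ ENNReal.ofReal (η * Ek) := by
      refine (eLpNorm_weighted_sum_le (W i) (fun j => (hGy k j).sub (hGx j))
        (B := fun j => L j * Ek) (fun j => mul_nonneg (hL j) hEk) fun j => ?_).trans
        (ENNReal.ofReal_le_ofReal ?_)
      · refine (eLpNorm_le_mul_eLpNorm_of_ae_le_mul
          (Filter.Eventually.of_forall fun w => hG j w (y k j w) (x j w)) 2).trans ?_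
        rw [ENNReal.ofReal_mul (hL j)]
        exact mul_le_mul' le_rfl (ih j)
      · simp only [← mul_assoc, ← Finset.sum_mul]
        exact mul_le_mul_of_nonneg_right (hW i) hEk
    have ee : (fun w => y (k + 1) i w - x i w) = u + z - v := by
      funext w
      simp only [u, v, z, Pi.add_apply, Pi.sub_apply, smul_sub, Finset.sum_sub_distrib]
      abel
    rw [ee]
    refine (eLpNorm_sub_le (hum.add hzm) hvm one_le_two).trans ?_
    refine (add_le_add ((eLpNorm_add_le hum hzm one_le_two).trans (add_le_add (hy k i) hz))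
      (hx i)).trans (le_of_eq_of_le ?_ (ENNReal.ofReal_le_ofReal
        (?_ : e + η * Ek + q ≤ η ^ (k + 1) * E0 + 2 * (q + e))))
    · rw [ENNReal.ofReal_add (add_nonneg he (mul_nonneg hη0 hEk)) hq,
        ENNReal.ofReal_add he (mul_nonneg hη0 hEk)]
    · simp only [Ek, pow_succ]
      nlinarith [mul_le_mul_of_nonneg_right hη (add_nonneg hq he)]

end

end P347.Zero
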