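import Vale.Agent.P347.Zero.Time
import Vale.Agent.P347.Zero.Layer
import Vale.Agent.P347.Zero.Picard

/-!
# P347: the derivative of the score in the direction of the start of a flow

The score along the flow has first derivative `fderiv (score V t) y ξ` at time zero, and a rule at
fixed nodes reads it off from values, with an error given by a high derivative in time, which
`timeSpec` bounds in mean square.
-/

namespace P347.Zero

open MeasureTheory ProbabilityTheory Set Finset P347.Quarter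
open scoped ENNReal

noncomputable section

variable {d : ℕ}

open Ctx in
/-- The first derivative in time of the score along a flow at time zero. -/
theorem IsFlow.deriv_score_zero {X : Ctx d} {w : ℝ → Space d → Space d}
    (hw : IsFlow X.V X.y X.t w) (ξ : Space d) :
    iteratedDeriv 1 (fun q' => score X.V (X.t - q' ^ 2) (X.y + q' • w q' ξ)) 0
      = fderiv ℝ (score X.V X.t) X.y ξ := by
  have h0 : (0 : ℝ) ^ 2 < X.t := by simpa using X.ht0
  rw [(hw.iteratedDeriv_score 1 ξ 0 0 h0).1, hw.init]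
  show _ = scoreD X.V X.t X.y ξ
  ext i
  rw [scoreD_coord X.hV X.ht0]
  have e : X.dT (X.coef [i]) 0 ξ 0 = ∑ l, ξ l * X.coef [l, i] 0 ξ 0 := by
    rw [dT_coef [i] h0 ξ 0, proper_single]
    simp [Ctx.beta]
  simp [vec, bF, Ctx.DT, bv, EuclideanSpace.basisFun_apply, Pi.single_apply, Finset.sum_apply, e,
    Ctx.coef]

/-- Module 4: the derivative of the score in an independent Gaussian direction from values along
the flow. -/
theorem tanSpec : TanSpec := by
  intro M
  obtain ⟨C, hC, hCb⟩ := timeSpec (M + 1)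
  set R := ruleSize (M + 2) derFun
  have hR : 0 ≤ R := ruleSize_nonneg _ _
  refine ⟨M + 2, ruleWeight (M + 2) derFun, node (M + 2), (R + 1) * C * 2 * 2 ^ (M + 1),
    by positivity, fun i => ?_, ?_⟩
  · rw [abs_of_pos (node_mem _ i).1]
    exact (node_mem _ i).2
  intro d V hV y t l ht0 ht1 hl hlt w hw
  set X : Ctx d := ⟨V, y, t, hV, ht0, ht1⟩
  set γ := stdGaussian (Space d)
  set D : Space d → ℕ → ℝ → Space d := fun ξ k s =>
    iteratedDeriv k (fun q' => score V (t - q' ^ 2) (y + q' • w q' ξ)) s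
  have hst : 0 < √t := Real.sqrt_pos.2 ht0
  have hdom : ∀ s ∈ Icc (0 : ℝ) l, s ^ 2 ≤ t / 4 := fun s hs => by
    have := pow_le_pow_left₀ hs.1 (hs.2.trans hlt) 2
    rw [div_pow, Real.sq_sqrt ht0.le] at this
    linarith
  have hdom' : ∀ s ∈ Icc (0 : ℝ) l, s ^ 2 < t := fun s hs => by linarith [hdom s hs]
  have hj : ∀ ξ, IsJet (D ξ) (M + 2) 0 l := fun ξ => by
    have h := fun k s (hs : s ∈ Icc (0 : ℝ) l) =>
      IsFlow.iteratedDeriv_score (X := X) hw k ξ 0 s (hdom' s hs)
    refine ⟨fun k _ s hs => ?_, fun s hs => (h (M + 2) s hs).2.continuousAt.continuousWithinAt⟩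
    have e := (IsFlow.iteratedDeriv_score (X := X) hw (k + 1) ξ 0 s (hdom' s hs)).1
    exact ((h k s hs).2.congr_deriv e.symm).hasDerivWithinAt
  have hm : ∀ s ∈ Icc (0 : ℝ) l, StronglyMeasurable fun ξ => D ξ (M + 2) s := fun s hs => by
    have hc : Continuous fun ξ => Ctx.vec (X.DT^[M + 2] X.bF) s (w s ξ) (0 : Space d) :=
      (Ctx.continuous_vec (X := X) (Ctx.alg_DT_iterate _ Ctx.alg_bF) (hdom' s hs)).comp
        ((hw.cont s (hdom' s hs)).prodMk continuous_const)
    convert hc.stronglyMeasurable using 1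
    exact funext fun ξ => (IsFlow.iteratedDeriv_score (X := X) hw (M + 2) ξ 0 s (hdom' s hs)).1
  set B := C * √d * 2 * (2 / √t) ^ (M + 1) with hB
  have hB0 : 0 ≤ B := by positivity
  have hs2 : ∀ s ∈ Icc (0 : ℝ) l, eLpNorm (fun ξ => D ξ (M + 2) s) 2 γ ≤ ENNReal.ofReal B := by
    intro s hs
    have hr : t ≤ 2 * (t - s ^ 2) := by linarith [hdom s hs]
    have hr0 : 0 < t - s ^ 2 := by linarith
    refine (ENNReal.pow_right_strictMono two_ne_zero).le_iff_le.1 ?_
    rw [eLpNorm_two_sq, ← ENNReal.ofReal_pow hB0]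
    refine (hCb d V hV y t ht0 ht1 w hw s (hdom' s hs)).trans
      (ENNReal.ofReal_le_ofReal (pow_le_pow_left₀ (by positivity) ?_ 2))
    refine mul_le_mul (mul_le_mul_of_nonneg_left ?_ (by positivity))
      (pow_le_pow_left₀ (by positivity) ?_ _) (by positivity) (by positivity)
    · rw [div_le_iff₀ (Real.sqrt_pos.2 hr0), ← Real.sqrt_sq (by norm_num : (0 : ℝ) ≤ 2),
        ← Real.sqrt_mul (by norm_num)]
      exact Real.sqrt_le_sqrt (by linarith)
    · rw [div_le_div_iff₀ hr0 hst, Real.mul_self_sqrt ht0.le]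
      exact hr
  have hI := eLpNorm_integral_norm_le (μ := γ) hl.le hB0 (f := fun ξ s => D ξ (M + 2) s)
    (fun ξ => (hj ξ).cont) hm hs2
  rw [eLpNorm_eq_lintegral_rpow_enorm_toReal two_ne_zero ENNReal.ofNat_ne_top] at hI
  have hI2 := ENNReal.rpow_le_rpow hI (show (0 : ℝ) ≤ 2 by norm_num)
  rw [← ENNReal.rpow_mul] at hI2
  simp only [ENNReal.toReal_ofNat, ENNReal.rpow_two, sub_zero] at hI2
  norm_num at hI2
  rw [← ENNReal.ofReal_pow (mul_nonneg hl.le hB0)] at hI2
  calc ∫⁻ ξ, ENNReal.ofReal (‖fderiv ℝ (score V t) y ξ - l⁻¹ • ∑ i, ruleWeight (M + 2) derFun i •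
          score V (t - (node (M + 2) i * l) ^ 2)
            (y + (node (M + 2) i * l) • w (node (M + 2) i * l) ξ)‖ ^ 2) ∂γ
      ≤ ∫⁻ ξ, ENNReal.ofReal ((R * l ^ M) ^ 2) *
          ‖∫ s in (0 : ℝ)..l, ‖D ξ (M + 2) s‖‖ₑ ^ 2 ∂γ := by
        refine lintegral_mono fun ξ => ?_
        have h := extract_deriv hl M (D ξ) (hj ξ)
        have e : D ξ 1 0 = fderiv ℝ (score V t) y ξ := IsFlow.deriv_score_zero (X := X) hw ξ
        rw [e, norm_sub_rev] at h
        simp only [D, iteratedDeriv_zero, mul_comm l] at h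
        rw [← ofReal_norm, ← ENNReal.ofReal_pow (norm_nonneg _),
          ← ENNReal.ofReal_mul (sq_nonneg _), ← mul_pow, Real.norm_eq_abs]
        refine ENNReal.ofReal_le_ofReal (pow_le_pow_left₀ (norm_nonneg _) (h.trans ?_) 2)
        exact mul_le_mul_of_nonneg_left (le_abs_self _) (by positivity)
    _ ≤ ENNReal.ofReal ((R * l ^ M) ^ 2) * ENNReal.ofReal ((l * B) ^ 2) := by
        rw [lintegral_const_mul' _ _ ENNReal.ofReal_ne_top]
        exact mul_le_mul' le_rfl hI2
    _ ≤ _ := by
        rw [← ENNReal.ofReal_mul (sq_nonneg _), ← mul_pow]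
        refine ENNReal.ofReal_le_ofReal (pow_le_pow_left₀ (by positivity) ?_ 2)
        have hx : l / √t ≤ 1 := by rw [div_le_one hst]; linarith
        have hx0 : 0 ≤ l / √t := div_nonneg hl.le hst.le
        calc R * l ^ M * (l * B)
            = R * C * 2 * 2 ^ (M + 1) * (l / √t) ^ M * √d * (l / √t) := by
              rw [hB, div_pow, div_pow]
              field_simp
              ring
          _ ≤ (R + 1) * C * 2 * 2 ^ (M + 1) * (l / √t) ^ M * √d * 1 := by
              gcongr
              linarith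
          _ = _ := mul_one _

end

end P347.Zero
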