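import Vale.Agent.P347.Zero.Steps
import Vale.Agent.P347.Zero.Tan
import Vale.Agent.P347.Zero.Flow
import Vale.Agent.P347.Zero.Posterior

/-!
# P347: the facts from analysis, assembled
-/

namespace P347.Zero

/-- All the facts from analysis hold. -/
theorem analysis : Analysis :=
  ⟨score_spec, flow_spec, timeSpec, tanSpec, pairSpec score_spec, pairTimeSpec⟩

end P347.Zero
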