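import Vale.Agent.P347.Zero.Steps

/-!
# P347: the induction on the level of an oracle

Level `(i, k)` has noise exponent `e / 16 + i γ`. The inner oracles have level `(i - 1, k - 1)`,
the outer derivative of the square has level `(i, k - 1)`.
-/

namespace P347.Zero

open MeasureTheory ProbabilityTheory Filter

noncomputable section

variable {d : ℕ}

theorem Valid.mono {Ω : Type} [MeasurableSpace Ω] {P : Measure Ω}
    {A : Alg d (Ω × Space d) (Space d)} {V : Space d → ℝ} {r τ ρ δ δ' L L' : ℝ}
    (h : Valid P A V r τ ρ δ L) (hδ : 0 ≤ δ) (hδ' : δ ≤ δ') (hL : L ≤ L') :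
    Valid P A V r τ ρ δ' L' := by
  refine ⟨?_, fun ω c c' => (h.lip ω c c').trans ?_⟩
  · obtain ⟨Z, h1, h2, h3⟩ := h.law
    refine ⟨Z, h1, h2, fun c => (h3 c).trans (ENNReal.ofReal_le_ofReal ?_)⟩
    gcongr
  · exact mul_le_mul_of_nonneg_right hL (norm_nonneg _)

theorem HasVal.mono {ε : ℝ} {x y : Expo} (hd : 1 ≤ d) (h : HasVal d ε x) (hα : x.α = y.α)
    (hβ : x.β = y.β) (hD : y.D ≤ x.D) (hl : x.ℓ ≤ y.ℓ) (hq : x.q ≤ y.q) : HasVal d ε y := by
  intro r hr hr'
  obtain ⟨Ω, mΩ, P, A, h1, h2, h3, h4, h5⟩ := h r hr hr'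
  have h1d : (1 : ℝ) ≤ d := by exact_mod_cast hd
  refine ⟨Ω, mΩ, P, A, h1, h2, h3, h4.trans (Real.rpow_le_rpow_of_exponent_le h1d hq),
    fun V hV => ?_⟩
  rw [← hα, ← hβ]
  exact (h5 V hV).mono (by positivity)
    (Real.rpow_le_rpow_of_exponent_le h1d (neg_le_neg hD))
    (Real.rpow_le_rpow_of_exponent_le h1d hl)

theorem HasPost.restrict {ε K K' : ℝ} {x : Expo} (hd : 1 ≤ d) (h : HasPost d ε K x) (hK : K' ≤ K) :
    HasPost d ε K' x := fun r s h1 h2 h3 =>
  h r s (le_trans (Real.rpow_le_rpow_of_exponent_le (by exact_mod_cast hd) (neg_le_neg hK)) h1)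
    h2 h3

/-- The exponents of a level. -/
def level (e γ η : ℝ) (i k : ℕ) : Expo :=
  ⟨3 * k * η, e / 16 + i * γ, min 45 (min (i * (e / 32)) (k * (γ / 4)) - 1), 2 * η, 3 * k * η⟩

/-- The accuracy of a level gains from the inner index. -/
theorem cap_add_le {g g' r : ℝ} (i k : ℝ) (h0 : 0 ≤ r) (h2 : g' ≤ r) (h1 : g ≤ r) :
    min 45 (min ((i + 1) * g) ((k + 1) * g') - 1) ≤ min 45 (min (i * g) (k * g') - 1) + r := by
  rw [← min_add_add_right]
  refine le_min ((min_le_left _ _).trans (by linarith)) ?_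
  refine (min_le_right _ _).trans ?_
  rcases min_choice (i * g) (k * g') with h' | h' <;> rw [h']
  · linarith [min_le_left ((i + 1) * g) ((k + 1) * g')]
  · linarith [min_le_right ((i + 1) * g) ((k + 1) * g')]

/-- The accuracy of a level gains from the outer index. -/
theorem cap_add_le' {g g' : ℝ} (i k : ℝ) (h : 0 ≤ g') :
    min 45 (min (i * g) ((k + 1) * g') - 1) ≤ min 45 (min (i * g) (k * g') - 1) + g' := by
  rw [← min_add_add_right]
  refine le_min ((min_le_left _ _).trans (by linarith)) ?_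
  refine (min_le_right _ _).trans ?_
  rcases min_choice (i * g) (k * g') with h' | h' <;> rw [h']
  · linarith [min_le_left (i * g) ((k + 1) * g')]
  · linarith [min_le_right (i * g) ((k + 1) * g')]

/-- One step of the induction. -/
theorem level_step (hP : Programs) {e γ η : ℝ} {I n i k : ℕ} (he : 0 < e) (he1 : e ≤ 1)
    (hη : 0 < η) (hI : I * γ ≤ e / 16) (hγ : γ ≤ e / 16) (hn : (3 * n + 20) * η ≤ γ / 8)
    (hγ0 : 0 < γ) (hk : k + 1 ≤ n) (hi : i + 1 ≤ I)
    (hAe : ∀ᶠ d in atTop, HasVal d e (level e γ η i k))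
    (hBe : ∀ᶠ d in atTop, HasVal d e (level e γ η (i + 1) k)) :
    ∀ᶠ d in atTop, HasVal d e (level e γ η (i + 1) (k + 1)) := by
  have hkη : 3 * ((k : ℝ) + 1) * η + 20 * η ≤ γ / 8 := by
    have : ((k : ℝ) + 1) ≤ n := by exact_mod_cast hk
    have := mul_le_mul_of_nonneg_right this hη.le
    linarith
  have hk0 : 0 ≤ (k : ℝ) * η := by positivity
  have hiγ : 0 ≤ (i : ℝ) * γ := by positivity
  have hiI : ((i : ℝ) + 1) * γ ≤ e / 16 := by
    have : ((i : ℝ) + 1) ≤ I := by exact_mod_cast hi
    exact (mul_le_mul_of_nonneg_right this hγ0.le).trans hI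
  set A := level e γ η i k with hA
  set B := level e γ η (i + 1) k with hB
  set κ : ℝ := e / 16 + (i + 1) * γ - γ / 2 with hκ
  set K : ℝ := 46
  set p : Expo := ⟨A.α + η, 0, A.D - η, η, A.q + η⟩ with hp
  have hAD : A.D ≤ 45 := min_le_left _ _
  have hBD : B.D ≤ 45 := min_le_left _ _
  obtain ⟨d1, w1⟩ := hP.down e η (2 * K + 20) A hη (by norm_num) (by simp [hA, level]; positivity)
    (by simp [hA, level]; positivity) (by simp [hA, level]; positivity)
    (by simp [hA, level]; positivity) (by linarith)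
    (by simp only [hA, level]; linarith) (by simp only [hA, level]; linarith)
  obtain ⟨d2, w2⟩ := hP.pass e η K (A.α + 2 * η) (e / 16 + (i + 1) * γ) κ p A B hη
    (by simp [hp, hA, level]; positivity) (by simp [hA, level]; positivity)
    (by simp [hB, level]; positivity) (by simp only [hp]; linarith) (by linarith)
    (by simp only [hA, hB, level]; linarith)
    (by simp [hA, level]; positivity) (by simp [hB, level]; positivity) (by simp [hp]; positivity)
    (by simp [hA, level]; positivity) (by simp [hB, level]; positivity)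
    (by simp [hp, hA, level]; positivity) (by simp [hA, level]; positivity)
    (by simp [hB, level]; positivity) (by simp only [hp]; linarith) (by linarith) (by linarith)
    (by simp only [hA, level]; linarith) (by simp only [hA, hκ, level]; linarith)
    (by simp only [hp, hκ]; linarith) (by simp only [hA, hκ, level]; linarith)
    (by simp only [hB, hκ, level]; linarith)
    (by simp only [hp, hA, hB, hκ, level]; linarith)
    (by simp only [hA, hB, hκ, level]; push_cast; linarith)
    (by simp [hB, level])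
  filter_upwards [hAe, hBe, eventually_ge_atTop d1, eventually_ge_atTop d2,
    eventually_ge_atTop 1] with d hAd hBd e1 e2 e3
  refine (w2 d e2 (w1 d e1 hAd) hAd hBd).mono e3 ?_ ?_ ?_ ?_ ?_
  · simp only [hA, level]; push_cast; ring
  · simp only [level]; push_cast; ring
  · simp only [hp, hA, hB, hκ, level]
    push_cast
    have ga := cap_add_le (g := e / 32) (g' := γ / 4) (r := e / 32) i k
      (by positivity) (by linarith) le_rfl
    have gb := cap_add_le' (g := e / 32) (g' := γ / 4) ((i : ℝ) + 1) k (by positivity)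
    have g45 : min 45 (min (((i : ℝ) + 1) * (e / 32)) (((k : ℝ) + 1) * (γ / 4)) - 1) ≤ 45 :=
      min_le_left _ _
    rw [le_sub_iff_add_le]
    refine le_min (by simp only [K]; linarith) (sub_le_iff_le_add.1 (le_min
      (le_min (by linarith) (by linarith)) (by linarith)))
  · simp only [hp, level]; linarith
  · simp only [hp, hA, hB, level]
    push_cast
    rw [← le_sub_iff_add_le]
    refine max_le ?_ (max_le ?_ ?_) <;> linarith

/-- All levels up to `(I, n)`. -/
theorem exists_level (hP : Programs) {e γ η : ℝ} {I n : ℕ} (he : 0 < e) (he1 : e ≤ 1) (hη : 0 < η)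
    (hI : I * γ ≤ e / 16) (hγ : γ ≤ e / 16) (hn : (3 * n + 20) * η ≤ γ / 8) :
    ∀ k ≤ n, ∀ i ≤ I, ∀ᶠ d in atTop, HasVal d e (level e γ η i k) := by
  have hγ0 : 0 < γ := by
    have : 0 < (3 * (n : ℝ) + 20) * η := by positivity
    linarith
  have hbase : ∀ i k : ℕ, i = 0 ∨ k = 0 → ∀ᶠ d in atTop, HasVal d e (level e γ η i k) := by
    intro i k hik
    obtain ⟨d₀, h⟩ := hP.start e (3 * k * η) (e / 16 + i * γ) he
    filter_upwards [eventually_ge_atTop d₀, eventually_ge_atTop 1] with d hd h1
    refine (h d hd).mono h1 rfl rfl ?_ ?_ ?_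
    · have h0 : min (((i : ℕ) : ℝ) * (e / 32)) (k * (γ / 4)) ≤ 0 := by
        rcases hik with rfl | rfl
        · simp
        · simp
      simp only [level]
      exact (min_le_right _ _).trans (by linarith)
    · simp only [level]; linarith
    · simp only [level]; positivity
  intro k
  induction k with
  | zero => exact fun _ i _ => hbase i 0 (Or.inr rfl)
  | succ k ih =>
    intro hk i hi
    rcases i with _ | i
    · exact hbase 0 _ (Or.inl rfl)
    exact level_step hP he he1 hη hI hγ hn hγ0 hk hi (ih (by omega) i (by omega))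
      (ih (by omega) (i + 1) hi)

/-- A few queries move the point to a finer variance. -/
theorem descent_of_programs (hP : Programs) : DescentSpec := by
  intro e he he1
  obtain ⟨I, hI⟩ := exists_nat_ge (46 * 32 / e)
  set γ : ℝ := e / (16 * (I + 1)) with hγ
  have hI1 : (1 : ℝ) ≤ I + 1 := le_add_of_nonneg_left (Nat.cast_nonneg I)
  have hγ0 : 0 < γ := by positivity
  have hγe : γ * (16 * (I + 1)) = e := div_mul_cancel₀ _ (by positivity)
  have hIγ : (I : ℝ) * γ ≤ e / 16 := by nlinarith
  have hγ16 : γ ≤ e / 16 := by nlinarith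
  obtain ⟨n, hn⟩ := exists_nat_ge (46 * 4 / γ)
  set η : ℝ := γ / (8 * (3 * n + 20)) with hη
  have hη0 : 0 < η := by positivity
  have hnη : (3 * (n : ℝ) + 20) * η = γ / 8 := by rw [hη]; field_simp
  have hx := exists_level hP he he1 hη0 hIγ hγ16 hnη.le n le_rfl I le_rfl
  set x := level e γ η I n with hxdef
  have hxD : x.D = 45 := by
    refine min_eq_left ?_
    rw [div_le_iff₀ he] at hI
    rw [div_le_iff₀ hγ0] at hn
    rw [le_sub_iff_add_le, le_min_iff]
    constructor <;> linarith
  have hnη' : 3 * (n : ℝ) * η + 20 * η ≤ e / 128 := by linarith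
  have hn0 : 0 ≤ (n : ℝ) * η := by positivity
  have hI0 : 0 ≤ (I : ℝ) * γ := by positivity
  set p : Expo := ⟨x.α + η, 0, x.D - η, η, x.q + η⟩ with hp
  obtain ⟨d1, w1⟩ := hP.down e η 46 x hη0 (by norm_num) (by simp [hxdef, level]; positivity)
    (by simp [hxdef, level]; positivity) (by simp [hxdef, level]; positivity)
    (by simp [hxdef, level]; positivity) (by linarith)
    (by simp only [hxdef, level]; linarith) (by simp only [hxdef, level]; linarith)
  obtain ⟨d2, w2⟩ := hP.move e p he (by simp [hp, hxdef, level]; positivity)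
    (by simp [hp, hxdef, level]; positivity) (by simp only [hp]; linarith)
    (by simp only [hp, hxdef] at *; linarith)
  obtain ⟨d₀, hd₀⟩ := eventually_atTop.1 (hx.and ((eventually_ge_atTop d1).and
    ((eventually_ge_atTop d2).and (eventually_ge_atTop 1))))
  refine ⟨1, one_pos, d₀, fun d hd t s h1 h2 _ h4 => ?_⟩
  obtain ⟨hv, e1, e2, e3⟩ := hd₀ d hd
  obtain ⟨Ω, mΩ, P, A, a1, a2, a3, a4, a5⟩ :=
    w2 d e2 ((w1 d e1 hv).restrict e3 (by norm_num)) t s h1 h2 h4
  refine ⟨Ω, mΩ, P, A, a1, a2, a3, a4.trans (Real.rpow_le_rpow_of_exponent_le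
    (by exact_mod_cast e3) ?_), a5⟩
  simp only [hp, hxdef, level]
  linarith

end

end P347.Zero
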