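import Vale.Agent.P347.Zero.Tiny
import Vale.Agent.P347.Zero.Induction

/-!
# P347: the pass at the smallest variances

At variances up to twice `d ^ (-(2 * K + 20))` one gradient is already accurate to `d ^ (-K)`, so
the pass only has to be built above them.
-/

namespace P347.Zero

open MeasureTheory ProbabilityTheory Filter

noncomputable section

/-- `PassSpec` above the bottom: for a sampler `p` and score oracles `x`, `y` there is an oracle at
every variance above twice `d ^ (-(2 * K + 20))`. -/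
def PassMain : Prop :=
  ∀ (ε η K α β κ : ℝ) (p x y : Expo), 0 < η → 0 ≤ p.α → 0 ≤ x.α → 0 ≤ y.α →
    p.α ≤ α → x.α ≤ α → y.α ≤ α → 0 ≤ x.β → 0 ≤ y.β → 0 ≤ p.ℓ → 0 ≤ x.ℓ → 0 ≤ y.ℓ →
    0 ≤ p.q → 0 ≤ x.q → 0 ≤ y.q → p.D ≤ K → x.D ≤ K → y.D ≤ K →
    β + α + η ≤ ε → x.β + α + η ≤ κ → p.ℓ + η ≤ κ → x.ℓ + η ≤ κ → y.ℓ + η ≤ κ →
    κ + p.ℓ + x.ℓ + y.ℓ + η ≤ β → y.β + κ + α + η ≤ 2 * β → y.β ≤ β →
    ∃ d₀ : ℕ, ∀ d, d₀ ≤ d → HasPost d ε (2 * K + 20) p → HasVal d ε x → HasVal d ε y →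
      ∀ r : ℝ, 2 * (d : ℝ) ^ (-(2 * K + 20)) < r → r ≤ (d : ℝ) ^ (-ε) →
        ∃ (Ω : Type) (_ : MeasurableSpace Ω) (P : Measure Ω)
          (A : Alg d (Ω × Space d) (Space d)),
          StandardBorelSpace Ω ∧ IsProbabilityMeasure P ∧ A.Meas ∧
          (A.size : ℝ) ≤ (d : ℝ) ^ (max p.q (max x.q y.q) + η) ∧
          ∀ V : Space d → ℝ, Quarter.InClass V →
            Valid P A V r (√r * (d : ℝ) ^ (-(α + η))) (√r * (d : ℝ) ^ β)
              ((d : ℝ) ^ (-(min K (min (min p.D (x.D - x.ℓ - y.ℓ)) (y.D - κ) + β) - η)))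
              ((d : ℝ) ^ (p.ℓ + η))

/-- Below, one gradient is enough. -/
theorem pass_of_main (h : PassMain) : PassSpec := by
  intro ε η K α β κ p x y hη hpa hxa hya hα hxα hyα hxb hyb hpl hxl hyl hpq hxq hyq hpD hxD hyD
    h1 h2 h3 h4 h5 h6 h7 h8
  obtain ⟨d₁, hd₁⟩ := h ε η K α β κ p x y hη hpa hxa hya hα hxα hyα hxb hyb hpl hxl hyl hpq hxq
    hyq hpD hxD hyD h1 h2 h3 h4 h5 h6 h7 h8
  obtain ⟨d₂, hd₂⟩ := eventually_atTop.1
    ((tendsto_natCast_atTop_atTop (R := ℝ)).eventually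
      ((tendsto_rpow_atTop (add_pos_of_nonneg_of_pos hpl hη)).eventually (eventually_ge_atTop 2)))
  refine ⟨max d₁ (max d₂ 2), fun d hd hP hX hY r hr hre => ?_⟩
  have hd2 : (2 : ℝ) ≤ d := by
    exact_mod_cast le_trans (le_trans (le_max_right _ _) (le_max_right _ _)) hd
  have hd1 : (1 : ℝ) ≤ d := by linarith
  have hd0 : (0 : ℝ) < d := by linarith
  rcases lt_or_ge (2 * (d : ℝ) ^ (-(2 * K + 20))) r with hbig | hsmall
  · exact hd₁ d (le_trans (le_max_left _ _) hd) hP hX hY r hbig hre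
  have hε : 0 ≤ ε := by linarith
  have hr1 : r ≤ 1 := hre.trans (Real.rpow_le_one_of_one_le_of_nonpos hd1 (by linarith))
  have hτ : √r * (d : ℝ) ^ (-(α + η)) ≤ √r :=
    mul_le_of_le_one_right (Real.sqrt_nonneg _)
      (Real.rpow_le_one_of_one_le_of_nonpos hd1 (by linarith))
  have hδ : 8 * √r
      ≤ (d : ℝ) ^ (-(min K (min (min p.D (x.D - x.ℓ - y.ℓ)) (y.D - κ) + β) - η)) := by
    have e : √r ≤ √2 * (d : ℝ) ^ (-(K + 10)) := by
      refine (Real.sqrt_le_sqrt hsmall).trans (le_of_eq ?_)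
      rw [Real.sqrt_mul (by norm_num)]
      congr 1
      rw [Real.sqrt_eq_rpow, ← Real.rpow_mul hd0.le]
      ring_nf
    have h16 : (16 : ℝ) ≤ (d : ℝ) ^ (10 : ℝ) := by
      refine le_trans (by norm_num) (Real.rpow_le_rpow (z := (10 : ℝ)) (by norm_num) hd2 (by norm_num))
    have hs2 : √2 ≤ (2 : ℝ) := Real.sqrt_le_iff.2 ⟨by norm_num, by norm_num⟩
    calc 8 * √r ≤ 8 * (2 * (d : ℝ) ^ (-(K + 10))) := by
          gcongr
          exact e.trans (mul_le_mul_of_nonneg_right hs2 (by positivity))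
      _ = 16 * (d : ℝ) ^ (-(K + 10)) := by ring
      _ ≤ (d : ℝ) ^ (10 : ℝ) * (d : ℝ) ^ (-(K + 10)) :=
          mul_le_mul_of_nonneg_right h16 (by positivity)
      _ = (d : ℝ) ^ (-K) := by rw [← Real.rpow_add hd0]; ring_nf
      _ ≤ _ := Real.rpow_le_rpow_of_exponent_le hd1 (by
          linarith [min_le_left K (min (min p.D (x.D - x.ℓ - y.ℓ)) (y.D - κ) + β)])
  obtain ⟨A, hA, hs, hV⟩ := tiny (d := d) r _ (√r * (d : ℝ) ^ β) _ hr hr1
    (mul_nonneg (Real.sqrt_nonneg _) (by positivity)) hτ hδ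
  refine ⟨Space d, inferInstance, stdGaussian (Space d), A, inferInstance, inferInstance, hA, ?_,
    fun V hV' => (hV V hV').mono (by positivity) le_rfl
      (hd₂ d (le_trans (le_trans (le_max_left _ _) (le_max_right _ _)) hd))⟩
  rw [hs, Nat.cast_one]
  exact Real.one_le_rpow hd1 (by linarith [le_max_left p.q (max x.q y.q)])

end

end P347.Zero
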