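import Vale.Agent.P347.Zero.Iterate

/-!
# P347: the loop of sweeps

What is proved of a node survives later gates, all nodes are built one after another, and a sweep is
repeated, the bounds following `Lev.next`.
-/

namespace P347.Zero

open MeasureTheory ProbabilityTheory

noncomputable section

variable {d : ℕ} {En : Env d} {T : ℕ} {P : Par} {π : Paths En T P}

theorem NodeIn.of_ext {S S' : Bld En} {q : ℝ} {A : Lev} {φz φX : Form}
    (h : NodeIn π S q A φz φX) (he : S.Ext S') : NodeIn π S' q A φz φX :=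
  ⟨he.has h.hz, he.has h.hX, he.near h.hz.below h.nz, he.near h.hX.below h.nX⟩

theorem NodeOut.of_ext {S S' : Bld En} {q : ℝ} {A : Lev} {C : ℝ} {fb fB fS : Form}
    (h : NodeOut π S q A C fb fB fS) (he : S.Ext S') : NodeOut π S' q A C fb fB fS :=
  ⟨he.has h.hb, he.has h.hB, he.has h.hS, he.near h.hb.below h.nb, he.near h.hB.below h.nB,
    he.near h.hS.below h.nS⟩

/-- A finite family of constructions, one after another, indexed by any finite type. -/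
theorem Bld.push_fintype {S : Bld En} {ι β : Type} [Fintype ι] [Inhabited β] (N : ℕ)
    (Q : ι → Bld En → β → Prop) (hQ : ∀ i {A B : Bld En} b, A.Ext B → Q i A b → Q i B b)
    (step : ∀ i (A : Bld En), S.Ext A → A.Ok → A.len + N ≤ A.circ.T →
      ∃ B b, A.Ext B ∧ B.Ok ∧ B.len ≤ A.len + N ∧ Q i B b)
    (hok : S.Ok) (hb : S.len + Fintype.card ι * N ≤ S.circ.T) :
    ∃ (S' : Bld En) (b : ι → β), S.Ext S' ∧ S'.Ok ∧ S'.len ≤ S.len + Fintype.card ι * N ∧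
      ∀ i, Q i S' (b i) := by
  obtain ⟨S', b, h1, h2, h3, h4⟩ := Bld.push_all (S := S) (Fintype.card ι) N
    (fun i A b => Q ((Fintype.equivFin ι).symm i) A b)
    (fun i _ _ b h => hQ _ b h) (fun i A => step _ A) hok hb
  refine ⟨S', fun i => b (Fintype.equivFin ι i), h1, h2, h3, fun i => ?_⟩
  have := h4 (Fintype.equivFin ι i)
  simpa using this

/-- The bound on the distances after the sweeps. -/
def distBound (b γ X₀ : ℝ) : ℕ → ℝ
  | 0 => X₀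
  | k + 1 => b + γ * distBound b γ X₀ k

theorem distBound_le {b γ X₀ : ℝ} (hb : 0 ≤ b) (hγ0 : 0 ≤ γ) (hγ : γ ≤ 1 / 2) (hX : 0 ≤ X₀)
    (k : ℕ) : distBound b γ X₀ k ≤ 2 * b + γ ^ k * X₀ :=
  contracting (x := distBound b γ X₀) hb hγ0 hγ (fun _ => le_rfl) hX k

theorem distBound_nonneg {b γ X₀ : ℝ} (hb : 0 ≤ b) (hγ0 : 0 ≤ γ) (hX : 0 ≤ X₀) :
    ∀ k, 0 ≤ distBound b γ X₀ k
  | 0 => hX
  | k + 1 => add_nonneg hb (mul_nonneg hγ0 (distBound_nonneg hb hγ0 hX k))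

/-- What the numbers of a loop satisfy: `e`, `l`, `D` come from outside, `g` is the gain. -/
structure Loop (P : Par) (C e l D X₀ g : ℝ) : Prop where
  gains : Gains P.t P.ρ P.G P.θ P.Lx P.Ly g
  t_nn : 0 ≤ P.t
  ρ_pos : 0 < P.ρ
  G_nn : 0 ≤ P.G
  θ_nn : 0 ≤ P.θ
  Lx_ge : 1 ≤ P.Lx
  Ly_ge : 1 ≤ P.Ly
  sx_nn : 0 ≤ P.sx
  sy_nn : 0 ≤ P.sy
  def_nn : 0 ≤ P.def0
  C_nn : 0 ≤ C
  small : 320 * C * g ≤ 1
  e_nn : 0 ≤ e
  l_nn : 0 ≤ l
  D_nn : 0 ≤ D
  X_nn : 0 ≤ X₀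
  dist : 2 * (D + C * sweepSrc P.t P.ρ P.G P.θ P.def0 P.def0 2 2) + X₀ ≤ min 1 (P.ρ / 6)

/-- The source of the distances. -/
def distSrc (P : Par) (C D : ℝ) : ℝ := D + C * sweepSrc P.t P.ρ P.G P.θ P.def0 P.def0 2 2

variable {C e l D X₀ g : ℝ}

theorem Loop.src_nn (h : Loop P C e l D X₀ g) : 0 ≤ distSrc P C D :=
  add_nonneg h.D_nn (mul_nonneg h.C_nn
    (sweepSrc_nonneg h.t_nn h.ρ_pos.le h.G_nn h.θ_nn h.def_nn h.def_nn zero_le_two zero_le_two))

theorem Loop.rate (h : Loop P C e l D X₀ g) : 0 ≤ 160 * C * g ∧ 160 * C * g ≤ 1 / 2 := by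
  have := h.gains.nonneg
  have := h.C_nn
  exact ⟨by positivity, by linarith [h.small]⟩

/-- Repeated sweeps: `Q S b A` says that the forms `b` sit at level `A` in the state `S`. -/
theorem loop_states {β : Type} (h : Loop P C e l D X₀ g) (N : ℕ)
    (Q : Bld En → β → Lev → Prop) {S₀ : Bld En} {b₀ : β} {A₀ : Lev} (hok : S₀.Ok)
    (hQ : Q S₀ b₀ A₀)
    (hA₀ : A₀.Within (2 * (e + C * sweepSrc P.t P.ρ P.G P.θ P.sx P.sy P.Lx P.Ly)) (2 * l) X₀)
    (step : ∀ (S : Bld En) b A, S₀.Ext S → S.Ok → Q S b A → A.Ok P → S.len + N ≤ S.circ.T →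
      ∃ S' b', S.Ext S' ∧ S'.Ok ∧ S'.len ≤ S.len + N ∧ Q S' b' (A.next P C e l D)) :
    ∀ k, S₀.len + k * N ≤ S₀.circ.T → ∃ S b A, S₀.Ext S ∧ S.Ok ∧ S.len ≤ S₀.len + k * N ∧
      Q S b A ∧ A.Ok P ∧
      A.Within (2 * (e + C * sweepSrc P.t P.ρ P.G P.θ P.sx P.sy P.Lx P.Ly)) (2 * l)
        (distBound (distSrc P C D) (160 * C * g) X₀ k) := by
  obtain ⟨hγ0, hγ⟩ := h.rate
  have hb := h.src_nn
  have hlev : ∀ {A : Lev} {E L : ℝ} (k : ℕ),
      A.Within E L (distBound (distSrc P C D) (160 * C * g) X₀ k) → A.Ok P := by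
    intro A E L k hA
    have h1 := distBound_le hb hγ0 hγ h.X_nn k
    have h2 : (160 * C * g) ^ k * X₀ ≤ X₀ :=
      mul_le_of_le_one_left h.X_nn (pow_le_one₀ hγ0 (by linarith))
    have hd := h.dist
    rw [le_min_iff] at hd
    have hsrc : distSrc P C D = D + C * sweepSrc P.t P.ρ P.G P.θ P.def0 P.def0 2 2 := rfl
    exact hA.ok h.ρ_pos (by linarith) (by linarith)
  intro k
  induction k with
  | zero =>
    exact fun _ => ⟨S₀, b₀, A₀, Bld.Ext.refl S₀, hok, by simp, hQ, hlev 0 hA₀, hA₀⟩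
  | succ k ih =>
    intro hk
    rw [Nat.succ_mul] at hk
    obtain ⟨S, b, A, hext, hSok, hlen, hS, hAok, hA⟩ := ih (by omega)
    obtain ⟨S', b', h1, h2, h3, h4⟩ := step S b A hext hSok hS hAok (by rw [hext.T]; omega)
    have hnext := hA.next (e := e) (l := l) (D := D) h.gains h.t_nn h.ρ_pos.le h.G_nn h.θ_nn
      h.Lx_ge h.Ly_ge h.sx_nn h.sy_nn h.def_nn h.C_nn h.small h.e_nn h.l_nn h.D_nn le_rfl le_rfl
    exact ⟨S', b', _, hext.trans h1, h2, by rw [Nat.succ_mul]; omega, h4, hlev (k + 1) hnext,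
      hnext⟩

end

end P347.Zero
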