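import Vale.Agent.P347.Zero.PassParams
import Vale.Agent.P347.Zero.PassLoop

/-!
# P347: the numbers of the loop of sweeps and of its end

Errors, Lipschitz constants and distances which are bounded by a constant times what comes from the
sampler, the fine end and the quadrature satisfy `Loop`, and what the last sweep hands over is
within the exponents of `PassSpec`.
-/

namespace P347.Zero

open MeasureTheory ProbabilityTheory Filter Topology

noncomputable section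

variable {ε η K α β κ : ℝ} {p x y : Expo} {d : ℕ} {t : ℝ}

namespace PassHyp

variable (H : PassHyp ε η K α β κ p x y)
include H

/-- The numbers of a pass satisfy `Loop`. -/
theorem loop (C : ℝ) : ∀ᶠ d : ℕ in atTop, ∀ t : ℝ, 2 * passS d K < t → t ≤ (d : ℝ) ^ (-ε) →
    ∀ C' e l D X₀ : ℝ, 0 ≤ C' → C' ≤ C → 0 ≤ e → 0 ≤ l → 0 ≤ D → 0 ≤ X₀ →
      D ≤ C * ((d : ℝ) ^ (-(|K| + 15)) + √(passS d K) + passS d K + t
        + t / (√t * (d : ℝ) ^ β / √2)) →
      X₀ ≤ C * ((d : ℝ) ^ (-(|K| + 15)) + √(passS d K) + passS d K + t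
        + t / (√t * (d : ℝ) ^ β / √2)) →
      Loop (passPar d t η K α β κ x y) C' e l D X₀ (4 * (d : ℝ) ^ (-(η / 2))) := by
  filter_upwards [ev_two, H.rho_facts, H.gains, H.gain_small (320 * |C|), H.def_le,
    H.small (36 * |C|)] with d hd hρ hg hg1 hdef hsm t hts hte C' e l D X₀ hC0 hC he hl hD hX hDb hXb
  obtain ⟨hs, ht, ht1⟩ := H.t_facts hd hts hte
  have hd0 : (0 : ℝ) < d := by linarith
  have hd1 : (1 : ℝ) ≤ d := by linarith
  obtain ⟨hρ1, -⟩ := hρ t ht.le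
  have hρ0 : 0 < √t * (d : ℝ) ^ β / √2 := lt_of_lt_of_le (Real.sqrt_pos.2 ht) hρ1
  obtain ⟨s1, s2⟩ := hsm t hts hte
  have hC' : C' ≤ |C| := hC.trans (le_abs_self C)
  refine ⟨hg t ht hte, ht.le, hρ0, Real.rpow_nonneg hd0.le _, Real.rpow_nonneg hd0.le _,
    Real.one_le_rpow hd1 H.xl, Real.one_le_rpow hd1 H.yl, Real.rpow_nonneg hd0.le _,
    Real.rpow_nonneg hd0.le _, Real.rpow_nonneg hd0.le _, hC0, ?_, he, hl, hD, hX, ?_⟩
  · refine le_trans ?_ hg1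
    gcongr
  · simp only [passPar]
    set S := (d : ℝ) ^ (-(|K| + 15)) + √(passS d K) + passS d K + t
      + t / (√t * (d : ℝ) ^ β / √2)
    set src := sweepSrc t (√t * (d : ℝ) ^ β / √2) ((d : ℝ) ^ (η / 16)) ((d : ℝ) ^ (-κ))
      ((d : ℝ) ^ (-passR K β κ)) ((d : ℝ) ^ (-passR K β κ)) 2 2
    have hS : 0 ≤ S := by positivity
    have hsrc0 : C' * src ≤ |C| * S := by
      refine (mul_le_mul_of_nonneg_left ((hdef.2 t ht hte).trans ?_) hC0).trans
        (mul_le_mul_of_nonneg_right hC' hS)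
      have : 0 ≤ √(passS d K) + passS d K + t + t / (√t * (d : ℝ) ^ β / √2) := by positivity
      simp only [S]
      linarith
    have hCS : C * S ≤ |C| * S := mul_le_mul_of_nonneg_right (le_abs_self C) hS
    have : 2 * (D + C' * src) + X₀ ≤ 6 * (|C| * S) := by
      nlinarith [mul_nonneg (abs_nonneg C) hS]
    refine le_min ?_ ?_
    · nlinarith [mul_nonneg (abs_nonneg C) hS]
    · nlinarith [mul_nonneg (abs_nonneg C) hS]

/-- What the last sweep hands over is within the exponents. -/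
theorem ends : ∃ N : ℕ, ∀ n, N ≤ n → ∀ C : ℝ, ∀ᶠ d : ℕ in atTop, ∀ t : ℝ,
    2 * passS d K < t → t ≤ (d : ℝ) ^ (-ε) →
    ∀ C' e l D X₀ : ℝ, 0 ≤ C' → C' ≤ C → 0 ≤ e → 0 ≤ l → 0 ≤ X₀ → X₀ ≤ 1 →
      e ≤ C * (t * (d : ℝ) ^ (-p.D)
        + ((d : ℝ) ^ (-(|K| + 15)) + √(passS d K) + passS d K)) →
      D ≤ C * ((d : ℝ) ^ (-(|K| + 15)) + √(passS d K) + passS d K) →
      l ≤ C * (1 + (d : ℝ) ^ p.ℓ) →
      2 * (e + C' * sweepSrc t (√t * (d : ℝ) ^ β / √2) ((d : ℝ) ^ (η / 16)) ((d : ℝ) ^ (-κ))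
          ((d : ℝ) ^ (-x.D)) ((d : ℝ) ^ (-y.D)) ((d : ℝ) ^ x.ℓ) ((d : ℝ) ^ y.ℓ))
        + (2 * distSrc (passPar d t η K α β κ x y) C' D
          + (160 * C' * (4 * (d : ℝ) ^ (-(η / 2)))) ^ n * X₀)
        ≤ (d : ℝ) ^ (-(min K (min (min p.D (x.D - x.ℓ - y.ℓ)) (y.D - κ) + β) - η)) ∧
      2 * l ≤ (d : ℝ) ^ (p.ℓ + η) := by
  obtain ⟨N, hN⟩ := H.tails 0
  refine ⟨N, fun n hn C => ?_⟩
  filter_upwards [ev_two, H.final (8 * |C| + 1) (by positivity), H.def_le,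
    H.lip_final (2 * |C|), hN n hn (160 * |C| + 1) (by positivity)]
    with d hd hfin hdef hlip htail t hts hte C' e l D X₀ hC0 hC he hl hX hX1 heb hDb hlb
  obtain ⟨hs, ht, ht1⟩ := H.t_facts hd hts hte
  have hd0 : (0 : ℝ) < d := by linarith
  have hd1 : (1 : ℝ) ≤ d := by linarith
  have hC' : C' ≤ |C| := hC.trans (le_abs_self C)
  refine ⟨le_trans ?_ (hfin t hts hte), ?_⟩
  · set P' := t * (d : ℝ) ^ (-p.D)
    set R' := (d : ℝ) ^ (-(|K| + 15)) + √(passS d K) + passS d K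
    set src := sweepSrc t (√t * (d : ℝ) ^ β / √2) ((d : ℝ) ^ (η / 16)) ((d : ℝ) ^ (-κ))
      ((d : ℝ) ^ (-x.D)) ((d : ℝ) ^ (-y.D)) ((d : ℝ) ^ x.ℓ) ((d : ℝ) ^ y.ℓ)
    set dsrc := sweepSrc t (√t * (d : ℝ) ^ β / √2) ((d : ℝ) ^ (η / 16)) ((d : ℝ) ^ (-κ))
      ((d : ℝ) ^ (-passR K β κ)) ((d : ℝ) ^ (-passR K β κ)) 2 2
    have hρ : 0 ≤ √t * (d : ℝ) ^ β / √2 := by positivity
    have hsrc : 0 ≤ src := by
      simp only [src, sweepSrc, sweepOut, tanP, tanQ, sqP, sqQ, uPart]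
      positivity
    have hP : 0 ≤ P' := by positivity
    have hR : 0 ≤ R' := by positivity
    have hk : (d : ℝ) ^ (-(|K| + 15)) ≤ R' := by
      have : 0 ≤ √(passS d K) + passS d K := by positivity
      simp only [R']
      linarith
    have hdsrc : C' * dsrc ≤ |C| * R' :=
      (mul_le_mul_of_nonneg_left ((hdef.2 t ht hte).trans hk) hC0).trans
        (mul_le_mul_of_nonneg_right hC' hR)
    have htl : (160 * C' * (4 * (d : ℝ) ^ (-(η / 2)))) ^ n * X₀ ≤ R' := by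
      have hb0 : 0 ≤ 160 * C' * (4 * (d : ℝ) ^ (-(η / 2))) := by positivity
      refine (mul_le_of_le_one_right (pow_nonneg hb0 n) hX1).trans (le_trans ?_
        (le_trans (htail _ hb0 ?_) (hdef.1.trans hk)))
      · rw [pow_zero, mul_one]
        exact le_mul_of_one_le_left (pow_nonneg hb0 n) (by linarith [abs_nonneg C])
      · right; right; right; right; right; right
        refine mul_le_mul_of_nonneg_right ?_ (by positivity)
        linarith
    have e1 : C * (P' + R') ≤ |C| * (P' + R') :=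
      mul_le_mul_of_nonneg_right (le_abs_self C) (add_nonneg hP hR)
    have e2 : C * R' ≤ |C| * R' := mul_le_mul_of_nonneg_right (le_abs_self C) hR
    have e3 : C' * src ≤ |C| * src := mul_le_mul_of_nonneg_right hC' hsrc
    show 2 * (e + C' * src) + (2 * (D + C' * dsrc)
      + (160 * C' * (4 * (d : ℝ) ^ (-(η / 2)))) ^ n * X₀) ≤ _
    nlinarith [mul_nonneg (abs_nonneg C) hP, mul_nonneg (abs_nonneg C) hR,
      mul_nonneg (abs_nonneg C) hsrc]
  · refine le_trans ?_ hlip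
    have h1 : (0 : ℝ) ≤ 1 + (d : ℝ) ^ p.ℓ := by positivity
    nlinarith [mul_le_mul_of_nonneg_right (le_abs_self C) h1]

/-- The tail of a node and the quadrature defect, in the shapes of the blocks. -/
theorem block_tails : ∃ N : ℕ, ∀ n M k L, N ≤ n → N + 1 ≤ M → N ≤ k → N ≤ L → ∀ C : ℝ, 0 ≤ C →
    ∀ᶠ d : ℕ in atTop,
      C * ((C * ((d : ℝ) ^ (-(η / 100))) ^ 2) ^ L + ((d : ℝ) ^ (-(η / 100))) ^ n
          + (C * (d : ℝ) ^ (-κ)) ^ k + ((d : ℝ) ^ (-κ)) ^ (M - 1)) ≤ (d : ℝ) ^ (-passR K β κ) ∧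
      ∀ J : ℕ, (J : ℝ) ≤ (d : ℝ) ^ (3 * (η / 100)) →
        C * (J * √((d : ℝ) ^ (-(η / 100))) ^ (n + 1)) ≤ (d : ℝ) ^ (-passR K β κ) := by
  obtain ⟨N₀, h₀⟩ := H.tails 0
  obtain ⟨N₁, h₁⟩ := H.tails 1
  refine ⟨max N₀ N₁, fun n M k L hn hM hk hL C hC => ?_⟩
  have hC' : 0 ≤ 4 * C + 1 := by linarith
  filter_upwards [ev_two, h₀ L (le_trans (le_max_left _ _) hL) _ hC',
    h₀ n (le_trans (le_max_left _ _) hn) _ hC', h₀ k (le_trans (le_max_left _ _) hk) _ hC',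
    h₀ (M - 1) (le_trans (le_max_left _ _) (show max N₀ N₁ ≤ M - 1 by omega)) _ hC',
    h₁ (n + 1) (le_trans (le_max_right _ _) (show max N₀ N₁ ≤ n + 1 by omega)) _ hC'] with d hd a1 a2 a3 a4 a5
  have hd1 : (1 : ℝ) ≤ d := by linarith
  have hd0 : (0 : ℝ) < d := by linarith
  have hh : 0 ≤ (d : ℝ) ^ (-(η / 100)) := Real.rpow_nonneg hd0.le _
  have hθ : 0 ≤ (d : ℝ) ^ (-κ) := Real.rpow_nonneg hd0.le _
  set D := (d : ℝ) ^ (-passR K β κ)
  have b1 := a1 _ (mul_nonneg hC (sq_nonneg ((d : ℝ) ^ (-(η / 100)))))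
    (Or.inl (by nlinarith [sq_nonneg ((d : ℝ) ^ (-(η / 100)))]))
  have b2 := a2 _ hh (Or.inr (Or.inl (le_mul_of_one_le_left hh (by linarith))))
  have b3 := a3 _ (mul_nonneg hC hθ) (Or.inr (Or.inr (Or.inr (Or.inl
    (by nlinarith)))))
  have b4 := a4 _ hθ (Or.inr (Or.inr (Or.inr (Or.inl (le_mul_of_one_le_left hθ (by linarith))))))
  simp only [pow_zero, mul_one] at b1 b2 b3 b4
  have q1 := pow_nonneg (mul_nonneg hC (sq_nonneg ((d : ℝ) ^ (-(η / 100))))) L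
  have q2 := pow_nonneg hh n
  have q3 := pow_nonneg (mul_nonneg hC hθ) k
  have q4 := pow_nonneg hθ (M - 1)
  refine ⟨by nlinarith, fun J hJ => ?_⟩
  refine le_trans ?_ (a5 _ (Real.sqrt_nonneg _) (Or.inr (Or.inr (Or.inl
    (le_mul_of_one_le_left (Real.sqrt_nonneg _) (by linarith))))))
  have hamp : (J : ℝ) ≤ (d : ℝ) ^ (η / 16) * (d : ℝ) ^ κ * (d : ℝ) ^ (3 * (η / 100)) :=
    hJ.trans (le_mul_of_one_le_left (Real.rpow_nonneg hd0.le _) (one_le_mul_of_one_le_of_one_le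
      (Real.one_le_rpow hd1 (by linarith [H.η_pos]))
      (Real.one_le_rpow hd1 (by linarith [H.κ_ge, H.η_pos]))))
  rw [pow_one, ← mul_assoc]
  exact mul_le_mul_of_nonneg_right
    (mul_le_mul (by linarith) hamp (Nat.cast_nonneg J) hC') (by positivity)

end PassHyp

end

end P347.Zero
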