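import Vale.Agent.P347.Zero.Defs

/-!
# P347: interfaces of the upward pass

At time `q` the point is `y + q • w`, at variance `t - q ^ 2`. The pair field moves `(w, U)` so that
the law of `w` of the flow and an independent standard Gaussian `U` is kept and
`score + ρ • U` changes only by the computable velocity `(q / ρ) • B (B U)`, `B` the derivative of
the score.
-/

namespace P347.Zero

open MeasureTheory ProbabilityTheory
open scoped RealInnerProductSpace

noncomputable section

variable {d : ℕ}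

/-- The derivative of the score. -/
def scoreD (V : Space d → ℝ) (r : ℝ) (z : Space d) : Space d →L[ℝ] Space d :=
  fderiv ℝ (score V r) z

/-- The mean of `f` when `w` has the law of the flow at time `q` and `U` is an independent
standard Gaussian. -/
def pairMean (V : Space d → ℝ) (y : Space d) (t q : ℝ) (f : Space d × Space d → ℝ) : ℝ :=
  (∫ a, (∫ u, f (a, u) ∂stdGaussian (Space d)) * smooth V (t - q ^ 2) (y + q • a)
      ∂stdGaussian (Space d)) / smooth V t y

/-- The flow of the pair field on `[0, q₁]`, given by its values at the fine end `q₁`. -/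
structure IsPair (V : Space d → ℝ) (y : Space d) (t ρ q₁ : ℝ)
    (w U : ℝ → Space d × Space d → Space d) : Prop where
  init : ∀ z, w q₁ z = z.1 ∧ U q₁ z = z.2
  derivW : ∀ z, ∀ q ∈ Set.Icc 0 q₁, HasDerivWithinAt (fun s => w s z)
    (score V (t - q ^ 2) (y + q • w q z) + ρ⁻¹ • scoreD V (t - q ^ 2) (y + q • w q z) (U q z))
    (Set.Icc 0 q₁) q
  derivX : ∀ z, ∀ q ∈ Set.Icc 0 q₁, HasDerivWithinAt
    (fun s => score V (t - s ^ 2) (y + s • w s z) + ρ • U s z)
    ((q / ρ) • scoreD V (t - q ^ 2) (y + q • w q z)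
      (scoreD V (t - q ^ 2) (y + q • w q z) (U q z)))
    (Set.Icc 0 q₁) q
  cont : ∀ q ∈ Set.Icc 0 q₁, Continuous (w q) ∧ Continuous (U q)

/-- The pair flow exists and keeps the pair law: the value of `score + ρ • U` at time `0` has the
law of the score at `(y, t)` plus `ρ` times a standard Gaussian. -/
def PairSpec : Prop :=
  ∀ (d : ℕ) (V : Space d → ℝ), Quarter.InClass V → ∀ (y : Space d) (t ρ q₁ : ℝ), 0 < t → t ≤ 1 →
    0 < ρ → 0 ≤ q₁ → q₁ ^ 2 < t →
    ∃ w U, IsPair V y t ρ q₁ w U ∧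
      ∀ f : Space d × Space d → ℝ, Continuous f → (∀ x, f x ∈ Set.Icc (0 : ℝ) 1) →
        ∀ q ∈ Set.Icc 0 q₁,
          pairMean V y t q₁ (fun z => f (w q z, U q z)) = pairMean V y t q f

/-- The squared norm in `L²` of the pair law at time `q`, as an extended number. -/
def pairSq (V : Space d → ℝ) (y : Space d) (t q : ℝ) (F : Space d × Space d → Space d) :
    ENNReal :=
  ∫⁻ a, (∫⁻ u, ENNReal.ofReal (‖F (a, u)‖ ^ 2) ∂stdGaussian (Space d))
    * ENNReal.ofReal (smooth V (t - q ^ 2) (y + q • a) / smooth V t y) ∂stdGaussian (Space d)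

/-- The functions that are evaluated at the nodes along the pair flow. -/
def nodeFn (V : Space d → ℝ) (y : Space d) (t : ℝ) (w U : ℝ → Space d × Space d → Space d)
    (z : Space d × Space d) (j : Fin 3) (s : ℝ) : Space d :=
  match j with
  | 0 => score V (t - s ^ 2) (y + s • w s z)
  | 1 => scoreD V (t - s ^ 2) (y + s • w s z) (U s z)
  | 2 => scoreD V (t - s ^ 2) (y + s • w s z) (scoreD V (t - s ^ 2) (y + s • w s z) (U s z))

/-- Derivatives in time along the pair flow, when the noise is at least `√t`. -/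
def PairTimeSpec : Prop :=
  ∀ m : ℕ, ∃ C : ℝ, 0 < C ∧ ∀ (d : ℕ) (V : Space d → ℝ), Quarter.InClass V →
    ∀ (y : Space d) (t ρ q₁ : ℝ), 0 < t → t ≤ 1 → √t ≤ ρ → 0 < q₁ → q₁ ^ 2 < t →
    ∀ w U, IsPair V y t ρ q₁ w U → ∀ j : Fin 3,
      (∀ z, ContDiffOn ℝ m (nodeFn V y t w U z j) (Set.Icc 0 q₁)) ∧
      ∀ q ∈ Set.Icc 0 q₁,
        pairSq V y t q₁ (fun z => iteratedDerivWithin m (nodeFn V y t w U z j) (Set.Icc 0 q₁) q)
          ≤ ENNReal.ofReal ((C * (√d + ‖score V t y‖) * (√t / √(t - q ^ 2))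
              * (√t / (t - q ^ 2)) ^ m) ^ 2)

/-- An oracle for the score at variance `r`: from a centre blurred at size `τ` it returns, up to
`δ` in `L²`, the score at the centre plus an exact Gaussian of size `ρ`; it is Lipschitz in the
blurred centre. -/
structure Valid {Ω : Type} [MeasurableSpace Ω] (P : Measure Ω)
    (A : Alg d (Ω × Space d) (Space d)) (V : Space d → ℝ) (r τ ρ δ L : ℝ) : Prop where
  law : ∃ Z : Space d → Space d × Ω → Space d, Measurable (Function.uncurry Z) ∧
    (∀ c, ((stdGaussian (Space d)).prod P).map (Z c) = stdGaussian (Space d)) ∧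
    ∀ c, (∫⁻ N, ∫⁻ ω, ENNReal.ofReal (‖A.eval (oracle V) (ω, c + τ • N)
        - (score V r c + ρ • Z c (N, ω))‖ ^ 2) ∂P ∂stdGaussian (Space d))
      ≤ ENNReal.ofReal ((δ * (√d + ‖c‖)) ^ 2)
  lip : ∀ ω c c', ‖A.eval (oracle V) (ω, c) - A.eval (oracle V) (ω, c')‖ ≤ L * ‖c - c'‖

end

end P347.Zero
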