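import Vale.Agent.P347.Zero.Picard
import Vale.Agent.P347.Zero.Specs

/-!
# P347: the law of the pair at a time and the geometric grid of the upward pass

The variances `geomR t s h j` fall geometrically from `t` to `s`; `pairGrid` gives the times of
these variances. A cell is short against its variance, and the weights `upWeight` give the integral
from a node up to the fine end; they use only the cell of the node and finer cells.
-/

namespace P347.Zero

open MeasureTheory ProbabilityTheory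
open scoped ENNReal

noncomputable section

variable {d : ℕ}

/-- The law of the pair at time `q`. -/
def pairLaw (V : Space d → ℝ) (y : Space d) (t q : ℝ) : Measure (Space d × Space d) :=
  ((stdGaussian (Space d)).withDensity fun a =>
    ENNReal.ofReal (smooth V (t - q ^ 2) (y + q • a) / smooth V t y)).prod (stdGaussian (Space d))

/-- The variances at the ends of the cells. -/
def geomR (t s h : ℝ) (j : ℕ) : ℝ := max (t * (1 - h) ^ j) s

/-- The times at the ends of the cells. -/
def pairGrid (t s h : ℝ) (j : ℕ) : ℝ := √(t - geomR t s h j)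

/-- The weights of the integral from a node to the end of the grid. -/
def upWeight {J M : ℕ} (g : ℕ → ℝ) (p q : Fin J × Fin M) : ℝ :=
  gridFull g q - gridWeight g p q

variable {t s h : ℝ}

theorem geomR_zero (hst : s ≤ t) : geomR t s h 0 = t := by simp [geomR, hst]

theorem le_geomR (j : ℕ) : s ≤ geomR t s h j := le_max_right _ _

theorem geomR_antitone (ht : 0 ≤ t) (h0 : 0 ≤ h) (h1 : h ≤ 1) : Antitone (geomR t s h) :=
  antitone_nat_of_succ_le fun j => max_le_max (by
    rw [pow_succ]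
    refine mul_le_mul_of_nonneg_left ?_ ht
    exact mul_le_of_le_one_right (pow_nonneg (by linarith) j) (by linarith)) le_rfl

theorem geomR_le (ht : 0 ≤ t) (hst : s ≤ t) (h0 : 0 ≤ h) (h1 : h ≤ 1) (j : ℕ) :
    geomR t s h j ≤ t := by
  simpa [geomR_zero hst] using geomR_antitone (s := s) ht h0 h1 (Nat.zero_le j)

theorem geomR_succ (hs : 0 ≤ s) (h0 : 0 ≤ h) (h1 : h ≤ 1) (j : ℕ) :
    (1 - h) * geomR t s h j ≤ geomR t s h (j + 1) := by
  rw [geomR, geomR, mul_max_of_nonneg _ _ (by linarith)]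
  refine max_le_max ?_ (mul_le_of_le_one_left hs (by linarith))
  rw [pow_succ]
  exact le_of_eq (by ring)

theorem geomR_last (j : ℕ) (hJ : t * (1 - h) ^ j ≤ s) : geomR t s h j = s := max_eq_right hJ

theorem pairGrid_monotone (ht : 0 ≤ t) (h0 : 0 ≤ h) (h1 : h ≤ 1) : Monotone (pairGrid t s h) :=
  fun _ _ hij => Real.sqrt_le_sqrt (sub_le_sub_left (geomR_antitone ht h0 h1 hij) t)

theorem pairGrid_zero (hst : s ≤ t) : pairGrid t s h 0 = 0 := by
  simp [pairGrid, geomR_zero hst]

theorem pairGrid_last (j : ℕ) (hJ : t * (1 - h) ^ j ≤ s) : pairGrid t s h j = √(t - s) := by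
  simp [pairGrid, geomR_last j hJ]

/-- Enough cells to reach the fine end. -/
theorem exists_cells (hs : 0 < s) (hst : s ≤ t) (h0 : 0 < h) (h1 : h ≤ 1) :
    ∃ J : ℕ, (J : ℝ) ≤ Real.log (t / s) / h + 1 ∧ t * (1 - h) ^ J ≤ s := by
  have ht : 0 < t := hs.trans_le hst
  have hl : 0 ≤ Real.log (t / s) := Real.log_nonneg ((one_le_div hs).2 hst)
  refine ⟨⌈Real.log (t / s) / h⌉₊, (Nat.ceil_lt_add_one (div_nonneg hl h0.le)).le, ?_⟩
  set J := ⌈Real.log (t / s) / h⌉₊
  have hJ : Real.log (t / s) ≤ J * h := (div_le_iff₀ h0).1 (Nat.le_ceil _)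
  calc t * (1 - h) ^ J ≤ t * Real.exp (-h) ^ J :=
        mul_le_mul_of_nonneg_left (pow_le_pow_left₀ (by linarith)
          (by linarith [Real.add_one_le_exp (-h)]) J) ht.le
    _ ≤ t * Real.exp (-Real.log (t / s)) := by
        rw [← Real.exp_nat_mul]
        exact mul_le_mul_of_nonneg_left (Real.exp_le_exp.2 (by linarith)) ht.le
    _ = s := by
        rw [Real.exp_neg, Real.exp_log (div_pos ht hs)]
        field_simp

/-- Square roots of `t - a` and `t - b`, for `b ≤ a`, differ by at most `√2 (a - b) / √t` when `a`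
is small. -/
theorem sqrt_sub_sqrt_small {a b : ℝ} (ht : 0 < t) (hba : b ≤ a) (ha : 2 * a ≤ t) :
    √(t - b) - √(t - a) ≤ √2 * (a - b) / √t := by
  have h2 : √(t / 2) = √t / √2 := Real.sqrt_div ht.le 2
  have hpos : 0 < √t / √2 := by positivity
  have hsum : √t / √2 ≤ √(t - b) + √(t - a) := by
    have : √(t / 2) ≤ √(t - b) := Real.sqrt_le_sqrt (by linarith)
    linarith [Real.sqrt_nonneg (t - a)]
  have e : (√(t - b) - √(t - a)) * (√(t - b) + √(t - a)) = a - b := by
    nlinarith [Real.sq_sqrt (show 0 ≤ t - b by linarith), Real.sq_sqrt (show 0 ≤ t - a by linarith)]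
  have hd : 0 ≤ √(t - b) - √(t - a) := sub_nonneg.2 (Real.sqrt_le_sqrt (by linarith))
  have := mul_le_mul_of_nonneg_left hsum hd
  rw [e, ← le_div_iff₀ hpos] at this
  refine this.trans (le_of_eq ?_)
  field_simp

/-- In general they differ by at most `2 a / √t`. -/
theorem sqrt_sub_sqrt_le {a b : ℝ} (ht : 0 < t) (hb : 0 ≤ b) (hba : b ≤ a) :
    √(t - b) - √(t - a) ≤ 2 * a / √t := by
  have h2 : √2 ≤ 2 := by nlinarith [Real.sqrt_nonneg 2, Real.sq_sqrt (show (0:ℝ) ≤ 2 by norm_num)]
  have ht' := Real.sqrt_pos.2 ht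
  rcases le_or_gt (2 * a) t with ha | ha
  · refine (sqrt_sub_sqrt_small ht hba ha).trans (div_le_div_of_nonneg_right ?_ ht'.le)
    nlinarith [Real.sqrt_nonneg 2]
  · rw [le_div_iff₀ ht']
    have : (√(t - b) - √(t - a)) ≤ √t := by
      have := Real.sqrt_le_sqrt (show t - b ≤ t by linarith)
      linarith [Real.sqrt_nonneg (t - a)]
    nlinarith [Real.sq_sqrt ht.le]

/-- A cell is short against its variance. -/
theorem pairGrid_cell (ht : 0 < t) (hs : 0 ≤ s) (hst : s ≤ t) (h0 : 0 ≤ h) (h1 : h ≤ 1) (j : ℕ) :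
    pairGrid t s h (j + 1) - pairGrid t s h j ≤ 2 * √h * geomR t s h j / √t := by
  unfold pairGrid
  set a := geomR t s h j
  set b := geomR t s h (j + 1)
  have hba : b ≤ a := geomR_antitone ht.le h0 h1 (Nat.le_succ j)
  have hb : 0 ≤ b := hs.trans (le_geomR _)
  have hat : a ≤ t := geomR_le ht.le hst h0 h1 j
  have hd : a - b ≤ h * a := by nlinarith [geomR_succ (t := t) hs h0 h1 j]
  have ht' := Real.sqrt_pos.2 ht
  have hh : h ≤ √h := Real.le_sqrt_of_sq_le (by nlinarith)
  have h2 : √2 ≤ 2 := by nlinarith [Real.sqrt_nonneg 2, Real.sq_sqrt (show (0:ℝ) ≤ 2 by norm_num)]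
  have ha0 : 0 ≤ a := hb.trans hba
  rcases le_or_gt (2 * a) t with ha | ha
  · refine (sqrt_sub_sqrt_small ht hba ha).trans (div_le_div_of_nonneg_right ?_ ht'.le)
    calc √2 * (a - b) ≤ 2 * (√h * a) :=
          mul_le_mul h2 (hd.trans (mul_le_mul_of_nonneg_right hh ha0)) (by linarith) zero_le_two
      _ = 2 * √h * a := by ring
  · have h3 : √(t - b) - √(t - a) ≤ √(a - b) := by
      have e : √(t - b) ≤ √(t - a) + √(a - b) := by
        refine (Real.sqrt_le_left (by positivity)).2 ?_
        nlinarith [Real.sq_sqrt (show 0 ≤ t - a by linarith), Real.sq_sqrt (show 0 ≤ a - b by linarith),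
          mul_nonneg (Real.sqrt_nonneg (t - a)) (Real.sqrt_nonneg (a - b))]
      linarith
    have h4 : √(a - b) ≤ √h * √a := by
      rw [← Real.sqrt_mul h0]; exact Real.sqrt_le_sqrt hd
    refine (h3.trans h4).trans ((le_div_iff₀ ht').2 ?_)
    have h5 : √a * √t ≤ 2 * a := by
      rw [← Real.sqrt_mul ha0]
      refine (Real.sqrt_le_left (by linarith)).2 ?_
      nlinarith
    nlinarith [mul_le_mul_of_nonneg_left h5 (Real.sqrt_nonneg h)]

/-- The part of the grid finer than a cell is short against its variance. -/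
theorem pairGrid_tail (ht : 0 < t) (hs : 0 ≤ s) (j : ℕ) :
    √(t - s) - pairGrid t s h j ≤ 2 * geomR t s h j / √t :=
  sqrt_sub_sqrt_le ht hs (le_geomR j)

/-- Lower sums of `1 / √(t - q ^ 2)` are bounded. -/
theorem pairGrid_sum_inv (ht : 0 < t) (hs : 0 < s) (hst : s ≤ t) (h0 : 0 ≤ h) (h1 : h ≤ 1)
    (J : ℕ) : ∑ j ∈ Finset.range J, (pairGrid t s h (j + 1) - pairGrid t s h j) / √(geomR t s h j)
      ≤ 5 := by
  set g := pairGrid t s h
  set r := geomR t s h
  set Φ : ℕ → ℝ := fun j => 2 * g j / √t - 3 * √(r j) / √t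
  have hanti : Antitone r := geomR_antitone ht.le h0 h1
  have ht' := Real.sqrt_pos.2 ht
  have key : ∀ j, (g (j + 1) - g j) / √(r j) ≤ Φ (j + 1) - Φ j := by
    intro j
    have hr : 0 < r j := hs.trans_le (le_geomR j)
    have hr' : 0 ≤ r (j + 1) := hs.le.trans (le_geomR _)
    have hba : r (j + 1) ≤ r j := hanti (Nat.le_succ j)
    have hg : 0 ≤ g (j + 1) - g j := sub_nonneg.2 (pairGrid_monotone ht.le h0 h1 (Nat.le_succ j))
    have hsq : √(r (j + 1)) ≤ √(r j) := Real.sqrt_le_sqrt hba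
    have hR := Real.sqrt_pos.2 hr
    have e : Φ (j + 1) - Φ j = (2 * (g (j + 1) - g j) + 3 * (√(r j) - √(r (j + 1)))) / √t := by
      simp only [Φ]; field_simp; ring
    rw [e, div_le_div_iff₀ hR ht']
    rcases le_or_gt (2 * r j) t with ha | ha
    · have h3 := sqrt_sub_sqrt_small (b := r (j + 1)) ht hba ha
      rw [le_div_iff₀ ht'] at h3
      have h3' : (g (j + 1) - g j) * √t ≤ √2 * (r j - r (j + 1)) := h3
      have h2 : √2 * (r j - r (j + 1)) ≤ 3 * (√(r j) - √(r (j + 1))) * √(r j) := by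
        have : r j - r (j + 1) ≤ 2 * ((√(r j) - √(r (j + 1))) * √(r j)) := by
          nlinarith [Real.sq_sqrt hr.le, Real.sq_sqrt hr', Real.sqrt_nonneg (r (j + 1))]
        have h2 : √2 ≤ 3 / 2 := (Real.sqrt_le_left (by norm_num)).2 (by norm_num)
        nlinarith [sub_nonneg.2 hba, Real.sqrt_nonneg 2]
      nlinarith [mul_nonneg hg hR.le]
    · have h5 : √t ≤ 2 * √(r j) := (Real.sqrt_le_left (by positivity)).2 (by
        nlinarith [Real.sq_sqrt hr.le])
      nlinarith [mul_le_mul_of_nonneg_left h5 hg, sub_nonneg.2 hsq, hR]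
  refine (Finset.sum_le_sum fun j _ => key j).trans ?_
  rw [Finset.sum_range_sub Φ J]
  have h3 : g J ≤ √t := Real.sqrt_le_sqrt (by linarith [hs.le.trans (le_geomR (t := t) (h := h) J)])
  have e0 : Φ 0 = -3 := by
    simp only [Φ, g, r, pairGrid_zero hst, geomR_zero hst]
    field_simp; ring
  have eJ : Φ J ≤ 2 := by
    simp only [Φ]
    have : g J / √t ≤ 1 := (div_le_one ht').2 h3
    have h4 : 0 ≤ √(r J) / √t := by positivity
    rw [mul_div_assoc, mul_div_assoc]
    linarith
  linarith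

/-- The variance of a node lies between those of the ends of its cell. -/
theorem gridNode_variance (ht : 0 < t) (hs : 0 < s) (hst : s ≤ t) (h0 : 0 ≤ h) (h1 : h ≤ 1)
    {J M : ℕ} (p : Fin J × Fin M) :
    t - gridNode (pairGrid t s h) p ^ 2
      ∈ Set.Icc (geomR t s h ((p.1 : ℕ) + 1)) (geomR t s h p.1) := by
  have hm := gridNode_mem_cell (pairGrid_monotone (s := s) ht.le h0 h1) p
  have h3 : ∀ j, 0 ≤ t - geomR t s h j := fun j => sub_nonneg.2 (geomR_le ht.le hst h0 h1 j)
  have hn : 0 ≤ gridNode (pairGrid t s h) p := le_trans (Real.sqrt_nonneg _) hm.1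
  have ha : √(t - geomR t s h p.1) ^ 2 ≤ gridNode (pairGrid t s h) p ^ 2 :=
    pow_le_pow_left₀ (Real.sqrt_nonneg _) hm.1 2
  have hb : gridNode (pairGrid t s h) p ^ 2 ≤ √(t - geomR t s h ((p.1 : ℕ) + 1)) ^ 2 :=
    pow_le_pow_left₀ hn hm.2 2
  rw [Real.sq_sqrt (h3 _)] at ha hb
  exact ⟨by linarith, by linarith⟩

variable {J M : ℕ} {g : ℕ → ℝ}

/-- Coarser cells do not enter. -/
theorem upWeight_eq_zero {p q : Fin J × Fin M} (hq : q.1 < p.1) : upWeight g p q = 0 := by
  simp [upWeight, gridFull, gridWeight, if_pos hq]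

/-- Weighted sums over the nodes from a node upwards. -/
theorem sum_abs_upWeight_le (hg : Monotone g) (p : Fin J × Fin M) {F : Fin J → ℝ}
    (hF : ∀ j, 0 ≤ F j) :
    ∑ q, |upWeight g p q| * F q.1 ≤
      2 * toSize M * ∑ j : Fin J, if p.1 ≤ j then (g ((j : ℕ) + 1) - g j) * F j else 0 := by
  rw [Fintype.sum_prod_type, Finset.mul_sum]
  refine Finset.sum_le_sum fun j _ => ?_
  show ∑ i, |upWeight g p (j, i)| * F j ≤ _
  rw [← Finset.sum_mul]
  have hh : 0 ≤ g ((j : ℕ) + 1) - g j := sub_nonneg.2 (hg (Nat.le_succ _))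
  have hI : ∑ i, |ruleWeight M intFun i| ≤ toSize M := by
    have h := ruleSize_le_toSize M
    unfold ruleSize at h
    linarith
  have hT : (0 : ℝ) ≤ toSize M := le_trans zero_le_one (one_le_toSize M)
  rcases lt_trichotomy j p.1 with hj | hj | hj
  · rw [if_neg (not_le.2 hj), Finset.sum_eq_zero fun i _ => by
      rw [upWeight_eq_zero (q := (j, i)) hj, abs_zero]]
    simp
  · subst hj
    rw [if_pos le_rfl]
    have hP : ∑ i, |ruleWeight M (intTo (node M p.2)) i| ≤ toSize M := by
      have h := ruleSize_intTo_le M p.2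
      unfold ruleSize at h
      linarith
    have e : ∀ i, |upWeight g p (p.1, i)| ≤ (g ((p.1 : ℕ) + 1) - g p.1) *
        (|ruleWeight M intFun i| + |ruleWeight M (intTo (node M p.2)) i|) := fun i => by
      simp only [upWeight, gridFull, gridWeight, lt_irrefl, if_false, if_true]
      rw [← mul_sub, abs_mul, abs_of_nonneg hh]
      exact mul_le_mul_of_nonneg_left (abs_sub _ _) hh
    refine (mul_le_mul_of_nonneg_right (Finset.sum_le_sum fun i _ => e i) (hF _)).trans ?_
    rw [← Finset.mul_sum, Finset.sum_add_distrib]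
    nlinarith [mul_nonneg hh (hF p.1)]
  · rw [if_pos hj.le]
    have e : ∀ i, |upWeight g p (j, i)| = (g ((j : ℕ) + 1) - g j) * |ruleWeight M intFun i| :=
      fun i => by
      simp only [upWeight, gridFull, gridWeight, if_neg hj.asymm, if_neg hj.ne', sub_zero, abs_mul,
        abs_of_nonneg hh]
    rw [Finset.sum_congr rfl fun i _ => e i, ← Finset.mul_sum]
    nlinarith [mul_nonneg hh (hF j)]

end

end P347.Zero
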