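import Vale.Agent.P347.Zero.Steps

/-!
# P347: the linear recursion of one sweep of the upward pass

The error, the Lipschitz constant and the distance to the exact path satisfy the same recursion:
`a` stands for a quantity at the point `z`, `u` for the same quantity at `X`. Oracles of the inner
kind have source `sx` and slope `Lx`, those of the outer kind `sy` and `Ly`; `G` is the loss of one
window, `θ` the angle of the rows. Every feedback carries a gain at most `g`. The second part turns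
the exponents of `PassSpec` into these gains.
-/

namespace P347.Zero

open MeasureTheory ProbabilityTheory

noncomputable section

/-- The quantity at `U = (X - score) / ρ`. -/
def uPart (ρ sx Lx a u : ℝ) : ℝ := 2 * (u + (sx + Lx * a)) / ρ

/-- The coefficient of `1 / √r` in the quantity at the first derivative applied to `U`. -/
def tanP (G sx Lx a : ℝ) : ℝ := G * (sx + Lx * a)

/-- The rest of that quantity. -/
def tanQ (G ρ sx Lx a u : ℝ) : ℝ := G * Lx * uPart ρ sx Lx a u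

/-- The coefficient of `1 / √r` in the quantity at the square applied to `U`. -/
def sqP (G θ sx sy Lx Ly a : ℝ) : ℝ :=
  θ⁻¹ * G * (sy + Ly * a) + G ^ 2 * Ly * (sx + Lx * a)

/-- The rest of that quantity. -/
def sqQ (G θ ρ sx Lx Ly a u : ℝ) : ℝ :=
  (θ⁻¹ * G * Ly + G ^ 2 * Ly * Lx) * uPart ρ sx Lx a u

/-- What a sweep adds to `z` and to `X` together. -/
def sweepOut (t ρ G θ sx sy Lx Ly a u : ℝ) : ℝ :=
  (t * (sx + Lx * a) + √t / ρ * tanP G sx Lx a + t / ρ * tanQ G ρ sx Lx a u)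
    + (√t / ρ * sqP G θ sx sy Lx Ly a + t / ρ * sqQ G θ ρ sx Lx Ly a u)

/-- The part of a sweep that comes from the oracles' own accuracy. -/
def sweepSrc (t ρ G θ sx sy Lx Ly : ℝ) : ℝ := sweepOut t ρ G θ sx sy Lx Ly 0 0

/-- The feedbacks are small. -/
structure Gains (t ρ G θ Lx Ly g : ℝ) : Prop where
  nonneg : 0 ≤ g
  z : t * Lx ≤ g
  tan : √t / ρ * (G * Lx) ≤ g
  tanU : t / ρ ^ 2 * (G * Lx) ≤ g
  tanUz : t / ρ ^ 2 * (G * Lx * Lx) ≤ g
  sq : √t / ρ * (θ⁻¹ * G * Ly) ≤ g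
  sqU : t / ρ ^ 2 * (θ⁻¹ * G * Ly) ≤ g
  sqUz : t / ρ ^ 2 * (θ⁻¹ * G * Ly * Lx) ≤ g
  row : √t / ρ * (G ^ 2 * Ly * Lx) ≤ g
  rowU : t / ρ ^ 2 * (G ^ 2 * Ly * Lx) ≤ g
  rowUz : t / ρ ^ 2 * (G ^ 2 * Ly * Lx * Lx) ≤ g

variable {t ρ G θ sx sy Lx Ly g a u : ℝ}

theorem sweepOut_eq : sweepOut t ρ G θ sx sy Lx Ly a u = sweepSrc t ρ G θ sx sy Lx Ly
    + (t * Lx + √t / ρ * (G * Lx) + 2 * (t / ρ ^ 2 * (G * Lx * Lx))
        + √t / ρ * (θ⁻¹ * G * Ly) + √t / ρ * (G ^ 2 * Ly * Lx)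
        + 2 * (t / ρ ^ 2 * (θ⁻¹ * G * Ly * Lx)) + 2 * (t / ρ ^ 2 * (G ^ 2 * Ly * Lx * Lx))) * a
    + 2 * (t / ρ ^ 2 * (G * Lx) + t / ρ ^ 2 * (θ⁻¹ * G * Ly)
        + t / ρ ^ 2 * (G ^ 2 * Ly * Lx)) * u := by
  simp only [sweepSrc, sweepOut, tanP, tanQ, sqP, sqQ, uPart]
  ring

/-- A sweep adds its source plus a small multiple of what came in. -/
theorem sweepOut_le (h : Gains t ρ G θ Lx Ly g) (ha : 0 ≤ a) (hu : 0 ≤ u) :
    sweepOut t ρ G θ sx sy Lx Ly a u ≤ sweepSrc t ρ G θ sx sy Lx Ly + 10 * g * (a + u) := by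
  rw [sweepOut_eq, mul_add (10 * g), add_assoc]
  refine add_le_add le_rfl (add_le_add (mul_le_mul_of_nonneg_right ?_ ha)
    (mul_le_mul_of_nonneg_right ?_ hu))
  · linarith [h.z, h.tan, h.tanUz, h.sq, h.row, h.sqUz, h.rowUz]
  · linarith [h.tanU, h.sqU, h.rowU, h.nonneg]

/-! ## From exponents to gains -/

variable {d : ℕ} {α β κ ε η xl yl : ℝ}

/-- A product of powers of `d` is at most one power. -/
theorem rpow_three_le (hd : 1 ≤ (d : ℝ)) {a b c e : ℝ} (h : a + b + c ≤ e) :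
    (d : ℝ) ^ a * (d : ℝ) ^ b * (d : ℝ) ^ c ≤ (d : ℝ) ^ e := by
  have hd0 : (0 : ℝ) < d := by linarith
  rw [← Real.rpow_add hd0, ← Real.rpow_add hd0]
  exact Real.rpow_le_rpow_of_exponent_le hd h

theorem sqrt_div_le (hd : 0 < (d : ℝ)) (ht : 0 < t) (hρ : √t * (d : ℝ) ^ β ≤ 2 * ρ) :
    √t / ρ ≤ 2 * (d : ℝ) ^ (-β) ∧ t / ρ ^ 2 ≤ 4 * (d : ℝ) ^ (-(2 * β)) := by
  have hs := Real.sqrt_pos.2 ht
  have hb := Real.rpow_pos_of_pos hd β
  have hρ0 : 0 < ρ := by nlinarith [mul_pos hs hb]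
  have h1 : √t / ρ ≤ 2 * (d : ℝ) ^ (-β) := by
    rw [Real.rpow_neg hd.le, ← div_eq_mul_inv, div_le_div_iff₀ hρ0 hb]
    linarith
  refine ⟨h1, ?_⟩
  have e : t / ρ ^ 2 = (√t / ρ) ^ 2 := by rw [div_pow, Real.sq_sqrt ht.le]
  rw [e, show -(2 * β) = -β + -β by ring, Real.rpow_add hd]
  nlinarith [show 0 ≤ √t / ρ by positivity]

/-- The gains of a sweep from the exponents. -/
theorem gains_of_expo (hd : 1 ≤ (d : ℝ)) (ht : 0 < t) (htε : t ≤ (d : ℝ) ^ (-ε))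
    (hρ : √t * (d : ℝ) ^ β ≤ 2 * ρ) (hη : 0 ≤ η) (hG : 0 ≤ G) (hG' : G ≤ (d : ℝ) ^ (η / 8))
    (hκ : 0 ≤ κ) (hxl : 0 ≤ xl) (hyl : 0 ≤ yl) (hxε : xl + η ≤ ε)
    (hβ : κ + xl + yl + η ≤ β) :
    Gains t ρ G ((d : ℝ) ^ (-κ)) ((d : ℝ) ^ xl) ((d : ℝ) ^ yl) (4 * (d : ℝ) ^ (-(η / 2))) := by
  have hd0 : (0 : ℝ) < d := by linarith
  obtain ⟨h1, h2⟩ := sqrt_div_le hd0 ht hρ
  set P : ℝ → ℝ := fun a => (d : ℝ) ^ a
  have hP : ∀ a, 0 ≤ P a := fun a => Real.rpow_nonneg hd0.le a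
  have hG2 : G ^ 2 ≤ P (η / 4) := by
    have : G ^ 2 ≤ P (η / 8) ^ 2 := pow_le_pow_left₀ hG hG' 2
    refine this.trans (le_of_eq ?_)
    simp only [P]
    rw [sq, ← Real.rpow_add hd0]; ring_nf
  have hθ : ((d : ℝ) ^ (-κ))⁻¹ = P κ := by
    simp only [P]
    rw [Real.rpow_neg hd0.le, inv_inv]
  have hρ0 : 0 < ρ := by
    nlinarith [mul_pos (Real.sqrt_pos.2 ht) (Real.rpow_pos_of_pos hd0 β)]
  have one : ∀ {X Y a b : ℝ}, 0 ≤ Y → X ≤ 4 * P a → Y ≤ P b → a + b ≤ -(η / 2) →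
      X * Y ≤ 4 * P (-(η / 2)) := by
    intro X Y a b hY hX hY' hab
    refine (mul_le_mul hX hY' hY (mul_nonneg (by norm_num) (hP a))).trans ?_
    rw [mul_assoc]
    refine mul_le_mul_of_nonneg_left ?_ (by norm_num)
    simp only [P]
    rw [← Real.rpow_add hd0]
    exact Real.rpow_le_rpow_of_exponent_le hd hab
  have pw : ∀ a b, P a * P b = P (a + b) := fun a b => (Real.rpow_add hd0 a b).symm
  have s1 : √t / ρ ≤ 4 * P (-β) := h1.trans (by linarith [hP (-β)])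
  have s2 : t / ρ ^ 2 ≤ 4 * P (-(2 * β)) := h2
  have gx : G * P xl ≤ P (η / 8 + xl) := by
    rw [← pw]; exact mul_le_mul_of_nonneg_right hG' (hP _)
  have gy : P κ * G * P yl ≤ P (κ + η / 8 + yl) := by
    rw [← pw, ← pw]
    exact mul_le_mul_of_nonneg_right (mul_le_mul_of_nonneg_left hG' (hP _)) (hP _)
  have gr : G ^ 2 * P yl * P xl ≤ P (η / 4 + yl + xl) := by
    rw [← pw, ← pw]
    exact mul_le_mul_of_nonneg_right (mul_le_mul_of_nonneg_right hG2 (hP _)) (hP _)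
  have nx := hP xl
  have ny := hP yl
  have nk := hP κ
  constructor
  · positivity
  · refine one nx (a := -ε) (b := xl) ?_ le_rfl (by linarith)
    linarith [hP (-ε), show t ≤ P (-ε) from htε]
  · exact one (by positivity) s1 gx (by linarith)
  · exact one (by positivity) s2 gx (by linarith)
  · refine one (by positivity) s2 (b := η / 8 + xl + xl) ?_ (by linarith)
    rw [← pw]; exact mul_le_mul_of_nonneg_right gx nx
  · rw [hθ]; exact one (by positivity) s1 gy (by linarith)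
  · rw [hθ]; exact one (by positivity) s2 gy (by linarith)
  · rw [hθ]
    refine one (by positivity) s2 (b := κ + η / 8 + yl + xl) ?_ (by linarith)
    rw [← pw]; exact mul_le_mul_of_nonneg_right gy nx
  · exact one (by positivity) s1 gr (by linarith)
  · exact one (by positivity) s2 gr (by linarith)
  · refine one (by positivity) s2 (b := η / 4 + yl + xl + xl) ?_ (by linarith)
    rw [← pw]; exact mul_le_mul_of_nonneg_right gr nx

/-- The source of a sweep from the exponents: `D` is the accuracy that it leaves. -/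
theorem sweepSrc_le_expo (hd : 1 ≤ (d : ℝ)) (ht : 0 < t) (htε : t ≤ (d : ℝ) ^ (-ε))
    (hρ : √t * (d : ℝ) ^ β ≤ 2 * ρ) (hη : 0 ≤ η) (hG : 0 ≤ G) (hG' : G ≤ (d : ℝ) ^ (η / 8))
    (hκ : 0 ≤ κ) (hxl : 0 ≤ xl) (hyl : 0 ≤ yl) (hβε : β + η ≤ ε)
    (hβ : κ + xl + yl + η ≤ β) {xD yD D : ℝ} (hx : D ≤ xD - xl - yl) (hy : D ≤ yD - κ) :
    sweepSrc t ρ G ((d : ℝ) ^ (-κ)) ((d : ℝ) ^ (-xD)) ((d : ℝ) ^ (-yD)) ((d : ℝ) ^ xl)
      ((d : ℝ) ^ yl) ≤ 60 * (d : ℝ) ^ (-(D + β) + η / 4) := by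
  have hd0 : (0 : ℝ) < d := by linarith
  obtain ⟨h1, h2⟩ := sqrt_div_le hd0 ht hρ
  set P : ℝ → ℝ := fun a => (d : ℝ) ^ a
  have hP : ∀ a, 0 ≤ P a := fun a => Real.rpow_nonneg hd0.le a
  have pw : ∀ a b, P a * P b = P (a + b) := fun a b => (Real.rpow_add hd0 a b).symm
  have hG2 : G ^ 2 ≤ P (η / 4) := by
    refine (pow_le_pow_left₀ hG hG' 2).trans (le_of_eq ?_)
    simp only [P]
    rw [sq, ← Real.rpow_add hd0]; ring_nf
  have hθ : ((d : ℝ) ^ (-κ))⁻¹ = P κ := by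
    simp only [P]
    rw [Real.rpow_neg hd0.le, inv_inv]
  have hρ0 : 0 < ρ := by
    nlinarith [mul_pos (Real.sqrt_pos.2 ht) (Real.rpow_pos_of_pos hd0 β)]
  set T := P (-(D + β) + η / 4)
  have one : ∀ {X Y a b : ℝ}, 0 ≤ Y → X ≤ 4 * P a → Y ≤ P b → a + b ≤ -(D + β) + η / 4 →
      X * Y ≤ 4 * T := by
    intro X Y a b hY hX hY' hab
    refine (mul_le_mul hX hY' hY (mul_nonneg (by norm_num) (hP a))).trans ?_
    rw [mul_assoc]
    refine mul_le_mul_of_nonneg_left ?_ (by norm_num)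
    rw [pw]
    exact Real.rpow_le_rpow_of_exponent_le hd hab
  have s1 : √t / ρ ≤ 4 * P (-β) := h1.trans (by linarith [hP (-β)])
  have s2 : t / ρ ^ 2 ≤ 4 * P (-(2 * β)) := h2
  set sx := P (-xD)
  set sy := P (-yD)
  have nx := hP xl
  have ny := hP yl
  have nk := hP κ
  have nsx := hP (-xD)
  have nsy := hP (-yD)
  have t1 : t * sx ≤ 4 * T :=
    one nsx (a := -ε) (by linarith [hP (-ε), show t ≤ P (-ε) from htε]) le_rfl (by linarith)
  have t2 : √t / ρ * (G * sx) ≤ 4 * T := by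
    refine one (by positivity) s1 (b := η / 8 + -xD) ?_ (by linarith)
    rw [← pw]; exact mul_le_mul_of_nonneg_right hG' nsx
  have t3 : t / ρ ^ 2 * (G * P xl * sx) ≤ 4 * T := by
    refine one (by positivity) s2 (b := η / 8 + xl + -xD) ?_ (by linarith)
    rw [← pw, ← pw]
    exact mul_le_mul_of_nonneg_right (mul_le_mul_of_nonneg_right hG' nx) nsx
  have t4 : √t / ρ * (P κ * G * sy) ≤ 4 * T := by
    refine one (by positivity) s1 (b := κ + η / 8 + -yD) ?_ (by linarith)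
    rw [← pw, ← pw]
    exact mul_le_mul_of_nonneg_right (mul_le_mul_of_nonneg_left hG' nk) nsy
  have t5 : √t / ρ * (G ^ 2 * P yl * sx) ≤ 4 * T := by
    refine one (by positivity) s1 (b := η / 4 + yl + -xD) ?_ (by linarith)
    rw [← pw, ← pw]
    exact mul_le_mul_of_nonneg_right (mul_le_mul_of_nonneg_right hG2 ny) nsx
  have t6 : t / ρ ^ 2 * (P κ * G * P yl * sx) ≤ 4 * T := by
    refine one (by positivity) s2 (b := κ + η / 8 + yl + -xD) ?_ (by linarith)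
    rw [← pw, ← pw, ← pw]
    exact mul_le_mul_of_nonneg_right
      (mul_le_mul_of_nonneg_right (mul_le_mul_of_nonneg_left hG' nk) ny) nsx
  have t7 : t / ρ ^ 2 * (G ^ 2 * P yl * P xl * sx) ≤ 4 * T := by
    refine one (by positivity) s2 (b := η / 4 + yl + xl + -xD) ?_ (by linarith)
    rw [← pw, ← pw, ← pw]
    exact mul_le_mul_of_nonneg_right
      (mul_le_mul_of_nonneg_right (mul_le_mul_of_nonneg_right hG2 ny) nx) nsx
  have e : sweepSrc t ρ G ((d : ℝ) ^ (-κ)) sx sy (P xl) (P yl) = t * sx + √t / ρ * (G * sx)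
      + 2 * (t / ρ ^ 2 * (G * P xl * sx)) + √t / ρ * (P κ * G * sy)
      + √t / ρ * (G ^ 2 * P yl * sx) + 2 * (t / ρ ^ 2 * (P κ * G * P yl * sx))
      + 2 * (t / ρ ^ 2 * (G ^ 2 * P yl * P xl * sx)) := by
    simp only [sweepSrc, sweepOut, tanP, tanQ, sqP, sqQ, uPart, hθ]
    ring
  refine le_trans (le_of_eq e) ?_
  have hT : 0 ≤ T := hP _
  linarith

end

end P347.Zero
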