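import Vale.Agent.P347.Zero.BuildNear
import Vale.Agent.P347.Zero.Paths
import Vale.Agent.P347.Zero.Rec

/-!
# P347: the shapes shared by the blocks of the upward pass

`Par` holds the numbers of one pass and `Par.Ok` what is assumed about them and about the oracles.
`Paths` is the exact random trajectory as truths of forms. `NodeIn` is what a sweep hands to a
node, `NodeOut` what a node hands back: blur, error, Lipschitz constant and distance to the exact
trajectory, the last three in the units of `Rec`.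
-/

namespace P347.Zero

open MeasureTheory ProbabilityTheory
open scoped ENNReal

noncomputable section

/-- The numbers of one pass. -/
structure Par where
  /-- The variance of the centre. -/
  t : ℝ
  /-- The variance at the fine end. -/
  s : ℝ
  /-- The noise of the pair flow. -/
  ρ : ℝ
  /-- The relative length of cells and windows. -/
  h : ℝ
  /-- The loss of one window. -/
  G : ℝ
  /-- The angle of the rows. -/
  θ : ℝ
  /-- The relative tolerance of the oracles. -/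
  ν : ℝ
  /-- The accuracy of the inner oracles. -/
  sx : ℝ
  /-- The accuracy of the outer oracles. -/
  sy : ℝ
  /-- The Lipschitz constant of the inner oracles. -/
  Lx : ℝ
  /-- The Lipschitz constant of the outer oracles. -/
  Ly : ℝ
  /-- The relative noise of the inner oracles. -/
  bx : ℝ
  /-- The relative noise of the outer oracles. -/
  by' : ℝ
  /-- What quadrature, windows and rows leave. -/
  def0 : ℝ

variable {d : ℕ}

/-- An oracle at variance `r` with the tolerance and noise of a class. -/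
def HasOrc (d : ℕ) (qb : ℕ) (r ν b δ L : ℝ) : Prop :=
  ∃ (O : Orc d) (tgt ρ : ℝ), ν * √r ≤ tgt ∧ 0 < tgt ∧ |ρ| ≤ b * √r ∧ O.A.size ≤ qb ∧
    ∀ V, Quarter.InClass V → Valid O.P O.A V r tgt ρ δ L

/-- What is assumed about the numbers: `C₀` is any constant of the blocks. -/
structure Par.Ok (P : Par) (d T qb : ℕ) (C₀ : ℝ) : Prop where
  t_le : P.t ≤ 1
  s_pos : 0 < P.s
  s_le : 2 * P.s ≤ P.t
  ρ_ge : √P.t ≤ P.ρ
  h_pos : 0 < P.h
  h_le : P.h ≤ 1 / 4
  G_ge : C₀ * (√(T : ℝ) / P.h) ≤ P.G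
  θ_pos : 0 < P.θ
  θ_le : P.θ ≤ 1
  ν_pos : 0 < P.ν
  sx_nn : 0 ≤ P.sx
  sy_nn : 0 ≤ P.sy
  Lx_ge : 1 ≤ P.Lx
  Ly_ge : 1 ≤ P.Ly
  bx_nn : 0 ≤ P.bx
  by_nn : 0 ≤ P.by'
  def_nn : 0 ≤ P.def0
  /-- The rows contract. -/
  row : C₀ * (P.θ * P.G * P.Lx) ≤ 1 / 2
  /-- A window contracts. -/
  winX : C₀ * P.Lx * (P.h ^ 2 * P.t) ≤ 1 / 2
  winY : C₀ * P.Ly * (P.h ^ 2 * P.t) ≤ 1 / 2
  /-- The blur of the rows is within the tolerance. -/
  blurRow : C₀ * (P.θ * P.G * P.bx) ≤ P.ν
  /-- The blur made inside a window is within the tolerance. -/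
  blurWinX : C₀ * (√(T : ℝ) * (P.t * P.bx)) ≤ P.ν
  blurWinY : C₀ * (√(T : ℝ) * (P.t * P.by')) ≤ P.ν
  /-- The blur of the score at a node, seen from `U`, is within the tolerance. -/
  blurU : C₀ * (√(T : ℝ) * (√P.t * P.bx)) ≤ P.ν * P.ρ
  gains : ∃ g, g ≤ 1 ∧ Gains P.t P.ρ P.G P.θ P.Lx P.Ly g
  orcX : ∀ r, 0 < r → r ≤ P.t → HasOrc d qb r P.ν P.bx P.sx P.Lx
  orcY : ∀ r, 0 < r → r ≤ P.t → HasOrc d qb r P.ν P.by' P.sy P.Ly

/-- The exact random trajectory: for each potential a family of pair flows, a start, and one more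
independent Gaussian for the rows. -/
structure Paths {d : ℕ} (En : Env d) (T : ℕ) (P : Par) where
  /-- The first component of the flows. -/
  w : (Space d → ℝ) → Space d → ℝ → Space d × Space d → Space d
  /-- The second component of the flows. -/
  U : (Space d → ℝ) → Space d → ℝ → Space d × Space d → Space d
  /-- The start at the fine end. -/
  start : (Space d → ℝ) → Space d → En.X → (ℕ → Space d) → Space d × Space d
  /-- The partner of the rotation. -/
  aux : Bld.Truth En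
  isPair : ∀ V, Quarter.InClass V → ∀ y, IsPair V y P.t P.ρ √(P.t - P.s) (w V y) (U V y)
  law : ∀ V, Quarter.InClass V → ∀ y, ∀ q ∈ Set.Icc (0 : ℝ) √(P.t - P.s),
    MeasurePreserving (fun z => (w V y q z, U V y q z)) (pairLaw V y P.t √(P.t - P.s))
      (pairLaw V y P.t q)
  start_meas : ∀ V, Quarter.InClass V → ∀ c,
    Measurable fun p : En.X × (ℕ → Space d) => start V c p.1 p.2
  aux_meas : Bld.TMeas aux
  start_law : ∀ V, Quarter.InClass V → ∀ c : Space d,
    MeasurePreserving (fun p : En.X × (Fin T → Space d) =>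
        (start V c p.1 (extFun p.2), aux V c p.1 (extFun p.2)))
      (En.law.prod (famLaw d (Fin T)))
      ((pairLaw V c P.t √(P.t - P.s)).prod (stdGaussian (Space d)))

namespace Paths

variable {En : Env d} {T : ℕ} {P : Par} (π : Paths En T P)

/-- The point at time `q`. -/
def zT (q : ℝ) : Bld.Truth En := fun V c x ξ => c + q • π.w V c q (π.start V c x ξ)

/-- The noise at time `q`. -/
def uT (q : ℝ) : Bld.Truth En := fun V c x ξ => π.U V c q (π.start V c x ξ)

/-- The value of `score + ρ U` at time `q`. -/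
def xT (q : ℝ) : Bld.Truth En :=
  fun V c x ξ => score V (P.t - q ^ 2) (π.zT q V c x ξ) + P.ρ • π.uT q V c x ξ

/-- The three functions that a node evaluates. -/
def fT (q : ℝ) (j : Fin 3) : Bld.Truth En :=
  fun V c x ξ => nodeFn V c P.t (π.w V c) (π.U V c) (π.start V c x ξ) j q

end Paths

/-- The bounds handed to a node: errors `ea, eu`, Lipschitz constants `la, lu` and distances
`Da, Du` at the point and at `X`. -/
structure Lev where
  ea : ℝ
  eu : ℝ
  la : ℝ
  lu : ℝ
  Da : ℝ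
  Du : ℝ

/-- The bounds are nonnegative and the distances at most one, also seen from `U`. -/
structure Lev.Ok (A : Lev) (P : Par) : Prop where
  ea : 0 ≤ A.ea
  eu : 0 ≤ A.eu
  la : 0 ≤ A.la
  lu : 0 ≤ A.lu
  Da : 0 ≤ A.Da
  Du : 0 ≤ A.Du
  Da_le : A.Da ≤ 1
  U_le : uPart P.ρ 0 2 A.Da A.Du ≤ 1

/-- What a sweep hands to the node at time `q`. -/
structure NodeIn {En : Env d} {T : ℕ} {P : Par} (π : Paths En T P) (S : Bld En) (q : ℝ) (A : Lev)
    (φz φX : Form) : Prop where
  hz : S.Has φz (P.ν * √(P.t - q ^ 2) / 8) A.ea A.la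
  hX : S.Has φX (P.ν * P.ρ / 8) A.eu A.lu
  nz : S.Near φz (π.zT q) A.Da
  nX : S.Near φX (π.xT q) A.Du

/-- What a node hands back, with a constant `C`. -/
structure NodeOut {En : Env d} {T : ℕ} {P : Par} (π : Paths En T P) (S : Bld En) (q : ℝ) (A : Lev)
    (C : ℝ) (fb fB fS : Form) : Prop where
  hb : S.Has fb (C * (√(T : ℝ) * (√(P.t - q ^ 2) * P.bx))) (C * (P.sx + P.Lx * A.ea))
    (C * (P.Lx * A.la))
  hB : S.Has fB (C * (P.G * P.bx))
    (C * (tanP P.G P.sx P.Lx A.ea / √(P.t - q ^ 2) + tanQ P.G P.ρ P.sx P.Lx A.ea A.eu))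
    (C * (tanP P.G 0 P.Lx A.la / √(P.t - q ^ 2) + tanQ P.G P.ρ 0 P.Lx A.la A.lu))
  hS : S.Has fS (C * (P.θ⁻¹ * P.G * P.by'))
    (C * (sqP P.G P.θ P.sx P.sy P.Lx P.Ly A.ea / √(P.t - q ^ 2)
      + sqQ P.G P.θ P.ρ P.sx P.Lx P.Ly A.ea A.eu))
    (C * (sqP P.G P.θ 0 0 P.Lx P.Ly A.la / √(P.t - q ^ 2)
      + sqQ P.G P.θ P.ρ 0 P.Lx P.Ly A.la A.lu))
  nb : S.Near fb (π.fT q 0) (C * (P.def0 + 2 * A.Da))
  nB : S.Near fB (π.fT q 1)
    (C * (tanP P.G P.def0 2 A.Da / √(P.t - q ^ 2) + tanQ P.G P.ρ P.def0 2 A.Da A.Du))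
  nS : S.Near fS (π.fT q 2)
    (C * (sqP P.G P.θ P.def0 P.def0 2 2 A.Da / √(P.t - q ^ 2)
      + sqQ P.G P.θ P.ρ P.def0 2 2 A.Da A.Du))

end

end P347.Zero
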