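import Vale.Agent.P347.Zero.Truth
import Vale.Agent.P347.Zero.Posterior

/-!
# P347: the fine end of the upward pass

At the fine variance `s` the score at the sampled point is read off from one gradient at the output
of the sampler: the error is twice the error of the sampler plus the size of the smoothing.
-/

namespace P347.Zero

open MeasureTheory ProbabilityTheory
open scoped ENNReal

noncomputable section

variable {d : ℕ} {V : Space d → ℝ}

/-- The gradient, negated, is Lipschitz. -/
theorem norm_neg_gradient_sub_le (hV : Quarter.InClass V) (a b : Space d) :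
    ‖-gradient V a - -gradient V b‖ ≤ 2 * ‖a - b‖ := by
  have := hV.model.lip b (a - b)
  rw [add_sub_cancel] at this
  rwa [neg_sub_neg, norm_sub_rev]

/-- The gradient at a nearby point is close to the score. -/
theorem norm_terminal_le (hV : Quarter.InClass V) {s : ℝ} (hs : 0 < s) (a z : Space d) :
    ‖-gradient V a - score V s z‖ ≤ 2 * ‖a - z‖ + 4 * √(d * s) + 4 * s * ‖z‖ := by
  have h1 := norm_neg_gradient_sub_le hV a z
  have h2 := score_sub_gradient hV hs z
  have e : -gradient V a - score V s z
      = (-gradient V a - -gradient V z) - (score V s z + gradient V z) := by abel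
  rw [e]
  refine (norm_sub_le _ _).trans ?_
  linarith

variable {X : Type} [MeasurableSpace X] {P : Measure X} [IsProbabilityMeasure P] {y : Space d}
  {t s : ℝ} {Z : X → Space d}

/-- The second moment of a sample at the fine variance. -/
theorem eLpNorm_post_le (hV : Quarter.InClass V) (ht : t ≤ 1) (hs : 0 < s) (hst : s < t)
    (hZ : Measurable Z) (h : ∀ f : Space d → ℝ, Test f → ∫ x, f (Z x) ∂P = condMean V t s f y) :
    eLpNorm Z 2 P ≤ ENNReal.ofReal (25 * (√(d : ℝ) + ‖y‖)) := by
  have hm := measurePreserving_post hV hs.le hst hZ h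
  set q := √(t - s)
  have hq0 : q ≠ 0 := (Real.sqrt_pos.2 (sub_pos.2 hst)).ne'
  have hqs : q ^ 2 = t - s := Real.sq_sqrt (by linarith)
  have hq : q ^ 2 < t := by linarith
  have e : (fun x => y + q • (q⁻¹ • (Z x - y))) = Z := by
    funext x
    rw [smul_smul, mul_inv_cancel₀ hq0, one_smul, add_sub_cancel]
  have h1 := eLpNorm_comp_measurePreserving (p := 2) (g := fun a : Space d => y + q • a)
    (measurable_const.add (measurable_id.const_smul q)).aestronglyMeasurable hm
  have h2 := eLpNorm_comp_measurePreserving (p := 2) (g := fun a : Space d => y + q • a)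
    (measurable_const.add (measurable_id.const_smul q)).aestronglyMeasurable
    (measurePreserving_fst_pairLaw V y t q)
  simp only [Function.comp_def, e] at h1 h2
  rw [h1, ← h2]
  exact eLpNorm_point_le hV y ht hq

/-- The fine end in mean square: `W` is the output of the sampler. -/
theorem eLpNorm_terminal_le (hV : Quarter.InClass V) (ht : t ≤ 1) (hs : 0 < s) (hst : s < t)
    (hZ : Measurable Z) (h : ∀ f : Space d → ℝ, Test f → ∫ x, f (Z x) ∂P = condMean V t s f y)
    {W : X → Space d} (hW : AEStronglyMeasurable W P) :
    eLpNorm (fun x => -gradient V (W x) - score V s (Z x)) 2 P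
      ≤ 2 * eLpNorm (fun x => W x - Z x) 2 P
        + ENNReal.ofReal (4 * √((d : ℝ) * s) + 100 * s * (√(d : ℝ) + ‖y‖)) := by
  set f1 := fun x => 2 * ‖W x - Z x‖
  set f2 := fun x => 4 * √((d : ℝ) * s) + 4 * s * ‖Z x‖
  have hm1 : AEStronglyMeasurable f1 P := ((hW.sub hZ.aestronglyMeasurable).norm).const_mul 2
  have hm2 : AEStronglyMeasurable f2 P :=
    ((hZ.norm.const_mul (4 * s)).const_add _).aestronglyMeasurable
  calc eLpNorm (fun x => -gradient V (W x) - score V s (Z x)) 2 P
      ≤ eLpNorm (f1 + f2) 2 P := eLpNorm_mono_real fun x => by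
        have := norm_terminal_le hV hs (W x) (Z x)
        simp only [Pi.add_apply, f1, f2]
        linarith
    _ ≤ eLpNorm f1 2 P + eLpNorm f2 2 P := eLpNorm_add_le hm1 hm2 (by norm_num)
    _ ≤ _ := by
      refine add_le_add ?_ ?_
      · refine (eLpNorm_le_mul_eLpNorm_of_ae_le_mul (c := 2)
          (g := fun x => W x - Z x) (Filter.Eventually.of_forall fun x => ?_) 2).trans (le_of_eq ?_)
        · simp [f1]
        · simp
      · refine (eLpNorm_affine_le (g := Z) (a := 4 * s) (b := 4 * √((d : ℝ) * s))
          hZ.aestronglyMeasurable (by positivity) (by positivity) (by positivity) (fun x => ?_)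
          (eLpNorm_post_le hV ht hs hst hZ h)).trans (ENNReal.ofReal_le_ofReal (le_of_eq ?_))
        · simp only [f2]
          rw [Real.norm_eq_abs, abs_of_nonneg (by positivity)]
          linarith
        · ring

end

end P347.Zero
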