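import Vale.Agent.P347.Zero.Run
import Vale.Agent.P347.Zero.PassDefs
import Vale.Agent.P347.Zero.Terminal

/-!
# P347: the two ends of a pass

The first two gates are resets: gate `0` adds the noise at the fine end to the gradient at the
sampled point, gate `1` is the partner of the rotation. They give the exact paths and the forms at
the fine end. One more reset of the value at time `0` gives the oracle.
-/

namespace P347.Zero

open MeasureTheory ProbabilityTheory
open scoped ENNReal Classical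

noncomputable section

variable {d : ℕ}

/-- Two distinct coordinates of the Gaussians. -/
theorem mp_two {T a b : ℕ} (ha : a < T) (hb : b < T) (hab : a ≠ b) :
    MeasurePreserving (fun ξ : Fin T → Space d => (extFun ξ a, extFun ξ b)) (famLaw d (Fin T))
      ((stdGaussian (Space d)).prod (stdGaussian (Space d))) := by
  let e : Fin 2 → Fin T := fun i => if i = 0 then ⟨a, ha⟩ else ⟨b, hb⟩
  have he : Function.Injective e := by
    intro i j h
    fin_cases i <;> fin_cases j
    · rfl
    · exact absurd (congrArg Fin.val h) hab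
    · exact absurd (congrArg Fin.val h).symm hab
    · rfl
  have h : MeasurePreserving (fun ξ : Fin T → Space d => (ξ ⟨a, ha⟩, ξ ⟨b, hb⟩)) (famLaw d (Fin T))
      ((stdGaussian (Space d)).prod (stdGaussian (Space d))) :=
    (measurePreserving_piFinTwo (fun _ : Fin 2 => stdGaussian (Space d))).comp (famLaw_reindex he)
  simpa [extFun, ha, hb] using h

/-- The flows of the pair field, for a potential in the class. -/
def pairFam (V : Space d → ℝ) (t ρ q₁ : ℝ) :
    (Space d → ℝ → Space d × Space d → Space d) × (Space d → ℝ → Space d × Space d → Space d) :=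
  if h : Quarter.InClass V ∧ 0 < t ∧ t ≤ 1 ∧ 0 < ρ ∧ 0 ≤ q₁ ∧ q₁ ^ 2 < t then
    ((exists_pair_family h.1 h.2.1 h.2.2.1 h.2.2.2.1 h.2.2.2.2.1 h.2.2.2.2.2).choose,
      (exists_pair_family h.1 h.2.1 h.2.2.1 h.2.2.2.1 h.2.2.2.2.1
        h.2.2.2.2.2).choose_spec.choose)
  else (fun _ _ z => z.1, fun _ _ z => z.2)

theorem pairFam_spec {V : Space d → ℝ} (hV : Quarter.InClass V) {t ρ q₁ : ℝ} (ht : 0 < t)
    (ht1 : t ≤ 1) (hρ : 0 < ρ) (hq0 : 0 ≤ q₁) (hq₁ : q₁ ^ 2 < t) :
    (∀ y, IsPair V y t ρ q₁ ((pairFam V t ρ q₁).1 y) ((pairFam V t ρ q₁).2 y)) ∧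
      ∀ q ∈ Set.Icc 0 q₁,
        (Continuous fun x : Space d × (Space d × Space d) => (pairFam V t ρ q₁).1 x.1 q x.2) ∧
        (Continuous fun x : Space d × (Space d × Space d) => (pairFam V t ρ q₁).2 x.1 q x.2) ∧
        ∀ y, MeasurePreserving
          (fun z => ((pairFam V t ρ q₁).1 y q z, (pairFam V t ρ q₁).2 y q z))
          (pairLaw V y t q₁) (pairLaw V y t q) := by
  have h : Quarter.InClass V ∧ 0 < t ∧ t ≤ 1 ∧ 0 < ρ ∧ 0 ≤ q₁ ∧ q₁ ^ 2 < t :=
    ⟨hV, ht, ht1, hρ, hq0, hq₁⟩
  simp only [pairFam, dif_pos h]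
  exact (exists_pair_family h.1 h.2.1 h.2.2.1 h.2.2.2.1 h.2.2.2.2.1
    h.2.2.2.2.2).choose_spec.choose_spec

/-- An empty circuit. -/
def Bld.empty (En : Env d) (T : ℕ) (τ : ℝ) (qb : ℕ) : Bld En where
  circ :=
    { T := T
      gate := fun _ => ⟨0, 0, 0, 1, none⟩
      orc := fun _ => ⟨Unit, inferInstance, Measure.dirac (), inferInstance, inferInstance,
        Alg.pure d fun _ => 0, Alg.pure_meas measurable_const⟩
      rho := 0
      tau := τ }
  len := 0
  dlt := 0
  lc := 0
  err := 0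
  lip := 0
  qb := qb

theorem Bld.empty_ok (En : Env d) {T : ℕ} (hT : 0 < T) {τ : ℝ} (hτ : 0 ≤ τ) (qb : ℕ) :
    (Bld.empty En T τ qb).Ok := by
  constructor
  all_goals first
    | exact hT
    | exact hτ
    | exact Nat.zero_le _
    | (intro g hg; exact absurd hg (Nat.not_lt_zero g))
    | (intro g r hg; exact absurd hg (Nat.not_lt_zero g))

section

variable {Ω : Type} [MeasurableSpace Ω] (μ : Measure Ω) [IsProbabilityMeasure μ]
  (A : Alg d (Ω × Space d) (Space d)) (P : Par) (τp δp Lp : ℝ)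

/-- The start of the pair flow from a point at variance `P.s`. -/
def postStart (V : Space d → ℝ) (c : Space d) (x : Space d × Ω) (ξ : ℕ → Space d) :
    Space d × Space d :=
  ((√(P.t - P.s))⁻¹ • (postVec μ A P.t P.s τp δp Lp V c x 0 - c), ξ 0)

omit [IsProbabilityMeasure μ] in
theorem measurable_postStart {V : Space d → ℝ} (hV : Quarter.InClass V) :
    Measurable fun p : Space d × ((Space d × Ω) × (ℕ → Space d)) =>
      postStart μ A P τp δp Lp V p.1 p.2.1 p.2.2 := by
  let q : Space d × ((Space d × Ω) × (ℕ → Space d)) → Space d × (Space d × Ω) := fun p => (p.1, p.2.1)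
  have hq : Measurable q := measurable_fst.prodMk (measurable_fst.comp measurable_snd)
  have hz : Measurable fun p : Space d × ((Space d × Ω) × (ℕ → Space d)) =>
      postVec μ A P.t P.s τp δp Lp V p.1 p.2.1 0 := by
    show Measurable ((fun f : Fin 2 → Space d => f 0) ∘
      (fun p : Space d × (Space d × Ω) => postVec μ A P.t P.s τp δp Lp V p.1 p.2) ∘ q)
    exact (measurable_pi_apply 0).comp ((measurable_postVec μ A P.t P.s τp δp Lp hV).comp hq)
  exact (Measurable.fun_const_smul (hz.sub measurable_fst) _).prodMk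
    ((measurable_pi_apply 0).comp (measurable_snd.comp measurable_snd))

omit [IsProbabilityMeasure μ] in
/-- The sampled point has the law at variance `P.s`. -/
theorem postVec_law {V : Space d → ℝ} (h : ValidPost μ A V P.t P.s τp δp Lp) (c : Space d)
    {f : Space d → ℝ} (hf : Test f) :
    ∫ x, f (postVec μ A P.t P.s τp δp Lp V c x 0) ∂(stdGaussian (Space d)).prod μ
      = condMean V P.t P.s f c := by
  have e : ∀ x, postVec μ A P.t P.s τp δp Lp V c x 0 = h.law.choose c x := fun x => by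
    simp [postVec, dif_pos h]
  simp only [e]
  exact h.law.choose_spec.2.1 c f hf

/-- The seed of the flow, and one more Gaussian. -/
theorem mp_postStart (hs : 0 < P.s) (hst : P.s < P.t) {V : Space d → ℝ} (hV : Quarter.InClass V)
    (h : ValidPost μ A V P.t P.s τp δp Lp) (c : Space d) {T g : ℕ} (hg : g < T) (hg0 : 0 ≠ g) :
    MeasurePreserving (fun p : (Space d × Ω) × (Fin T → Space d) =>
        (postStart μ A P τp δp Lp V c p.1 (extFun p.2), extFun p.2 g))
      (((stdGaussian (Space d)).prod μ).prod (famLaw d (Fin T)))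
      ((pairLaw V c P.t √(P.t - P.s)).prod (stdGaussian (Space d))) := by
  have hZ : Measurable fun x : Space d × Ω => postVec μ A P.t P.s τp δp Lp V c x 0 :=
    (measurable_pi_apply 0).comp
      ((measurable_postVec μ A P.t P.s τp δp Lp hV).comp measurable_prodMk_left)
  have := isProbability_pairLaw hV c (q := √(P.t - P.s)) (t := P.t)
    (by rw [Real.sq_sqrt (by linarith)]; linarith)
  exact ((measurePreserving_seed hV hs.le hst hZ fun f hf => postVec_law μ A P τp δp Lp h c hf).prod
    (MeasurePreserving.id _)).comp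
    ((measurePreserving_prodAssoc _ _ _).symm.comp
      ((MeasurePreserving.id _).prod (mp_two (by omega) hg hg0)))

variable {μ A P τp δp Lp}
variable (ht1 : P.t ≤ 1) (hs : 0 < P.s) (hst : P.s < P.t) (hρ : 0 < P.ρ) (hδ : 0 ≤ δp)
  (hL : 0 ≤ Lp) (hp : ∀ V, Quarter.InClass V → ValidPost μ A V P.t P.s τp δp Lp)

include hs hst in
theorem fineTime_lt : √(P.t - P.s) ^ 2 < P.t := by
  rw [Real.sq_sqrt (by linarith)]; linarith

/-- The exact paths of a pass over a sampler. -/
def postPaths {T : ℕ} (hT : 2 ≤ T) : Paths (postEnv μ A P.t P.s τp δp Lp hδ hL) T P where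
  w V := (pairFam V P.t P.ρ √(P.t - P.s)).1
  U V := (pairFam V P.t P.ρ √(P.t - P.s)).2
  start := postStart μ A P τp δp Lp
  aux := fun _ _ _ ξ => ξ 1
  isPair := fun V hV =>
    (pairFam_spec hV (hs.trans hst) ht1 hρ (Real.sqrt_nonneg _) (fineTime_lt hs hst)).1
  law := fun V hV y q hq =>
    ((pairFam_spec hV (hs.trans hst) ht1 hρ (Real.sqrt_nonneg _)
      (fineTime_lt hs hst)).2 q hq).2.2 y
  start_meas := fun V hV c => by
    let q : (Space d × Ω) × (ℕ → Space d) → Space d × ((Space d × Ω) × (ℕ → Space d)) :=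
      fun p => (c, p)
    show Measurable ((fun p : Space d × ((Space d × Ω) × (ℕ → Space d)) =>
      postStart μ A P τp δp Lp V p.1 p.2.1 p.2.2) ∘ q)
    exact (measurable_postStart μ A P τp δp Lp hV).comp measurable_prodMk_left
  aux_meas := Bld.TMeas.gauss 1
  start_law := fun V hV c => mp_postStart μ A P τp δp Lp hs hst hV (hp V hV) c (by omega) zero_ne_one

/-- **Start.** The first two gates and the forms at the fine end. -/
theorem pass_start {T : ℕ} (hT : 2 ≤ T) {σ : ℝ} (hσ : 0 ≤ σ) (qb : ℕ) :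
    ∃ (S : Bld (postEnv μ A P.t P.s τp δp Lp hδ hL)) (φ1 φX φa : Form),
      S.Ok ∧ S.circ.T = T ∧ S.circ.tau = σ ∧ S.qb = qb ∧ S.len = 2 ∧
      S.Has φ1 0 δp Lp ∧
      S.Near φ1 ((postPaths ht1 hs hst hρ hδ hL hp hT).zT √(P.t - P.s)) 0 ∧
      S.Has φX 0 (2 * δp) (2 * Lp) ∧
      S.Near φX ((postPaths ht1 hs hst hρ hδ hL hp hT).xT √(P.t - P.s)) (4 * √P.s + 100 * P.s) ∧
      S.Has φa 0 0 0 ∧ S.Near φa (postPaths ht1 hs hst hρ hδ hL hp hT).aux 0 := by
  set En := postEnv μ A P.t P.s τp δp Lp hδ hL with hEn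
  set π := postPaths ht1 hs hst hρ hδ hL hp hT with hπ
  set q₁ := √(P.t - P.s) with hq₁
  have hq : q₁ ^ 2 = P.t - P.s := Real.sq_sqrt (by linarith)
  have hq0 : q₁ ≠ 0 := (Real.sqrt_pos.2 (sub_pos.2 hst)).ne'
  set S0 := Bld.empty En T σ qb
  have hok0 : S0.Ok := Bld.empty_ok En (by omega) hσ qb
  have hO : Orc d := S0.circ.orc 0
  obtain ⟨S1, ψ1, hx1, hok1, hl1, hh1, -, -, he1⟩ := Bld.push_reset hok0
    (show S0.len < S0.circ.T from lt_of_lt_of_le (show 0 < 2 by norm_num) hT) (Bld.has_ext 1)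
    (En.err_nonneg 1) (En.lip_nonneg 1) hρ hρ.le hO
  obtain ⟨S2, ψ2, hx2, hok2, hl2, hh2, -, -, he2⟩ := Bld.push_reset hok1
    (show S1.len < S1.circ.T by rw [hl1, hx1.T]; exact lt_of_lt_of_le (show 1 < 2 by norm_num) hT)
    Bld.has_zero le_rfl le_rfl one_pos zero_le_one hO
  have hx := hx1.trans hx2
  refine ⟨S2, Form.ext 0, ψ1, ψ2, hok2, hx.T, hx.tau, hx.qb, by rw [hl2, hl1]; rfl, ?_, ?_, ?_, ?_,
    hh2, ?_⟩
  · exact Bld.has_ext (S := S2) 0
  · refine (Bld.near_ext 0).congr fun V c x ξ => ?_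
    by_cases hV : Quarter.InClass V
    · have hi : π.w V c q₁ (π.start V c x ξ) = (π.start V c x ξ).1 :=
        ((π.isPair V hV c).init (π.start V c x ξ)).1
      simp only [Paths.zT, hi]
      simp only [hπ, postPaths, postStart, ← hq₁, smul_smul, mul_inv_cancel₀ hq0, one_smul,
        add_sub_cancel]
      rfl
    · simp only [Paths.zT, hπ, postPaths, pairFam, hV, false_and, dif_neg, not_false_iff, postStart,
        ← hq₁, smul_smul, mul_inv_cancel₀ hq0, one_smul, add_sub_cancel]
      rfl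
  · have := hx2.has hh1
    exact this
  · refine hx2.near hh1.below ?_
    intro V hV c
    set Zc : En.X → Space d := fun x => En.vec V c x 0
    have hZ : Measurable Zc := (measurable_pi_apply 0).comp (En.meas V hV c)
    have hvp := hp V hV
    have e : ∀ p : En.X × (Fin S1.circ.T → Space d),
        S1.evalFun V c ψ1 p - π.xT q₁ V c p.1 (extFun p.2)
          = -gradient V (Zc p.1) - score V P.s (Zc p.1) := by
      intro p
      have hu : π.U V c q₁ (π.start V c p.1 (extFun p.2)) = (π.start V c p.1 (extFun p.2)).2 :=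
        ((π.isPair V hV c).init (π.start V c p.1 (extFun p.2))).2
      have hw : π.w V c q₁ (π.start V c p.1 (extFun p.2)) = (π.start V c p.1 (extFun p.2)).1 :=
        ((π.isPair V hV c).init (π.start V c p.1 (extFun p.2))).1
      simp only [Bld.evalFun, he1, Paths.xT, Paths.uT, Paths.zT, hu, hw]
      have ev : En.vec V c p.1 1 = -gradient V (Zc p.1) := by
        show postVec μ A P.t P.s τp δp Lp V c p.1 1
          = -gradient V (postVec μ A P.t P.s τp δp Lp V c p.1 0)
        simp [postVec, dif_pos hvp]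
      rw [S0.eval_ext, ev]
      simp only [hπ, postPaths, postStart, ← hq₁, smul_smul, mul_inv_cancel₀ hq0, one_smul,
        add_sub_cancel, hq, sub_sub_cancel]
      show _ + P.ρ • extFun p.2 0 - (score V P.s (Zc p.1) + P.ρ • extFun p.2 0) = _
      abel
    simp only [e]
    let f : En.X → Space d := fun x => -gradient V (Zc x) - score V P.s (Zc x)
    have hf : Measurable f := ((Quarter.contDiff_gradient hV.smooth).continuous.measurable.comp hZ).neg.sub
      (((continuous_score hV).comp (Continuous.prodMk continuous_const continuous_id)).measurable.comp hZ)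
    refine le_trans (le_of_eq (eLpNorm_comp_measurePreserving (g := f) hf.aestronglyMeasurable
      (measurePreserving_fst (μ := En.law) (ν := famLaw d (Fin S1.circ.T))))) ?_
    have h := eLpNorm_terminal_le (P := (stdGaussian (Space d)).prod μ) hV ht1 hs hst
      (Z := Zc) hZ (fun f hf => postVec_law μ A P τp δp Lp hvp c hf) hZ.aestronglyMeasurable
    refine h.trans ?_
    simp only [sub_self, eLpNorm_zero', mul_zero, zero_add]
    refine ENNReal.ofReal_le_ofReal ?_
    rw [Real.sqrt_mul (Nat.cast_nonneg d)]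
    nlinarith [norm_nonneg c, Real.sqrt_nonneg (d : ℝ), Real.sqrt_nonneg P.s]
  · refine Bld.near_of_eq fun V c x ξ => ?_
    rw [he2, S1.eval_zero, zero_add, one_smul, hl1]
    rfl

include hδ in
/-- **Finish.** A reset of the value at time `0` gives the oracle. -/
theorem pass_finish [StandardBorelSpace Ω] (hA : A.Meas) {T : ℕ} (hT : 2 ≤ T) {τ : ℝ} (hτ : 0 ≤ τ)
    (hτp : 0 < τp) (hpad : √2 * τ ≤ τp) {S : Bld (postEnv μ A P.t P.s τp δp Lp hδ hL)} (hok : S.Ok)
    (hST : S.circ.T = T) (htau : S.circ.tau = √2 * τ) (h2 : 2 ≤ S.len) (hlen : S.len < T)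
    {φ : Form} {nz e lp D : ℝ} (hφ : S.Has φ nz e lp) (hnz : nz ≤ P.ρ) (he : 0 ≤ e) (hlp : 0 ≤ lp)
    (hD : 0 ≤ D) (hnear : S.Near φ ((postPaths ht1 hs hst hρ hδ hL hp hT).xT 0) D) :
    ∃ (Ω' : Type) (_ : MeasurableSpace Ω') (P' : Measure Ω')
      (A' : Alg d (Ω' × Space d) (Space d)),
      StandardBorelSpace Ω' ∧ IsProbabilityMeasure P' ∧ A'.Meas ∧
      A'.size ≤ A.size + 1 + T * S.qb ∧
      ∀ V, Quarter.InClass V → Valid P' A' V P.t τ (√2 * P.ρ) (e + D) lp := by
  set π := postPaths ht1 hs hst hρ hδ hL hp hT with hπ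
  obtain ⟨S', ψ, hx, hok', hl', hh', hψ, hk', he'⟩ := Bld.push_reset hok (hST.symm ▸ hlen) hφ he hlp
    hρ hnz (S.circ.orc 0)
  let G : Bld.Truth (postEnv μ A P.t P.s τp δp Lp hδ hL) :=
    fun V c x ξ => (√2)⁻¹ • π.uT 0 V c x ξ + (√2)⁻¹ • ξ S.len
  have hq₁ := fineTime_lt hs hst
  have hGm : ∀ V, Quarter.InClass V → Measurable
      fun p : Space d × ((Space d × Ω) × (ℕ → Space d)) => G V p.1 p.2.1 p.2.2 := fun V hV => by
    have hsp := pairFam_spec hV (hs.trans hst) ht1 hρ (Real.sqrt_nonneg _) hq₁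
    let q : Space d × ((Space d × Ω) × (ℕ → Space d)) → Space d × (Space d × Space d) := fun p =>
      (p.1, postStart μ A P τp δp Lp V p.1 p.2.1 p.2.2)
    have hq : Measurable q := measurable_fst.prodMk (measurable_postStart μ A P τp δp Lp hV)
    have h1 : Measurable fun p : Space d × ((Space d × Ω) × (ℕ → Space d)) =>
        π.uT 0 V p.1 p.2.1 p.2.2 := by
      show Measurable ((fun x : Space d × (Space d × Space d) =>
        (pairFam V P.t P.ρ √(P.t - P.s)).2 x.1 0 x.2) ∘ q)
      exact ((hsp.2 0 ⟨le_rfl, Real.sqrt_nonneg _⟩).2.1.measurable).comp hq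
    exact (Measurable.fun_const_smul h1 _).add (Measurable.fun_const_smul
      ((measurable_pi_apply (X := fun _ : ℕ => Space d) S.len).comp
        (measurable_snd.comp measurable_snd)) _)
  have hGlaw : ∀ V, Quarter.InClass V → ∀ c,
      MeasurePreserving (S'.truthFun G V c) S'.idealLaw (stdGaussian (Space d)) := by
    intro V hV c
    have : IsProbabilityMeasure (pairLaw V c P.t √(P.t - P.s)) :=
      isProbability_pairLaw hV c hq₁.le
    have h0 := mp_postStart μ A P τp δp Lp hs hst hV (hp V hV) c (T := S'.circ.T) (g := S.len)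
      (by rw [hx.T, hST]; exact hlen) (by omega)
    have hU := (π.isPair V hV c).measurePreserving_zero hV (hs.trans hst) ht1 hρ
      (Real.sqrt_nonneg _) hq₁
    have hab : ((√2)⁻¹ : ℝ) ^ 2 + ((√2)⁻¹) ^ 2 = 1 := by
      rw [inv_pow, Real.sq_sqrt zero_le_two]; norm_num
    have hmix : MeasurePreserving (fun p : Space d × Space d => (√2)⁻¹ • p.1 + (√2)⁻¹ • p.2)
        ((stdGaussian (Space d)).prod (stdGaussian (Space d))) (stdGaussian (Space d)) :=
      ⟨by fun_prop, map_mix hab⟩
    exact (hmix.comp (hU.prod (MeasurePreserving.id _))).comp h0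
  have hn : S'.Near (Form.single S.len)
      (fun V c x ξ => score V P.t c + (√2 * P.ρ) • G V c x ξ) D := by
    intro V hV c
    rw [← hψ]
    refine le_of_eq_of_le (congrArg (fun F => eLpNorm F 2 _) (funext fun p => ?_))
      (hx.near hφ.below hnear V hV c)
    simp only [Bld.evalFun, he', hx.eval V c _ _ hφ.below, G, Paths.xT, Paths.zT, zero_smul,
      add_zero, smul_add, smul_smul]
    have : √2 * P.ρ * (√2)⁻¹ = P.ρ := by field_simp
    simp only [this]
    rw [show P.t - (0 : ℝ) ^ 2 = P.t by ring]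
    abel
  obtain ⟨Ω', m', P', A', r1, r2, r3, r4, r5⟩ := valid_run μ A hA hτ hτp hpad hδ hL hp S' hok'
    (hx.tau.trans htau) (g := S.len) (hl' ▸ Nat.lt_succ_self _) hk' (hψ ▸ hh') hD G hGm hGlaw hn
  exact ⟨Ω', m', P', A', r1, r2, r3, r4.trans (le_of_eq (by rw [hx.T, hx.qb, hST])), r5⟩

end

end

end P347.Zero
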