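import Vale.Agent.P347.Zero.Ode
import Vale.Agent.P347.Zero.Specs

/-!
# P347: the fields of the flow and of the pair flow

The pair flow is solved in the variables `(y, w, X)`, `X = score + ρ • U`, where the field has
linear growth, with the time running down from the fine end. As `y` is a variable of the state,
continuity in the start is joint continuity in `(y, z)`.
-/

namespace P347.Zero

open MeasureTheory ProbabilityTheory Set Metric
open scoped RealInnerProductSpace NNReal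

noncomputable section

variable {d : ℕ} {V : Space d → ℝ}

attribute [local irreducible] score smooth

/-- The part of `ScoreSpec` used by the flows. -/
structure Regular (V : Space d → ℝ) : Prop where
  pos : ∀ r y, 0 < smooth V r y
  lip : ∀ r, 0 ≤ r → LipschitzWith 2 (score V r)
  smoothOn : ∀ n : ℕ, ContDiffOn ℝ n (fun z : ℝ × Space d => score V z.1 z.2) (Ioi 0 ×ˢ univ)

theorem regular (h : ScoreSpec) (hV : Quarter.InClass V) : Regular V := by
  obtain ⟨h1, h2, -, -, h5⟩ := h d V hV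
  exact ⟨h1, h2, h5⟩

theorem isOpen_slab : IsOpen (Ioi (0 : ℝ) ×ˢ (univ : Set (Space d))) := isOpen_Ioi.prod isOpen_univ

/-- The score as a function of variance and point. -/
def score2 (V : Space d → ℝ) : ℝ × Space d → Space d := fun z => score V z.1 z.2

theorem Regular.contDiffAt (h : Regular V) (n : ℕ) {z : ℝ × Space d} (hz : 0 < z.1) :
    ContDiffAt ℝ n (score2 V) z :=
  (h.smoothOn n).contDiffAt (isOpen_slab.mem_nhds ⟨hz, mem_univ _⟩)

theorem Regular.scoreD_eq (h : Regular V) {r : ℝ} (hr : 0 < r) (z : Space d) :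
    scoreD V r z = (fderiv ℝ (score2 V) (r, z)).comp (ContinuousLinearMap.inr ℝ ℝ (Space d)) := by
  have h1 : HasFDerivAt (fun x : Space d => (r, x)) (ContinuousLinearMap.inr ℝ ℝ (Space d)) z :=
    hasFDerivAt_prodMk_right r z
  exact (((h.contDiffAt 1 (z := (r, z)) hr).differentiableAt one_ne_zero).hasFDerivAt.comp z
    h1).fderiv

theorem Regular.norm_scoreD_le (h : Regular V) {r : ℝ} (hr : 0 < r) (z : Space d) :
    ‖scoreD V r z‖ ≤ 2 := by
  unfold scoreD
  exact (norm_fderiv_le_of_lipschitz ℝ (h.lip r hr.le)).trans_eq (by norm_num)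

theorem Regular.contDiffOn_scoreD (h : Regular V) :
    ContDiffOn ℝ 1 (fun z : ℝ × Space d => scoreD V z.1 z.2) (Ioi 0 ×ˢ univ) := by
  intro z hz
  set F : (ℝ × Space d →L[ℝ] Space d) →L[ℝ] (Space d →L[ℝ] Space d) :=
    (ContinuousLinearMap.compL ℝ (Space d) (ℝ × Space d) (Space d)).flip
      (ContinuousLinearMap.inr ℝ ℝ (Space d))
  have hf : ContDiffAt ℝ 1 (fun x => fderiv ℝ (score2 V) x) z :=
    (h.contDiffAt 2 hz.1).fderiv_right (m := 1) (by norm_num)
  have h2 : ContDiffAt ℝ 1 (fun x => F (fderiv ℝ (score2 V) x)) z :=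
    ContDiffAt.continuousLinearMap_comp F hf
  refine (h2.congr_of_eventuallyEq ?_).contDiffWithinAt
  filter_upwards [isOpen_slab.mem_nhds hz] with x hx
  exact h.scoreD_eq hx.1 x.2

theorem Regular.bound_zero (h : Regular V) {a b : ℝ} (ha : 0 < a) :
    ∃ C : ℝ, 0 ≤ C ∧ ∀ r ∈ Icc a b, ∀ z, ‖score V r z‖ ≤ C + 2 * ‖z‖ := by
  have hc : ContinuousOn (fun r : ℝ => score V r 0) (Icc a b) :=
    ((h.smoothOn 0).continuousOn).comp (continuous_id.prodMk continuous_const).continuousOn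
      fun r hr => ⟨ha.trans_le hr.1, mem_univ _⟩
  obtain ⟨C, hC⟩ := isCompact_Icc.exists_bound_of_continuousOn hc
  refine ⟨max C 0, le_max_right _ _, fun r hr z => ?_⟩
  have h1 := (h.lip r (ha.le.trans hr.1)).dist_le_mul z 0
  rw [dist_eq_norm, dist_zero_right, NNReal.coe_ofNat] at h1
  linarith [norm_sub_norm_le (score V r z) (score V r 0), hC r hr, le_max_left C 0]

/-! ## The flow -/

/-- The field of the flow in the direction `σ`, with `y` in the state. -/
def flowG (V : Space d → ℝ) (t σ τ : ℝ) (x : Space d × Space d) : Space d × Space d :=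
  (0, σ • score V (t - τ ^ 2) (x.1 + (σ * τ) • x.2))

theorem sq_slab {T τ : ℝ} (hτ : τ ∈ Icc 0 T) : τ ^ 2 ≤ T ^ 2 := pow_le_pow_left₀ hτ.1 hτ.2 2

/-- A field which is smooth near the slab is Lipschitz on balls. -/
theorem locLip_of_contDiffOn {X : Type} [NormedAddCommGroup X] [NormedSpace ℝ X]
    [FiniteDimensional ℝ X] {G : ℝ → X → X} {T : ℝ} {O : Set (ℝ × X)}
    (hG : ContDiffOn ℝ 1 (fun z : ℝ × X => G z.1 z.2) O) (hO : Icc 0 T ×ˢ univ ⊆ O) (R : ℝ) :
    ∃ K : ℝ≥0, ∀ t ∈ Icc 0 T, LipschitzOnWith K (G t) (closedBall 0 R) := by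
  have hsub : Icc 0 T ×ˢ closedBall (0 : X) R ⊆ O :=
    (prod_mono le_rfl (subset_univ _)).trans hO
  obtain ⟨K, hK⟩ := (hG.mono hsub).exists_lipschitzOnWith one_ne_zero
    ((convex_Icc 0 T).prod (convex_closedBall 0 R)) (isCompact_Icc.prod (isCompact_closedBall 0 R))
  refine ⟨K, fun t ht => LipschitzOnWith.of_dist_le_mul fun a ha b hb => ?_⟩
  simpa [Prod.dist_eq] using hK.dist_le_mul (t, a) ⟨ht, ha⟩ (t, b) ⟨ht, hb⟩

theorem Regular.field_flowG (h : Regular V) {t T σ : ℝ} (hT : T ^ 2 < t) (hσ : |σ| ≤ 1) :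
    Field (flowG V t σ) T := by
  set O : Set (ℝ × (Space d × Space d)) := {z | 0 < t - z.1 ^ 2}
  have hO : Icc 0 T ×ˢ univ ⊆ O := fun z hz => by
    have := sq_slab hz.1
    simp only [O, mem_ofPred_eq]; linarith
  have harg : ContDiff ℝ 1 (fun z : ℝ × (Space d × Space d) =>
      (t - z.1 ^ 2, z.2.1 + (σ * z.1) • z.2.2)) := by fun_prop
  have hsm : ContDiffOn ℝ 1 (fun z : ℝ × (Space d × Space d) => flowG V t σ z.1 z.2) O :=
    contDiffOn_const.prodMk (((h.smoothOn 1).comp harg.contDiffOn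
      fun z hz => ⟨hz, mem_univ _⟩).const_smul σ)
  refine ⟨(hsm.mono hO).continuousOn, locLip_of_contDiffOn hsm hO, ?_⟩
  obtain ⟨C, hC0, hC⟩ := h.bound_zero (a := t - T ^ 2) (b := t) (by linarith)
  refine ⟨(C + 2 * (1 + |T|)).toNNReal, fun τ hτ x => ?_⟩
  have hr : t - τ ^ 2 ∈ Icc (t - T ^ 2) t :=
    ⟨by linarith [sq_slab hτ], by linarith [sq_nonneg τ]⟩
  rw [Real.coe_toNNReal _ (by positivity), flowG, Prod.norm_def, norm_zero,
    max_eq_right (norm_nonneg _), norm_smul, Real.norm_eq_abs]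
  refine (mul_le_of_le_one_left (norm_nonneg _) hσ).trans ((hC _ hr _).trans ?_)
  have h1 : ‖(σ * τ) • x.2‖ ≤ |T| * ‖x‖ := by
    rw [norm_smul, Real.norm_eq_abs, abs_mul, abs_of_nonneg hτ.1]
    exact mul_le_mul ((mul_le_of_le_one_left hτ.1 hσ).trans (hτ.2.trans (le_abs_self T)))
      (norm_snd_le x) (norm_nonneg _) (abs_nonneg T)
  have h2 := norm_add_le x.1 ((σ * τ) • x.2)
  nlinarith [norm_fst_le x, norm_nonneg x, abs_nonneg T]

theorem IsFlow.solves {y : Space d} {t T σ : ℝ} {w : ℝ → Space d → Space d}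
    (hw : IsFlow V y t w) (hT : T ^ 2 < t) (hσ : σ ^ 2 = 1) (ξ : Space d) :
    Solves (flowG V t σ) T fun τ => (y, w (σ * τ) ξ) := by
  intro τ hτ
  have e : (σ * τ) ^ 2 = τ ^ 2 := by rw [mul_pow, hσ, one_mul]
  have hd : HasDerivAt (fun s => w s ξ)
      (score V (t - τ ^ 2) (y + (σ * τ) • w (σ * τ) ξ)) (σ * τ) := by
    have := hw.deriv ξ (σ * τ) (by rw [e]; linarith [sq_slab hτ])
    rwa [e] at this
  have hm : HasDerivAt (fun s : ℝ => σ * s) σ τ := by
    simpa using (hasDerivAt_id τ).const_mul σ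
  exact ((hasDerivAt_const τ y).prodMk (hd.scomp τ hm)).hasDerivWithinAt

/-- Flows depend continuously on the centre and the start together. -/
theorem Regular.continuous_flow (h : Regular V) {t : ℝ} {w : Space d → ℝ → Space d → Space d}
    (hw : ∀ y, IsFlow V y t (w y)) {q : ℝ} (hq : q ^ 2 < t) :
    Continuous fun x : Space d × Space d => w x.1 q x.2 := by
  set σ : ℝ := if 0 ≤ q then 1 else -1 with hσdef
  have hσ : σ ^ 2 = 1 := by rw [hσdef]; split_ifs <;> norm_num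
  have hq' : σ * |q| = q := by
    rw [hσdef]; split_ifs with hs
    · rw [abs_of_nonneg hs, one_mul]
    · rw [abs_of_neg (not_le.1 hs)]; ring
  have hT : |q| ^ 2 < t := by rwa [sq_abs]
  have hf := h.field_flowG (t := t) (T := |q|) (σ := σ) hT
    (by rw [hσdef]; split_ifs <;> norm_num)
  have := hf.continuous_solves (Φ := fun τ x => (x.1, w x.1 (σ * τ) x.2))
    (fun x => by simp [(hw x.1).init]) (fun x => (hw x.1).solves hT hσ x.2)
    (t := |q|) ⟨abs_nonneg q, le_rfl⟩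
  exact (continuous_snd.comp this).congr fun x => by simp [hq']

/-! ## The pair flow -/

/-- The variables `(y, w, X)`. -/
abbrev St (d : ℕ) := Space d × Space d × Space d

/-- The second component `U` of a state at time `q`. -/
def stU (V : Space d → ℝ) (t ρ q : ℝ) (x : St d) : Space d :=
  ρ⁻¹ • (x.2.2 - score V (t - q ^ 2) (x.1 + q • x.2.1))

/-- The field of the pair flow, the time running down from `q₁`. -/
def pairG (V : Space d → ℝ) (t ρ q₁ τ : ℝ) (x : St d) : St d :=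
  (0, -(score V (t - (q₁ - τ) ^ 2) (x.1 + (q₁ - τ) • x.2.1) +
      ρ⁻¹ • scoreD V (t - (q₁ - τ) ^ 2) (x.1 + (q₁ - τ) • x.2.1) (stU V t ρ (q₁ - τ) x)),
    -(((q₁ - τ) / ρ) • scoreD V (t - (q₁ - τ) ^ 2) (x.1 + (q₁ - τ) • x.2.1)
      (scoreD V (t - (q₁ - τ) ^ 2) (x.1 + (q₁ - τ) • x.2.1) (stU V t ρ (q₁ - τ) x))))

theorem Regular.contDiffOn_pairG (h : Regular V) {t ρ q₁ : ℝ} :
    ContDiffOn ℝ 1 (fun z : ℝ × St d => pairG V t ρ q₁ z.1 z.2)
      {z | 0 < t - (q₁ - z.1) ^ 2} := by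
  set O : Set (ℝ × St d) := {z | 0 < t - (q₁ - z.1) ^ 2}
  set arg : ℝ × St d → ℝ × Space d :=
    fun z => (t - (q₁ - z.1) ^ 2, z.2.1 + (q₁ - z.1) • z.2.2.1)
  have harg : ContDiff ℝ 1 arg := by
    simp only [arg]
    exact (contDiff_const.sub ((contDiff_const.sub contDiff_fst).pow 2)).prodMk
      ((contDiff_fst.comp contDiff_snd).add ((contDiff_const.sub contDiff_fst).smul
        (contDiff_fst.comp (contDiff_snd.comp contDiff_snd))))
  have hmap : MapsTo arg O (Ioi 0 ×ˢ univ) := fun z hz => ⟨hz, mem_univ _⟩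
  have hb : ContDiffOn ℝ 1 (fun z => score2 V (arg z)) O :=
    (h.smoothOn 1).comp harg.contDiffOn hmap
  have hB : ContDiffOn ℝ 1 (fun z => scoreD V (arg z).1 (arg z).2) O :=
    h.contDiffOn_scoreD.comp harg.contDiffOn hmap
  have h3 : ContDiffOn ℝ 1 (fun z : ℝ × St d => z.2.2.2) O :=
    (contDiff_snd.comp (contDiff_snd.comp contDiff_snd)).contDiffOn
  have hU : ContDiffOn ℝ 1 (fun z : ℝ × St d => ρ⁻¹ • (z.2.2.2 - score2 V (arg z))) O :=
    (h3.sub hb).const_smul ρ⁻¹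
  have hBU := hB.clm_apply hU
  have hBBU := hB.clm_apply hBU
  have hq : ContDiffOn ℝ 1 (fun z : ℝ × St d => (q₁ - z.1) / ρ) O :=
    (contDiffOn_const.sub contDiffOn_fst).div_const ρ
  have hw := (hb.add (hBU.const_smul ρ⁻¹)).neg
  have hX := (hq.smul hBBU).neg
  exact contDiffOn_const.prodMk (hw.prodMk hX)

theorem Regular.grow_pairG (h : Regular V) {t ρ q₁ : ℝ} (hq : q₁ ^ 2 < t) :
    ∃ A : ℝ≥0, ∀ τ ∈ Icc 0 q₁, ∀ x : St d, ‖pairG V t ρ q₁ τ x‖ ≤ A * (1 + ‖x‖) := by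
  obtain ⟨C, hC0, hC⟩ := h.bound_zero (a := t - q₁ ^ 2) (b := t) (by linarith)
  set S : ℝ := C + 2 * (1 + |q₁|)
  set N : ℝ := |ρ⁻¹| * (1 + S)
  refine ⟨(S + |ρ⁻¹| * (2 * N) + |q₁| * |ρ⁻¹| * (2 * (2 * N))).toNNReal, fun τ hτ x => ?_⟩
  set q : ℝ := q₁ - τ
  have hq0 : 0 ≤ q := by linarith [hτ.2]
  have hqq : q ≤ |q₁| := by linarith [hτ.1, le_abs_self q₁]
  have hr : t - q ^ 2 ∈ Icc (t - q₁ ^ 2) t :=
    ⟨by linarith [pow_le_pow_left₀ hq0 (show q ≤ q₁ by linarith [hτ.1]) 2],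
      by linarith [sq_nonneg q]⟩
  have hpos : 0 < t - q ^ 2 := by linarith [hr.1]
  set b := score V (t - q ^ 2) (x.1 + q • x.2.1) with hbdef
  set B := scoreD V (t - q ^ 2) (x.1 + q • x.2.1)
  set U := stU V t ρ q x
  have hx1 : ‖x.1‖ ≤ ‖x‖ := norm_fst_le x
  have hx2 : ‖x.2.1‖ ≤ ‖x‖ := (norm_fst_le x.2).trans (norm_snd_le x)
  have hx3 : ‖x.2.2‖ ≤ ‖x‖ := (norm_snd_le x.2).trans (norm_snd_le x)
  have hbn : ‖b‖ ≤ S * (1 + ‖x‖) := by
    refine (hC _ hr _).trans ?_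
    have h2 := norm_add_le x.1 (q • x.2.1)
    rw [norm_smul, Real.norm_eq_abs, abs_of_nonneg hq0] at h2
    have : q * ‖x.2.1‖ ≤ |q₁| * ‖x‖ := mul_le_mul hqq hx2 (norm_nonneg _) (abs_nonneg _)
    simp only [S]; nlinarith [norm_nonneg x, abs_nonneg q₁]
  have hUn : ‖U‖ ≤ N * (1 + ‖x‖) := by
    simp only [U, stU, norm_smul, Real.norm_eq_abs, N, mul_assoc]
    gcongr
    linarith [norm_sub_le x.2.2 b, norm_nonneg x]
  have hB2 : ∀ v, ‖B v‖ ≤ 2 * ‖v‖ := fun v =>
    B.le_of_opNorm_le (h.norm_scoreD_le hpos _) v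
  have hS0 : 0 ≤ S := by simp only [S]; positivity
  have hN0 : 0 ≤ N := by positivity
  have hBU : ‖B U‖ ≤ 2 * N * (1 + ‖x‖) := by linarith [hB2 U]
  have hBBU : ‖B (B U)‖ ≤ 2 * (2 * N) * (1 + ‖x‖) := by linarith [hB2 (B U)]
  have e1 : ‖b + ρ⁻¹ • B U‖ ≤ (S + |ρ⁻¹| * (2 * N)) * (1 + ‖x‖) := by
    refine (norm_add_le _ _).trans ?_
    rw [norm_smul, Real.norm_eq_abs, add_mul, mul_assoc |ρ⁻¹|]
    exact add_le_add hbn (mul_le_mul_of_nonneg_left hBU (abs_nonneg _))
  have e2 : ‖(q / ρ) • B (B U)‖ ≤ |q₁| * |ρ⁻¹| * (2 * (2 * N)) * (1 + ‖x‖) := by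
    rw [norm_smul, Real.norm_eq_abs, div_eq_mul_inv, abs_mul, abs_of_nonneg hq0, mul_assoc (|q₁| * |ρ⁻¹|)]
    exact mul_le_mul (mul_le_mul_of_nonneg_right hqq (abs_nonneg _)) hBBU (norm_nonneg _)
      (by positivity)
  rw [Real.coe_toNNReal _ (by positivity)]
  show ‖((0 : Space d), -(b + ρ⁻¹ • B U), -((q / ρ) • B (B U)))‖ ≤ _
  have p1 : 0 ≤ |q₁| * |ρ⁻¹| * (2 * (2 * N)) * (1 + ‖x‖) := by positivity
  have p2 : 0 ≤ (S + |ρ⁻¹| * (2 * N)) * (1 + ‖x‖) := by positivity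
  refine norm_prod_le_iff.2 ⟨by rw [norm_zero]; positivity, norm_prod_le_iff.2 ⟨?_, ?_⟩⟩ <;>
    (rw [norm_neg, add_mul]; linarith)

theorem Regular.field_pairG (h : Regular V) {t ρ q₁ : ℝ} (hq : q₁ ^ 2 < t) :
    Field (pairG V t ρ q₁) q₁ := by
  have hO : Icc 0 q₁ ×ˢ univ ⊆ {z : ℝ × St d | 0 < t - (q₁ - z.1) ^ 2} := fun z hz => by
    have : (q₁ - z.1) ^ 2 ≤ q₁ ^ 2 :=
      pow_le_pow_left₀ (by linarith [hz.1.2]) (by linarith [hz.1.1]) 2
    show 0 < t - (q₁ - z.1) ^ 2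
    linarith
  exact ⟨(h.contDiffOn_pairG.mono hO).continuousOn, locLip_of_contDiffOn h.contDiffOn_pairG hO,
    h.grow_pairG hq⟩

/-- The state which starts the pair flow. -/
def pairStart (V : Space d → ℝ) (t ρ q₁ : ℝ) (y : Space d) (z : Space d × Space d) : St d :=
  (y, z.1, score V (t - q₁ ^ 2) (y + q₁ • z.1) + ρ • z.2)

/-- The path of a pair flow in the variables `(y, w, X)`, backwards. -/
def pairPath (V : Space d → ℝ) (t ρ q₁ : ℝ) (y : Space d)
    (w U : ℝ → Space d × Space d → Space d) (z : Space d × Space d) (τ : ℝ) : St d :=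
  (y, w (q₁ - τ) z,
    score V (t - (q₁ - τ) ^ 2) (y + (q₁ - τ) • w (q₁ - τ) z) + ρ • U (q₁ - τ) z)

theorem pairPath_zero {y : Space d} {t ρ q₁ : ℝ} {w U : ℝ → Space d × Space d → Space d}
    (hw : IsPair V y t ρ q₁ w U) (z : Space d × Space d) :
    pairPath V t ρ q₁ y w U z 0 = pairStart V t ρ q₁ y z := by
  simp [pairPath, pairStart, (hw.init z).1, (hw.init z).2]

theorem IsPair.solves {y : Space d} {t ρ q₁ : ℝ} {w U : ℝ → Space d × Space d → Space d}
    (hρ : ρ ≠ 0) (hw : IsPair V y t ρ q₁ w U) (z : Space d × Space d) :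
    Solves (pairG V t ρ q₁) q₁ (pairPath V t ρ q₁ y w U z) := by
  intro τ hτ
  have hq : q₁ - τ ∈ Icc 0 q₁ := ⟨by linarith [hτ.2], by linarith [hτ.1]⟩
  have hm : HasDerivWithinAt (fun s : ℝ => q₁ - s) (-1) (Icc 0 q₁) τ := by
    simpa using (hasDerivWithinAt_id τ (Icc 0 q₁)).const_sub q₁
  have hmaps : MapsTo (fun s : ℝ => q₁ - s) (Icc 0 q₁) (Icc 0 q₁) :=
    fun s hs => ⟨by linarith [hs.2], by linarith [hs.1]⟩
  have h1 := (hw.derivW z _ hq).scomp τ hm hmaps
  have h2 := (hw.derivX z _ hq).scomp τ hm hmaps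
  refine ((hasDerivWithinAt_const τ _ y).prodMk (h1.prodMk h2)).congr_deriv ?_
  simp [pairG, pairPath, stU, smul_smul, inv_mul_cancel₀ hρ, add_comm]

/-- The pair flow depends continuously on the centre and the start together. -/
theorem Regular.continuous_pair (h : Regular V) {t ρ q₁ : ℝ} (hρ : ρ ≠ 0) (hq : q₁ ^ 2 < t)
    {w U : Space d → ℝ → Space d × Space d → Space d}
    (hw : ∀ y, IsPair V y t ρ q₁ (w y) (U y)) {q : ℝ} (hq' : q ∈ Icc 0 q₁) :
    Continuous (fun x : Space d × (Space d × Space d) => w x.1 q x.2) ∧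
      Continuous fun x : Space d × (Space d × Space d) => U x.1 q x.2 := by
  have hf := h.field_pairG (ρ := ρ) hq
  have hτ : q₁ - q ∈ Icc 0 q₁ := ⟨by linarith [hq'.2], by linarith [hq'.1]⟩
  set r₁ : ℝ := t - q₁ ^ 2
  have hr₁ : 0 < r₁ := by linarith
  have hcs : ∀ {r : ℝ}, 0 < r → Continuous (score V r) := fun hr => (h.lip _ hr.le).continuous
  -- the start is read back from a state
  set back : St d → Space d × (Space d × Space d) :=
    fun x => (x.1, x.2.1, ρ⁻¹ • (x.2.2 - score V r₁ (x.1 + q₁ • x.2.1)))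
  set Φ : ℝ → St d → St d :=
    fun τ x => pairPath V t ρ q₁ x.1 (w x.1) (U x.1) (back x).2 τ
  have hstart : ∀ x, Φ 0 x = x := fun x => by
    simp [Φ, back, pairPath_zero (hw x.1), pairStart, r₁, smul_smul, mul_inv_cancel₀ hρ]
  have hΦ := hf.continuous_solves hstart (fun x => (hw x.1).solves hρ _) hτ
  have hst : Continuous fun x : Space d × (Space d × Space d) => pairStart V t ρ q₁ x.1 x.2 := by
    unfold pairStart
    exact continuous_fst.prodMk (continuous_snd.fst.prodMk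
      (((hcs hr₁).comp (by fun_prop)).add (by fun_prop)))
  have hc := hΦ.comp hst
  have e : ∀ x : Space d × (Space d × Space d),
      Φ (q₁ - q) (pairStart V t ρ q₁ x.1 x.2) = pairPath V t ρ q₁ x.1 (w x.1) (U x.1) x.2 (q₁ - q) := by
    intro x
    simp [Φ, back, pairStart, r₁, smul_smul, inv_mul_cancel₀ hρ]
  have hp : Continuous fun x : Space d × (Space d × Space d) =>
      pairPath V t ρ q₁ x.1 (w x.1) (U x.1) x.2 (q₁ - q) := hc.congr e
  have hqq : t - q ^ 2 > 0 := by linarith [pow_le_pow_left₀ hq'.1 hq'.2 2]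
  have hwc : Continuous fun x : Space d × (Space d × Space d) => w x.1 q x.2 :=
    (continuous_snd.fst.comp hp).congr fun x => by simp [pairPath]
  refine ⟨hwc, ?_⟩
  have hX : Continuous fun x : Space d × (Space d × Space d) =>
      score V (t - q ^ 2) (x.1 + q • w x.1 q x.2) + ρ • U x.1 q x.2 :=
    (continuous_snd.snd.comp hp).congr fun x => by simp [pairPath]
  refine (((hX.sub ((hcs hqq).comp (continuous_fst.add (hwc.const_smul q)))).const_smul ρ⁻¹)).congr
    fun x => ?_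
  simp [smul_smul, inv_mul_cancel₀ hρ]

/-- The pair flow exists. -/
theorem Regular.exists_pair (h : Regular V) {y : Space d} {t ρ q₁ : ℝ} (hρ : ρ ≠ 0) (hq0 : 0 ≤ q₁)
    (hq : q₁ ^ 2 < t) : ∃ w U, IsPair V y t ρ q₁ w U := by
  have hf := h.field_pairG (ρ := ρ) hq
  choose S hS0 hS using fun z => hf.exists_solves hq0 (pairStart V t ρ q₁ y z)
  have hy : ∀ z, ∀ τ ∈ Icc 0 q₁, (S z τ).1 = y := by
    intro z τ hτ
    have hd : ∀ s ∈ Icc 0 q₁, HasDerivWithinAt (fun s => (S z s).1) 0 (Icc 0 q₁) s :=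
      fun s hs => (hS z s hs).fst
    rw [constant_of_derivWithin_zero (fun s hs => (hd s hs).differentiableWithinAt)
      (fun s hs => (hd s (Ico_subset_Icc_self hs)).derivWithin
        (uniqueDiffOn_Icc (hs.1.trans_lt hs.2) s (Ico_subset_Icc_self hs))) τ hτ, hS0]
    rfl
  have hcont : ∀ τ ∈ Icc 0 q₁, Continuous fun z => S z τ := by
    intro τ hτ
    refine continuous_iff_continuousAt.2 fun z => ?_
    have hst : Continuous fun z : Space d × Space d => pairStart V t ρ q₁ y z := by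
      unfold pairStart
      exact continuous_const.prodMk (continuous_fst.prodMk
        ((((h.lip _ (by linarith : (0 : ℝ) ≤ t - q₁ ^ 2)).continuous).comp (by fun_prop)).add
          (by fun_prop)))
    obtain ⟨C, hC0, hC⟩ := hf.lip_solves (‖pairStart V t ρ q₁ y z‖ + 1)
    rw [ContinuousAt, tendsto_iff_dist_tendsto_zero]
    have hlim : Filter.Tendsto (fun z' => C * dist (pairStart V t ρ q₁ y z') (pairStart V t ρ q₁ y z))
        (nhds z) (nhds 0) := by
      simpa using ((tendsto_iff_dist_tendsto_zero.1 (hst.tendsto z)).const_mul C)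
    refine squeeze_zero' (Filter.Eventually.of_forall fun _ => dist_nonneg) ?_ hlim
    filter_upwards [(hst.norm.tendsto z).eventually_le_const (lt_add_one _)] with z' hz'
    have := hC (S z') (S z) (by rw [hS0]; exact hz') (by rw [hS0]; linarith) (hS z') (hS z) τ hτ
    rwa [hS0, hS0] at this
  refine ⟨fun q z => (S z (q₁ - q)).2.1, fun q z => stU V t ρ q (S z (q₁ - q)), ?_⟩
  have hmem : ∀ q ∈ Icc 0 q₁, q₁ - q ∈ Icc 0 q₁ :=
    fun q hq' => ⟨by linarith [hq'.2], by linarith [hq'.1]⟩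
  have eX : ∀ z, ∀ q ∈ Icc 0 q₁,
      score V (t - q ^ 2) (y + q • (S z (q₁ - q)).2.1) + ρ • stU V t ρ q (S z (q₁ - q))
        = (S z (q₁ - q)).2.2 := by
    intro z q hq'
    simp [stU, hy z _ (hmem q hq'), smul_smul, mul_inv_cancel₀ hρ]
  have hd : ∀ z, ∀ q ∈ Icc 0 q₁, HasDerivWithinAt (fun s => S z (q₁ - s))
      (-pairG V t ρ q₁ (q₁ - q) (S z (q₁ - q))) (Icc 0 q₁) q := by
    intro z q hq'
    have hm : HasDerivWithinAt (fun s : ℝ => q₁ - s) (-1) (Icc 0 q₁) q := by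
      simpa using (hasDerivWithinAt_id q (Icc 0 q₁)).const_sub q₁
    simpa [Function.comp_def] using (hS z _ (hmem q hq')).scomp q hm fun s hs => hmem s hs
  refine ⟨fun z => ?_, fun z q hq' => ?_, fun z q hq' => ?_, fun q hq' => ?_⟩
  · simp [hS0, pairStart, stU, smul_smul, inv_mul_cancel₀ hρ]
  · have := (hasFDerivAt_fst.comp (S z (q₁ - q)) hasFDerivAt_snd).comp_hasDerivWithinAt q (hd z q hq')
    simpa [pairG, hy z _ (hmem q hq'), Function.comp_def] using this
  · have := (hasFDerivAt_snd.comp (S z (q₁ - q)) hasFDerivAt_snd).comp_hasDerivWithinAt q (hd z q hq')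
    refine (this.congr_deriv ?_).congr (fun s hs => eX z s hs) (eX z q hq')
    simp [pairG, hy z _ (hmem q hq')]
  · have hw : Continuous fun z => S z (q₁ - q) := hcont _ (hmem q hq')
    have hr : 0 ≤ t - q ^ 2 := by linarith [pow_le_pow_left₀ hq'.1 hq'.2 2]
    refine ⟨continuous_snd.fst.comp hw, ?_⟩
    unfold stU
    exact ((continuous_snd.snd.comp hw).sub ((h.lip _ hr).continuous.comp
      ((continuous_fst.comp hw).add ((continuous_snd.fst.comp hw).const_smul q)))).const_smul ρ⁻¹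

end

end P347.Zero
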