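import Vale.Agent.P347.Zero.PairFlux
import Vale.Agent.P347.Zero.PairField

/-!
# P347: the law of the pair flow

Along a pair flow the point `(w, U)` moves with the cut-off flux field wherever the cut-off is one.
That field carries the pair law exactly; the cut-off tends to one and the flows converge pointwise.
-/

namespace P347.Zero

open MeasureTheory ProbabilityTheory Finset Filter P347.Quarter
open scoped RealInnerProductSpace Topology NNReal

noncomputable section

variable {d : ℕ} {V : Space d → ℝ}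

attribute [local irreducible] ld sd smooth

/-- Both blocks put together. -/
def emb (a u : Space d) : Space (d + d) := ∑ i, a i • eA i + ∑ j, u j • eU j

theorem pA_emb (a u : Space d) : pA d (emb a u) = a := by
  simp [emb, sum_coord_smul]

theorem pU_emb (a u : Space d) : pU d (emb a u) = u := by
  simp [emb, sum_coord_smul]

theorem emb_pick (x : Space (d + d)) : emb (pA d x) (pU d x) = x := by
  conv_rhs => rw [← sum_coord_smul x, Fin.sum_univ_add]
  simp [emb, eA, eU, pA, pU]

theorem norm_eA (i : Fin d) : ‖eA i‖ = 1 := by simp [eA]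

theorem norm_eU (i : Fin d) : ‖eU i‖ = 1 := by simp [eU]

theorem score_coord (hV : InClass V) {r : ℝ} (hr : 0 < r) (z : Space d) (i : Fin d) :
    score V r z i = ld V [i] (r, z) := by
  have h : score V r z i = ⟪score V r z, bv i⟫ := by
    simp [bv, EuclideanSpace.basisFun_apply, EuclideanSpace.inner_single_right]
  have e : (fun z => ld V [] (r, z)) = fun z => Real.log (smooth V r z) :=
    funext fun u => ld_nil V _
  rw [h, score, inner_gradient, ← e, (hasDerivAt_ld_space hV [] hr z).2.fderiv]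
  simp [_root_.sum_apply, bv, EuclideanSpace.basisFun_apply]

theorem score_eq_ld_sum (hV : InClass V) {r : ℝ} (hr : 0 < r) :
    score V r = fun z => ∑ i, ld V [i] (r, z) • bv i := by
  funext z
  conv_lhs => rw [← sum_coord_smul (score V r z)]
  exact sum_congr rfl fun i _ => by rw [score_coord hV hr]

theorem scoreD_coord (hV : InClass V) {r : ℝ} (hr : 0 < r) (z v : Space d) (i : Fin d) :
    scoreD V r z v i = ∑ j, v j * ld V [j, i] (r, z) := by
  have h : HasFDerivAt (fun z => ∑ i, ld V [i] (r, z) • bv i)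
      (∑ i : Fin d, (∑ j, ld V (j :: [i]) (r, z) • (EuclideanSpace.proj j : Space d →L[ℝ] ℝ)).smulRight
        (bv i)) z :=
    HasFDerivAt.fun_sum fun i _ => (hasDerivAt_ld_space hV [i] hr z).2.smul_const (bv i)
  rw [scoreD, score_eq_ld_sum hV hr, h.fderiv]
  simp [_root_.sum_apply, bv, EuclideanSpace.basisFun_apply, Pi.single_apply, mul_comm]

theorem abs_ld_pair_le (hV : InClass V) (h : Regular V) {r : ℝ} (hr : 0 < r) (z : Space d)
    (i j : Fin d) : |ld V [j, i] (r, z)| ≤ 2 := by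
  have e : scoreD V r z (bv j) i = ld V [j, i] (r, z) := by
    rw [scoreD_coord hV hr]
    simp [bv, EuclideanSpace.basisFun_apply, Pi.single_apply]
  rw [← e, ← Real.norm_eq_abs]
  refine (PiLp.norm_apply_le _ i).trans ((scoreD V r z).le_opNorm _ |>.trans ?_)
  simpa using h.norm_scoreD_le hr z

/-! ## The path of a pair flow -/

theorem IsPair.path_deriv (hV : InClass V) {y : Space d} {t ρ q₁ : ℝ} (hρ : ρ ≠ 0)
    (hq₁ : q₁ ^ 2 < t) {w U : ℝ → Space d × Space d → Space d} (hw : IsPair V y t ρ q₁ w U)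
    (z : Space d × Space d) {q : ℝ} (hq : q ∈ Set.Icc 0 q₁) {φ : Space (d + d) → ℝ}
    (h1 : φ =ᶠ[𝓝 (emb (w q z) (U q z))] 1) :
    HasDerivWithinAt (fun s => emb (w s z) (U s z))
      (vel V y t ρ φ (q, emb (w q z) (U q z))) (Set.Icc 0 q₁) q := by
  have hmem : ∀ s ∈ Set.Icc 0 q₁, 0 < t - s ^ 2 := fun s hs => by
    linarith [pow_le_pow_left₀ hs.1 hs.2 2]
  have hr := hmem q hq
  set p : ℝ × Space d := (t - q ^ 2, y + q • w q z) with hp
  set a := w q z
  set u := U q z
  set a' := score V p.1 p.2 + ρ⁻¹ • scoreD V p.1 p.2 u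
  have hw' : HasDerivWithinAt (fun s => w s z) a' (Set.Icc 0 q₁) q := hw.derivW z q hq
  have hcurve : HasDerivWithinAt (fun s => (t - s ^ 2, y + s • w s z))
      ((-(2 * q), a + q • a') : ℝ × Space d) (Set.Icc 0 q₁) q := by
    refine HasDerivWithinAt.prodMk ?_ ?_
    · simpa using ((hasDerivWithinAt_id q (Set.Icc 0 q₁)).pow 2).const_sub t
    · refine ((((hasDerivWithinAt_id q (Set.Icc 0 q₁)).smul hw').const_add y)).congr_deriv ?_
      simp [a, add_comm]
  have hb : ∀ i : Fin d, HasDerivWithinAt (fun s => score V (t - s ^ 2) (y + s • w s z) i)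
      (fderiv ℝ (ld V [i]) p (-(2 * q), a + q • a')) (Set.Icc 0 q₁) q := fun i =>
    ((((contDiffAt_ld hV [i] 1 (p := p) hr).differentiableAt one_ne_zero).hasFDerivAt
      ).comp_hasDerivWithinAt q hcurve).congr (fun s hs => score_coord hV (hmem s hs) _ i)
      (score_coord hV hr _ i)
  set X' := (q / ρ) • scoreD V p.1 p.2 (scoreD V p.1 p.2 u)
  have hU : ∀ i : Fin d, HasDerivWithinAt (fun s => U s z i)
      (ρ⁻¹ * (X' i - fderiv ℝ (ld V [i]) p (-(2 * q), a + q • a'))) (Set.Icc 0 q₁) q := by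
    intro i
    have hX := (EuclideanSpace.proj i : Space d →L[ℝ] ℝ).hasFDerivAt.comp_hasDerivWithinAt q
      (hw.derivX z q hq)
    refine ((hX.sub (hb i)).const_mul ρ⁻¹).congr (fun s _ => ?_) ?_ <;>
      simp [hρ]
  have hW : ∀ i : Fin d, HasDerivWithinAt (fun s => w s z i) (a' i) (Set.Icc 0 q₁) q := fun i =>
    (EuclideanSpace.proj i : Space d →L[ℝ] ℝ).hasFDerivAt.comp_hasDerivWithinAt q hw'
  have hd : HasDerivWithinAt (fun s => emb (w s z) (U s z))
      (∑ i, a' i • eA i
        + ∑ i, (ρ⁻¹ * (X' i - fderiv ℝ (ld V [i]) p (-(2 * q), a + q • a'))) • eU i)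
      (Set.Icc 0 q₁) q :=
    (HasDerivWithinAt.fun_sum fun i _ => (hW i).smul_const (eA i)).add
      (HasDerivWithinAt.fun_sum fun i _ => (hU i).smul_const (eU i))
  refine hd.congr_deriv ?_
  rw [vel_of_one hV (show (q, emb a u) ∈ slab d t from sub_pos.1 hr) h1]
  simp only [pt, pA_emb, pU_emb, ← hp]
  have hr' : 0 < p.1 := hr
  have sw : ∀ i j, ld V [i, j] p = ld V [j, i] p := fun i j =>
    ld_perm hV hr (List.Perm.swap j i []) p.2
  have hB : ∀ (v : Space d) (i : Fin d), scoreD V p.1 p.2 v i = ∑ j, v j * ld V [j, i] p :=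
    fun v i => scoreD_coord hV hr' p.2 v i
  have hS : ∀ i : Fin d, score V p.1 p.2 i = ld V [i] p := fun i => score_coord hV hr' p.2 i
  congr 1
  · refine sum_congr rfl fun i _ => ?_
    congr 1
    simp only [a', PiLp.add_apply, PiLp.smul_apply, smul_eq_mul, hS, hB]
    refine congrArg (fun v => ld V [i] p + ρ⁻¹ * v) (sum_congr rfl fun j _ => ?_)
    rw [sw i j]
  · refine sum_congr rfl fun i _ => ?_
    congr 2
    rw [fderiv_ld hV [i] hr', quadSum_single]
    have e3 : ∀ c : Fin d → ℝ, ∑ l, (a l + q * (ld V [l] p + ρ⁻¹ * c l)) * ld V [l, i] p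
        = (∑ l, a l * ld V [l, i] p) + q * (∑ l, ld V [l] p * ld V [l, i] p)
          + q / ρ * ∑ l, c l * ld V [l, i] p := by
      intro c
      simp only [mul_sum, ← sum_add_distrib]
      exact sum_congr rfl fun l _ => by ring
    have e4 : ∑ l, ((-a l + q * ld V [l] p) * ld V [l, i] p + q * ld V [l, l, i] p)
        = -(∑ l, a l * ld V [l, i] p) + q * (∑ l, ld V [l] p * ld V [l, i] p)
          + q * ∑ l, ld V [l, l, i] p := by
      simp only [mul_sum, ← sum_neg_distrib, ← sum_add_distrib]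
      exact sum_congr rfl fun l _ => by ring
    simp only [X', a', PiLp.add_apply, PiLp.smul_apply, smul_eq_mul, hS, e3, e4]
    rw [hB (scoreD V p.1 p.2 u) i]
    ring

/-! ## The cut-off -/

/-- The cut-off which is one up to norm `n + 1`. -/
def cutF (d n : ℕ) : ContDiffBump (0 : Space (d + d)) :=
  ⟨(n : ℝ) + 1, (n : ℝ) + 2, by positivity, by linarith⟩

theorem contDiff_cutF (n : ℕ) (m : ℕ) : ContDiff ℝ m (⇑(cutF d n)) := (cutF d n).contDiff

theorem cutF_one {n : ℕ} {x : Space (d + d)} (hx : ‖x‖ < (n : ℝ) + 1) : cutF d n =ᶠ[𝓝 x] 1 := by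
  filter_upwards [Metric.isOpen_ball.mem_nhds (show x ∈ Metric.ball 0 ((n : ℝ) + 1) by simpa using hx)]
    with u hu
  exact (cutF d n).one_of_mem_closedBall (Metric.ball_subset_closedBall hu)

theorem cutF_zero {n : ℕ} {x : Space (d + d)} (hx : (n : ℝ) + 2 < ‖x‖) :
    cutF d n =ᶠ[𝓝 x] 0 := by
  filter_upwards [(isOpen_lt continuous_const continuous_norm).mem_nhds hx] with u hu
  exact (cutF d n).zero_of_le_dist (by rw [dist_zero_right]; exact le_of_lt hu)

/-- The field, backwards from `q₁`. -/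
def revV (V : Space d → ℝ) (y : Space d) (t ρ q₁ : ℝ) (n : ℕ) (τ : ℝ) (x : Space (d + d)) :
    Space (d + d) :=
  -vel V y t ρ (⇑(cutF d n)) (q₁ - τ, x)

/-- The density, backwards from `q₁`. -/
def revH (V : Space d → ℝ) (y : Space d) (t q₁ τ : ℝ) (x : Space (d + d)) : ℝ :=
  dens V y t (q₁ - τ, x)

theorem exists_transport_pair (hV : InClass V) (h : Regular V) {y : Space d} {t ρ q₁ Q : ℝ}
    (hq₁ : q₁ ^ 2 < t) (hQ0 : 0 ≤ Q) (hQ : Q ≤ q₁) (n : ℕ) :
    ∃ Dv Dh L K C, Pair (revV V y t ρ q₁ n) Dv (revH V y t q₁) Dh Q L K C := by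
  set φ : Space (d + d) → ℝ := ⇑(cutF d n)
  have hφ : ∀ m : ℕ, ContDiff ℝ m φ := contDiff_cutF n
  set J := ContinuousLinearMap.inr ℝ ℝ (Space (d + d))
  have hmem : ∀ τ ∈ Set.Icc 0 Q, q₁ - τ ∈ Set.Icc 0 q₁ := fun τ hτ =>
    ⟨by linarith [hτ.2], by linarith [hτ.1]⟩
  have hsl : ∀ q ∈ Set.Icc 0 q₁, ∀ x, (q, x) ∈ slab d t := fun q hq x =>
    show q ^ 2 < t from (pow_le_pow_left₀ hq.1 hq.2 2).trans_lt hq₁
  have hv1 : ContDiffOn ℝ 1 (vel V y t ρ φ) (slab d t) := fun z hz =>
    (contDiffAt_vel hV hφ hz).contDiffWithinAt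
  have hvd : ∀ q ∈ Set.Icc 0 q₁, ∀ x, HasFDerivAt (fun x => vel V y t ρ φ (q, x))
      ((fderiv ℝ (vel V y t ρ φ) (q, x)).comp J) x := fun q hq x =>
    (((contDiffAt_vel hV hφ (hsl q hq x)).differentiableAt one_ne_zero).hasFDerivAt).comp x
      (hasFDerivAt_prodMk_right (𝕜 := ℝ) q x)
  have hbase : ∀ q ∈ Set.Icc 0 q₁, ∀ x,
      ‖(fderiv ℝ (baseV V y t) (q, x)).comp J‖ ≤ q₁ * (2 * d) * d := by
    intro q hq x
    have hr : 0 < (pt y t (q, x)).1 := pt_pos (hsl q hq x)
    have hd' : HasFDerivAt (baseV V y t)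
        (∑ i, ((fderiv ℝ (ld V [i]) (pt y t (q, x))).comp (ptD (q, x))).smulRight (eA i)) (q, x) :=
      HasFDerivAt.fun_sum fun i _ => (((contDiffAt_ld hV [i] 1 hr).differentiableAt
        one_ne_zero).hasFDerivAt.comp _ (hasFDerivAt_pt y t _)).smul_const (eA i)
    have hq₁0 : 0 ≤ q₁ := hq.1.trans hq.2
    rw [hd'.fderiv]
    refine ContinuousLinearMap.opNorm_le_bound _ (by positivity) fun e => ?_
    simp only [J, ContinuousLinearMap.comp_apply, ContinuousLinearMap.inr_apply, _root_.sum_apply,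
      ContinuousLinearMap.smulRight_apply]
    refine (norm_sum_le _ _).trans ?_
    have hi : ∀ i : Fin d, ‖fderiv ℝ (ld V [i]) (pt y t (q, x)) (ptD (q, x) (0, e)) • eA i‖
        ≤ q₁ * (2 * d) * ‖e‖ := by
      intro i
      rw [norm_smul, norm_eA, mul_one, Real.norm_eq_abs,
        show ptD (q, x) (0, e) = (0, q • pA d e) by simp [ptD], fderiv_ld hV [i] hr]
      simp only [zero_mul, zero_add, PiLp.smul_apply, smul_eq_mul]
      refine (abs_sum_le_sum_abs _ _).trans ((sum_le_sum fun j _ => ?_).trans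
        (le_of_eq (show ∑ _j : Fin d, q₁ * 2 * ‖e‖ = q₁ * (2 * d) * ‖e‖ by simp; ring)))
      rw [abs_mul, abs_mul, abs_of_nonneg hq.1, mul_right_comm q₁]
      refine mul_le_mul (mul_le_mul hq.2 ?_ (abs_nonneg _) hq₁0) ?_ (abs_nonneg _) (by positivity)
      · exact ((Real.norm_eq_abs _).symm.trans_le (PiLp.norm_apply_le _ j)).trans
          (norm_pickL_le (Fin.castAdd_injective _ _) e)
      · exact abs_ld_pair_le hV h hr _ i j
    refine (sum_le_sum fun i _ => hi i).trans (le_of_eq ?_)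
    simp
    ring
  have hcomp : IsCompact (Set.Icc 0 q₁ ×ˢ Metric.closedBall (0 : Space (d + d)) ((n : ℝ) + 3)) :=
    isCompact_Icc.prod (isCompact_closedBall _ _)
  have hsub : Set.Icc 0 q₁ ×ˢ Metric.closedBall (0 : Space (d + d)) ((n : ℝ) + 3) ⊆ slab d t :=
    fun z hz => hsl z.1 hz.1 z.2
  have hfc : ContinuousOn (fun z => (fderiv ℝ (vel V y t ρ φ) z).comp J) (slab d t) :=
    (hv1.continuousOn_fderiv_of_isOpen (isOpen_slab' t) le_rfl).clm_comp continuousOn_const
  obtain ⟨L0, hL0⟩ := hcomp.exists_bound_of_continuousOn (hfc.mono hsub)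
  obtain ⟨M0, hM0⟩ := hcomp.exists_bound_of_continuousOn (hv1.continuousOn.mono hsub)
  obtain ⟨C0, hC0, hC⟩ := h.bound_zero (a := t - q₁ ^ 2) (b := t) (by linarith)
  obtain ⟨C, hCd⟩ := dens_dom hV y hq₁
  set Kb : ℝ := d * (C0 + 2 * (‖y‖ + q₁))
  have hq₁0 : 0 ≤ q₁ := hQ0.trans hQ
  have hout : ∀ z : ℝ × Space (d + d), (n : ℝ) + 2 < ‖z.2‖ →
      vel V y t ρ φ =ᶠ[𝓝 z] baseV V y t := by
    intro z hz
    filter_upwards [(isOpen_lt continuous_const continuous_snd.norm).mem_nhds hz] with u hu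
    exact vel_of_zero (cutF_zero hu)
  set R : ℝ × Space (d + d) →L[ℝ] ℝ × Space (d + d) :=
    (-ContinuousLinearMap.fst ℝ ℝ (Space (d + d))).prod (ContinuousLinearMap.snd ℝ ℝ (Space (d + d)))
  have hd1 : ContDiffOn ℝ 1 (dens V y t) (slab d t) := fun z hz =>
    (contDiffAt_dens hV y 1 hz).contDiffWithinAt
  have harg : ContinuousOn (fun z : ℝ × Space (d + d) => (q₁ - z.1, z.2)) (Set.Icc 0 Q ×ˢ Set.univ) :=
    by fun_prop
  have hmaps : Set.MapsTo (fun z : ℝ × Space (d + d) => (q₁ - z.1, z.2)) (Set.Icc 0 Q ×ˢ Set.univ)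
      (slab d t) := fun z hz => hsl _ (hmem _ hz.1) _
  refine ⟨fun τ x => -(fderiv ℝ (vel V y t ρ φ) (q₁ - τ, x)).comp J,
    fun τ x => (fderiv ℝ (dens V y t) (q₁ - τ, x)).comp R,
    max L0 (q₁ * (2 * d) * d), max M0 0 + Kb, C, hQ0, fun τ hτ x => (hvd _ (hmem τ hτ) x).neg,
    (hv1.continuousOn.comp harg hmaps).neg, (hfc.comp harg hmaps).neg, fun τ hτ x => ?_,
    fun τ hτ x => ?_, fun τ hτ x => ?_, ?_, fun τ hτ x => ?_, fun τ hτ x => ?_⟩
  · rw [norm_neg]
    rcases le_or_gt ‖x‖ ((n : ℝ) + 2) with hx | hx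
    · exact (hL0 (q₁ - τ, x) ⟨hmem τ hτ, by simp; linarith⟩).trans (le_max_left _ _)
    · rw [(hout (q₁ - τ, x) hx).fderiv_eq]
      exact (hbase _ (hmem τ hτ) x).trans (le_max_right _ _)
  · rw [revV, norm_neg]
    have hKb : 0 ≤ Kb := by positivity
    rcases le_or_gt ‖x‖ ((n : ℝ) + 2) with hx | hx
    · have := hM0 (q₁ - τ, x) ⟨hmem τ hτ, by simp; linarith⟩
      nlinarith [norm_nonneg x, le_max_left M0 0, le_max_right M0 0]
    · rw [(hout (q₁ - τ, x) hx).eq_of_nhds, baseV]
      refine (norm_sum_le _ _).trans ((sum_le_sum fun i _ => ?_).trans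
        (show ∑ _i : Fin d, (C0 + 2 * (‖y‖ + q₁)) * (1 + ‖x‖) ≤ (max M0 0 + Kb) * (1 + ‖x‖) by
          simp only [sum_const, card_univ, Fintype.card_fin, nsmul_eq_mul, Kb]
          nlinarith [mul_nonneg (le_max_right M0 0) (by positivity : 0 ≤ 1 + ‖x‖)]))
      set q := q₁ - τ
      have hq := hmem τ hτ
      have hr : t - q ^ 2 ∈ Set.Icc (t - q₁ ^ 2) t :=
        ⟨by linarith [pow_le_pow_left₀ hq.1 hq.2 2], by linarith [sq_nonneg q]⟩
      rw [norm_smul, norm_eA, mul_one, pt, ← score_coord hV (by linarith [hr.1]) _ i]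
      refine (PiLp.norm_apply_le _ i).trans ((hC _ hr _).trans ?_)
      have h2 := norm_add_le y (q • pA d x)
      rw [norm_smul, Real.norm_eq_abs, abs_of_nonneg hq.1] at h2
      have h3 : q * ‖pA d x‖ ≤ q₁ * ‖x‖ :=
        mul_le_mul hq.2 (norm_pickL_le (Fin.castAdd_injective _ _) x) (norm_nonneg _) hq₁0
      nlinarith [norm_nonneg x, norm_nonneg y]
  · have hR : HasFDerivAt (fun z : ℝ × Space (d + d) => (q₁ - z.1, z.2)) R (τ, x) := by
      refine (hasFDerivAt_fst.const_sub q₁).prodMk hasFDerivAt_snd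
    exact (((contDiffAt_dens hV y 1 (hsl _ (hmem τ hτ) x)).differentiableAt
      one_ne_zero).hasFDerivAt).comp (τ, x) hR
  · exact ((hd1.continuousOn_fderiv_of_isOpen (isOpen_slab' t) le_rfl).comp harg hmaps).clm_comp
      continuousOn_const
  · have hq := hmem τ hτ
    have hb := hCd (q₁ - τ, x) (by rw [abs_of_nonneg hq.1, abs_of_nonneg hq₁0]; exact hq.2)
    refine le_trans (add_le_add le_rfl (mul_le_mul_of_nonneg_right ?_ (by positivity))) hb
    refine ContinuousLinearMap.opNorm_le_bound _ (norm_nonneg _) fun e => ?_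
    refine ((fderiv ℝ (dens V y t) (q₁ - τ, x)).le_opNorm _).trans ?_
    gcongr
    simp [R, Prod.norm_def]
  · have he := eqn_vel (y := y) (ρ := ρ) hV hφ (hsl _ (hmem τ hτ) x)
    have e1 : R ((1 : ℝ), revV V y t ρ q₁ n τ x)
        = -((1 : ℝ), vel V y t ρ φ (q₁ - τ, x)) := by simp [R, revV, φ]
    have e2 : dtr (-(fderiv ℝ (vel V y t ρ φ) (q₁ - τ, x)).comp J)
        = -dtr ((fderiv ℝ (vel V y t ρ φ) (q₁ - τ, x)).comp J) := by simp [dtr]
    simp only [ContinuousLinearMap.comp_apply, e1, map_neg, e2, revH]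
    linarith

theorem pairMean_eq (hV : InClass V) (y : Space d) {t q : ℝ}
    {f : Space d × Space d → ℝ} (hf : Continuous f) (hb : ∀ x, f x ∈ Set.Icc (0 : ℝ) 1)
    (hq : 0 < t - q ^ 2) :
    pairMean V y t q f
      = (∫ x, dens V y t (q, x) * f (pA d x, pU d x)) / (gaussZ (d + d) * smooth V t y) := by
  set s : Space d → ℝ := fun a => smooth V (t - q ^ 2) (y + q • a)
  have hs : Continuous s :=
    ((reg_smooth hV hq).one []).continuous.comp (continuous_const.add (continuous_id.const_smul q))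
  have hg : Continuous fun p : Space d × Space d => f p * s p.1 := hf.mul (hs.comp continuous_fst)
  have hint : Integrable (fun p : Space d × Space d => f p * s p.1)
      ((stdGaussian (Space d)).prod (stdGaussian (Space d))) := by
    obtain ⟨B, hB⟩ := (reg_smooth hV hq).bdd []
    refine Integrable.of_bound hg.aestronglyMeasurable B (Eventually.of_forall fun p => ?_)
    rw [norm_mul, Real.norm_eq_abs, abs_of_nonneg (hb p).1]
    exact le_trans (mul_le_of_le_one_left (norm_nonneg _) (hb p).2) (hB.bound _)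
  rw [pairMean]
  have e : ∀ a, (∫ u, f (a, u) ∂stdGaussian (Space d)) * smooth V (t - q ^ 2) (y + q • a)
      = ∫ u, f (a, u) * s a ∂stdGaussian (Space d) := fun a => (integral_mul_const _ _).symm
  simp only [e]
  rw [← integral_prod _ hint, ← integral_pick_pair (Fin.castAdd_injective d d)
    (Fin.natAdd_injective d d) castAdd_ne_natAdd hg, integral_stdGaussian_eq]
  rw [div_mul_eq_div_div]
  congr 1
  rw [← integral_div]
  refine integral_congr_ae (Eventually.of_forall fun x => ?_)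
  simp only [gden, dens, gE, smul_eq_mul, pair_sd_nil, pt, s, pA, pU]
  ring

/-- **The pair flow exists and keeps the pair law.** -/
theorem pairSpec (hs : ScoreSpec) : PairSpec := by
  intro d V hV y t ρ q₁ _ _ hρ hq0 hq₁
  have h := regular hs hV
  obtain ⟨w, U, hw⟩ := h.exists_pair (y := y) hρ.ne' hq0 hq₁
  refine ⟨w, U, hw, fun f hf hb q hq => ?_⟩
  set Q := q₁ - q
  have hQ0 : 0 ≤ Q := by linarith [hq.2]
  have hQ : Q ≤ q₁ := by linarith [hq.1]
  set g : Space (d + d) → ℝ := fun x => f (pA d x, pU d x)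
  have hg : Continuous g := hf.comp ((pA d).continuous.prodMk (pU d).continuous)
  have hgb : ∀ x, |g x| ≤ 1 := fun x => by
    rw [abs_of_nonneg (hb _).1]; exact (hb _).2
  choose Dv Dh L K C hP using fun n =>
    exists_transport_pair (y := y) (ρ := ρ) hV h hq₁ hQ0 hQ n
  have hF : ∀ n, Field (revV V y t ρ q₁ n) Q := fun n => by
    refine ⟨(hP n).v_cont, fun R => ⟨(L n).toNNReal, fun τ hτ =>
      LipschitzOnWith.of_dist_le_mul fun a _ b _ => ?_⟩, ⟨(K n).toNNReal, fun τ hτ x => ?_⟩⟩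
    · rw [dist_eq_norm, dist_eq_norm, Real.coe_toNNReal _ (hP n).L_nonneg]
      exact (hP n).lip hτ a b
    · rw [Real.coe_toNNReal _ (hP n).K_nonneg]
      exact (hP n).growth τ hτ x
  choose S hS0 hS using fun n x => (hF n).exists_solves hQ0 x
  have hT : ∀ n, ∫ x, dens V y t (q₁, x) * g (S n x Q) = ∫ x, dens V y t (q, x) * g x := fun n => by
    have := (hP n).transport (w := fun τ x => S n x τ) (hS0 n) (hS n) hg hgb
    simpa [revH, Q] using this
  set G : Space (d + d) → Space (d + d) := fun x =>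
    emb (w q (pA d x, pU d x)) (U q (pA d x, pU d x))
  have hpt : ∀ x, ∀ᶠ n in atTop, S n x Q = G x := by
    intro x
    set z : Space d × Space d := (pA d x, pU d x)
    set path : ℝ → Space (d + d) := fun τ => emb (w (q₁ - τ) z) (U (q₁ - τ) z)
    have hmaps : Set.MapsTo (fun τ : ℝ => q₁ - τ) (Set.Icc 0 Q) (Set.Icc 0 q₁) := fun τ hτ =>
      ⟨by linarith [hτ.2], by linarith [hτ.1]⟩
    have hc : ContinuousOn path (Set.Icc 0 Q) := by
      have h1 : ContinuousOn (fun s => w s z) (Set.Icc 0 q₁) := fun s hs' =>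
        (hw.derivW z s hs').continuousWithinAt
      have h2 : ContinuousOn (fun s => U s z) (Set.Icc 0 q₁) := by
        have hb' : ContinuousOn (fun s => score V (t - s ^ 2) (y + s • w s z)) (Set.Icc 0 q₁) :=
          ((h.smoothOn 0).continuousOn).comp
            ((continuousOn_const.sub (continuousOn_id.pow 2)).prodMk
              (continuousOn_const.add (continuousOn_id.smul h1))) fun s hs' =>
            ⟨show 0 < t - s ^ 2 by linarith [pow_le_pow_left₀ hs'.1 hs'.2 2], Set.mem_univ _⟩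
        have hX : ContinuousOn (fun s => score V (t - s ^ 2) (y + s • w s z) + ρ • U s z)
            (Set.Icc 0 q₁) := fun s hs' => (hw.derivX z s hs').continuousWithinAt
        refine ((hX.sub hb').const_smul ρ⁻¹).congr fun s _ => ?_
        simp [smul_smul, inv_mul_cancel₀ hρ.ne']
      unfold path emb
      have hsub : ContinuousOn (fun τ : ℝ => q₁ - τ) (Set.Icc 0 Q) := by fun_prop
      exact (continuousOn_finsetSum _ fun i _ => (((EuclideanSpace.proj i :
          Space d →L[ℝ] ℝ).continuous.comp_continuousOn (h1.comp hsub hmaps))).smul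
            continuousOn_const).add
        (continuousOn_finsetSum _ fun i _ => (((EuclideanSpace.proj i :
          Space d →L[ℝ] ℝ).continuous.comp_continuousOn (h2.comp hsub hmaps))).smul
            continuousOn_const)
    obtain ⟨M, hM⟩ := isCompact_Icc.exists_bound_of_continuousOn hc
    obtain ⟨N, hN⟩ := exists_nat_ge M
    filter_upwards [eventually_ge_atTop N] with n hn
    have hsol : Solves (revV V y t ρ q₁ n) Q path := by
      intro τ hτ
      have h1 : cutF d n =ᶠ[𝓝 (path τ)] 1 := cutF_one (by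
        have : (N : ℝ) ≤ n := by exact_mod_cast hn
        linarith [hM τ hτ])
      have hd := (hw.path_deriv hV hρ.ne' hq₁ z (hmaps hτ) h1).scomp τ
        (show HasDerivWithinAt (fun s : ℝ => q₁ - s) (-1) (Set.Icc 0 Q) τ by
          simpa using (hasDerivWithinAt_id τ (Set.Icc 0 Q)).const_sub q₁) hmaps
      simpa [revV, path, Function.comp_def] using hd
    have h0 : path 0 = x := by
      simp [path, (hw.init z).1, (hw.init z).2, z, emb_pick]
    have := (hF n).solves_unique (hS n x) hsol (by rw [hS0, h0]) ⟨hQ0, le_rfl⟩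
    rw [this]
    simp [path, G, Q, z]
  have hlim : Tendsto (fun n => ∫ x, dens V y t (q₁, x) * g (S n x Q)) atTop
      (𝓝 (∫ x, dens V y t (q₁, x) * g (G x))) := by
    have hi : Integrable fun x => dens V y t (q₁, x) := by
      have := (hP 0).integrable_slice (q := 0) ⟨le_rfl, hQ0⟩
      unfold revH at this
      simpa using this
    refine tendsto_integral_filter_of_dominated_convergence (fun x => ‖dens V y t (q₁, x)‖) ?_ ?_
      hi.norm (Eventually.of_forall fun x => ?_)
    · refine Eventually.of_forall fun n => ?_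
      exact hi.aestronglyMeasurable.mul (hg.comp ((hF n).continuous_solves
        (Φ := fun τ x => S n x τ) (hS0 n) (hS n) ⟨hQ0, le_rfl⟩)).aestronglyMeasurable
    · refine Eventually.of_forall fun n => Eventually.of_forall fun x => ?_
      rw [norm_mul]
      exact mul_le_of_le_one_right (norm_nonneg _) ((Real.norm_eq_abs _).trans_le (hgb _))
    · exact Tendsto.congr' ((hpt x).mono fun n hn => by simp only [hn]) tendsto_const_nhds
  have key : ∫ x, dens V y t (q₁, x) * g (G x) = ∫ x, dens V y t (q, x) * g x :=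
    tendsto_nhds_unique hlim (by simp only [hT]; exact tendsto_const_nhds)
  have hr₁ : 0 < t - q₁ ^ 2 := by linarith
  have hr : 0 < t - q ^ 2 := by linarith [pow_le_pow_left₀ hq.1 hq.2 2]
  rw [pairMean_eq hV y (f := fun z => f (w q z, U q z))
      (hf.comp ((hw.cont q hq).1.prodMk (hw.cont q hq).2)) (fun _ => hb _) hr₁,
    pairMean_eq hV y hf hb hr]
  simp only [g, G, pA_emb, pU_emb] at key
  rw [key]

end

end P347.Zero
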