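import Mathlib

/-!
# P347: Gaussian blurs

Linear maps with isometric adjoint keep the standard Gaussian; mixing, and splitting one blur into
independent ones.
-/

namespace P347.Zero

open scoped RealInnerProductSpace

noncomputable section

/-! ## Gaussian laws -/

section Laws

open MeasureTheory ProbabilityTheory

variable {H F : Type} [NormedAddCommGroup H] [InnerProductSpace ℝ H] [FiniteDimensional ℝ H]
  [MeasurableSpace H] [BorelSpace H] [NormedAddCommGroup F] [InnerProductSpace ℝ F]
  [FiniteDimensional ℝ F] [MeasurableSpace F] [BorelSpace F]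

/-- A linear map with isometric adjoint keeps the standard Gaussian. -/
theorem map_stdGaussian_of_adjoint (L : H →L[ℝ] F)
    (h : ∀ t, ‖ContinuousLinearMap.adjoint L t‖ = ‖t‖) :
    (stdGaussian H).map L = stdGaussian F := by
  refine Measure.ext_of_charFun ?_
  funext t
  have e : charFun ((stdGaussian H).map L) t =
      charFun (stdGaussian H) (ContinuousLinearMap.adjoint L t) := by
    rw [charFun_apply, charFun_apply, integral_map L.continuous.aemeasurable (by fun_prop)]
    simp only [ContinuousLinearMap.adjoint_inner_right]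
  rw [e, charFun_stdGaussian, charFun_stdGaussian, h]

/-- Two independent standard Gaussians form one on the orthogonal sum. -/
theorem map_toLp_prod [SecondCountableTopology H] [SecondCountableTopology F] :
    ((stdGaussian H).prod (stdGaussian F)).map (WithLp.toLp 2) =
      stdGaussian (WithLp 2 (H × F)) := by
  refine Measure.ext_of_charFun ?_
  funext t
  rw [charFun_prod, charFun_stdGaussian, charFun_stdGaussian, charFun_stdGaussian,
    ← Complex.exp_add]
  congr 1
  have hn : (‖t‖ : ℂ) ^ 2 = (‖(WithLp.ofLp t).1‖ : ℂ) ^ 2 + (‖(WithLp.ofLp t).2‖ : ℂ) ^ 2 := by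
    exact_mod_cast WithLp.prod_norm_sq_eq_of_L2 t
  rw [hn]
  ring

variable [SecondCountableTopology H]

/-- A combination with squared coefficients summing to one is again standard. -/
theorem map_mix {a b : ℝ} (hab : a ^ 2 + b ^ 2 = 1) :
    ((stdGaussian H).prod (stdGaussian H)).map (fun p => a • p.1 + b • p.2) = stdGaussian H := by
  set L : WithLp 2 (H × H) →L[ℝ] H :=
    (a • ContinuousLinearMap.fst ℝ H H + b • ContinuousLinearMap.snd ℝ H H) ∘L
      (WithLp.prodContinuousLinearEquiv 2 ℝ H H).toContinuousLinearMap with hL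
  set L' : H →L[ℝ] WithLp 2 (H × H) :=
    (WithLp.prodContinuousLinearEquiv 2 ℝ H H).symm.toContinuousLinearMap ∘L
      ((a • ContinuousLinearMap.id ℝ H).prod (b • ContinuousLinearMap.id ℝ H)) with hL'
  have hadj : L' = ContinuousLinearMap.adjoint L := by
    rw [ContinuousLinearMap.eq_adjoint_iff]
    intro x y
    simp [hL, hL', WithLp.prod_inner_apply, inner_add_right, inner_smul_left, inner_smul_right]
  have h : ∀ t, ‖ContinuousLinearMap.adjoint L t‖ = ‖t‖ := by
    intro t
    rw [← hadj]
    refine (pow_left_inj₀ (norm_nonneg _) (norm_nonneg _) two_ne_zero).1 ?_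
    rw [WithLp.prod_norm_sq_eq_of_L2]
    simp only [hL', ContinuousLinearMap.comp_apply]
    simp [norm_smul, mul_pow]
    linear_combination ‖t‖ ^ 2 * hab
  refine Eq.trans ?_ (map_stdGaussian_of_adjoint L h)
  rw [← map_toLp_prod, Measure.map_map L.continuous.measurable (by fun_prop)]
  rfl

/-- Independent copies from one: `M` fresh Gaussians minus their mean, plus the common one over
`√M`, are `M` independent standard Gaussians. -/
theorem map_copies {M : ℕ} (hM : 0 < M) :
    ((stdGaussian H).prod (stdGaussian (PiLp 2 fun _ : Fin M => H))).map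
      (fun p => WithLp.toLp 2 fun i =>
        (√(M : ℝ))⁻¹ • p.1 + p.2.ofLp i - (M : ℝ)⁻¹ • ∑ j, p.2.ofLp j) =
      stdGaussian (PiLp 2 fun _ : Fin M => H) := by
  set α := (√(M : ℝ))⁻¹ with hα
  set β := (M : ℝ)⁻¹ with hβ
  set L : WithLp 2 (H × PiLp 2 fun _ : Fin M => H) →L[ℝ] PiLp 2 (fun _ : Fin M => H) :=
    LinearMap.toContinuousLinearMap
    { toFun := fun p => WithLp.toLp 2 fun i =>
        α • p.ofLp.1 + p.ofLp.2.ofLp i - β • ∑ j, p.ofLp.2.ofLp j
      map_add' := fun p q => by
        refine WithLp.ofLp_injective 2 (funext fun i => ?_)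
        simp only [WithLp.ofLp_add, Prod.fst_add, Prod.snd_add, Pi.add_apply, smul_add,
          Finset.sum_add_distrib]
        abel
      map_smul' := fun c p => by
        refine WithLp.ofLp_injective 2 (funext fun i => ?_)
        simp only [WithLp.ofLp_smul, Prod.smul_fst, Prod.smul_snd, Pi.smul_apply,
          RingHom.id_apply, smul_add, smul_sub, ← Finset.smul_sum, smul_comm c] } with hL
  set L' : PiLp 2 (fun _ : Fin M => H) →L[ℝ] WithLp 2 (H × PiLp 2 fun _ : Fin M => H) :=
    LinearMap.toContinuousLinearMap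
    { toFun := fun t => WithLp.toLp 2
        (α • ∑ j, t.ofLp j, WithLp.toLp 2 fun i => t.ofLp i - β • ∑ j, t.ofLp j)
      map_add' := fun p q => by
        refine WithLp.ofLp_injective 2 (Prod.ext ?_ (WithLp.ofLp_injective 2 (funext fun i => ?_)))
        · simp only [WithLp.ofLp_add, Prod.fst_add, Pi.add_apply, smul_add, Finset.sum_add_distrib]
        · simp only [WithLp.ofLp_add, Prod.snd_add, Pi.add_apply, smul_add, Finset.sum_add_distrib]
          abel
      map_smul' := fun c p => by
        refine WithLp.ofLp_injective 2 (Prod.ext ?_ (WithLp.ofLp_injective 2 (funext fun i => ?_)))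
        · simp only [WithLp.ofLp_smul, Prod.smul_fst, Pi.smul_apply, RingHom.id_apply,
            ← Finset.smul_sum, smul_comm c]
        · simp only [WithLp.ofLp_smul, Prod.smul_snd, Pi.smul_apply, RingHom.id_apply, smul_sub,
            ← Finset.smul_sum, smul_comm c] } with hL'
  have hadj : L' = ContinuousLinearMap.adjoint L := by
    rw [ContinuousLinearMap.eq_adjoint_iff]
    intro t y
    simp only [hL, hL', LinearMap.coe_toContinuousLinearMap', LinearMap.coe_mk, AddHom.coe_mk,
      WithLp.prod_inner_apply]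
    simp only [PiLp.inner_apply, inner_sub_left, inner_sub_right, inner_add_right, inner_smul_left,
      inner_smul_right, Finset.sum_sub_distrib, Finset.sum_add_distrib, inner_sum, sum_inner,
      RCLike.conj_to_real, ← Finset.mul_sum]
    rw [Finset.sum_comm (f := fun i j => ⟪t.ofLp i, y.ofLp.2.ofLp j⟫)]
    ring
  have h : ∀ t, ‖ContinuousLinearMap.adjoint L t‖ = ‖t‖ := by
    intro t
    rw [← hadj]
    refine (pow_left_inj₀ (norm_nonneg _) (norm_nonneg _) two_ne_zero).1 ?_
    simp only [hL', LinearMap.coe_toContinuousLinearMap', LinearMap.coe_mk, AddHom.coe_mk]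
    rw [WithLp.prod_norm_sq_eq_of_L2, PiLp.norm_sq_eq_of_L2, PiLp.norm_sq_eq_of_L2]
    change ‖α • ∑ x, t.ofLp x‖ ^ 2 + ∑ i, ‖t.ofLp i - β • ∑ x, t.ofLp x‖ ^ 2 = _
    have hα2 : α ^ 2 = β := by
      rw [hα, hβ, inv_pow, Real.sq_sqrt (Nat.cast_nonneg M)]
    have hβM : (M : ℝ) * β = 1 := mul_inv_cancel₀ (by exact_mod_cast hM.ne')
    simp only [norm_sub_sq_real, norm_smul, inner_smul_right, Real.norm_eq_abs, mul_pow, sq_abs,
      Finset.sum_add_distrib, Finset.sum_sub_distrib, Finset.sum_const, Finset.card_univ,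
      Fintype.card_fin, nsmul_eq_mul]
    rw [← Finset.mul_sum, ← Finset.mul_sum, ← sum_inner, real_inner_self_eq_norm_sq]
    linear_combination ‖∑ j, t.ofLp j‖ ^ 2 * hα2 + β * ‖∑ j, t.ofLp j‖ ^ 2 * hβM
  refine Eq.trans ?_ (map_stdGaussian_of_adjoint L h)
  rw [← map_toLp_prod, Measure.map_map L.continuous.measurable (by fun_prop)]
  rfl

/-- Independent standard Gaussians form one on the finite orthogonal sum. -/
theorem map_toLp_pi {ι : Type} [Fintype ι] :
    (Measure.pi fun _ : ι => stdGaussian H).map (WithLp.toLp 2) =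
      stdGaussian (PiLp 2 fun _ : ι => H) := by
  refine Measure.ext_of_charFun ?_
  funext t
  rw [charFun_pi, charFun_stdGaussian]
  simp only [charFun_stdGaussian]
  rw [← Complex.exp_sum]
  congr 1
  have hn : (‖t‖ : ℂ) ^ 2 = ∑ i, (‖t i‖ : ℂ) ^ 2 := by
    exact_mod_cast PiLp.norm_sq_eq_of_L2 (fun _ : ι => H) t
  rw [hn, ← Finset.sum_div, Finset.sum_neg_distrib]

/-- Copies, for product measures. -/
theorem map_copies_pi {M : ℕ} (hM : 0 < M) :
    ((stdGaussian H).prod (Measure.pi fun _ : Fin M => stdGaussian H)).map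
      (fun p i => (√(M : ℝ))⁻¹ • p.1 + p.2 i - (M : ℝ)⁻¹ • ∑ j, p.2 j) =
      Measure.pi fun _ : Fin M => stdGaussian H := by
  set f : H × (Fin M → H) → Fin M → H :=
    fun p i => (√(M : ℝ))⁻¹ • p.1 + p.2 i - (M : ℝ)⁻¹ • ∑ j, p.2 j
  have hf : Measurable f := by fun_prop
  have h1 := map_copies (H := H) hM
  have e : (stdGaussian H).prod (stdGaussian (PiLp 2 fun _ : Fin M => H)) =
      ((stdGaussian H).prod (Measure.pi fun _ : Fin M => stdGaussian H)).map
        (Prod.map id (WithLp.toLp 2)) := by
    rw [← map_toLp_pi, ← Measure.map_prod_map _ _ measurable_id (by fun_prop), Measure.map_id]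
  rw [e, Measure.map_map (by fun_prop) (by fun_prop)] at h1
  have h2 := congrArg (Measure.map (WithLp.ofLp : PiLp 2 (fun _ : Fin M => H) → Fin M → H)) h1
  rw [Measure.map_map (by fun_prop) (by fun_prop), ← map_toLp_pi,
    Measure.map_map (by fun_prop) (by fun_prop)] at h2
  have e2 : (WithLp.ofLp ∘ WithLp.toLp 2 : (Fin M → H) → Fin M → H) = id := rfl
  rw [e2, Measure.map_id] at h2
  exact h2

end Laws

end

end P347.Zero
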