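import Vale.Agent.P347.Zero.Quad
import Vale.Agent.P347.Zero.Blur

/-!
# P347: rotations of a pair and the fixed point for powers of a symmetric map

For a symmetric `B` the pair map `(a, b) ↦ (B b, -B a)` is skew, so its exponential is an isometry
and keeps the standard Gaussian. A truncated exponential series is close to it, and the powers are
read back from applications of the pair map to such series at fixed nodes.
-/

namespace P347.Zero

open Polynomial
open scoped RealInnerProductSpace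

noncomputable section

variable {E : Type} [NormedAddCommGroup E] [InnerProductSpace ℝ E] [FiniteDimensional ℝ E]

/-- The pair map `(a, b) ↦ (B b, -B a)`. -/
def skewPair (B : E →L[ℝ] E) : WithLp 2 (E × E) →L[ℝ] WithLp 2 (E × E) :=
  (WithLp.prodContinuousLinearEquiv 2 ℝ E E).symm.toContinuousLinearMap ∘L
    ((B ∘L ContinuousLinearMap.snd ℝ E E).prod (-(B ∘L ContinuousLinearMap.fst ℝ E E))) ∘L
      (WithLp.prodContinuousLinearEquiv 2 ℝ E E).toContinuousLinearMap

omit [FiniteDimensional ℝ E] in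
lemma skewPair_apply (B : E →L[ℝ] E) (z : WithLp 2 (E × E)) :
    skewPair B z = WithLp.toLp 2 (B z.ofLp.2, -(B z.ofLp.1)) := rfl

omit [FiniteDimensional ℝ E] in
lemma norm_skewPair_le {B : E →L[ℝ] E} {b : ℝ} (hb : ‖B‖ ≤ b) : ‖skewPair B‖ ≤ b := by
  have hb0 : 0 ≤ b := (norm_nonneg _).trans hb
  refine ContinuousLinearMap.opNorm_le_bound _ hb0 fun z => ?_
  have h1 := (B.le_opNorm z.ofLp.1).trans (mul_le_mul_of_nonneg_right hb (norm_nonneg _))
  have h2 := (B.le_opNorm z.ofLp.2).trans (mul_le_mul_of_nonneg_right hb (norm_nonneg _))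
  have e1 : ‖skewPair B z‖ ^ 2 = ‖B z.ofLp.2‖ ^ 2 + ‖B z.ofLp.1‖ ^ 2 := by
    rw [skewPair_apply, WithLp.prod_norm_sq_eq_of_L2]; simp
  have e2 : ‖z‖ ^ 2 = ‖z.ofLp.1‖ ^ 2 + ‖z.ofLp.2‖ ^ 2 := WithLp.prod_norm_sq_eq_of_L2 z
  refine le_of_pow_le_pow_left₀ two_ne_zero (by positivity) ?_
  rw [mul_pow, e1, e2]
  nlinarith [pow_le_pow_left₀ (norm_nonneg _) h1 2, pow_le_pow_left₀ (norm_nonneg _) h2 2]

lemma adjoint_skewPair {B : E →L[ℝ] E} (hB : ∀ a b, ⟪B a, b⟫ = ⟪a, B b⟫) :
    ContinuousLinearMap.adjoint (skewPair B) = -skewPair B := by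
  symm
  rw [ContinuousLinearMap.eq_adjoint_iff]
  intro x y
  simp only [neg_apply, inner_neg_left, skewPair_apply,
    WithLp.prod_inner_apply, inner_neg_right, hB]
  ring

section Rot

variable {K : Type} [NormedAddCommGroup K] [InnerProductSpace ℝ K] [CompleteSpace K]

/-- The rotation by angle `c` generated by a skew map. -/
def rotExp (A : K →L[ℝ] K) (c : ℝ) : K →L[ℝ] K :=
  NormedSpace.exp (c • A)

lemma norm_rotExp_apply {A : K →L[ℝ] K} (hA : ContinuousLinearMap.adjoint A = -A) (c : ℝ) (z : K) :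
    ‖rotExp A c z‖ = ‖z‖ := by
  have hu : rotExp A c ∈ unitary (K →L[ℝ] K) := by
    let +nondep : NormedAlgebra ℚ (K →L[ℝ] K) :=
      NormedAlgebra.restrictScalars ℚ ℝ (K →L[ℝ] K)
    refine NormedSpace.exp_mem_unitary_of_mem_skewAdjoint ?_
    rw [skewAdjoint.mem_iff, star_smul, star_trivial, ContinuousLinearMap.star_eq_adjoint, hA,
      smul_neg]
  exact ((ContinuousLinearMap.norm_map_iff_adjoint_comp_self _).2 hu.1) z

end Rot

variable {H : Type} [NormedAddCommGroup H] [NormedSpace ℝ H]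

/-- The truncated series `Σ c^j / j! • P j`. -/
def row (M : ℕ) (c : ℝ) (P : ℕ → H) : H :=
  ∑ j ∈ Finset.range M, (c ^ j / (j.factorial : ℝ)) • P j

lemma norm_row_sub_le {M : ℕ} {c : ℝ} (hc : |c| ≤ 1) (P Q : ℕ → H) :
    ‖row M c P - row M c Q‖ ≤ ∑ j ∈ Finset.range M, ‖P j - Q j‖ := by
  rw [row, row, ← Finset.sum_sub_distrib]
  refine (norm_sum_le _ _).trans (Finset.sum_le_sum fun j _ => ?_)
  rw [← smul_sub, norm_smul, Real.norm_eq_abs, abs_div, abs_pow, Nat.abs_cast]
  refine mul_le_of_le_one_left (norm_nonneg _) ?_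
  rw [div_le_one (by exact_mod_cast j.factorial_pos)]
  exact (pow_le_one₀ (abs_nonneg _) hc).trans (by exact_mod_cast j.factorial_pos)

/-- The truncated series is close to the rotation. -/
theorem norm_rotExp_sub_row_le {K : Type} [NormedAddCommGroup K] [InnerProductSpace ℝ K]
    [CompleteSpace K] (A₀ : K →L[ℝ] K) {b : ℝ} (hb : ‖A₀‖ ≤ b) (M : ℕ) (c th : ℝ) (z : K) :
    ‖rotExp A₀ (c * th) z - row M c (fun j => th ^ j • (A₀ ^ j) z)‖ ≤
      (|c * th| * b) ^ M * Real.exp (|c * th| * b) * ‖z‖ := by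
  set A := (c * th) • A₀ with hA
  set x := |c * th| * b with hxdef
  have hx0 : 0 ≤ x := mul_nonneg (abs_nonneg _) ((norm_nonneg _).trans hb)
  have hAx : ‖A‖ ≤ x := by
    rw [hA, norm_smul, Real.norm_eq_abs]
    exact mul_le_mul_of_nonneg_left hb (abs_nonneg _)
  have hs : HasSum (fun n => ((n.factorial : ℝ)⁻¹) • (A ^ n) z) (NormedSpace.exp A z) :=
    ((NormedSpace.exp_series_hasSum_exp' (𝕂 := ℝ) A).mapL
      (ContinuousLinearMap.apply ℝ K z))
  have hrow : row M c (fun j => th ^ j • (A₀ ^ j) z) =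
      ∑ j ∈ Finset.range M, ((j.factorial : ℝ)⁻¹) • (A ^ j) z := by
    refine Finset.sum_congr rfl fun j _ => ?_
    rw [hA, _root_.smul_pow, smul_apply, smul_smul, smul_smul, mul_pow]
    congr 1
    ring
  have htail := (hasSum_nat_add_iff' M).2 hs
  rw [rotExp, ← hA, hrow, ← htail.tsum_eq]
  have hreal : HasSum (fun n => x ^ n / (n.factorial : ℝ)) (Real.exp x) := by
    rw [Real.exp_eq_exp_ℝ]
    exact NormedSpace.expSeries_div_hasSum_exp x
  have hpt : ∀ n, ‖(((n + M).factorial : ℝ)⁻¹) • (A ^ (n + M)) z‖ ≤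
      (x ^ n / (n.factorial : ℝ)) * (x ^ M * ‖z‖) := by
    intro n
    rw [norm_smul, norm_inv, RCLike.norm_natCast]
    calc ((n + M).factorial : ℝ)⁻¹ * ‖(A ^ (n + M)) z‖
        ≤ (n.factorial : ℝ)⁻¹ * (x ^ (n + M) * ‖z‖) := by
          refine mul_le_mul (inv_anti₀ (by exact_mod_cast n.factorial_pos)
            (by exact_mod_cast Nat.factorial_le (Nat.le_add_right n M))) ?_ (norm_nonneg _)
            (by positivity)
          rcases Nat.eq_zero_or_pos (n + M) with h | h
          · rw [h]; simp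
          · exact ((A ^ (n + M)).le_opNorm z).trans (mul_le_mul_of_nonneg_right
              ((norm_pow_le' A h).trans (pow_le_pow_left₀ (norm_nonneg _) hAx _)) (norm_nonneg _))
      _ = x ^ n / (n.factorial : ℝ) * (x ^ M * ‖z‖) := by rw [pow_add]; ring
  refine (tsum_of_norm_bounded (hreal.mul_right (x ^ M * ‖z‖)) hpt).trans (le_of_eq ?_)
  ring

/-- The `j`-th coefficient. -/
def coefFun (j : ℕ) : ℝ[X] →ₗ[ℝ] ℝ := Polynomial.lcoeff ℝ j

/-- New powers from values `T` of the pair map at the rows. -/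
def powStep (M : ℕ) (th : ℝ) (z : H) (T : Fin M → H) : ℕ → H
  | 0 => z
  | j + 1 => (th * (j.factorial : ℝ)) • ∑ i, ruleWeight M (coefFun j) i • T i

/-- One step gains one exact degree: the values need only be correct up to `e`. -/
theorem norm_powStep_sub_le {M j : ℕ} (hj : j < M) {th e : ℝ} (hth : 0 ≤ th) (A : H →L[ℝ] H)
    (z : H) (P : ℕ → H) (T : Fin M → H) (hT : ∀ i, ‖T i - A (row M (node M i) P)‖ ≤ e) :
    ‖powStep M th z T (j + 1) - th • A (P j)‖ ≤
      th * (j.factorial : ℝ) * ruleSize M (coefFun j) * e := by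
  have hex : ∑ i, ruleWeight M (coefFun j) i • A (row M (node M i) P) =
      ((j.factorial : ℝ)⁻¹) • A (P j) := by
    simp only [row, map_sum, map_smul, Finset.smul_sum, smul_smul]
    rw [Finset.sum_comm]
    simp only [← Finset.sum_smul, ← mul_div_assoc, ← Finset.sum_div]
    have : ∀ k ∈ Finset.range M,
        ∑ i, ruleWeight M (coefFun j) i * node M i ^ k = if k = j then 1 else 0 := by
      intro k hk
      have h := rule_exact (coefFun j) (M := M) (p := X ^ k)
        (by rw [degree_X_pow]; exact_mod_cast Finset.mem_range.1 hk)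
      simp only [eval_pow, eval_X] at h
      rw [h, coefFun, lcoeff_apply, coeff_X_pow]
      simp only [eq_comm]
    rw [Finset.sum_eq_single j]
    · rw [this j (Finset.mem_range.2 hj), if_pos rfl, one_div]
    · intro k hk hkj
      rw [this k hk, if_neg hkj, zero_div, zero_smul]
    · intro h; exact absurd (Finset.mem_range.2 hj) h
  have e1 : powStep M th z T (j + 1) - th • A (P j) =
      (th * (j.factorial : ℝ)) •
        ∑ i, ruleWeight M (coefFun j) i • (T i - A (row M (node M i) P)) := by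
    have h0 : (j.factorial : ℝ) ≠ 0 := by exact_mod_cast j.factorial_ne_zero
    simp only [powStep, smul_sub, Finset.sum_sub_distrib, hex, smul_smul]
    rw [mul_assoc, mul_inv_cancel₀ h0, mul_one]
  rw [e1, norm_smul, Real.norm_eq_abs, abs_of_nonneg (by positivity), mul_assoc _ (ruleSize _ _) e]
  exact mul_le_mul_of_nonneg_left (norm_rule_le _ _ hT) (by positivity)

/-- The square of the pair map is minus the square of `B` on both components. -/
theorem skewPair_skewPair {E : Type} [NormedAddCommGroup E] [InnerProductSpace ℝ E]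
    (B : E →L[ℝ] E) (z : WithLp 2 (E × E)) :
    skewPair B (skewPair B z) = WithLp.toLp 2 (-(B (B z.ofLp.1)), -(B (B z.ofLp.2))) := by
  simp [skewPair_apply]

/-- The rotation of a pair preserves the norm. -/
theorem norm_pairRot_apply {E : Type} [NormedAddCommGroup E] [InnerProductSpace ℝ E]
    [FiniteDimensional ℝ E] {B : E →L[ℝ] E} (hB : ∀ a b, ⟪B a, b⟫ = ⟪a, B b⟫) (c : ℝ)
    (z : WithLp 2 (E × E)) : ‖rotExp (skewPair B) c z‖ = ‖z‖ :=
  norm_rotExp_apply (adjoint_skewPair hB) c z

/-- The truncated rows are close to the rotation of a pair. -/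
theorem norm_pairRot_sub_row_le {E : Type} [NormedAddCommGroup E] [InnerProductSpace ℝ E]
    [FiniteDimensional ℝ E] (B : E →L[ℝ] E) {b : ℝ} (hb : ‖B‖ ≤ b) (M : ℕ) (c th : ℝ)
    (z : WithLp 2 (E × E)) :
    ‖rotExp (skewPair B) (c * th) z - row M c (fun j => th ^ j • (skewPair B ^ j) z)‖ ≤
      (|c * th| * b) ^ M * Real.exp (|c * th| * b) * ‖z‖ :=
  norm_rotExp_sub_row_le (K := WithLp 2 (E × E)) (skewPair B) (norm_skewPair_le (B := B) hb) M c th z

section Laws

open MeasureTheory ProbabilityTheory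

/-- A pair rotation keeps the standard Gaussian. -/
theorem map_rotExp {K : Type} [NormedAddCommGroup K] [InnerProductSpace ℝ K]
    [FiniteDimensional ℝ K] [MeasurableSpace K] [BorelSpace K] {A : K →L[ℝ] K}
    (hA : ContinuousLinearMap.adjoint A = -A) (c : ℝ) :
    (stdGaussian K).map (rotExp A c) = stdGaussian K := by
  refine map_stdGaussian_of_adjoint _ fun t => ?_
  have hu : rotExp A c ∈ unitary (K →L[ℝ] K) := by
    let +nondep : NormedAlgebra ℚ (K →L[ℝ] K) :=
      NormedAlgebra.restrictScalars ℚ ℝ (K →L[ℝ] K)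
    refine NormedSpace.exp_mem_unitary_of_mem_skewAdjoint ?_
    rw [skewAdjoint.mem_iff, star_smul, star_trivial, ContinuousLinearMap.star_eq_adjoint, hA,
      smul_neg]
  refine (ContinuousLinearMap.norm_map_iff_adjoint_comp_self _).2 ?_ t
  rw [ContinuousLinearMap.adjoint_adjoint]
  exact hu.2

end Laws

/-- Iterated steps: if the values are within `e` of the pair map at the current rows, the error of
the powers drops by `th * b` and one more degree becomes exact. -/
theorem norm_powStep_iter_le {M j : ℕ} (hj : j < M) {th e b : ℝ} (hth : 0 ≤ th) (A : H →L[ℝ] H)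
    (hb : ‖A‖ ≤ b) (z : H) (P : ℕ → H) (T : Fin M → H)
    (hT : ∀ i, ‖T i - A (row M (node M i) P)‖ ≤ e) :
    ‖powStep M th z T (j + 1) - th ^ (j + 1) • (A ^ (j + 1)) z‖ ≤
      th * b * ‖P j - th ^ j • (A ^ j) z‖ + th * (j.factorial : ℝ) * ruleSize M (coefFun j) * e := by
  have h1 := norm_powStep_sub_le hj hth A z P T hT
  have h2 : ‖th • A (P j) - th ^ (j + 1) • (A ^ (j + 1)) z‖ ≤ th * b * ‖P j - th ^ j • (A ^ j) z‖ := by
    have e2 : th • A (P j) - th ^ (j + 1) • (A ^ (j + 1)) z =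
        th • A (P j - th ^ j • (A ^ j) z) := by
      rw [map_sub, map_smul, smul_sub, smul_smul, ← pow_succ', pow_succ' A]
      rfl
    rw [e2, norm_smul, Real.norm_eq_abs, abs_of_nonneg hth, mul_assoc]
    exact mul_le_mul_of_nonneg_left ((A.le_opNorm _).trans
      (mul_le_mul_of_nonneg_right hb (norm_nonneg _))) hth
  calc _ ≤ ‖powStep M th z T (j + 1) - th • A (P j)‖ +
        ‖th • A (P j) - th ^ (j + 1) • (A ^ (j + 1)) z‖ := norm_sub_le_norm_sub_add_norm_sub _ _ _
    _ ≤ _ := by linarith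

end

end P347.Zero
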