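import Vale.Agent.P347.Zero.Paths
import Vale.Agent.P347.Zero.PairLaw
import Vale.Agent.P347.Zero.Flow
import Vale.Agent.P347.Zero.Layer
import Vale.Agent.P347.Zero.Rows
import Vale.Agent.P347.Quarter.Defect

/-!
# P347: the exact random variables of the upward pass

The law of the pair at time `q` is the law of the flow at time `q` times a standard Gaussian. The
pair flow carries it from the fine end, where it is given by a sample at the fine variance and a
fresh Gaussian, to time `0`, where the second component is a standard Gaussian.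
-/

namespace P347.Zero

open MeasureTheory ProbabilityTheory Set P347.Quarter
open scoped RealInnerProductSpace ENNReal

noncomputable section

variable {d : ℕ} {V : Space d → ℝ} {y : Space d} {t q : ℝ}

theorem measurePreserving_neg_gauss (d : ℕ) :
    MeasurePreserving (fun w : Space d => -w) (stdGaussian (Space d)) (stdGaussian (Space d)) :=
  ⟨measurable_neg, by simpa using stdGaussian_map (LinearIsometryEquiv.neg ℝ (E := Space d))⟩

/-! ## The laws -/

/-- The law of the flow at time `q`. -/
def flowLaw (V : Space d → ℝ) (y : Space d) (t q : ℝ) : Measure (Space d) :=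
  (stdGaussian (Space d)).withDensity fun a =>
    ENNReal.ofReal (smooth V (t - q ^ 2) (y + q • a) / smooth V t y)

instance (V : Space d → ℝ) (y : Space d) (t q : ℝ) : SFinite (flowLaw V y t q) := by
  unfold flowLaw; infer_instance

theorem pairLaw_eq (V : Space d → ℝ) (y : Space d) (t q : ℝ) :
    pairLaw V y t q = (flowLaw V y t q).prod (stdGaussian (Space d)) := rfl

theorem continuous_flowDensity (hV : InClass V) (y : Space d) (t q : ℝ) :
    Continuous fun a => smooth V (t - q ^ 2) (y + q • a) / smooth V t y :=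
  (continuous_smooth_comp hV continuous_const (by fun_prop)).div_const _

theorem flowDensity_nonneg (hV : InClass V) (y : Space d) (t q : ℝ) (a : Space d) :
    0 ≤ smooth V (t - q ^ 2) (y + q • a) / smooth V t y :=
  div_nonneg (smooth_pos' hV _ _).le (smooth_pos' hV _ _).le

theorem integral_flowLaw (hV : InClass V) (y : Space d) (t q : ℝ) (g : Space d → ℝ) :
    ∫ a, g a ∂flowLaw V y t q
      = (∫ a, g a * smooth V (t - q ^ 2) (y + q • a) ∂stdGaussian (Space d)) / smooth V t y := by
  rw [flowLaw, integral_withDensity_eq_integral_toReal_smul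
    (continuous_flowDensity hV y t q).measurable.ennreal_ofReal
    (Filter.Eventually.of_forall fun _ => ENNReal.ofReal_lt_top)]
  simp only [ENNReal.toReal_ofReal (flowDensity_nonneg hV _ _ _ _), smul_eq_mul]
  rw [← integral_div]
  exact integral_congr_ae (Filter.Eventually.of_forall fun a => by ring)

theorem integral_smooth_shift (hV : InClass V) (y : Space d) (hq : q ^ 2 ≤ t) :
    ∫ a, smooth V (t - q ^ 2) (y + q • a) ∂stdGaussian (Space d) = smooth V t y := by
  have h := congrFun (smooth_semigroup hV (s := t - q ^ 2) (t := t) (by linarith)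
    (by nlinarith [sq_nonneg q])) y
  rw [sub_sub_cancel, Real.sqrt_sq_eq_abs] at h
  rw [h, Quarter.gav]
  rcases le_total 0 q with hq0 | hq0
  · rw [abs_of_nonneg hq0]
  · rw [abs_of_nonpos hq0]
    set f := fun a : Space d => smooth V (t - q ^ 2) (y + q • a)
    have hf : Continuous f := continuous_smooth_comp hV continuous_const (by fun_prop)
    have := integral_map (μ := stdGaussian (Space d)) (measurable_neg.aemeasurable)
      (f := f) hf.aestronglyMeasurable
    rw [(measurePreserving_neg_gauss d).map_eq] at this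
    simpa [f] using this

theorem isProbability_flowLaw (hV : InClass V) (y : Space d) (hq : q ^ 2 ≤ t) :
    IsProbabilityMeasure (flowLaw V y t q) := by
  have hc := continuous_flowDensity hV y t q
  have hi : Integrable (fun a => smooth V (t - q ^ 2) (y + q • a) / smooth V t y)
      (stdGaussian (Space d)) :=
    Integrable.of_bound hc.aestronglyMeasurable (1 / smooth V t y)
      (Filter.Eventually.of_forall fun a => by
        rw [Real.norm_eq_abs, abs_of_nonneg (flowDensity_nonneg hV _ _ _ _)]
        exact div_le_div_of_nonneg_right (smooth_le_one hV _ _) (smooth_pos' hV _ _).le)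
  constructor
  rw [flowLaw, withDensity_apply _ MeasurableSet.univ, Measure.restrict_univ,
    ← ofReal_integral_eq_lintegral_ofReal hi
      (Filter.Eventually.of_forall (flowDensity_nonneg hV _ _ _)),
    integral_div, integral_smooth_shift hV y hq, div_self (smooth_pos' hV _ _).ne',
    ENNReal.ofReal_one]

theorem isProbability_pairLaw (hV : InClass V) (y : Space d) (hq : q ^ 2 ≤ t) :
    IsProbabilityMeasure (pairLaw V y t q) := by
  have := isProbability_flowLaw hV y hq
  rw [pairLaw_eq]; infer_instance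

theorem flowLaw_zero (hV : InClass V) (y : Space d) (t : ℝ) :
    flowLaw V y t 0 = stdGaussian (Space d) := by
  have e : (fun a : Space d => ENNReal.ofReal (smooth V (t - (0 : ℝ) ^ 2) (y + (0 : ℝ) • a)
      / smooth V t y)) = 1 := by
    funext a
    simp [div_self (smooth_pos' hV t y).ne']
  rw [flowLaw, e, withDensity_one]

theorem pairLaw_zero (hV : InClass V) (y : Space d) (t : ℝ) :
    pairLaw V y t 0 = (stdGaussian (Space d)).prod (stdGaussian (Space d)) := by
  rw [pairLaw_eq, flowLaw_zero hV]

theorem measurePreserving_fst_pairLaw (V : Space d → ℝ) (y : Space d) (t q : ℝ) :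
    MeasurePreserving Prod.fst (pairLaw V y t q) (flowLaw V y t q) := by
  rw [pairLaw_eq]; exact measurePreserving_fst

theorem measurePreserving_snd_pairLaw (hV : InClass V) (y : Space d) (hq : q ^ 2 ≤ t) :
    MeasurePreserving Prod.snd (pairLaw V y t q) (stdGaussian (Space d)) := by
  have := isProbability_flowLaw hV y hq
  rw [pairLaw_eq]; exact measurePreserving_snd

theorem lintegral_pairLaw (hV : InClass V) (y : Space d) (t q : ℝ)
    {F : Space d × Space d → ℝ≥0∞} (hF : Measurable F) :
    ∫⁻ x, F x ∂pairLaw V y t q = ∫⁻ a, (∫⁻ u, F (a, u) ∂stdGaussian (Space d))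
      * ENNReal.ofReal (smooth V (t - q ^ 2) (y + q • a) / smooth V t y)
        ∂stdGaussian (Space d) := by
  rw [pairLaw_eq, lintegral_prod _ hF.aemeasurable, flowLaw,
    lintegral_withDensity_eq_lintegral_mul _
      (continuous_flowDensity hV y t q).measurable.ennreal_ofReal hF.lintegral_prod_right']
  exact lintegral_congr fun a => mul_comm _ _

theorem pairSq_eq (hV : InClass V) (y : Space d) (t q : ℝ)
    {F : Space d × Space d → Space d} (hF : Measurable F) :
    pairSq V y t q F = ∫⁻ x, ENNReal.ofReal (‖F x‖ ^ 2) ∂pairLaw V y t q := by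
  rw [lintegral_pairLaw hV y t q (hF.norm.pow_const 2).ennreal_ofReal]
  rfl

theorem pairSq_eq_eLpNorm (hV : InClass V) (y : Space d) (t q : ℝ)
    {F : Space d × Space d → Space d} (hF : Measurable F) :
    pairSq V y t q F = eLpNorm F 2 (pairLaw V y t q) ^ 2 := by
  rw [pairSq_eq hV y t q hF, eLpNorm_two_sq]

/-- A bound of the squared norm is a bound of the norm. -/
theorem eLpNorm_le_of_sq_le {α : Type} [MeasurableSpace α] {μ : Measure α} {f : α → Space d}
    {B : ℝ} (hB : 0 ≤ B)
    (h : ∫⁻ x, ENNReal.ofReal (‖f x‖ ^ 2) ∂μ ≤ ENNReal.ofReal (B ^ 2)) :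
    eLpNorm f 2 μ ≤ ENNReal.ofReal B := by
  rw [← eLpNorm_two_sq, ENNReal.ofReal_pow hB] at h
  exact (ENNReal.pow_le_pow_left_iff two_ne_zero).1 h

theorem eLpNorm_pairLaw_of_pairSq (hV : InClass V) (y : Space d) (t q : ℝ)
    {F : Space d × Space d → Space d} (hF : Measurable F) {B : ℝ} (hB : 0 ≤ B)
    (h : pairSq V y t q F ≤ ENNReal.ofReal (B ^ 2)) :
    eLpNorm F 2 (pairLaw V y t q) ≤ ENNReal.ofReal B :=
  eLpNorm_le_of_sq_le hB (by rwa [← pairSq_eq hV y t q hF])

theorem pairMean_eq_integral (hV : InClass V) (y : Space d) (hq : q ^ 2 ≤ t)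
    {f : Space d × Space d → ℝ} (hf : Continuous f) {C : ℝ} (hb : ∀ x, ‖f x‖ ≤ C) :
    pairMean V y t q f = ∫ x, f x ∂pairLaw V y t q := by
  have := isProbability_flowLaw hV y hq
  rw [pairLaw_eq, integral_prod _ (Integrable.of_bound hf.aestronglyMeasurable C
    (Filter.Eventually.of_forall hb)), integral_flowLaw hV]
  rfl

/-! ## The flow -/

theorem IsFlow.neg {w : ℝ → Space d → Space d} (hw : IsFlow V y t w) :
    IsFlow V y t fun q ξ => -w (-q) (-ξ) := by
  refine ⟨fun ξ => by simp [hw.init], fun ξ q hq => ?_, fun q hq => ?_⟩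
  · have h := ((hw.deriv (-ξ) (-q) (by simpa using hq)).scomp q (hasDerivAt_id q).neg).neg
    simp only [neg_sq, Function.comp_def, neg_smul, one_smul, neg_neg] at h
    simp only [smul_neg]
    simpa [Pi.neg_def] using h
  · exact ((hw.cont (-q) (by simpa using hq)).comp continuous_neg).neg

theorem measurePreserving_neg_flowLaw (hV : InClass V) (y : Space d) (t q : ℝ) :
    MeasurePreserving (fun w : Space d => -w) (flowLaw V y t (-q)) (flowLaw V y t q) := by
  refine ⟨measurable_neg, Measure.ext fun s hs => ?_⟩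
  rw [Measure.map_apply measurable_neg hs, flowLaw, flowLaw,
    withDensity_apply _ (measurable_neg hs), withDensity_apply _ hs,
    ← (measurePreserving_neg_gauss d).setLIntegral_comp_preimage hs
      (continuous_flowDensity hV y t q).measurable.ennreal_ofReal]
  simp

/-- The flow carries the Gaussian to its law, at both signs of the time. -/
theorem IsFlow.measurePreserving (hV : InClass V) {w : ℝ → Space d → Space d}
    (hw : IsFlow V y t w) (ht1 : t ≤ 1) (hq : q ^ 2 < t) :
    MeasurePreserving (w q) (stdGaussian (Space d)) (flowLaw V y t q) := by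
  rcases le_or_gt 0 q with h | h
  · exact ⟨(hw.cont q hq).measurable, hw.map_eq hV ht1 h hq⟩
  · have hq' : (-q) ^ 2 < t := by simpa using hq
    have h1 : MeasurePreserving (fun ξ => -w (- -q) (-ξ)) (stdGaussian (Space d))
        (flowLaw V y t (-q)) :=
      ⟨(hw.neg.cont (-q) hq').measurable, hw.neg.map_eq hV ht1 (by linarith) hq'⟩
    have h2 := (measurePreserving_neg_flowLaw hV y t q).comp
      (h1.comp (measurePreserving_neg_gauss d))
    simpa [Function.comp_def] using h2

/-- A family of flows, continuous in the centre and the start. -/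
theorem exists_flow_family (hV : InClass V) (ht : 0 < t) (ht1 : t ≤ 1) :
    ∃ w : Space d → ℝ → Space d → Space d, (∀ y, IsFlow V y t (w y)) ∧
      ∀ q, q ^ 2 < t → (Continuous fun x : Space d × Space d => w x.1 q x.2) ∧
        ∀ y, MeasurePreserving (w y q) (stdGaussian (Space d)) (flowLaw V y t q) := by
  choose w hw using fun y => exists_flow hV y ht ht1
  exact ⟨w, hw, fun q hq => ⟨(regular score_spec hV).continuous_flow hw hq,
    fun y => (hw y).measurePreserving hV ht1 hq⟩⟩

/-! ## The pair flow -/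

theorem IsPair.unique (hV : InClass V) {ρ q₁ : ℝ} (hρ : ρ ≠ 0) (hq₁ : q₁ ^ 2 < t)
    {w U w' U' : ℝ → Space d × Space d → Space d} (hw : IsPair V y t ρ q₁ w U)
    (hw' : IsPair V y t ρ q₁ w' U') (z : Space d × Space d) (hq : q ∈ Icc 0 q₁) :
    w q z = w' q z ∧ U q z = U' q z := by
  have h := (regular score_spec hV).field_pairG (ρ := ρ) hq₁
  have e := h.solves_unique (hw.solves hρ z) (hw'.solves hρ z)
    (by rw [pairPath_zero hw, pairPath_zero hw'])
    (t := q₁ - q) ⟨by linarith [hq.2], by linarith [hq.1]⟩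
  simp only [pairPath, sub_sub_cancel, Prod.mk.injEq, true_and] at e
  obtain ⟨e1, e2⟩ := e
  rw [e1, add_right_inj] at e2
  exact ⟨e1, smul_right_injective (Space d) hρ e2⟩

/-- The pair flow carries the pair law at the fine end to the pair law at every time. -/
theorem IsPair.measurePreserving (hV : InClass V) {ρ q₁ : ℝ} (ht : 0 < t) (ht1 : t ≤ 1)
    (hρ : 0 < ρ) (hq₁ : q₁ ^ 2 < t) {w U : ℝ → Space d × Space d → Space d}
    (hw : IsPair V y t ρ q₁ w U) (hq : q ∈ Icc 0 q₁) :
    MeasurePreserving (fun z => (w q z, U q z)) (pairLaw V y t q₁) (pairLaw V y t q) := by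
  have hq0 : 0 ≤ q₁ := hq.1.trans hq.2
  obtain ⟨w', U', hw', hlaw⟩ := pairSpec score_spec d V hV y t ρ q₁ ht ht1 hρ hq0 hq₁
  have hq2 : q ^ 2 ≤ t := (pow_le_pow_left₀ hq.1 hq.2 2).trans hq₁.le
  have := isProbability_pairLaw hV y hq₁.le
  have := isProbability_pairLaw hV y hq2
  have hG : Continuous fun z => (w q z, U q z) := (hw.cont q hq).1.prodMk (hw.cont q hq).2
  refine ⟨hG.measurable, ext_of_forall_integral_eq_of_IsFiniteMeasure fun f => ?_⟩
  rw [integral_map hG.aemeasurable f.continuous.aestronglyMeasurable]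
  set M := 2 * ‖f‖ + 1
  have hM : 0 < M := by positivity
  have hb : ∀ x, (f x + ‖f‖) / M ∈ Icc (0 : ℝ) 1 := fun x => by
    have h := abs_le.1 ((Real.norm_eq_abs (f x)).symm.trans_le (f.norm_coe_le_norm x))
    refine ⟨div_nonneg (by linarith) hM.le, (div_le_one hM).2 ?_⟩
    simp only [M]; linarith [norm_nonneg f]
  have hb1 : ∀ x, ‖(f x + ‖f‖) / M‖ ≤ 1 := fun x => by
    rw [Real.norm_eq_abs, abs_of_nonneg (hb x).1]; exact (hb x).2
  have hfc : Continuous fun x => (f x + ‖f‖) / M :=
    (f.continuous.add continuous_const).div_const _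
  have key := hlaw (fun x => (f x + ‖f‖) / M) hfc hb q hq
  have hG' : Continuous fun z => (w' q z, U' q z) := (hw'.cont q hq).1.prodMk (hw'.cont q hq).2
  rw [pairMean_eq_integral hV y hq₁.le (f := fun z => (f (w' q z, U' q z) + ‖f‖) / M)
      (hfc.comp hG') (C := 1) (fun _ => hb1 _),
    pairMean_eq_integral hV y hq2 hfc (C := 1) hb1] at key
  have e : ∀ z, (w' q z, U' q z) = (w q z, U q z) := fun z => by
    obtain ⟨h1, h2⟩ := hw.unique hV hρ.ne' hq₁ hw' z hq
    rw [h1, h2]
  simp only [e, integral_div] at key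
  have hfi : Integrable (fun z => f (w q z, U q z)) (pairLaw V y t q₁) :=
    Integrable.of_bound (f.continuous.comp hG).aestronglyMeasurable ‖f‖
      (Filter.Eventually.of_forall fun z => f.norm_coe_le_norm _)
  rw [div_left_inj' hM.ne', integral_add hfi (integrable_const _),
    integral_add (f.integrable _) (integrable_const _)] at key
  simpa using key

/-- At time `0` the second component is a standard Gaussian. -/
theorem IsPair.measurePreserving_zero (hV : InClass V) {ρ q₁ : ℝ} (ht : 0 < t) (ht1 : t ≤ 1)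
    (hρ : 0 < ρ) (hq0 : 0 ≤ q₁) (hq₁ : q₁ ^ 2 < t) {w U : ℝ → Space d × Space d → Space d}
    (hw : IsPair V y t ρ q₁ w U) :
    MeasurePreserving (U 0) (pairLaw V y t q₁) (stdGaussian (Space d)) :=
  (measurePreserving_snd_pairLaw hV y (q := 0) (by simpa using ht.le)).comp
    (hw.measurePreserving hV ht ht1 hρ hq₁ ⟨le_rfl, hq0⟩)

/-- A family of pair flows, continuous in the centre and the start. -/
theorem exists_pair_family (hV : InClass V) {ρ q₁ : ℝ} (ht : 0 < t) (ht1 : t ≤ 1) (hρ : 0 < ρ)
    (hq0 : 0 ≤ q₁) (hq₁ : q₁ ^ 2 < t) :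
    ∃ w U : Space d → ℝ → Space d × Space d → Space d, (∀ y, IsPair V y t ρ q₁ (w y) (U y)) ∧
      ∀ q ∈ Icc 0 q₁, (Continuous fun x : Space d × (Space d × Space d) => w x.1 q x.2) ∧
        (Continuous fun x : Space d × (Space d × Space d) => U x.1 q x.2) ∧
        ∀ y, MeasurePreserving (fun z => (w y q z, U y q z)) (pairLaw V y t q₁)
          (pairLaw V y t q) := by
  have h := regular score_spec hV
  choose w U hw using fun y => h.exists_pair (y := y) hρ.ne' hq0 hq₁
  exact ⟨w, U, hw, fun q hq => ⟨(h.continuous_pair hρ.ne' hq₁ hw hq).1,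
    (h.continuous_pair hρ.ne' hq₁ hw hq).2,
    fun y => (hw y).measurePreserving hV ht ht1 hρ hq₁ hq⟩⟩

/-! ## The start at the fine end -/

/-- A sample at variance `s`, read in the scale of the flow. -/
theorem measurePreserving_post (hV : InClass V) {X : Type} [MeasurableSpace X] {P : Measure X}
    [IsProbabilityMeasure P] {s : ℝ} (hs : 0 ≤ s) (hst : s < t) {Z : X → Space d}
    (hZ : Measurable Z) (h : ∀ f : Space d → ℝ, Test f → ∫ x, f (Z x) ∂P = condMean V t s f y) :
    MeasurePreserving (fun x => (√(t - s))⁻¹ • (Z x - y)) P (flowLaw V y t √(t - s)) := by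
  set q := √(t - s)
  have hq : q ≠ 0 := (Real.sqrt_pos.2 (sub_pos.2 hst)).ne'
  have hqs : q ^ 2 = t - s := Real.sq_sqrt (sub_nonneg.2 hst.le)
  have := isProbability_flowLaw hV y (t := t) (q := q) (by linarith)
  have hm : Measurable fun x => q⁻¹ • (Z x - y) := (hZ.sub_const y).const_smul q⁻¹
  refine ⟨hm, Measure.ext fun S hS => ?_⟩
  set g := S.indicator fun _ : Space d => (1 : ℝ)
  have hg : Measurable g := measurable_const.indicator hS
  have hT : Test fun z => g (q⁻¹ • (z - y)) :=
    ⟨hg.comp (by fun_prop), fun z => indicator_nonneg (fun _ _ => zero_le_one) _,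
      fun z => indicator_le_self' (fun _ _ => zero_le_one) _ |>.trans le_rfl⟩
  have key : ∫ x, g (q⁻¹ • (Z x - y)) ∂P = ∫ a, g a ∂flowLaw V y t q := by
    rw [h _ hT, integral_flowLaw hV, condMean, show t - q ^ 2 = s by linarith]
    simp [q, smul_smul, inv_mul_cancel₀ hq]
  rw [← integral_map hm.aemeasurable hg.aestronglyMeasurable, integral_indicator_const _ hS,
    integral_indicator_const _ hS] at key
  simp only [smul_eq_mul, mul_one] at key
  have := Measure.isProbabilityMeasure_map (μ := P) hm.aemeasurable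
  exact (measureReal_eq_measureReal_iff).1 key

/-- The seed of the pair flow: a sample at the fine variance and a fresh Gaussian. -/
theorem measurePreserving_seed (hV : InClass V) {X : Type} [MeasurableSpace X] {P : Measure X}
    [IsProbabilityMeasure P] {s : ℝ} (hs : 0 ≤ s) (hst : s < t) {Z : X → Space d}
    (hZ : Measurable Z) (h : ∀ f : Space d → ℝ, Test f → ∫ x, f (Z x) ∂P = condMean V t s f y) :
    MeasurePreserving (fun x : X × Space d => ((√(t - s))⁻¹ • (Z x.1 - y), x.2))
      (P.prod (stdGaussian (Space d))) (pairLaw V y t √(t - s)) := by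
  rw [pairLaw_eq]
  exact (measurePreserving_post hV hs hst hZ h).prod (MeasurePreserving.id _)

/-! ## Transfer of bounds -/

/-- A bound at every point of the first component is a bound under the pair law. -/
theorem eLpNorm_pairLaw_le (hV : InClass V) (y : Space d) (hq : q ^ 2 ≤ t)
    {F : Space d × Space d → Space d} (hF : Measurable F) {B : ℝ} (hB : 0 ≤ B)
    (h : ∀ a, ∫⁻ u, ENNReal.ofReal (‖F (a, u)‖ ^ 2) ∂stdGaussian (Space d)
      ≤ ENNReal.ofReal (B ^ 2)) :
    eLpNorm F 2 (pairLaw V y t q) ≤ ENNReal.ofReal B := by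
  have := isProbability_flowLaw hV y hq
  refine eLpNorm_le_of_sq_le hB ?_
  rw [pairLaw_eq, lintegral_prod _ (hF.norm.pow_const 2).ennreal_ofReal.aemeasurable]
  exact (lintegral_mono h).trans (by simp)

/-! ## Moments -/

theorem exp_two_le : Real.exp 2 ≤ 8 := by
  rw [show (2 : ℝ) = 1 + 1 by norm_num, Real.exp_add]
  nlinarith [Real.exp_one_lt_d9, Real.exp_pos 1]

theorem IsFlow.norm_le (hV : InClass V) {w : ℝ → Space d → Space d} (hw : IsFlow V y t w)
    (ht1 : t ≤ 1) (hq : q ^ 2 < t) (ξ : Space d) :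
    ‖w q ξ‖ ≤ 8 * ‖ξ‖ + 8 * (2 * √(d : ℝ) + ‖y‖) := by
  set σ : ℝ := if 0 ≤ q then 1 else -1 with hσdef
  have hσ : |σ| = 1 := by rw [hσdef]; split_ifs <;> simp
  have hσ2 : σ ^ 2 = 1 := by rw [← sq_abs, hσ, one_pow]
  have hqσ : σ * |q| = q := by
    rw [hσdef]; split_ifs with h
    · rw [abs_of_nonneg h, one_mul]
    · rw [abs_of_neg (not_le.1 h)]; ring
  have hq1 : |q| ≤ 1 := abs_le_one_iff_mul_self_le_one.2 (by nlinarith)
  set ε := 4 * √(d : ℝ) + 2 * ‖y‖
  have hr : ∀ τ ∈ Icc 0 |q|, 0 < t - τ ^ 2 := fun τ hτ => by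
    have := pow_le_pow_left₀ hτ.1 hτ.2 2
    rw [sq_abs] at this; linarith
  have hd : ∀ τ ∈ Icc 0 |q|, HasDerivAt (fun u => w (σ * u) ξ)
      (σ • score V (t - τ ^ 2) (y + (σ * τ) • w (σ * τ) ξ)) τ := fun τ hτ => by
    have e : (σ * τ) ^ 2 = τ ^ 2 := by rw [mul_pow, hσ2, one_mul]
    have h := hw.deriv ξ (σ * τ) (by rw [e]; linarith [hr τ hτ])
    rw [e] at h
    exact h.scomp τ (by simpa using (hasDerivAt_id τ).const_mul σ)
  have g := norm_le_gronwallBound_of_norm_deriv_right_le (f := fun u => w (σ * u) ξ)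
    (δ := ‖ξ‖) (K := 2) (ε := ε) (fun τ hτ => (hd τ hτ).continuousAt.continuousWithinAt)
    (fun τ hτ => (hd τ (Ico_subset_Icc_self hτ)).hasDerivWithinAt) (by simp [hw.init])
    (fun τ hτ => ?_) |q| ⟨abs_nonneg q, le_rfl⟩
  · rw [hqσ, gronwallBound_of_K_ne_0 two_ne_zero, sub_zero] at g
    refine g.trans ?_
    have h1 : Real.exp (2 * |q|) ≤ 8 := (Real.exp_le_exp.2 (by linarith)).trans exp_two_le
    have h0 : (1 : ℝ) ≤ Real.exp (2 * |q|) := Real.one_le_exp (by positivity)
    have : 0 ≤ ε := by positivity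
    have e : 2 * √(d : ℝ) + ‖y‖ = ε / 2 := by simp only [ε]; ring
    rw [e]
    nlinarith [norm_nonneg ξ, mul_le_mul_of_nonneg_left h1 (norm_nonneg ξ),
      mul_le_mul_of_nonneg_left (show Real.exp (2 * |q|) - 1 ≤ 8 by linarith)
        (show 0 ≤ ε / 2 by linarith)]
  · have hτ' := Ico_subset_Icc_self hτ
    rw [norm_smul, Real.norm_eq_abs, hσ, one_mul]
    refine (norm_score_le hV (hr τ hτ').le _).trans ?_
    have h1 : √((d : ℝ) * (t - τ ^ 2)) ≤ √(d : ℝ) :=
      Real.sqrt_le_sqrt (mul_le_of_le_one_right d.cast_nonneg (by nlinarith [sq_nonneg τ]))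
    have h2 := norm_add_le y ((σ * τ) • w (σ * τ) ξ)
    rw [norm_smul, Real.norm_eq_abs, abs_mul, hσ, one_mul, abs_of_nonneg hτ.1] at h2
    have h3 : τ * ‖w (σ * τ) ξ‖ ≤ ‖w (σ * τ) ξ‖ :=
      mul_le_of_le_one_left (norm_nonneg _) (hτ'.2.trans hq1)
    simp only [ε]
    linarith

/-- An affine bound in `L²`. -/
theorem eLpNorm_affine_le {α F G : Type} [MeasurableSpace α] [NormedAddCommGroup F]
    [NormedAddCommGroup G] {μ : Measure α} [IsProbabilityMeasure μ] {f : α → F} {g : α → G}
    (hg : AEStronglyMeasurable g μ) {a b M : ℝ} (ha : 0 ≤ a) (hb : 0 ≤ b) (hM : 0 ≤ M)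
    (h : ∀ x, ‖f x‖ ≤ a * ‖g x‖ + b) (hgM : eLpNorm g 2 μ ≤ ENNReal.ofReal M) :
    eLpNorm f 2 μ ≤ ENNReal.ofReal (a * M + b) := by
  refine (eLpNorm_mono_real h).trans ?_
  refine (eLpNorm_add_le (hg.norm.const_mul a) aestronglyMeasurable_const one_le_two).trans ?_
  rw [ENNReal.ofReal_add (mul_nonneg ha hM) hb, ENNReal.ofReal_mul ha]
  refine add_le_add ?_ ?_
  · rw [show (fun x => a * ‖g x‖) = a • fun x => ‖g x‖ from rfl, eLpNorm_const_smul,
      eLpNorm_norm, Real.enorm_eq_ofReal ha]
    exact mul_le_mul_right hgM _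
  · rw [eLpNorm_const _ two_ne_zero (IsProbabilityMeasure.ne_zero μ)]
    simp [Real.enorm_eq_ofReal hb]

theorem eLpNorm_gauss (d : ℕ) :
    eLpNorm (fun x : Space d => x) 2 (stdGaussian (Space d)) ≤ ENNReal.ofReal √(d : ℝ) := by
  refine eLpNorm_le_of_sq_le (Real.sqrt_nonneg _) ?_
  rw [Real.sq_sqrt d.cast_nonneg, ← ofReal_integral_eq_lintegral_ofReal Quarter.Defect.integrable_norm_sq
    (Filter.Eventually.of_forall fun x => sq_nonneg _), Quarter.Defect.gauss_moments.1]

theorem eLpNorm_flowLaw_le (hV : InClass V) (y : Space d) (ht1 : t ≤ 1) (hq : q ^ 2 < t) :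
    eLpNorm (fun a : Space d => a) 2 (flowLaw V y t q)
      ≤ ENNReal.ofReal (24 * (√(d : ℝ) + ‖y‖)) := by
  obtain ⟨w, hw⟩ := exists_flow hV y (lt_of_le_of_lt (sq_nonneg q) hq) ht1
  rw [← eLpNorm_comp_measurePreserving (g := fun a : Space d => a) aestronglyMeasurable_id
    (hw.measurePreserving hV ht1 hq), Function.comp_def]
  refine (eLpNorm_affine_le aestronglyMeasurable_id (by norm_num) (by positivity)
    (Real.sqrt_nonneg _) (hw.norm_le hV ht1 hq) (eLpNorm_gauss d)).trans
    (ENNReal.ofReal_le_ofReal ?_)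
  nlinarith [Real.sqrt_nonneg (d : ℝ), norm_nonneg y]

theorem eLpNorm_fst_le (hV : InClass V) (y : Space d) (ht1 : t ≤ 1) (hq : q ^ 2 < t) :
    eLpNorm (fun x : Space d × Space d => x.1) 2 (pairLaw V y t q)
      ≤ ENNReal.ofReal (24 * (√(d : ℝ) + ‖y‖)) := by
  have h := eLpNorm_comp_measurePreserving (p := 2) (g := fun a : Space d => a)
    aestronglyMeasurable_id (measurePreserving_fst_pairLaw V y t q)
  exact h.trans_le (eLpNorm_flowLaw_le hV y ht1 hq)

theorem eLpNorm_snd_le (hV : InClass V) (y : Space d) (hq : q ^ 2 ≤ t) :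
    eLpNorm (fun x : Space d × Space d => x.2) 2 (pairLaw V y t q)
      ≤ ENNReal.ofReal √(d : ℝ) := by
  have h := eLpNorm_comp_measurePreserving (p := 2) (g := fun a : Space d => a)
    aestronglyMeasurable_id (measurePreserving_snd_pairLaw hV y hq)
  exact h.trans_le (eLpNorm_gauss d)

theorem eLpNorm_point_le (hV : InClass V) (y : Space d) (ht1 : t ≤ 1) (hq : q ^ 2 < t) :
    eLpNorm (fun x : Space d × Space d => y + q • x.1) 2 (pairLaw V y t q)
      ≤ ENNReal.ofReal (25 * (√(d : ℝ) + ‖y‖)) := by
  have := isProbability_pairLaw hV y hq.le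
  have hq1 : |q| ≤ 1 := abs_le_one_iff_mul_self_le_one.2 (by nlinarith)
  refine (eLpNorm_affine_le (a := 1) (b := ‖y‖) (g := Prod.fst) measurable_fst.aestronglyMeasurable zero_le_one
    (norm_nonneg y) (by positivity) (fun x => ?_) (eLpNorm_fst_le hV y ht1 hq)).trans
    (ENNReal.ofReal_le_ofReal (by linarith [Real.sqrt_nonneg (d : ℝ), norm_nonneg y]))
  refine (norm_add_le _ _).trans ?_
  rw [norm_smul, Real.norm_eq_abs]
  nlinarith [norm_nonneg x.1]

theorem eLpNorm_score_node_le (hV : InClass V) (y : Space d) (ht1 : t ≤ 1) (hq : q ^ 2 < t) :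
    eLpNorm (fun x : Space d × Space d => score V (t - q ^ 2) (y + q • x.1)) 2 (pairLaw V y t q)
      ≤ ENNReal.ofReal (54 * (√(d : ℝ) + ‖y‖)) := by
  have := isProbability_pairLaw hV y hq.le
  refine (eLpNorm_affine_le (a := 2) (b := 4 * √(d : ℝ))
    (g := fun x : Space d × Space d => y + q • x.1) (by fun_prop)
    (by norm_num) (by positivity) (by positivity) (fun x => ?_)
    (eLpNorm_point_le hV y ht1 hq)).trans
    (ENNReal.ofReal_le_ofReal (by linarith [Real.sqrt_nonneg (d : ℝ), norm_nonneg y]))
  refine (norm_score_le hV (by linarith) _).trans ?_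
  have : √((d : ℝ) * (t - q ^ 2)) ≤ √(d : ℝ) :=
    Real.sqrt_le_sqrt (mul_le_of_le_one_right d.cast_nonneg (by nlinarith [sq_nonneg q]))
  linarith

theorem eLpNorm_scoreD_node_le (hV : InClass V) (y : Space d) {r : ℝ} (hr : 0 < r)
    (hq : q ^ 2 ≤ t) :
    eLpNorm (fun x : Space d × Space d => scoreD V r (y + q • x.1) x.2) 2 (pairLaw V y t q)
      ≤ ENNReal.ofReal (2 * √(d : ℝ)) := by
  have := isProbability_pairLaw hV y hq
  refine (eLpNorm_affine_le (a := 2) (b := 0) (g := Prod.snd) measurable_snd.aestronglyMeasurable (by norm_num) le_rfl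
    (Real.sqrt_nonneg _) (fun x => ?_) (eLpNorm_snd_le hV y hq)).trans_eq (by rw [add_zero])
  rw [add_zero]
  exact (scoreD V r _).le_of_opNorm_le ((regular score_spec hV).norm_scoreD_le hr _) _

theorem continuous_scoreD (hV : InClass V) {r : ℝ} (hr : 0 < r) :
    Continuous fun z => scoreD V r z :=
  ContinuousOn.comp_continuous (f := fun z : Space d => (r, z))
    (g := fun p : ℝ × Space d => scoreD V p.1 p.2)
    (regular score_spec hV).contDiffOn_scoreD.continuousOn
    (continuous_const.prodMk continuous_id) fun z => ⟨hr, mem_univ z⟩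

theorem eLpNorm_scoreD_sq_node_le (hV : InClass V) (y : Space d) {r : ℝ} (hr : 0 < r)
    (hq : q ^ 2 ≤ t) :
    eLpNorm (fun x : Space d × Space d =>
        scoreD V r (y + q • x.1) (scoreD V r (y + q • x.1) x.2)) 2 (pairLaw V y t q)
      ≤ ENNReal.ofReal (4 * √(d : ℝ)) := by
  have := isProbability_pairLaw hV y hq
  refine (eLpNorm_affine_le (a := 4) (b := 0) (g := Prod.snd) measurable_snd.aestronglyMeasurable
    (by norm_num) le_rfl (Real.sqrt_nonneg _) (fun x => ?_)
    (eLpNorm_snd_le hV y hq)).trans_eq (by rw [add_zero])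
  have hB := (regular score_spec hV).norm_scoreD_le hr (y + q • x.1)
  rw [add_zero]
  refine ((scoreD V r _).le_of_opNorm_le hB _).trans ?_
  linarith [(scoreD V r (y + q • x.1)).le_of_opNorm_le hB x.2]

section NodeBounds

attribute [local irreducible] score smooth scoreD

/-- The node functions along the pair flow. -/
theorem IsPair.eLpNorm_nodeFn_le (hV : InClass V) {ρ q₁ : ℝ} (ht : 0 < t) (ht1 : t ≤ 1)
    (hρ : 0 < ρ) (hq₁ : q₁ ^ 2 < t) {w U : ℝ → Space d × Space d → Space d}
    (hw : IsPair V y t ρ q₁ w U) (hq : q ∈ Icc 0 q₁) (j : Fin 3) :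
    eLpNorm (fun z => nodeFn V y t w U z j q) 2 (pairLaw V y t q₁)
      ≤ ENNReal.ofReal (54 * (√(d : ℝ) + ‖y‖)) := by
  have hq2 : q ^ 2 < t := (pow_le_pow_left₀ hq.1 hq.2 2).trans_lt hq₁
  have hr : 0 < t - q ^ 2 := by linarith
  have hm := hw.measurePreserving hV ht ht1 hρ hq₁ hq
  have hb : Continuous (score V (t - q ^ 2)) :=
    ((regular score_spec hV).lip _ hr.le).continuous
  have hB := continuous_scoreD hV hr
  have h0 : Continuous fun x : Space d × Space d => y + q • x.1 := by fun_prop
  have h1 : Continuous fun x : Space d × Space d =>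
      scoreD V (t - q ^ 2) (y + q • x.1) x.2 := (hB.comp h0).clm_apply continuous_snd
  have hle : ∀ c : ℝ, c ≤ 4 → c * √(d : ℝ) ≤ 54 * (√(d : ℝ) + ‖y‖) := fun c hc => by
    nlinarith [Real.sqrt_nonneg (d : ℝ), norm_nonneg y]
  have key : ∀ g : Space d × Space d → Space d, Continuous g →
      eLpNorm (fun z => g (w q z, U q z)) 2 (pairLaw V y t q₁) = eLpNorm g 2 (pairLaw V y t q) :=
    fun g hg => eLpNorm_comp_measurePreserving hg.aestronglyMeasurable hm
  match j with
  | 0 =>
    simp only [nodeFn]
    rw [key (fun x => score V (t - q ^ 2) (y + q • x.1)) (hb.comp h0)]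
    exact eLpNorm_score_node_le hV y ht1 hq2
  | 1 =>
    simp only [nodeFn]
    rw [key (fun x => scoreD V (t - q ^ 2) (y + q • x.1) x.2) h1]
    exact (eLpNorm_scoreD_node_le hV y hr hq2.le).trans
      (ENNReal.ofReal_le_ofReal (hle 2 (by norm_num)))
  | 2 =>
    simp only [nodeFn]
    rw [key (fun x => scoreD V (t - q ^ 2) (y + q • x.1)
      (scoreD V (t - q ^ 2) (y + q • x.1) x.2)) ((hB.comp h0).clm_apply h1)]
    exact (eLpNorm_scoreD_sq_node_le hV y hr hq2.le).trans
      (ENNReal.ofReal_le_ofReal (hle 4 le_rfl))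

end NodeBounds

/-! ## Rotations of seeds -/

theorem inner_scoreD_symm (hV : InClass V) {r : ℝ} (hr : 0 < r) (z a b : Space d) :
    ⟪scoreD V r z a, b⟫ = ⟪a, scoreD V r z b⟫ := by
  simp only [PiLp.inner_apply, RCLike.inner_apply, conj_trivial, scoreD_coord hV hr,
    Finset.mul_sum, Finset.sum_mul]
  rw [Finset.sum_comm]
  refine Finset.sum_congr rfl fun i _ => Finset.sum_congr rfl fun j _ => ?_
  rw [ld_perm hV hr (List.Perm.swap j i [])]
  ring

/-- The rotation of a pair of seeds generated by the derivative of the score at `z`. -/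
def seedRot (V : Space d → ℝ) (r c : ℝ) (z : Space d) (u g : Space d) : Space d × Space d :=
  (rotExp (skewPair (scoreD V r z)) c (WithLp.toLp 2 (u, g))).ofLp

theorem continuous_skewPair {E : Type} [NormedAddCommGroup E] [InnerProductSpace ℝ E]
    [FiniteDimensional ℝ E] : Continuous fun B : E →L[ℝ] E => skewPair B := by
  let L : (E →L[ℝ] E) →ₗ[ℝ] (WithLp 2 (E × E) →L[ℝ] WithLp 2 (E × E)) :=
    { toFun := skewPair
      map_add' := fun A B => by
        refine ContinuousLinearMap.ext fun z => ?_
        simp only [add_apply, skewPair_apply, ← WithLp.toLp_add, Prod.mk_add_mk, neg_add]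
      map_smul' := fun a B => by
        refine ContinuousLinearMap.ext fun z => ?_
        simp only [RingHom.id_apply, smul_apply, skewPair_apply, ← WithLp.toLp_smul,
          Prod.smul_mk, smul_neg] }
  exact L.continuous_of_finiteDimensional

theorem continuous_rotExp {K : Type} [NormedAddCommGroup K] [InnerProductSpace ℝ K]
    [CompleteSpace K] (c : ℝ) : Continuous fun A : K →L[ℝ] K => rotExp A c := by
  let +nondep : NormedAlgebra ℚ (K →L[ℝ] K) :=
    NormedAlgebra.restrictScalars ℚ ℝ (K →L[ℝ] K)
  exact NormedSpace.exp_continuous.comp (continuous_id.const_smul c)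

theorem continuous_seedRot (hV : InClass V) {r : ℝ} (hr : 0 < r) (c : ℝ) :
    Continuous fun p : Space d × (Space d × Space d) => seedRot V r c p.1 p.2.1 p.2.2 := by
  have h2 : Continuous fun p : Space d × (Space d × Space d) =>
      rotExp (skewPair (scoreD V r p.1)) c :=
    (continuous_rotExp (K := WithLp 2 (Space d × Space d)) c).comp
      (continuous_skewPair.comp ((continuous_scoreD hV hr).comp continuous_fst))
  unfold seedRot
  exact (WithLp.prod_continuous_ofLp _ _ _).comp (h2.clm_apply
    ((WithLp.prod_continuous_toLp _ _ _).comp continuous_snd))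

/-- For a fixed point the rotation keeps two independent standard Gaussians. -/
theorem map_seedRot (hV : InClass V) {r : ℝ} (hr : 0 < r) (c : ℝ) (z : Space d) :
    ((stdGaussian (Space d)).prod (stdGaussian (Space d))).map
        (fun p => seedRot V r c z p.1 p.2)
      = (stdGaussian (Space d)).prod (stdGaussian (Space d)) := by
  set R := rotExp (skewPair (scoreD V r z)) c
  have e : (fun p : Space d × Space d => seedRot V r c z p.1 p.2)
      = WithLp.ofLp ∘ R ∘ WithLp.toLp 2 := rfl
  have m1 : Measurable (WithLp.toLp 2 : Space d × Space d → WithLp 2 (Space d × Space d)) :=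
    (WithLp.prod_continuous_toLp _ _ _).measurable
  have m2 : Measurable (WithLp.ofLp : WithLp 2 (Space d × Space d) → Space d × Space d) :=
    (WithLp.prod_continuous_ofLp _ _ _).measurable
  rw [e, ← Measure.map_map m2 (R.measurable.comp m1), ← Measure.map_map R.measurable m1,
    map_toLp_prod, map_rotExp (adjoint_skewPair (inner_scoreD_symm hV hr z)),
    ← map_toLp_prod, Measure.map_map m2 m1]
  exact Measure.map_id

/-- The rotation at the moving point keeps the product of the law of the point and two Gaussians. -/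
theorem measurePreserving_seedRot (hV : InClass V) (y : Space d) (hq : q ^ 2 ≤ t) {r : ℝ}
    (hr : 0 < r) (c : ℝ) :
    MeasurePreserving
      (fun x : Space d × (Space d × Space d) =>
        (x.1, seedRot V r c (y + q • x.1) x.2.1 x.2.2))
      ((flowLaw V y t q).prod ((stdGaussian (Space d)).prod (stdGaussian (Space d))))
      ((flowLaw V y t q).prod ((stdGaussian (Space d)).prod (stdGaussian (Space d)))) := by
  have := isProbability_flowLaw hV y hq
  set g : Space d → Space d × Space d → Space d × Space d :=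
    fun a p => seedRot V r c (y + q • a) p.1 p.2
  have hg : Measurable (Function.uncurry g) :=
    ((continuous_seedRot hV hr c).comp (f := fun x : Space d × (Space d × Space d) =>
      (y + q • x.1, x.2)) (by fun_prop)).measurable
  exact (MeasurePreserving.id _).skew_product hg
    (Filter.Eventually.of_forall fun a => map_seedRot hV hr c _)

/-- Either component of a rotated seed is again a seed of the pair law. -/
theorem measurePreserving_seedRot_comp (hV : InClass V) (y : Space d) (hq : q ^ 2 ≤ t) {r : ℝ}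
    (hr : 0 < r) (c : ℝ) :
    MeasurePreserving
        (fun x : (Space d × Space d) × Space d =>
          (x.1.1, (seedRot V r c (y + q • x.1.1) x.1.2 x.2).1))
        ((pairLaw V y t q).prod (stdGaussian (Space d))) (pairLaw V y t q) ∧
      MeasurePreserving
        (fun x : (Space d × Space d) × Space d =>
          (x.1.1, (seedRot V r c (y + q • x.1.1) x.1.2 x.2).2))
        ((pairLaw V y t q).prod (stdGaussian (Space d))) (pairLaw V y t q) := by
  have := isProbability_flowLaw hV y hq
  simp only [pairLaw_eq]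
  have hA : MeasurePreserving (fun x : (Space d × Space d) × Space d => (x.1.1, (x.1.2, x.2)))
      (((flowLaw V y t q).prod (stdGaussian (Space d))).prod (stdGaussian (Space d)))
      ((flowLaw V y t q).prod ((stdGaussian (Space d)).prod (stdGaussian (Space d)))) :=
    measurePreserving_prodAssoc _ _ _
  have hR := (measurePreserving_seedRot hV y hq hr c).comp hA
  exact ⟨((MeasurePreserving.id _).prod measurePreserving_fst).comp hR,
    ((MeasurePreserving.id _).prod measurePreserving_snd).comp hR⟩

end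

end P347.Zero
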