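import Vale.Agent.P347.Zero.PassDefs
import Vale.Agent.P347.Zero.Truth

/-!
# P347: the exact trajectory of a pass as truths of forms

Measurability, laws and sizes of the point, the noise and the node functions of `Paths`.
-/

namespace P347.Zero

open MeasureTheory ProbabilityTheory Set
open scoped ENNReal

noncomputable section

variable {d : ℕ}

attribute [local irreducible] score smooth scoreD

/-- The functions of the point and the noise that a node evaluates. -/
def nodeVal (V : Space d → ℝ) (y : Space d) (t q : ℝ) (j : Fin 3) (a : Space d × Space d) :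
    Space d :=
  match j with
  | 0 => score V (t - q ^ 2) (y + q • a.1)
  | 1 => scoreD V (t - q ^ 2) (y + q • a.1) a.2
  | 2 => scoreD V (t - q ^ 2) (y + q • a.1) (scoreD V (t - q ^ 2) (y + q • a.1) a.2)

theorem nodeFn_eq_nodeVal (V : Space d → ℝ) (y : Space d) (t q : ℝ)
    (w U : ℝ → Space d × Space d → Space d) (z : Space d × Space d) (j : Fin 3) :
    nodeFn V y t w U z j q = nodeVal V y t q j (w q z, U q z) := by
  fin_cases j <;> rfl

theorem continuous_nodeVal {V : Space d → ℝ} (hV : Quarter.InClass V) (y : Space d) {t q : ℝ}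
    (hq : q ^ 2 < t) (j : Fin 3) : Continuous (nodeVal V y t q j) := by
  have hr : 0 < t - q ^ 2 := sub_pos.2 hq
  have hz : Continuous fun a : Space d × Space d => y + q • a.1 := by fun_prop
  have hD : Continuous fun a : Space d × Space d => scoreD V (t - q ^ 2) (y + q • a.1) :=
    (continuous_scoreD hV hr).comp hz
  match j with
  | 0 => exact ((regular score_spec hV).lip _ hr.le).continuous.comp hz
  | 1 => exact hD.clm_apply continuous_snd
  | 2 => exact hD.clm_apply (hD.clm_apply continuous_snd)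

/-- A node time is before the fine end. -/
theorem sq_lt_of_mem_pair {t s q : ℝ} (hs : 0 < s) (hst : s ≤ t) (hq : q ∈ Icc 0 √(t - s)) :
    q ^ 2 < t := by
  have := pow_le_pow_left₀ hq.1 hq.2 2
  rw [Real.sq_sqrt (sub_nonneg.2 hst)] at this
  linarith

namespace Paths

variable {En : Env d} {T : ℕ} {P : Par} (π : Paths En T P) {q : ℝ}

/-- The trajectory at a time has the pair law. -/
theorem mp_pair {V : Space d → ℝ} (hV : Quarter.InClass V) (c : Space d)
    (hs : 0 < P.s) (hst : P.s ≤ P.t) (hq : q ∈ Icc 0 √(P.t - P.s)) :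
    MeasurePreserving (fun p : En.X × (Fin T → Space d) =>
        ((π.w V c q (π.start V c p.1 (extFun p.2)), π.U V c q (π.start V c p.1 (extFun p.2))),
          π.aux V c p.1 (extFun p.2)))
      (En.law.prod (famLaw d (Fin T)))
      ((pairLaw V c P.t q).prod (stdGaussian (Space d))) := by
  have hq₁ : √(P.t - P.s) ^ 2 ≤ P.t := by
    rw [Real.sq_sqrt (sub_nonneg.2 hst)]; linarith
  have := isProbability_pairLaw hV c hq₁
  have := isProbability_pairLaw hV c (sq_lt_of_mem_pair hs hst hq).le
  exact ((π.law V hV c q hq).prod (MeasurePreserving.id _)).comp (π.start_law V hV c)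

/-- The point and the noise have the pair law. -/
theorem mp_node {V : Space d → ℝ} (hV : Quarter.InClass V) (c : Space d)
    (hs : 0 < P.s) (hst : P.s ≤ P.t) (hq : q ∈ Icc 0 √(P.t - P.s)) :
    MeasurePreserving (fun p : En.X × (Fin T → Space d) =>
        (π.w V c q (π.start V c p.1 (extFun p.2)), π.U V c q (π.start V c p.1 (extFun p.2))))
      (En.law.prod (famLaw d (Fin T))) (pairLaw V c P.t q) :=
  (measurePreserving_fst (μ := pairLaw V c P.t q) (ν := stdGaussian (Space d))).comp
    (π.mp_pair hV c hs hst hq)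

variable (hs : 0 < P.s) (hst : P.s ≤ P.t) (hq : q ∈ Icc 0 √(P.t - P.s))
include hs hst hq

omit hs hst in
theorem tmeas_node {G : (Space d → ℝ) → Space d → Space d × Space d → Space d}
    (hG : ∀ V, Quarter.InClass V → ∀ c, Continuous (G V c)) :
    Bld.TMeas (fun V c x ξ =>
      G V c (π.w V c q (π.start V c x ξ), π.U V c q (π.start V c x ξ)) : Bld.Truth En) :=
  fun V hV c => ((hG V hV c).measurable.comp (π.law V hV c q hq).measurable).comp
    (π.start_meas V hV c)

theorem tmeas_zT : Bld.TMeas (π.zT q) :=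
  π.tmeas_node hq (G := fun _ c a => c + q • a.1) fun _ _ _ => by fun_prop

theorem tmeas_uT : Bld.TMeas (π.uT q) :=
  π.tmeas_node hq (G := fun _ _ a => a.2) fun _ _ _ => by fun_prop

theorem tmeas_fT (j : Fin 3) : Bld.TMeas (π.fT q j) := fun V hV c => by
  have h := π.tmeas_node hq (G := fun V c a => nodeVal V c P.t q j a)
    (fun V hV c => continuous_nodeVal hV c (sq_lt_of_mem_pair hs hst hq) j) V hV c
  simpa only [fT, nodeFn_eq_nodeVal] using h

theorem tmeas_xT : Bld.TMeas (π.xT q) :=
  Bld.TMeas.add ((π.tmeas_zT hs hst hq).score _) ((π.tmeas_uT hs hst hq).smul P.ρ)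

/-- Bounds under the pair law are bounds for the trajectory. -/
theorem eLpNorm_node_le {V : Space d → ℝ} (hV : Quarter.InClass V) (c : Space d)
    {G : Space d × Space d → Space d} (hG : Continuous G) {B : ℝ}
    (h : eLpNorm G 2 (pairLaw V c P.t q) ≤ ENNReal.ofReal B) :
    eLpNorm (fun p : En.X × (Fin T → Space d) => G (π.w V c q (π.start V c p.1 (extFun p.2)),
      π.U V c q (π.start V c p.1 (extFun p.2)))) 2 (En.law.prod (famLaw d (Fin T)))
      ≤ ENNReal.ofReal B :=
  (eLpNorm_comp_measurePreserving hG.aestronglyMeasurable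
    (π.mp_node hV c hs hst hq)).trans_le h

theorem size_zT (ht1 : P.t ≤ 1) {V : Space d → ℝ} (hV : Quarter.InClass V) (c : Space d) :
    eLpNorm (fun p : En.X × (Fin T → Space d) => π.zT q V c p.1 (extFun p.2)) 2
        (En.law.prod (famLaw d (Fin T))) ≤ ENNReal.ofReal (25 * (√d + ‖c‖)) :=
  π.eLpNorm_node_le hs hst hq hV c (G := fun a => c + q • a.1) (by fun_prop)
    (eLpNorm_point_le hV c ht1 (sq_lt_of_mem_pair hs hst hq))

theorem size_uT {V : Space d → ℝ} (hV : Quarter.InClass V) (c : Space d) :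
    eLpNorm (fun p : En.X × (Fin T → Space d) => π.uT q V c p.1 (extFun p.2)) 2
        (En.law.prod (famLaw d (Fin T))) ≤ ENNReal.ofReal √(d : ℝ) :=
  π.eLpNorm_node_le hs hst hq hV c (G := fun a => a.2) continuous_snd
    (eLpNorm_snd_le hV c (sq_lt_of_mem_pair hs hst hq).le)

/-- The sizes of the three node functions. -/
theorem size_fT (ht1 : P.t ≤ 1) {V : Space d → ℝ} (hV : Quarter.InClass V) (c : Space d)
    (j : Fin 3) :
    eLpNorm (fun p : En.X × (Fin T → Space d) => π.fT q j V c p.1 (extFun p.2)) 2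
        (En.law.prod (famLaw d (Fin T))) ≤ ENNReal.ofReal (54 * (√d + ‖c‖)) := by
  have hq2 := sq_lt_of_mem_pair hs hst hq
  have hr : 0 < P.t - q ^ 2 := sub_pos.2 hq2
  have hle : ∀ a : ℝ, a ≤ 4 → a * √(d : ℝ) ≤ 54 * (√d + ‖c‖) := fun a ha => by
    nlinarith [Real.sqrt_nonneg (d : ℝ), norm_nonneg c]
  simp only [fT, nodeFn_eq_nodeVal]
  refine π.eLpNorm_node_le hs hst hq hV c (continuous_nodeVal hV c hq2 j) ?_
  match j with
  | 0 => exact eLpNorm_score_node_le hV c ht1 hq2
  | 1 =>
    exact (eLpNorm_scoreD_node_le hV c hr hq2.le).trans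
      (ENNReal.ofReal_le_ofReal (hle 2 (by norm_num)))
  | 2 =>
    exact (eLpNorm_scoreD_sq_node_le hV c hr hq2.le).trans
      (ENNReal.ofReal_le_ofReal (hle 4 le_rfl))

omit hs hst hq in
/-- At time `0`: the score at the centre plus `ρ` times the noise. -/
theorem xT_zero (V : Space d → ℝ) (c : Space d) (x : En.X) (ξ : ℕ → Space d) :
    π.xT 0 V c x ξ = score V P.t c + P.ρ • π.uT 0 V c x ξ := by
  simp [xT, zT]

end Paths

end

end P347.Zero
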