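import Vale.Agent.P347.Zero.Defect
import Vale.Agent.P347.Zero.Rec
import Vale.Agent.P347.Zero.Truth

/-!
# P347: one sweep of the upward pass on the geometric grid

First the real sums over the nodes above a node: they serve the error, the Lipschitz constant and
the blur. Then the same in mean square: values of the node functions close to those on the exact
path give a point and a value `X` close to the exact ones, up to the quadrature defect.
-/

namespace P347.Zero

open MeasureTheory ProbabilityTheory Set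
open scoped ENNReal

noncomputable section

variable {t s h ρ : ℝ} {J M : ℕ}

/-! ## The grid -/

theorem pairGrid_le (t s h : ℝ) (j : ℕ) : pairGrid t s h j ≤ √(t - s) :=
  Real.sqrt_le_sqrt (sub_le_sub_left (le_geomR j) t)

theorem gridNode_pair_mem (ht : 0 < t) (h0 : 0 ≤ h) (h1 : h ≤ 1) (i : Fin J × Fin M) :
    gridNode (pairGrid t s h) i ∈ Icc 0 √(t - s) := by
  have hm := gridNode_mem_cell (pairGrid_monotone (s := s) ht.le h0 h1) i
  exact ⟨(Real.sqrt_nonneg _).trans hm.1, hm.2.trans (pairGrid_le t s h _)⟩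

/-- The variance of a node is at least half of that at the coarse end of its cell. -/
theorem geomR_le_two_node (ht : 0 < t) (hs : 0 < s) (hst : s ≤ t) (h0 : 0 ≤ h) (h1 : h ≤ 1 / 2)
    (i : Fin J × Fin M) :
    geomR t s h i.1 ≤ 2 * (t - gridNode (pairGrid t s h) i ^ 2) := by
  have h2 := (gridNode_variance ht hs hst h0 (by linarith) i).1
  have h3 := geomR_succ (t := t) hs.le h0 (by linarith) (i.1 : ℕ)
  nlinarith [le_geomR (t := t) (s := s) (h := h) (i.1 : ℕ)]

/-- The coefficient of the centre in the point of a node is at most its variance over `t`. -/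
theorem one_sub_node_div_le (ht : 0 < t) (hs : 0 < s) (hst : 2 * s ≤ t) (h0 : 0 ≤ h)
    (h1 : h ≤ 1 / 2) (p : Fin J × Fin M) :
    gridNode (pairGrid t s h) p / √(t - s) ∈ Icc (0 : ℝ) 1 ∧
      1 - gridNode (pairGrid t s h) p / √(t - s) ≤
        6 * ((t - gridNode (pairGrid t s h) p ^ 2) / t) := by
  obtain ⟨hm0, hm1⟩ := gridNode_pair_mem (s := s) ht h0 (by linarith) p
  have hq : 0 < √(t - s) := Real.sqrt_pos.2 (by linarith)
  refine ⟨⟨div_nonneg hm0 hq.le, (div_le_one hq).2 hm1⟩, ?_⟩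
  have h2 := geomR_le_two_node ht hs (by linarith) h0 h1 p
  set q := gridNode (pairGrid t s h) p
  set r := t - q ^ 2
  have ht' := Real.sqrt_pos.2 ht
  have htail := pairGrid_tail (h := h) ht hs.le (p.1 : ℕ)
  have hm := (gridNode_mem_cell (pairGrid_monotone (s := s) ht.le h0 (by linarith)) p).1
  have hd : √(t - s) - q ≤ 4 * r / √t := by
    refine le_trans (by linarith) (htail.trans (div_le_div_of_nonneg_right ?_ ht'.le))
    linarith
  have hq2 : √t ≤ 3 / 2 * √(t - s) := by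
    refine (Real.sqrt_le_left (by positivity)).2 ?_
    rw [mul_pow, Real.sq_sqrt (by linarith)]
    linarith
  have hr0 : 0 ≤ r := by linarith [le_geomR (t := t) (s := s) (h := h) (p.1 : ℕ)]
  rw [show 1 - q / √(t - s) = (√(t - s) - q) / √(t - s) by field_simp, div_le_iff₀ hq]
  refine hd.trans ?_
  rw [div_le_iff₀ ht']
  have e : 6 * (r / t) * √(t - s) * √t = 6 * (r / t) * (√(t - s) * √t) := by ring
  rw [e]
  have h4 : t ≤ 3 / 2 * (√(t - s) * √t) := by
    nlinarith [Real.sq_sqrt ht.le, mul_le_mul_of_nonneg_right hq2 ht'.le]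
  calc 4 * r = r / t * (4 * t) := by field_simp
    _ ≤ r / t * (4 * (3 / 2 * (√(t - s) * √t))) :=
        mul_le_mul_of_nonneg_left (by linarith) (by positivity)
    _ = 6 * (r / t) * (√(t - s) * √t) := by ring

/-- The cells from `j₀` on. -/
theorem sum_cells_from (g : ℕ → ℝ) {j₀ : ℕ} (hj : j₀ ≤ J) :
    ∑ j : Fin J, (if j₀ ≤ (j : ℕ) then g ((j : ℕ) + 1) - g j else 0) = g J - g j₀ := by
  set G : ℕ → ℝ := fun j => g (max j j₀)
  have e : ∀ j : ℕ, (if j₀ ≤ j then g (j + 1) - g j else 0) = G (j + 1) - G j := fun j => by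
    simp only [G]
    split_ifs with hle
    · rw [max_eq_left (Nat.le_succ_of_le hle), max_eq_left hle]
    · rw [max_eq_right (by omega), max_eq_right (by omega), sub_self]
  rw [Fin.sum_univ_eq_sum_range (fun j => if j₀ ≤ j then g (j + 1) - g j else 0) J,
    Finset.sum_congr rfl fun j _ => e j, Finset.sum_range_sub]
  simp only [G, max_eq_left hj, Nat.zero_max]

/-- Weights which see only the cells from `j₀` on. -/
def UpW (g : ℕ → ℝ) (j₀ : ℕ) (W : Fin J × Fin M → ℝ) : Prop :=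
  ∀ F : Fin J → ℝ, (∀ j, 0 ≤ F j) → ∑ q, |W q| * F q.1 ≤
    2 * toSize M * ∑ j : Fin J, if j₀ ≤ (j : ℕ) then (g ((j : ℕ) + 1) - g j) * F j else 0

theorem upW_upWeight {g : ℕ → ℝ} (hg : Monotone g) (p : Fin J × Fin M) :
    UpW g p.1 (upWeight g p) := fun F hF => by
  simpa only [Fin.val_fin_le] using sum_abs_upWeight_le hg p hF

theorem upW_gridFull {g : ℕ → ℝ} (hg : Monotone g) : UpW (J := J) (M := M) g 0 (gridFull g) := by
  intro F hF
  simp only [Nat.zero_le, if_true]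
  rw [Fintype.sum_prod_type, Finset.mul_sum]
  refine Finset.sum_le_sum fun j _ => ?_
  have hh : 0 ≤ g ((j : ℕ) + 1) - g j := sub_nonneg.2 (hg (Nat.le_succ _))
  simp only [gridFull, abs_mul, abs_of_nonneg hh, mul_assoc, ← Finset.mul_sum, ← Finset.sum_mul]
  have hI : ∑ i, |ruleWeight M intFun i| ≤ 2 * toSize M := by
    have h := ruleSize_le_toSize M
    unfold ruleSize at h
    linarith [one_le_toSize M]
  calc (g ((j : ℕ) + 1) - g j) * ((∑ i, |ruleWeight M intFun i|) * F j)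
      ≤ (g ((j : ℕ) + 1) - g j) * (2 * toSize M * F j) :=
        mul_le_mul_of_nonneg_left (mul_le_mul_of_nonneg_right hI (hF j)) hh
    _ = _ := by ring

variable {j₀ : ℕ} {W : Fin J × Fin M → ℝ}

/-- A weighted sum of `P / √r + Q`. -/
theorem UpW.sum_inv_le (hW : UpW (pairGrid t s h) j₀ W) (ht : 0 < t) (hs : 0 < s) (hst : s ≤ t)
    (h0 : 0 ≤ h) (h1 : h ≤ 1 / 2) {P Q : ℝ} (hP : 0 ≤ P) (hQ : 0 ≤ Q)
    {B : Fin J × Fin M → ℝ}
    (hB : ∀ i, B i ≤ P / √(t - gridNode (pairGrid t s h) i ^ 2) + Q) :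
    ∑ i, |W i| * B i ≤ toSize M * (16 * P + 2 * √t * Q) := by
  set g := pairGrid t s h
  have hg : Monotone g := pairGrid_monotone ht.le h0 (by linarith)
  have hT : (0 : ℝ) ≤ toSize M := le_trans zero_le_one (one_le_toSize M)
  have hh : ∀ j : Fin J, 0 ≤ g ((j : ℕ) + 1) - g j := fun j => sub_nonneg.2 (hg (Nat.le_succ _))
  have hr : ∀ j : ℕ, 0 < geomR t s h j := fun j => hs.trans_le (le_geomR j)
  set F : Fin J → ℝ := fun j => 3 / 2 * P / √(geomR t s h j) + Q
  have hF : ∀ j, 0 ≤ F j := fun j => by positivity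
  have hBF : ∀ i, B i ≤ F i.1 := fun i => by
    refine (hB i).trans (add_le_add ?_ le_rfl)
    have h2 := geomR_le_two_node ht hs hst h0 h1 i
    have hpos : 0 < t - gridNode g i ^ 2 := by linarith [hr i.1]
    have h3 : √(geomR t s h i.1) ≤ 3 / 2 * √(t - gridNode g i ^ 2) := by
      refine (Real.sqrt_le_left (by positivity)).2 ?_
      rw [mul_pow, Real.sq_sqrt hpos.le]
      linarith
    rw [div_le_div_iff₀ (Real.sqrt_pos.2 hpos) (Real.sqrt_pos.2 (hr _))]
    nlinarith [mul_le_mul_of_nonneg_left h3 hP]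
  refine ((Finset.sum_le_sum fun i _ => mul_le_mul_of_nonneg_left (hBF i) (abs_nonneg _)).trans
    (hW F hF)).trans ?_
  have h5 : ∑ j : Fin J, (g ((j : ℕ) + 1) - g j) / √(geomR t s h j) ≤ 5 := by
    rw [Fin.sum_univ_eq_sum_range (fun j => (g (j + 1) - g j) / √(geomR t s h j)) J]
    exact pairGrid_sum_inv ht hs hst h0 (by linarith) J
  have h6 : ∑ j : Fin J, (g ((j : ℕ) + 1) - g j) ≤ √t := by
    rw [sum_cells]
    have : g J ≤ √t := (pairGrid_le t s h J).trans (Real.sqrt_le_sqrt (by linarith))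
    have h00 : 0 ≤ g 0 := Real.sqrt_nonneg _
    linarith
  have h7 : ∑ j : Fin J, (if j₀ ≤ (j : ℕ) then (g ((j : ℕ) + 1) - g j) * F j else 0)
      ≤ 3 / 2 * P * 5 + √t * Q := by
    calc ∑ j : Fin J, (if j₀ ≤ (j : ℕ) then (g ((j : ℕ) + 1) - g j) * F j else 0)
        ≤ ∑ j : Fin J, (g ((j : ℕ) + 1) - g j) * F j := Finset.sum_le_sum fun j _ => by
          split_ifs
          · exact le_rfl
          · exact mul_nonneg (hh j) (hF j)
      _ = 3 / 2 * P * (∑ j : Fin J, (g ((j : ℕ) + 1) - g j) / √(geomR t s h j))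
          + (∑ j : Fin J, (g ((j : ℕ) + 1) - g j)) * Q := by
          rw [Finset.mul_sum, Finset.sum_mul, ← Finset.sum_add_distrib]
          exact Finset.sum_congr rfl fun j _ => by simp only [F]; ring
      _ ≤ _ := add_le_add (mul_le_mul_of_nonneg_left h5 (by positivity))
          (mul_le_mul_of_nonneg_right h6 hQ)
  refine (mul_le_mul_of_nonneg_left h7 (by positivity)).trans ?_
  nlinarith [mul_nonneg hT hP, mul_nonneg hT (mul_nonneg (Real.sqrt_nonneg t) hQ)]

/-- A weighted sum of a function of at most `c + √r * a`. -/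
theorem UpW.sum_tail_le (hW : UpW (pairGrid t s h) j₀ W) (hj : j₀ ≤ J) (ht : 0 < t) (hs : 0 < s)
    (hst : s ≤ t) (h0 : 0 ≤ h) (h1 : h ≤ 1) {a c : ℝ} (ha : 0 ≤ a) (hc : 0 ≤ c)
    {B : Fin J × Fin M → ℝ}
    (hB : ∀ i, B i ≤ √(t - gridNode (pairGrid t s h) i ^ 2) * a + c) :
    ∑ i, |W i| * B i
      ≤ 4 * toSize M * (geomR t s h j₀ / √t * (√(geomR t s h j₀) * a + c)) := by
  set g := pairGrid t s h
  have hg : Monotone g := pairGrid_monotone ht.le h0 h1
  have hT : (0 : ℝ) ≤ toSize M := le_trans zero_le_one (one_le_toSize M)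
  set F : Fin J → ℝ := fun j => √(geomR t s h j) * a + c
  have hF : ∀ j, 0 ≤ F j := fun j => by positivity
  have hBF : ∀ i, B i ≤ F i.1 := fun i => (hB i).trans
    (add_le_add (mul_le_mul_of_nonneg_right
      (Real.sqrt_le_sqrt (gridNode_variance ht hs hst h0 h1 i).2) ha) le_rfl)
  refine ((Finset.sum_le_sum fun i _ => mul_le_mul_of_nonneg_left (hBF i) (abs_nonneg _)).trans
    (hW F hF)).trans ?_
  set K := √(geomR t s h j₀) * a + c
  have hK : 0 ≤ K := by positivity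
  have h7 : ∑ j : Fin J, (if j₀ ≤ (j : ℕ) then (g ((j : ℕ) + 1) - g j) * F j else 0)
      ≤ 2 * geomR t s h j₀ / √t * K := by
    calc ∑ j : Fin J, (if j₀ ≤ (j : ℕ) then (g ((j : ℕ) + 1) - g j) * F j else 0)
        ≤ ∑ j : Fin J, (if j₀ ≤ (j : ℕ) then g ((j : ℕ) + 1) - g j else 0) * K :=
          Finset.sum_le_sum fun j _ => by
            split_ifs with hle
            · refine mul_le_mul_of_nonneg_left ?_ (sub_nonneg.2 (hg (Nat.le_succ _)))
              exact add_le_add (mul_le_mul_of_nonneg_right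
                (Real.sqrt_le_sqrt (geomR_antitone ht.le h0 h1 hle)) ha) le_rfl
            · rw [zero_mul]
      _ ≤ _ := by
          rw [← Finset.sum_mul, sum_cells_from g hj]
          refine mul_le_mul_of_nonneg_right ?_ hK
          exact le_trans (sub_le_sub_right (pairGrid_le t s h J) _)
            (pairGrid_tail ht hs.le j₀)
  refine (mul_le_mul_of_nonneg_left h7 (by positivity)).trans (le_of_eq ?_)
  ring

/-! ## One sweep: error and Lipschitz constant -/

/-- What enters the point of a node. -/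
theorem sweep_sum_z (ht : 0 < t) (hs : 0 < s) (hst : s ≤ t) (h0 : 0 ≤ h) (h1 : h ≤ 1 / 2)
    (hρ : 0 < ρ) (p : Fin J × Fin M) {b0 P Q : ℝ} (hb0 : 0 ≤ b0) (hP : 0 ≤ P) (hQ : 0 ≤ Q)
    {b B : Fin J × Fin M → ℝ} (hb : ∀ i, b i ≤ b0)
    (hB : ∀ i, B i ≤ P / √(t - gridNode (pairGrid t s h) i ^ 2) + Q) :
    gridNode (pairGrid t s h) p * ∑ i, |upWeight (pairGrid t s h) p i| * (b i + B i / ρ)
      ≤ 16 * toSize M * (t * b0 + √t / ρ * P + t / ρ * Q) := by
  have hg : Monotone (pairGrid t s h) := pairGrid_monotone ht.le h0 (by linarith)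
  have hT : (0 : ℝ) ≤ toSize M := le_trans zero_le_one (one_le_toSize M)
  obtain ⟨hm0, hm1⟩ := gridNode_pair_mem (s := s) ht h0 (by linarith) p
  have hm2 : gridNode (pairGrid t s h) p ≤ √t :=
    hm1.trans (Real.sqrt_le_sqrt (by linarith))
  have hs1 := (upW_upWeight hg p).sum_inv_le ht hs hst h0 h1 (P := P / ρ) (Q := b0 + Q / ρ)
    (by positivity) (by positivity) (B := fun i => b i + B i / ρ) fun i => by
      have := div_le_div_of_nonneg_right (hB i) hρ.le
      rw [add_div, div_right_comm] at this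
      linarith [hb i]
  refine (mul_le_mul_of_nonneg_left hs1 hm0).trans ?_
  refine (mul_le_mul_of_nonneg_right hm2 (by positivity)).trans ?_
  have e : √t * (toSize M * (16 * (P / ρ) + 2 * √t * (b0 + Q / ρ)))
      = toSize M * (16 * (√t / ρ * P) + 2 * (√t * √t) * b0 + 2 * (√t * √t / ρ * Q)) := by ring
  rw [e, Real.mul_self_sqrt ht.le]
  have : 0 ≤ t * b0 + t / ρ * Q := by positivity
  nlinarith

/-- What enters the value `X` of a node, or of the coarse end with the full weights. -/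
theorem sweep_sum_x (ht : 0 < t) (hs : 0 < s) (hst : s ≤ t) (h0 : 0 ≤ h) (h1 : h ≤ 1 / 2)
    (hρ : 0 < ρ) {j₀ : ℕ} {W : Fin J × Fin M → ℝ} (hW : UpW (pairGrid t s h) j₀ W) {P Q : ℝ}
    (hP : 0 ≤ P) (hQ : 0 ≤ Q) {B : Fin J × Fin M → ℝ} (hB0 : ∀ i, 0 ≤ B i)
    (hB : ∀ i, B i ≤ P / √(t - gridNode (pairGrid t s h) i ^ 2) + Q) :
    ∑ i, |W i| * (gridNode (pairGrid t s h) i / ρ * B i)
      ≤ 16 * toSize M * (√t / ρ * P + t / ρ * Q) := by
  have hT : (0 : ℝ) ≤ toSize M := le_trans zero_le_one (one_le_toSize M)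
  have hs1 := hW.sum_inv_le ht hs hst h0 h1 (P := √t / ρ * P) (Q := √t / ρ * Q)
    (by positivity) (by positivity) (B := fun i => gridNode (pairGrid t s h) i / ρ * B i)
    fun i => by
      obtain ⟨hm0, hm1⟩ := gridNode_pair_mem (s := s) ht h0 (by linarith) i
      refine (mul_le_mul (div_le_div_of_nonneg_right
        (show _ ≤ √t from hm1.trans (Real.sqrt_le_sqrt (by linarith))) hρ.le) (hB i) (hB0 i)
        (by positivity)).trans_eq ?_
      ring
  refine hs1.trans ?_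
  have e : toSize M * (16 * (√t / ρ * P) + 2 * √t * (√t / ρ * Q))
      = toSize M * (16 * (√t / ρ * P) + 2 * (√t * √t / ρ * Q)) := by ring
  rw [e, Real.mul_self_sqrt ht.le]
  have : 0 ≤ t / ρ * Q := by positivity
  nlinarith

/-- A whole sweep, in the notation of the recursion. -/
theorem sweep_sums_le_out {G θ sx sy Lx Ly a u : ℝ} (ht : 0 < t) (hs : 0 < s) (hst : s ≤ t)
    (h0 : 0 ≤ h) (h1 : h ≤ 1 / 2) (hρ : 0 < ρ) (hG : 0 ≤ G) (hθ : 0 ≤ θ) (hsx : 0 ≤ sx)
    (hsy : 0 ≤ sy) (hLx : 0 ≤ Lx) (hLy : 0 ≤ Ly) (ha : 0 ≤ a) (hu : 0 ≤ u)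
    {b B B' : Fin J × Fin M → ℝ} (hB'0 : ∀ i, 0 ≤ B' i) (hb : ∀ i, b i ≤ sx + Lx * a)
    (hB : ∀ i, B i ≤ tanP G sx Lx a / √(t - gridNode (pairGrid t s h) i ^ 2)
      + tanQ G ρ sx Lx a u)
    (hB' : ∀ i, B' i ≤ sqP G θ sx sy Lx Ly a / √(t - gridNode (pairGrid t s h) i ^ 2)
      + sqQ G θ ρ sx Lx Ly a u)
    (p : Fin J × Fin M) {j₀ : ℕ} {W : Fin J × Fin M → ℝ} (hW : UpW (pairGrid t s h) j₀ W) :
    gridNode (pairGrid t s h) p * ∑ i, |upWeight (pairGrid t s h) p i| * (b i + B i / ρ)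
        + ∑ i, |W i| * (gridNode (pairGrid t s h) i / ρ * B' i)
      ≤ 16 * toSize M * sweepOut t ρ G θ sx sy Lx Ly a u := by
  have hU : 0 ≤ uPart ρ sx Lx a u := by unfold uPart; positivity
  have h2 := sweep_sum_z ht hs hst h0 h1 hρ p (by positivity)
    (by unfold tanP; positivity) (by unfold tanQ; positivity) hb hB
  have h3 := sweep_sum_x ht hs hst h0 h1 hρ hW
    (by unfold sqP; positivity) (by unfold sqQ; positivity) hB'0 hB'
  refine (add_le_add h2 h3).trans_eq ?_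
  unfold sweepOut
  ring

/-! ## One sweep: blur -/

/-- The blur which the nodes above bring to the point of a node. -/
theorem sweep_blur_z (ht : 0 < t) (hs : 0 < s) (hst : s ≤ t) (h0 : 0 ≤ h) (h1 : h ≤ 1 / 2)
    (hρ : 0 < ρ) (p : Fin J × Fin M) {a c : ℝ} (ha : 0 ≤ a) (hc : 0 ≤ c)
    {b B : Fin J × Fin M → ℝ} (hb : ∀ i, b i ≤ √(t - gridNode (pairGrid t s h) i ^ 2) * a)
    (hB : ∀ i, B i ≤ c) :
    gridNode (pairGrid t s h) p * ∑ i, |upWeight (pairGrid t s h) p i| * (b i + B i / ρ)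
      ≤ 16 * toSize M * ((t - gridNode (pairGrid t s h) p ^ 2)
          * √(t - gridNode (pairGrid t s h) p ^ 2) * a
        + (t - gridNode (pairGrid t s h) p ^ 2) * (c / ρ)) := by
  have hg : Monotone (pairGrid t s h) := pairGrid_monotone ht.le h0 (by linarith)
  have hT : (0 : ℝ) ≤ toSize M := le_trans zero_le_one (one_le_toSize M)
  obtain ⟨hm0, hm1⟩ := gridNode_pair_mem (s := s) ht h0 (by linarith) p
  have hm2 : gridNode (pairGrid t s h) p ≤ √t := hm1.trans (Real.sqrt_le_sqrt (by linarith))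
  have h2 := geomR_le_two_node ht hs hst h0 h1 p
  set q := gridNode (pairGrid t s h) p
  set r := t - q ^ 2
  set R := geomR t s h p.1
  have hR : 0 < R := hs.trans_le (le_geomR _)
  have hr : 0 ≤ r := by linarith
  have hs1 := (upW_upWeight hg p).sum_tail_le p.1.isLt.le ht hs hst h0 (by linarith) ha
    (c := c / ρ) (by positivity) (B := fun i => b i + B i / ρ)
    fun i => add_le_add (hb i) (div_le_div_of_nonneg_right (hB i) hρ.le)
  refine (mul_le_mul_of_nonneg_left hs1 hm0).trans ?_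
  refine (mul_le_mul_of_nonneg_right hm2 (by positivity)).trans ?_
  have ht' := Real.sqrt_pos.2 ht
  have e : √t * (4 * toSize M * (R / √t * (√R * a + c / ρ)))
      = 4 * toSize M * (R * √R * a + R * (c / ρ)) := by field_simp
  rw [e]
  have h3 : √R ≤ 2 * √r := by
    refine (Real.sqrt_le_left (by positivity)).2 ?_
    rw [mul_pow, Real.sq_sqrt hr]; linarith
  have h4 : R * √R * a ≤ 2 * r * (2 * √r) * a :=
    mul_le_mul_of_nonneg_right (mul_le_mul h2 h3 (Real.sqrt_nonneg _) (by linarith)) ha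
  have h5 : R * (c / ρ) ≤ 2 * r * (c / ρ) := mul_le_mul_of_nonneg_right h2 (by positivity)
  have : 0 ≤ r * (c / ρ) := by positivity
  nlinarith

/-- The blur which the cells from `j₀` on bring to `X`. -/
theorem sweep_blur_x (ht : 0 < t) (hs : 0 < s) (hst : s ≤ t) (h0 : 0 ≤ h) (h1 : h ≤ 1)
    (hρ : 0 < ρ) {j₀ : ℕ} (hj : j₀ ≤ J) {W : Fin J × Fin M → ℝ}
    (hW : UpW (pairGrid t s h) j₀ W) {c : ℝ} (hc : 0 ≤ c)
    {B : Fin J × Fin M → ℝ} (hB0 : ∀ i, 0 ≤ B i) (hB : ∀ i, B i ≤ c) :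
    ∑ i, |W i| * (gridNode (pairGrid t s h) i / ρ * B i)
      ≤ 4 * toSize M * (geomR t s h j₀ * (c / ρ)) := by
  have hs1 := hW.sum_tail_le hj ht hs hst h0 h1 (a := 0) le_rfl (c := √t * (c / ρ))
    (by positivity) (B := fun i => gridNode (pairGrid t s h) i / ρ * B i) fun i => by
      obtain ⟨hm0, hm1⟩ := gridNode_pair_mem (s := s) ht h0 h1 i
      rw [mul_zero, zero_add]
      refine (mul_le_mul (div_le_div_of_nonneg_right
        (show _ ≤ √t from hm1.trans (Real.sqrt_le_sqrt (by linarith))) hρ.le) (hB i) (hB0 i)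
        (by positivity)).trans_eq ?_
      ring
  refine hs1.trans_eq ?_
  have := (Real.sqrt_pos.2 ht).ne'
  field_simp
  ring

/-- The blur which the nodes above bring to `X` at a node. -/
theorem sweep_blur_x_node (ht : 0 < t) (hs : 0 < s) (hst : s ≤ t) (h0 : 0 ≤ h) (h1 : h ≤ 1 / 2)
    (hρ : 0 < ρ) (p : Fin J × Fin M) {c : ℝ} (hc : 0 ≤ c)
    {B : Fin J × Fin M → ℝ} (hB0 : ∀ i, 0 ≤ B i) (hB : ∀ i, B i ≤ c) :
    ∑ i, |upWeight (pairGrid t s h) p i| * (gridNode (pairGrid t s h) i / ρ * B i)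
      ≤ 16 * toSize M * ((t - gridNode (pairGrid t s h) p ^ 2) * (c / ρ)) := by
  have hg : Monotone (pairGrid t s h) := pairGrid_monotone ht.le h0 (by linarith)
  have hT : (0 : ℝ) ≤ toSize M := le_trans zero_le_one (one_le_toSize M)
  refine (sweep_blur_x ht hs hst h0 (by linarith) hρ p.1.isLt.le (upW_upWeight hg p) hc hB0
    hB).trans ?_
  have h2 := mul_le_mul_of_nonneg_right (geomR_le_two_node ht hs hst h0 h1 p)
    (div_nonneg hc hρ.le)
  have hr0 : s ≤ geomR t s h p.1 := le_geomR _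
  have : 0 ≤ (t - gridNode (pairGrid t s h) p ^ 2) * (c / ρ) :=
    mul_nonneg (by linarith [geomR_le_two_node ht hs hst h0 h1 p]) (div_nonneg hc hρ.le)
  nlinarith

/-! ## One sweep in mean square -/

variable {d : ℕ} {V : Space d → ℝ} {y : Space d} {w U : ℝ → Space d × Space d → Space d}

theorem pairX_zero (z : Space d × Space d) :
    pairX V y t ρ w U 0 z = score V t y + ρ • U 0 z := by
  simp [pairX]

/-- The node functions are continuous in the seed. -/
theorem IsPair.continuous_nodeFn (hV : Quarter.InClass V) {q₁ : ℝ}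
    (hq₁ : q₁ ^ 2 < t) (hw : IsPair V y t ρ q₁ w U) {q : ℝ} (hq : q ∈ Icc 0 q₁) (j : Fin 3) :
    Continuous fun z => nodeFn V y t w U z j q := by
  have hr : 0 < t - q ^ 2 := by linarith [pow_le_pow_left₀ hq.1 hq.2 2]
  obtain ⟨hwc, hUc⟩ := hw.cont q hq
  have hz : Continuous fun z : Space d × Space d => y + q • w q z :=
    continuous_const.add (hwc.const_smul q)
  have hD : Continuous fun z : Space d × Space d => scoreD V (t - q ^ 2) (y + q • w q z) :=
    (continuous_scoreD hV hr).comp hz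
  match j with
  | 0 => exact ((regular score_spec hV).lip _ hr.le).continuous.comp hz
  | 1 => exact hD.clm_apply hUc
  | 2 => exact hD.clm_apply (hD.clm_apply hUc)

theorem eLpNorm_smul_le' {α : Type} [MeasurableSpace α] {μ : Measure α} {f : α → Space d} {B a : ℝ}
    (ha : 0 ≤ a) (h : eLpNorm f 2 μ ≤ ENNReal.ofReal B) :
    eLpNorm (fun x => a • f x) 2 μ ≤ ENNReal.ofReal (a * B) := by
  rw [show (fun x => a • f x) = a • f from rfl, eLpNorm_const_smul, ENNReal.ofReal_mul ha,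
    Real.enorm_eq_ofReal ha]
  exact mul_le_mul' le_rfl h

variable {Ω : Type} [MeasurableSpace Ω] {μ : Measure Ω} {π : Ω → Space d × Space d}

attribute [local irreducible] score smooth scoreD

/-- The point of a node after a sweep: defect, the error at the fine end and the weighted errors
of the node functions. -/
theorem eLpNorm_sweep_z (hV : Quarter.InClass V) (ht : 0 < t) (hs : 0 < s) (hst : s < t)
    (h0 : 0 ≤ h) (h1 : h ≤ 1) (hρ : 0 < ρ) (hw : IsPair V y t ρ √(t - s) w U)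
    (hπ : MeasurePreserving π μ (pairLaw V y t √(t - s))) {q : ℝ} (hq : q ∈ Icc 0 √(t - s))
    {W : Fin J × Fin M → ℝ} {E : ℝ} (hE : 0 ≤ E)
    (hdef : eLpNorm (fun z => w √(t - s) z - w q z
        - ∑ i, W i • velW V y t ρ √(t - s) w U z 0 (gridNode (pairGrid t s h) i)) 2
          (pairLaw V y t √(t - s)) ≤ ENNReal.ofReal E)
    {z₁ : Ω → Space d} (hz₁m : AEStronglyMeasurable z₁ μ) {e₀ : ℝ} (he₀ : 0 ≤ e₀)
    (hz₁ : eLpNorm (fun ω => z₁ ω - (y + √(t - s) • w √(t - s) (π ω))) 2 μ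
      ≤ ENNReal.ofReal e₀)
    {f₀ f₁ : Fin J × Fin M → Ω → Space d}
    (hf₀m : ∀ i, AEStronglyMeasurable (f₀ i) μ) (hf₁m : ∀ i, AEStronglyMeasurable (f₁ i) μ)
    {b B : Fin J × Fin M → ℝ} (hb : ∀ i, 0 ≤ b i) (hB : ∀ i, 0 ≤ B i)
    (hf₀ : ∀ i, eLpNorm (fun ω => f₀ i ω
      - nodeFn V y t w U (π ω) 0 (gridNode (pairGrid t s h) i)) 2 μ ≤ ENNReal.ofReal (b i))
    (hf₁ : ∀ i, eLpNorm (fun ω => f₁ i ω
      - nodeFn V y t w U (π ω) 1 (gridNode (pairGrid t s h) i)) 2 μ ≤ ENNReal.ofReal (B i)) :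
    eLpNorm (fun ω => (q / √(t - s)) • z₁ ω + (1 - q / √(t - s)) • y
        - q • (∑ i, W i • (f₀ i ω + ρ⁻¹ • f₁ i ω)) - (y + q • w q (π ω))) 2 μ
      ≤ ENNReal.ofReal (e₀ + √t * E + q * ∑ i, |W i| * (b i + B i / ρ)) := by
  set q₁ := √(t - s)
  have hq₁0 : 0 < q₁ := Real.sqrt_pos.2 (sub_pos.2 hst)
  have hq₁t : q₁ ^ 2 < t := by
    show √(t - s) ^ 2 < t
    rw [Real.sq_sqrt (sub_nonneg.2 hst.le)]; linarith
  have hnode : ∀ i : Fin J × Fin M, gridNode (pairGrid t s h) i ∈ Icc 0 q₁ :=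
    fun i => gridNode_pair_mem ht h0 h1 i
  have hqt : q ≤ √t := hq.2.trans (Real.sqrt_le_sqrt (by linarith))
  set n₀ : Fin J × Fin M → Space d × Space d → Space d := fun i z =>
    nodeFn V y t w U z 0 (gridNode (pairGrid t s h) i)
  set n₁ : Fin J × Fin M → Space d × Space d → Space d := fun i z =>
    nodeFn V y t w U z 1 (gridNode (pairGrid t s h) i)
  have hn₀ : ∀ i, Continuous (n₀ i) := fun i => hw.continuous_nodeFn hV hq₁t (hnode i) 0
  have hn₁ : ∀ i, Continuous (n₁ i) := fun i => hw.continuous_nodeFn hV hq₁t (hnode i) 1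
  set D : Space d × Space d → Space d := fun z => w q₁ z - w q z
    - ∑ i, W i • (n₀ i z + ρ⁻¹ • n₁ i z)
  have hwq := (hw.cont q hq).1
  have hwq₁ := (hw.cont q₁ ⟨hq₁0.le, le_rfl⟩).1
  have hDc : Continuous D :=
    (hwq₁.sub hwq).sub (continuous_finsetSum _ fun i _ =>
      ((hn₀ i).add ((hn₁ i).const_smul ρ⁻¹)).const_smul (W i))
  have hD : eLpNorm (fun ω => D (π ω)) 2 μ ≤ ENNReal.ofReal E := by
    refine le_of_eq_of_le (eLpNorm_comp_measurePreserving (g := D) hDc.aestronglyMeasurable hπ) ?_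
    refine le_of_eq_of_le ?_ hdef
    refine congrArg (fun F => eLpNorm F 2 (pairLaw V y t q₁)) (funext fun z => ?_)
    simp only [D, n₀, n₁, velW_zero, nodeFn]
  set g : Fin J × Fin M → Ω → Space d := fun i ω =>
    (f₀ i ω - n₀ i (π ω)) + ρ⁻¹ • (f₁ i ω - n₁ i (π ω))
  have hπm := hπ.measurable
  have hgm : ∀ i, AEStronglyMeasurable (g i) μ := fun i =>
    ((hf₀m i).sub ((hn₀ i).measurable.comp hπm).aestronglyMeasurable).add
      (((hf₁m i).sub ((hn₁ i).measurable.comp hπm).aestronglyMeasurable).const_smul ρ⁻¹)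
  have hg : ∀ i, eLpNorm (g i) 2 μ ≤ ENNReal.ofReal (b i + B i / ρ) := fun i => by
    refine (eLpNorm_add_le ((hf₀m i).sub ((hn₀ i).measurable.comp hπm).aestronglyMeasurable)
      (((hf₁m i).sub ((hn₁ i).measurable.comp hπm).aestronglyMeasurable).const_smul ρ⁻¹)
      one_le_two).trans ?_
    rw [div_eq_inv_mul, ENNReal.ofReal_add (hb i) (mul_nonneg (inv_nonneg.2 hρ.le) (hB i))]
    exact add_le_add (hf₀ i) (eLpNorm_smul_le' (inv_nonneg.2 hρ.le) (hf₁ i))
  have hS : eLpNorm (fun ω => ∑ i, W i • g i ω) 2 μ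
      ≤ ENNReal.ofReal (∑ i, |W i| * (b i + B i / ρ)) :=
    eLpNorm_weighted_sum_le W hgm
      (fun i => add_nonneg (hb i) (div_nonneg (hB i) hρ.le)) hg
  set A : Ω → Space d := fun ω => z₁ ω - (y + q₁ • w q₁ (π ω))
  have e : (fun ω => (q / q₁) • z₁ ω + (1 - q / q₁) • y
        - q • (∑ i, W i • (f₀ i ω + ρ⁻¹ • f₁ i ω)) - (y + q • w q (π ω)))
      = (fun ω => (q / q₁) • A ω + q • D (π ω)) - fun ω => q • ∑ i, W i • g i ω := by
    funext ω
    simp only [Pi.sub_apply, A, D, g, smul_sub, smul_add, sub_smul, one_smul, smul_smul,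
      Finset.sum_add_distrib, Finset.sum_sub_distrib, Finset.smul_sum,
      div_mul_cancel₀ q hq₁0.ne']
    abel
  have hAm : AEStronglyMeasurable A μ :=
    hz₁m.sub (((continuous_const.add (hwq₁.const_smul q₁)).measurable.comp hπm
      ).aestronglyMeasurable)
  have hDm : AEStronglyMeasurable (fun ω => D (π ω)) μ :=
    (hDc.measurable.comp hπm).aestronglyMeasurable
  have hSm : AEStronglyMeasurable (fun ω => ∑ i, W i • g i ω) μ :=
    Finset.aestronglyMeasurable_fun_sum _ fun i _ => (hgm i).const_smul (W i)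
  have hsum : 0 ≤ ∑ i, |W i| * (b i + B i / ρ) := Finset.sum_nonneg fun i _ =>
    mul_nonneg (abs_nonneg _) (add_nonneg (hb i) (div_nonneg (hB i) hρ.le))
  rw [e]
  refine (eLpNorm_sub_le ((hAm.const_smul (q / q₁)).add (hDm.const_smul q)) (hSm.const_smul q)
    one_le_two).trans ?_
  rw [ENNReal.ofReal_add (add_nonneg he₀ (by positivity)) (mul_nonneg hq.1 hsum),
    ENNReal.ofReal_add he₀ (by positivity)]
  refine add_le_add ((eLpNorm_add_le (hAm.const_smul (q / q₁)) (hDm.const_smul q)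
    one_le_two).trans (add_le_add ?_ ?_)) (eLpNorm_smul_le' hq.1 hS)
  · exact (eLpNorm_smul_le' (div_nonneg hq.1 hq₁0.le) hz₁).trans
      (ENNReal.ofReal_le_ofReal (mul_le_of_le_one_left he₀ ((div_le_one hq₁0).2 hq.2)))
  · exact (eLpNorm_smul_le' hq.1 hD).trans
      (ENNReal.ofReal_le_ofReal (mul_le_mul_of_nonneg_right hqt hE))

/-- The value `X` after a sweep. -/
theorem eLpNorm_sweep_x (hV : Quarter.InClass V) (ht : 0 < t) (hs : 0 < s) (hst : s < t)
    (h0 : 0 ≤ h) (h1 : h ≤ 1) (hρ : 0 < ρ) (hw : IsPair V y t ρ √(t - s) w U)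
    (hπ : MeasurePreserving π μ (pairLaw V y t √(t - s))) {q : ℝ} (hq : q ∈ Icc 0 √(t - s))
    {W : Fin J × Fin M → ℝ} {E : ℝ} (hE : 0 ≤ E)
    (hdef : eLpNorm (fun z => pairX V y t ρ w U √(t - s) z - pairX V y t ρ w U q z
        - ∑ i, W i • velX V y t ρ √(t - s) w U z 0 (gridNode (pairGrid t s h) i)) 2
          (pairLaw V y t √(t - s)) ≤ ENNReal.ofReal E)
    {X₁ : Ω → Space d} (hX₁m : AEStronglyMeasurable X₁ μ) {e₁ : ℝ} (he₁ : 0 ≤ e₁)
    (hX₁ : eLpNorm (fun ω => X₁ ω - pairX V y t ρ w U √(t - s) (π ω)) 2 μ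
      ≤ ENNReal.ofReal e₁)
    {f₂ : Fin J × Fin M → Ω → Space d} (hf₂m : ∀ i, AEStronglyMeasurable (f₂ i) μ)
    {B : Fin J × Fin M → ℝ} (hB : ∀ i, 0 ≤ B i)
    (hf₂ : ∀ i, eLpNorm (fun ω => f₂ i ω
      - nodeFn V y t w U (π ω) 2 (gridNode (pairGrid t s h) i)) 2 μ ≤ ENNReal.ofReal (B i)) :
    eLpNorm (fun ω => X₁ ω - (∑ i, W i • (gridNode (pairGrid t s h) i / ρ) • f₂ i ω)
        - pairX V y t ρ w U q (π ω)) 2 μ
      ≤ ENNReal.ofReal
        (e₁ + E + ∑ i, |W i| * (gridNode (pairGrid t s h) i / ρ * B i)) := by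
  set q₁ := √(t - s)
  have hq₁t : q₁ ^ 2 < t := by
    show √(t - s) ^ 2 < t
    rw [Real.sq_sqrt (sub_nonneg.2 hst.le)]; linarith
  set c : Fin J × Fin M → ℝ := fun i => gridNode (pairGrid t s h) i / ρ
  have hnode : ∀ i : Fin J × Fin M, gridNode (pairGrid t s h) i ∈ Icc 0 q₁ :=
    fun i => gridNode_pair_mem ht h0 h1 i
  have hc : ∀ i, 0 ≤ c i := fun i => div_nonneg (hnode i).1 hρ.le
  set n₂ : Fin J × Fin M → Space d × Space d → Space d := fun i z =>
    nodeFn V y t w U z 2 (gridNode (pairGrid t s h) i)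
  have hn₂ : ∀ i, Continuous (n₂ i) := fun i => hw.continuous_nodeFn hV hq₁t (hnode i) 2
  have hX : ∀ s' ∈ Icc 0 q₁, Continuous fun z => pairX V y t ρ w U s' z := fun s' hs' => by
    have hr : 0 < t - s' ^ 2 := by linarith [pow_le_pow_left₀ hs'.1 hs'.2 2]
    unfold pairX
    exact (((regular score_spec hV).lip _ hr.le).continuous.comp
      (continuous_const.add ((hw.cont s' hs').1.const_smul s'))).add
        ((hw.cont s' hs').2.const_smul ρ)
  set D : Space d × Space d → Space d := fun z => pairX V y t ρ w U q₁ z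
    - pairX V y t ρ w U q z - ∑ i, W i • c i • n₂ i z
  have hDc : Continuous D :=
    ((hX q₁ ⟨hq.1.trans hq.2, le_rfl⟩).sub (hX q hq)).sub (continuous_finsetSum _ fun i _ =>
      ((hn₂ i).const_smul (c i)).const_smul (W i))
  have hD : eLpNorm (fun ω => D (π ω)) 2 μ ≤ ENNReal.ofReal E := by
    refine le_of_eq_of_le (eLpNorm_comp_measurePreserving (g := D) hDc.aestronglyMeasurable hπ) ?_
    refine le_of_eq_of_le ?_ hdef
    refine congrArg (fun F => eLpNorm F 2 (pairLaw V y t q₁)) (funext fun z => ?_)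
    simp only [D, c, n₂, velX_zero, nodeFn]
  set g : Fin J × Fin M → Ω → Space d := fun i ω => c i • (f₂ i ω - n₂ i (π ω))
  have hπm := hπ.measurable
  have hgm : ∀ i, AEStronglyMeasurable (g i) μ := fun i =>
    ((hf₂m i).sub ((hn₂ i).measurable.comp hπm).aestronglyMeasurable).const_smul (c i)
  have hS : eLpNorm (fun ω => ∑ i, W i • g i ω) 2 μ
      ≤ ENNReal.ofReal (∑ i, |W i| * (c i * B i)) :=
    eLpNorm_weighted_sum_le W hgm (fun i => mul_nonneg (hc i) (hB i))
      fun i => eLpNorm_smul_le' (hc i) (hf₂ i)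
  set A : Ω → Space d := fun ω => X₁ ω - pairX V y t ρ w U q₁ (π ω)
  have e : (fun ω => X₁ ω - (∑ i, W i • c i • f₂ i ω) - pairX V y t ρ w U q (π ω))
      = (fun ω => A ω + D (π ω)) - fun ω => ∑ i, W i • g i ω := by
    funext ω
    simp only [Pi.sub_apply, A, D, g, smul_sub, Finset.sum_sub_distrib]
    abel
  have hAm : AEStronglyMeasurable A μ :=
    hX₁m.sub ((hX q₁ ⟨hq.1.trans hq.2, le_rfl⟩).measurable.comp hπm).aestronglyMeasurable
  have hDm : AEStronglyMeasurable (fun ω => D (π ω)) μ :=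
    (hDc.measurable.comp hπm).aestronglyMeasurable
  have hSm : AEStronglyMeasurable (fun ω => ∑ i, W i • g i ω) μ :=
    Finset.aestronglyMeasurable_fun_sum _ fun i _ => (hgm i).const_smul (W i)
  have hsum : 0 ≤ ∑ i, |W i| * (c i * B i) := Finset.sum_nonneg fun i _ =>
    mul_nonneg (abs_nonneg _) (mul_nonneg (hc i) (hB i))
  rw [e]
  refine (eLpNorm_sub_le (hAm.add hDm) hSm one_le_two).trans ?_
  rw [ENNReal.ofReal_add (add_nonneg he₁ hE) hsum, ENNReal.ofReal_add he₁ hE]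
  exact add_le_add ((eLpNorm_add_le hAm hDm one_le_two).trans (add_le_add hX₁ hD)) hS

end

end P347.Zero
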