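import Vale.Agent.P347.Zero.Node
import Vale.Agent.P347.Zero.Flow
import Vale.Agent.P347.Zero.PairLaw
import Vale.Agent.P347.Zero.Paths

/-!
# P347: `TimeSpec` and `PairTimeSpec`

The derivative of a field along a flow is again a field, so its square integrates, by the law of
the flow, to a bound of the Sobolev calculus.
-/

namespace P347.Zero

open MeasureTheory ProbabilityTheory Filter Topology Finset P347.Quarter
open scoped RealInnerProductSpace ENNReal BoundedContinuousFunction

noncomputable section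

variable {d : ℕ}

namespace Ctx

/-- The vector of a field of order one. -/
def vec (Y : Fld d) (q : ℝ) (w u : Space d) : Space d := ∑ i, Y [i] q w u • bv i

variable {X : Ctx d}

theorem norm_vec_sq (Y : Fld d) (q : ℝ) (w u : Space d) :
    ‖vec Y q w u‖ ^ 2 = nsq 1 fun L => Y L q w u := by
  rw [EuclideanSpace.norm_sq_eq]
  simp [vec, nsq, tsum', bv, EuclideanSpace.basisFun_apply, Pi.single_apply, Finset.sum_apply]

theorem continuous_vec {Y : Fld d} (hY : X.A 1 Y) {q : ℝ} (hq : q ^ 2 < X.t) :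
    Continuous fun z : Space d × Space d => vec Y q z.1 z.2 :=
  continuous_finsetSum _ fun i _ =>
    (((hY [i] rfl).contDiff_pair 1 hq).continuous).smul continuous_const

theorem score_vec {q : ℝ} (hq : q ^ 2 < X.t) (w u : Space d) :
    score X.V (X.t - q ^ 2) (X.y + q • w) = vec X.bF q w u := by
  rw [score_eq_sum X.hV (by linarith)]
  rfl

theorem scoreD_vec {q : ℝ} (hq : q ^ 2 < X.t) (w v : Space d) (Y : Fld d) (u : Space d)
    (hv : ∀ i, v i = Y [i] q w u) :
    scoreD X.V (X.t - q ^ 2) (X.y + q • w) v = vec (X.Mul 1 1 Y) q w u := by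
  rw [← sum_coord_smul (scoreD X.V (X.t - q ^ 2) (X.y + q • w) v)]
  refine sum_congr rfl fun i _ => ?_
  congr 1
  rw [scoreD_coord X.hV (by linarith)]
  simp only [Ctx.Mul, tsum'_one, List.take_succ_cons, List.take_zero, List.drop_succ_cons,
    List.drop_zero, List.cons_append, List.nil_append, hv]
  refine sum_congr rfl fun j _ => ?_
  rw [mul_comm, coef_perm (List.Perm.swap j i []) hq w u]
  rfl

/-- The chain rule for a field along a curve of pairs. -/
theorem Alg.comp_hasDeriv {f : Fn d} (hf : X.Alg f) {s : Set ℝ} {q : ℝ} (hq : q ^ 2 < X.t)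
    {w u : ℝ → Space d} {a c : Space d} (hw : HasDerivWithinAt w a s q)
    (hu : HasDerivWithinAt u c s q) :
    HasDerivWithinAt (fun s => f s (w s) (u s))
      (deriv (fun q' => f q' (w q) (u q)) q + ∑ l, a l * Ctx.dW l f q (w q) (u q)
        + ∑ l, c l * Ctx.dU l f q (w q) (u q)) s q := by
  set g : ℝ × Space d × Space d → ℝ := fun p => f p.1 p.2.1 p.2.2
  set p₀ : ℝ × Space d × Space d := (q, w q, u q) with hp₀
  have hD : HasFDerivAt g (fderiv ℝ g p₀) p₀ :=
    ((hf.contDiffAt 1 hq (w q) (u q)).differentiableAt one_ne_zero).hasFDerivAt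
  have h : HasDerivWithinAt (fun s => f s (w s) (u s)) (fderiv ℝ g p₀ (1, a, c)) s q :=
    hD.comp_hasDerivWithinAt (f := fun s => (s, w s, u s)) q
      ((hasDerivWithinAt_id q s).prodMk (hw.prodMk hu))
  have eT : deriv (fun q' => f q' (w q) (u q)) q = fderiv ℝ g p₀ (1, 0, 0) := by
    have : HasDerivAt (fun q' => f q' (w q) (u q)) (fderiv ℝ g p₀ (1, 0, 0)) q :=
      hD.comp_hasDerivAt q (f := fun q' : ℝ => (q', w q, u q))
        ((hasDerivAt_id' q).prodMk ((hasDerivAt_const q (w q)).prodMk (hasDerivAt_const q (u q))))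
    exact this.deriv
  have eW : ∀ v, fderiv ℝ (fun w' => f q w' (u q)) (w q) v = fderiv ℝ g p₀ (0, v, 0) := by
    intro v
    have : HasFDerivAt (fun w' => f q w' (u q)) _ (w q) := hD.comp (w q)
      (f := fun w' => (q, w', u q))
      ((hasFDerivAt_const q (w q)).prodMk ((hasFDerivAt_id (w q)).prodMk
        (hasFDerivAt_const (u q) (w q))))
    rw [this.fderiv]; simp
  have eU : ∀ v, fderiv ℝ (fun u' => f q (w q) u') (u q) v = fderiv ℝ g p₀ (0, 0, v) := by
    intro v
    have : HasFDerivAt (fun u' => f q (w q) u') _ (u q) := hD.comp (u q)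
      (f := fun u' => (q, w q, u'))
      ((hasFDerivAt_const q (u q)).prodMk ((hasFDerivAt_const (w q) (u q)).prodMk
        (hasFDerivAt_id (u q))))
    rw [this.fderiv]; simp
  refine h.congr_deriv ?_
  have hsum : ∀ (A : Space d →L[ℝ] ℝ) (v : Space d), A v = ∑ l, v l * A (bv l) := fun A v => by
    conv_lhs => rw [← sum_coord_smul v, map_sum]
    exact sum_congr rfl fun l _ => by rw [map_smul, smul_eq_mul]
  simp only [Ctx.dW, Ctx.dU]
  rw [← hsum (fderiv ℝ (fun w' => f q w' (u q)) (w q)) a,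
    ← hsum (fderiv ℝ (fun u' => f q (w q) u') (u q)) c, eW, eU, eT, ← map_add, ← map_add]
  simp

theorem vec_hasDeriv {Y Z : Fld d} (hY : X.A 1 Y) {s : Set ℝ} {q : ℝ} (hq : q ^ 2 < X.t)
    {w u : ℝ → Space d} {a c : Space d} (hw : HasDerivWithinAt w a s q)
    (hu : HasDerivWithinAt u c s q)
    (hZ : ∀ i, deriv (fun q' => Y [i] q' (w q) (u q)) q + ∑ l, a l * dW l (Y [i]) q (w q) (u q)
      + ∑ l, c l * dU l (Y [i]) q (w q) (u q) = Z [i] q (w q) (u q)) :
    HasDerivWithinAt (fun s => vec Y s (w s) (u s)) (vec Z q (w q) (u q)) s q :=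
  HasDerivWithinAt.fun_sum fun i _ =>
    (((hY [i] rfl).comp_hasDeriv hq hw hu).congr_deriv (hZ i)).smul_const (bv i)

/-- The noise term in coordinates. -/
theorem gen_apply {n : ℕ} {Y : Fld d} (hY : X.A n Y) {q : ℝ} (hq : q ^ 2 < X.t) (L : List (Fin d))
    (hL : L.length = n) (w u : Space d) :
    X.gen Y L q w u = ∑ m, X.b1F [m] q w u * dW m (Y L) q w u
      + (-1 : ℝ) * ∑ m, X.DT X.bF [m] q w u * dU m (Y L) q w u := by
  have hy := hY L hL
  have hb1 : ∀ m, X.b1F [m] q w u = ∑ l, X.coef [m, l] q w u * u l := fun m => by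
    simp [b1F, Ctx.Mul, tsum'_one, uF]
  have hTb : ∀ m, X.DT X.bF [m] q w u
      = -(∑ l, (q * X.coef [l, l, m] q w u + X.beta l q w u * X.coef [l, m] q w u)) := fun m => by
    show X.dT (X.coef [m]) q w u = _
    rw [dT_coef [m] hq w u, proper_single, mul_zero, sub_zero]
  have hM : ∀ (op : Fld d → Fld d) l, X.Mul 1 1 (op Y) (l :: L)
      = fun q w u => ∑ m, X.coef [l, m] q w u * op Y (m :: L) q w u := fun op l => by
    funext q w u
    simp [Ctx.Mul, tsum'_one]
  have hZ : ∀ l, dW l (X.Mul 1 1 (DU Y) (l :: L)) q w u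
      = ∑ m, (q * X.coef [l, l, m] q w u * dU m (Y L) q w u
        + X.coef [l, m] q w u * dW l (dU m (Y L)) q w u) := fun l => by
    rw [hM DU l]
    refine (dW_sum Finset.univ (fun m => (Alg.coef [l, m] (by simp)).mul (hy.dU m)) l hq w u).trans
      (sum_congr rfl fun m _ => ?_)
    rw [dW_mul (Alg.coef [l, m] (by simp)) (hy.dU m) l hq w u, dW_coef [l, m] l hq w u]
  have hZ' : ∀ l, dU l (X.Mul 1 1 (DW Y) (l :: L)) q w u
      = ∑ m, X.coef [l, m] q w u * dW m (dU l (Y L)) q w u := fun l => by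
    rw [hM DW l]
    refine (dU_sum Finset.univ (fun m => (Alg.coef [l, m] (by simp)).mul (hy.dW m)) l hq w u).trans
      (sum_congr rfl fun m _ => ?_)
    rw [dU_mul (Alg.coef [l, m] (by simp)) (hy.dW m) l hq w u, dU_coef [l, m] l q w u,
      ← dW_dU_comm hy m l hq w u]
    ring
  have h1 : X.dlW (X.Mul 1 1 (DU Y)) L q w u = ∑ l, ∑ m, ((q * X.coef [l, l, m] q w u
      + X.beta l q w u * X.coef [l, m] q w u) * dU m (Y L) q w u
        + X.coef [l, m] q w u * dW l (dU m (Y L)) q w u) := by
    simp only [Ctx.dlW, hZ]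
    simp only [hM DU]
    simp only [DU, mul_sum, ← sum_add_distrib]
    exact sum_congr rfl fun l _ => sum_congr rfl fun m _ => by ring
  have h2 : dlU (X.Mul 1 1 (DW Y)) L q w u = ∑ l, ∑ m,
      (X.coef [m, l] q w u * dW m (dU l (Y L)) q w u
        - X.coef [m, l] q w u * u l * dW m (Y L) q w u) := by
    simp only [Ctx.dlU, hZ']
    simp only [hM DW]
    simp only [DW, mul_sum, ← sum_sub_distrib]
    refine sum_congr rfl fun l _ => sum_congr rfl fun m _ => ?_
    rw [coef_perm (List.Perm.swap m l []) hq w u]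
    ring
  simp only [Ctx.gen, h1, h2, hb1, hTb, neg_mul, sum_mul, mul_sum, sum_neg_distrib,
    sum_add_distrib, sum_sub_distrib, add_mul, mul_add, mul_neg, one_mul, neg_neg]
  rw [sum_comm (f := fun l m => X.coef [m, l] q w u * dW m (dU l (Y L)) q w u),
    sum_comm (f := fun l m => X.coef [m, l] q w u * u l * dW m (Y L) q w u),
    sum_comm (f := fun l m => q * X.coef [l, l, m] q w u * dU m (Y L) q w u),
    sum_comm (f := fun l m => X.beta l q w u * X.coef [l, m] q w u * dU m (Y L) q w u)]
  ring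

/-- A mean as a lower integral. -/
theorem lintegral_eq_avg {f : Fn d} (hf : X.Alg f) {q : ℝ} (hq : q ^ 2 < X.t)
    (h0 : ∀ w u, 0 ≤ f q w u) :
    ∫⁻ z, ENNReal.ofReal (f q z.1 z.2) * ENNReal.ofReal (X.wt q z.1 / sd X.V [] (X.t, X.y))
      ∂gauss2 (Space d) = ENNReal.ofReal (X.avg q f) := by
  rw [avg, ← integral_div, ofReal_integral_eq_lintegral_ofReal ((hf.integrable hq).div_const _)
    (Eventually.of_forall fun z =>
      div_nonneg (mul_nonneg (h0 _ _) (X.wt_pos z.1).le) X.mass_pos.le)]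
  refine lintegral_congr fun z => ?_
  rw [← ENNReal.ofReal_mul (h0 _ _), mul_div_assoc]

theorem lintegral_vec_le {Y : Fld d} {M : ℝ} (hY : X.A 1 Y) {q : ℝ} (hq : q ^ 2 < X.t)
    (h : X.L2 q 1 Y M) :
    ∫⁻ z, ENNReal.ofReal (‖vec Y q z.1 z.2‖ ^ 2) *
      ENNReal.ofReal (X.wt q z.1 / sd X.V [] (X.t, X.y)) ∂gauss2 (Space d)
      ≤ ENNReal.ofReal (M ^ 2) := by
  simp only [norm_vec_sq]
  rw [lintegral_eq_avg (f := fun q w u => nsq 1 fun L => Y L q w u) (alg_sq hY) hq
    fun w u => nsq_nonneg _ _]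
  exact ENNReal.ofReal_le_ofReal h

theorem sig_eq {q : ℝ} (hq : q ^ 2 < X.t) : X.sig q = √X.t / (X.t - q ^ 2) := by
  simp only [Ctx.sig, Ctx.kap, Ctx.rho]
  rw [← div_eq_mul_inv, div_div, Real.mul_self_sqrt (by linarith)]

end Ctx

open Ctx

/-- The law of any flow, at negative times also. -/
theorem IsFlow.lintegral_law {X : Ctx d} {w : ℝ → Space d → Space d}
    (hw : IsFlow X.V X.y X.t w) {q : ℝ} (hq : q ^ 2 < X.t) {F : Space d → ℝ≥0∞}
    (hF : Measurable F) :
    ∫⁻ ξ, F (w q ξ) ∂stdGaussian (Space d)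
      = ∫⁻ a, F a * ENNReal.ofReal (X.wt q a / sd X.V [] (X.t, X.y)) ∂stdGaussian (Space d) := by
  have pos : ∀ {w : ℝ → Space d → Space d}, IsFlow X.V X.y X.t w → ∀ {q : ℝ}, 0 ≤ q →
      q ^ 2 < X.t → ∀ {F : Space d → ℝ≥0∞}, Measurable F →
      ∫⁻ ξ, F (w q ξ) ∂stdGaussian (Space d)
      = ∫⁻ a, F a * ENNReal.ofReal (X.wt q a / sd X.V [] (X.t, X.y)) ∂stdGaussian (Space d) := by
    intro w hw q h0 hq F hF
    rw [← lintegral_map hF (hw.cont q hq).measurable, hw.map_eq X.hV X.ht1 h0 hq,
      lintegral_withDensity_eq_lintegral_mul _ (by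
        exact ((continuous_wt (X := X) hq).div_const _).measurable.ennreal_ofReal) hF]
    exact lintegral_congr fun a => mul_comm _ _
  rcases le_total 0 q with h0 | h0
  · exact pos hw h0 hq hF
  set γ := stdGaussian (Space d) with hγ
  have hm : γ.map (fun a : Space d => -a) = γ := by
    have := stdGaussian_map (LinearIsometryEquiv.neg ℝ (E := Space d))
    simpa [hγ] using this
  have hneg : ∀ {G : Space d → ℝ≥0∞}, Measurable G → ∫⁻ a, G (-a) ∂γ = ∫⁻ a, G a ∂γ := by
    intro G hG
    rw [← lintegral_map hG measurable_neg, hm]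
  set v : ℝ → Space d → Space d := fun s ξ => -(w (-s) (-ξ))
  have hv : IsFlow X.V X.y X.t v := by
    refine ⟨fun ξ => by simp [v, hw.init], fun ξ s hs => ?_, fun s hs => ?_⟩
    · have := ((hw.deriv (-ξ) (-s) (by simpa using hs)).scomp s (hasDerivAt_neg s)).neg
      simp [v, Function.comp_def] at this ⊢
      exact this
    · exact ((hw.cont (-s) (by simpa using hs)).comp continuous_neg).neg
  have h := pos hv (q := -q) (by linarith) (by simpa using hq) (F := fun a => F (-a))
    (hF.comp measurable_neg)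
  simp only [v, neg_neg] at h
  rw [hneg (G := fun ξ => F (w q ξ)) (hF.comp (hw.cont q hq).measurable)] at h
  rw [h, ← hneg (G := fun a => F a * ENNReal.ofReal (X.wt q a / sd X.V [] (X.t, X.y)))
    (hF.mul ((continuous_wt (X := X) hq).div_const _).measurable.ennreal_ofReal)]
  exact lintegral_congr fun a => by simp [Ctx.wt]

/-- The derivatives in time of the score along a flow are fields along it. -/
theorem IsFlow.iteratedDeriv_score {X : Ctx d} {w : ℝ → Space d → Space d}
    (hw : IsFlow X.V X.y X.t w) (k : ℕ) (ξ u : Space d) :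
    ∀ s, s ^ 2 < X.t →
      iteratedDeriv k (fun q' => score X.V (X.t - q' ^ 2) (X.y + q' • w q' ξ)) s
          = vec (X.DT^[k] X.bF) s (w s ξ) u ∧
        HasDerivAt (iteratedDeriv k (fun q' => score X.V (X.t - q' ^ 2) (X.y + q' • w q' ξ)))
          (vec (X.DT^[k + 1] X.bF) s (w s ξ) u) s := by
  have hd : ∀ k s, s ^ 2 < X.t → HasDerivAt (fun s => vec (X.DT^[k] X.bF) s (w s ξ) u)
      (vec (X.DT^[k + 1] X.bF) s (w s ξ) u) s := by
    intro k s hs
    refine HasDerivWithinAt.hasDerivAt (s := Set.univ) ?_ univ_mem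
    refine vec_hasDeriv (alg_DT_iterate k alg_bF) hs (hw.deriv ξ s hs).hasDerivWithinAt
      (hasDerivWithinAt_const s _ u) fun i => ?_
    rw [Function.iterate_succ_apply']
    have e : ∀ l, score X.V (X.t - s ^ 2) (X.y + s • w s ξ) l = X.coef [l] s (w s ξ) u := fun l =>
      score_coord X.hV (by linarith) _ l
    simp [Ctx.DT, Ctx.dT, e]
  induction k with
  | zero =>
    intro s hs
    refine ⟨by simpa using score_vec (X := X) hs (w s ξ) u,
      (hd 0 s hs).congr_of_eventuallyEq ?_⟩
    filter_upwards [((continuous_pow 2).tendsto s).eventually (Iio_mem_nhds hs)] with s' hs'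
    simpa using score_vec (X := X) hs' (w s' ξ) u
  | succ k ih =>
    intro s hs
    have e : ∀ s, s ^ 2 < X.t →
        iteratedDeriv (k + 1) (fun q' => score X.V (X.t - q' ^ 2) (X.y + q' • w q' ξ)) s
          = vec (X.DT^[k + 1] X.bF) s (w s ξ) u := fun s hs => by
      rw [iteratedDeriv_succ]
      exact (ih s hs).2.deriv
    refine ⟨e s hs, (hd (k + 1) s hs).congr_of_eventuallyEq ?_⟩
    filter_upwards [((continuous_pow 2).tendsto s).eventually (Iio_mem_nhds hs)] with s' hs'
    exact e s' hs'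

/-- Module 3: derivatives in time along the flow. -/
theorem timeSpec : TimeSpec := by
  intro m
  obtain ⟨C, hC, hCb⟩ := exists_dTb_bound m 0
  refine ⟨C + 1, by linarith, fun d V hV y t ht0 ht1 w hw q hq => ?_⟩
  set X : Ctx d := ⟨V, y, t, hV, ht0, ht1⟩
  set Y := X.DT^[m + 1] X.bF
  have hY : X.A 1 Y := alg_DT_iterate (m + 1) alg_bF
  have hn : ∀ ξ u, iteratedDeriv (m + 1) (fun q' => score V (t - q' ^ 2) (y + q' • w q' ξ)) q
      = vec Y q (w q ξ) u := fun ξ u =>
    (IsFlow.iteratedDeriv_score (X := X) hw (m + 1) ξ u q hq).1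
  have hL2 : X.L2 q 1 Y ((C + 1) * √d * (√t / √(t - q ^ 2)) * (√t / (t - q ^ 2)) ^ m) := by
    have h := TB_iterate (hCb d X q hq)
    rw [← Function.iterate_succ_apply, sig_eq (X := X) hq] at h
    refine h.mono ?_ ?_
    · exact mul_nonneg (mul_nonneg (mul_nonneg hC kap_nonneg) (Real.sqrt_nonneg _))
        (pow_nonneg (div_nonneg (Real.sqrt_nonneg _) (sub_nonneg.2 hq.le)) _)
    · show C * (√t / √(t - q ^ 2)) * √d * _ ≤ _
      calc C * (√t / √(t - q ^ 2)) * √d * (√t / (t - q ^ 2)) ^ m
          = C * √d * (√t / √(t - q ^ 2)) * (√t / (t - q ^ 2)) ^ m := by ring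
        _ ≤ _ := by
          have : 0 ≤ t - q ^ 2 := by linarith
          gcongr
          linarith
  refine le_trans (le_of_eq ?_) ((lintegral_vec_le hY hq hL2))
  have hF : Continuous fun z : Space d × Space d => ‖vec Y q z.1 z.2‖ ^ 2 :=
    (continuous_vec hY hq).norm.pow 2
  have hgm : Measurable fun z : Space d × Space d => ENNReal.ofReal (‖vec Y q z.1 z.2‖ ^ 2) *
      ENNReal.ofReal (X.wt q z.1 / sd X.V [] (X.t, X.y)) :=
    hF.measurable.ennreal_ofReal.mul
      (((continuous_wt (X := X) hq).comp continuous_fst).div_const _).measurable.ennreal_ofReal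
  rw [lintegral_prod_symm _ hgm.aemeasurable]
  calc _ = ∫⁻ _u : Space d, (∫⁻ ξ, ENNReal.ofReal (‖iteratedDeriv (m + 1)
          (fun q' => score V (t - q' ^ 2) (y + q' • w q' ξ)) q‖ ^ 2) ∂stdGaussian (Space d))
          ∂stdGaussian (Space d) := by simp
    _ = _ := lintegral_congr fun u => by
      simp only [hn _ u]
      exact hw.lintegral_law (X := X) hq (F := fun a => ENNReal.ofReal (‖vec Y q a u‖ ^ 2))
        ((hF.comp (Continuous.prodMk_left u)).measurable.ennreal_ofReal)

/-- Two pair flows agree. -/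
theorem IsPair.unique_regular {V : Space d → ℝ} (h : Regular V) {y : Space d} {t ρ q₁ : ℝ} (hρ : ρ ≠ 0)
    (hq : q₁ ^ 2 < t) {w U w' U' : ℝ → Space d × Space d → Space d}
    (hw : IsPair V y t ρ q₁ w U) (hw' : IsPair V y t ρ q₁ w' U') {q : ℝ} (hq' : q ∈ Set.Icc 0 q₁)
    (z : Space d × Space d) : w q z = w' q z ∧ U q z = U' q z := by
  have e := (h.field_pairG (ρ := ρ) hq).solves_unique (hw.solves hρ z) (hw'.solves hρ z)
    (by rw [pairPath_zero hw, pairPath_zero hw']) (t := q₁ - q)
    ⟨by linarith [hq'.2], by linarith [hq'.1]⟩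
  simp only [pairPath, sub_sub_cancel, Prod.mk.injEq, true_and] at e
  obtain ⟨e1, e2⟩ := e
  rw [← e1, add_right_inj] at e2
  exact ⟨e1, smul_right_injective _ hρ e2⟩

theorem isFiniteMeasure_pairLaw (X : Ctx d) {q : ℝ} (hq : q ^ 2 < X.t) :
    IsFiniteMeasure (pairLaw X.V X.y X.t q) := by
  obtain ⟨K, hK, hKb⟩ := wt_le (X := X) hq
  have hc := (continuous_wt (X := X) hq).div_const (sd X.V [] (X.t, X.y))
  have hi : Integrable (fun a => X.wt q a / sd X.V [] (X.t, X.y)) (stdGaussian (Space d)) :=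
    Integrable.of_bound hc.aestronglyMeasurable (K / sd X.V [] (X.t, X.y))
      (Eventually.of_forall fun a => by
        rw [Real.norm_eq_abs, abs_of_nonneg (div_nonneg (X.wt_pos a).le X.mass_pos.le)]
        exact div_le_div_of_nonneg_right (hKb a) X.mass_pos.le)
  have : IsFiniteMeasure ((stdGaussian (Space d)).withDensity fun a =>
      ENNReal.ofReal (smooth X.V (X.t - q ^ 2) (X.y + q • a) / smooth X.V X.t X.y)) :=
    isFiniteMeasure_withDensity_ofReal hi.2
  exact Measure.prod.instIsFiniteMeasure _ _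

theorem pairLaw_integral (X : Ctx d) {q : ℝ} (hq : q ^ 2 < X.t) (f : Space d × Space d →ᵇ ℝ) :
    ∫ z, f z ∂pairLaw X.V X.y X.t q = pairMean X.V X.y X.t q f := by
  have hc := (continuous_wt (X := X) hq).div_const (sd X.V [] (X.t, X.y))
  have := isFiniteMeasure_pairLaw X hq
  have hi : Integrable f (pairLaw X.V X.y X.t q) := f.integrable _
  unfold pairLaw at hi ⊢
  rw [integral_prod _ hi, integral_withDensity_eq_integral_toReal_smul
    (by exact hc.measurable.ennreal_ofReal) (Eventually.of_forall fun _ => ENNReal.ofReal_lt_top),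
    pairMean, ← integral_div]
  refine integral_congr_ae (Eventually.of_forall fun a => ?_)
  simp only [smul_eq_mul]
  rw [ENNReal.toReal_ofReal (div_nonneg (smooth_pos' X.hV _ _).le (smooth_pos' X.hV _ _).le)]
  ring

/-- The law of any pair flow. -/
theorem IsPair.map_eq (X : Ctx d) {ν q₁ : ℝ} (hν : 0 < ν) (hq0 : 0 ≤ q₁) (hq₁ : q₁ ^ 2 < X.t)
    {w U : ℝ → Space d × Space d → Space d} (hw : IsPair X.V X.y X.t ν q₁ w U) {q : ℝ}
    (hq : q ∈ Set.Icc 0 q₁) :
    (pairLaw X.V X.y X.t q₁).map (fun z => (w q z, U q z)) = pairLaw X.V X.y X.t q := by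
  obtain ⟨w', U', hw', hlaw⟩ := pairSpec score_spec d X.V X.hV X.y X.t ν q₁ X.ht0 X.ht1 hν hq0 hq₁
  have he := fun z => hw.unique_regular (regular score_spec X.hV) hν.ne' hq₁ hw' hq z
  have hq' : q ^ 2 < X.t := lt_of_le_of_lt (pow_le_pow_left₀ hq.1 hq.2 2) hq₁
  have hc : Continuous fun z => (w q z, U q z) := (hw.cont q hq).1.prodMk (hw.cont q hq).2
  have := isFiniteMeasure_pairLaw X hq'
  have := isFiniteMeasure_pairLaw X hq₁
  refine ext_of_forall_integral_eq_of_IsFiniteMeasure fun f => ?_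
  rw [integral_map hc.aemeasurable f.continuous.aestronglyMeasurable]
  set M := ‖f‖ + 1
  have hM : 0 < M := by positivity
  have e1 : ∀ {p : ℝ}, p ^ 2 < X.t → ∀ (g : Space d × Space d →ᵇ ℝ) (a b : ℝ),
      pairMean X.V X.y X.t p (fun z => a * g z + b) = a * pairMean X.V X.y X.t p g + b * (pairLaw X.V X.y X.t p).real Set.univ := by
    intro p hp g a b
    have := isFiniteMeasure_pairLaw X hp
    have h1 := pairLaw_integral X hp (a • g + BoundedContinuousFunction.const _ b)
    simp only [BoundedContinuousFunction.coe_add, BoundedContinuousFunction.coe_smul, Pi.add_apply,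
      BoundedContinuousFunction.const_apply, smul_eq_mul] at h1
    rw [integral_add ((g.integrable _).const_mul a) (integrable_const b), integral_const_mul,
      integral_const, smul_eq_mul, pairLaw_integral X hp g] at h1
    rw [mul_comm b]
    exact h1.symm
  set G : Space d × Space d →ᵇ ℝ := f.compContinuous ⟨_, hc⟩
  set one : Space d × Space d →ᵇ ℝ := BoundedContinuousFunction.const _ 1
  have h1 := hlaw (fun _ => (1 : ℝ)) continuous_const (fun _ => ⟨zero_le_one, le_rfl⟩) q hq
  have hmass : (pairLaw X.V X.y X.t q₁).real Set.univ = (pairLaw X.V X.y X.t q).real Set.univ := by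
    have a := pairLaw_integral X hq₁ one
    have b := pairLaw_integral X hq' one
    simp only [one, BoundedContinuousFunction.const_apply, integral_const, smul_eq_mul, mul_one] at a b
    rw [a, b]
    exact h1
  have h2 := hlaw (fun z => (2 * M)⁻¹ * f z + 1 / 2) (by fun_prop) (fun z => by
    have hb : |f z| ≤ M := ((Real.norm_eq_abs _).symm.trans_le (f.norm_coe_le_norm z)).trans (le_add_of_nonneg_right zero_le_one)
    rw [abs_le] at hb
    have : (2 * M)⁻¹ * f z = f z / (2 * M) := by ring
    rw [this]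
    constructor
    · have : -(1 / 2) ≤ f z / (2 * M) := by rw [le_div_iff₀ (by positivity)]; linarith
      linarith
    · have : f z / (2 * M) ≤ 1 / 2 := by rw [div_le_iff₀ (by positivity)]; linarith
      linarith) q hq
  rw [e1 hq' f] at h2
  have h3 : pairMean X.V X.y X.t q₁ (fun z => (2 * M)⁻¹ * f (w' q z, U' q z) + 1 / 2)
      = pairMean X.V X.y X.t q₁ (fun z => (2 * M)⁻¹ * G z + 1 / 2) := by
    congr 1; funext z; simp [G, (he z).1, (he z).2]
  rw [h3, e1 hq₁ G, hmass] at h2
  rw [show (∫ z, f (w q z, U q z) ∂pairLaw X.V X.y X.t q₁)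
      = ∫ z, G z ∂pairLaw X.V X.y X.t q₁ from rfl, pairLaw_integral X hq₁, pairLaw_integral X hq']
  exact mul_left_cancel₀ (inv_ne_zero (by positivity)) (add_right_cancel h2)

theorem pairSq_eq_pairLaw (X : Ctx d) {q : ℝ} (hq : q ^ 2 < X.t) {F : Space d × Space d → Space d}
    (hF : Continuous F) :
    pairSq X.V X.y X.t q F = ∫⁻ z, ENNReal.ofReal (‖F z‖ ^ 2) ∂pairLaw X.V X.y X.t q := by
  have hc := (continuous_wt (X := X) hq).div_const (sd X.V [] (X.t, X.y))
  have hm : Measurable fun z => ENNReal.ofReal (‖F z‖ ^ 2) :=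
    (hF.norm.pow 2).measurable.ennreal_ofReal
  unfold pairSq pairLaw
  rw [lintegral_prod _ hm.aemeasurable, lintegral_withDensity_eq_lintegral_mul _
    (by exact hc.measurable.ennreal_ofReal) hm.lintegral_prod_right']
  exact lintegral_congr fun a => mul_comm _ _

/-- Derivatives in time along the pair flow. -/
theorem pairTimeSpec : PairTimeSpec := by
  intro m
  obtain ⟨C₀, N', J', hC₀, hit⟩ := exists_DR_iterate m 0 0
  obtain ⟨Cb, hCb, hb⟩ := exists_b_bound N' J'
  obtain ⟨C12, hC12, h12⟩ := exists_b12_bound N' J'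
  refine ⟨C₀ * (Cb + C12) + 1, by positivity,
    fun d V hV y t ν q₁ ht0 ht1 hν hq0 hq₁ w U hw j => ?_⟩
  set X : Ctx d := ⟨V, y, t, hV, ht0, ht1⟩
  have hν0 : 0 < ν := lt_of_lt_of_le (Real.sqrt_pos.2 ht0) hν
  have hdom : ∀ s ∈ Set.Icc 0 q₁, s ^ 2 < t := fun s hs =>
    lt_of_le_of_lt (pow_le_pow_left₀ hs.1 hs.2 2) hq₁
  set F : Fld d := match j with
    | 0 => X.bF
    | 1 => X.b1F
    | 2 => X.b2F with hFdef
  have hF : X.A 1 F := by
    fin_cases j <;> simp [hFdef, alg_bF, alg_b1F, alg_b2F]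
  have hnode : ∀ z, ∀ s ∈ Set.Icc 0 q₁,
      nodeFn V y t w U z j s = vec F s (w s z) (U s z) := by
    intro z s hs
    have hs' := hdom s hs
    have e1 := scoreD_vec (X := X) hs' (w s z) (U s z) uF (U s z) fun i => rfl
    fin_cases j
    · exact score_vec (X := X) hs' (w s z) (U s z)
    · exact e1
    · show scoreD V (t - s ^ 2) (y + s • w s z) (scoreD V (t - s ^ 2) (y + s • w s z) (U s z)) = _
      refine scoreD_vec (X := X) hs' (w s z) _ X.b1F (U s z) fun i => ?_
      rw [e1]
      simp [vec, b1F, bv, EuclideanSpace.basisFun_apply, Pi.single_apply, Finset.sum_apply]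
  have hder : ∀ k z, ∀ s ∈ Set.Icc 0 q₁, HasDerivWithinAt
      (fun s => vec ((X.DR ν)^[k] F) s (w s z) (U s z))
      (vec ((X.DR ν)^[k + 1] F) s (w s z) (U s z)) (Set.Icc 0 q₁) s := by
    intro k z s hs
    have hs' := hdom s hs
    have eb : ∀ i, scoreD V (t - s ^ 2) (y + s • w s z) (U s z) i
        = X.b1F [i] s (w s z) (U s z) := fun i => by
      rw [scoreD_vec (X := X) hs' (w s z) (U s z) uF (U s z) fun i => rfl]
      simp [vec, b1F, bv, EuclideanSpace.basisFun_apply, Pi.single_apply, Finset.sum_apply]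
    have hwd := hw.derivW z s hs
    set c : Space d := ∑ i, (-(ν⁻¹ * X.DT X.bF [i] s (w s z) (U s z))) • bv i with hc
    -- the derivative of `U`
    have hUc : DifferentiableWithinAt ℝ (fun s => score V (t - s ^ 2) (y + s • w s z))
        (Set.Icc 0 q₁) s :=
      ((((regular score_spec hV).contDiffAt 1 (z := (t - s ^ 2, y + s • w s z))
        (by simp; linarith)).differentiableAt one_ne_zero).hasFDerivAt.comp_hasDerivWithinAt s
          (f := fun s => (t - s ^ 2, y + s • w s z))
          ((((hasDerivWithinAt_id s _).pow 2).const_sub t).prodMk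
            (((hasDerivWithinAt_id s _).smul hwd).const_add y))).differentiableWithinAt
    have hX := hw.derivX z s hs
    have hU : HasDerivWithinAt (fun s => U s z) c (Set.Icc 0 q₁) s := by
      obtain ⟨e, he⟩ : ∃ e, HasDerivWithinAt (fun s => score V (t - s ^ 2) (y + s • w s z)) e
          (Set.Icc 0 q₁) s := ⟨_, hUc.hasDerivWithinAt⟩
      have h1 : HasDerivWithinAt (fun s => U s z)
          (ν⁻¹ • ((s / ν) • scoreD V (t - s ^ 2) (y + s • w s z)
            (scoreD V (t - s ^ 2) (y + s • w s z) (U s z)) - e)) (Set.Icc 0 q₁) s := by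
        refine ((hX.sub he).const_smul ν⁻¹).congr (fun s' _ => ?_) ?_ <;>
          simp [smul_smul, inv_mul_cancel₀ hν0.ne']
      refine h1.congr_deriv ?_
      -- the derivative of the score is read off from the coordinates
      ext i
      have hei : e i = X.DT X.bF [i] s (w s z) (U s z)
          + s / ν * X.b2F [i] s (w s z) (U s z) := by
        have hc1 := ((Alg.coef (X := X) [i] (by simp)).comp_hasDeriv hs' hwd
          (hasDerivWithinAt_const s _ (U s z)))
        have hc2 : HasDerivWithinAt (fun s' => X.coef [i] s' (w s' z) (U s z)) (e i)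
            (Set.Icc 0 q₁) s :=
          ((EuclideanSpace.proj i : Space d →L[ℝ] ℝ).hasFDerivAt.comp_hasDerivWithinAt s he).congr
            (fun s' hs'' => (score_coord hV (by linarith [hdom s' hs'']) _ i).symm)
            (score_coord hV (by linarith) _ i).symm
        have hu := (uniqueDiffOn_Icc hq0 s hs)
        rw [(hc2.derivWithin hu).symm.trans (hc1.derivWithin hu)]
        have eS : ∀ l, score V (t - s ^ 2) (y + s • w s z) l
            = X.coef [l] s (w s z) (U s z) := fun l => score_coord hV (by linarith) _ l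
        simp only [PiLp.add_apply, PiLp.smul_apply, smul_eq_mul, eS, eb, PiLp.zero_apply, zero_mul,
          sum_const_zero, add_zero, add_mul, sum_add_distrib]
        show _ = X.dT (X.coef [i]) s (w s z) (U s z) + _
        simp only [Ctx.dT, ← add_assoc, dW_coef (X := X) _ _ hs', b2F, Ctx.Mul, tsum'_one,
          List.take_succ_cons, List.take_zero, List.drop_succ_cons, List.drop_zero, List.cons_append,
          List.nil_append, mul_sum]
        congr 1
        refine sum_congr rfl fun l _ => ?_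
        rw [coef_perm (List.Perm.swap l i []) hs']
        ring
      have h2 : scoreD V (t - s ^ 2) (y + s • w s z) (scoreD V (t - s ^ 2) (y + s • w s z) (U s z)) i
          = X.b2F [i] s (w s z) (U s z) := by
        rw [scoreD_vec (X := X) hs' (w s z) _ X.b1F (U s z) eb]
        simp [vec, b2F, bv, EuclideanSpace.basisFun_apply, Pi.single_apply, Finset.sum_apply]
      simp [hc, bv, EuclideanSpace.basisFun_apply, Pi.single_apply, Finset.sum_apply, h2, hei]
    refine vec_hasDeriv (alg_DR_iterate ν k hF) hs' hwd hU fun i => ?_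
    rw [Function.iterate_succ_apply']
    have eS : ∀ l, score V (t - s ^ 2) (y + s • w s z) l = X.coef [l] s (w s z) (U s z) :=
      fun l => score_coord hV (by linarith) _ l
    have ec : ∀ l, c l = -(ν⁻¹ * X.DT X.bF [l] s (w s z) (U s z)) := fun l => by
      simp [hc, bv, EuclideanSpace.basisFun_apply, Pi.single_apply, Finset.sum_apply]
    show _ = X.dT _ s (w s z) (U s z) + ν⁻¹ * X.gen _ [i] s (w s z) (U s z)
    rw [gen_apply (alg_DR_iterate ν k hF) hs' [i] rfl]
    simp only [PiLp.add_apply, PiLp.smul_apply, smul_eq_mul, eS, eb, ec, Ctx.dT, add_mul, neg_mul,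
      sum_add_distrib, mul_sum, mul_add, mul_neg, one_mul, sum_neg_distrib, mul_assoc]
    ring
  have hiter : ∀ k z, Set.EqOn (iteratedDerivWithin k (nodeFn V y t w U z j) (Set.Icc 0 q₁))
      (fun s => vec ((X.DR ν)^[k] F) s (w s z) (U s z)) (Set.Icc 0 q₁) := by
    intro k z
    induction k with
    | zero => intro s hs; simpa using hnode z s hs
    | succ k ih =>
      intro s hs
      rw [iteratedDerivWithin_succ, derivWithin_congr ih (ih hs)]
      exact (hder k z s hs).derivWithin (uniqueDiffOn_Icc hq0 s hs)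
  refine ⟨fun z => ?_, fun q hq => ?_⟩
  · refine contDiffOn_of_differentiableOn_deriv fun k hk => ?_
    exact DifferentiableOn.congr (fun s hs => (hder k z s hs).differentiableWithinAt) (hiter k z)
  set Y := (X.DR ν)^[m] F
  have hY : X.A 1 Y := alg_DR_iterate ν m hF
  have hq' : q ^ 2 < t := hdom q hq
  have hc : Continuous fun z => (w q z, U q z) := (hw.cont q hq).1.prodMk (hw.cont q hq).2
  have hv : Continuous fun z : Space d × Space d => vec Y q z.1 z.2 := continuous_vec (X := X) hY hq'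
  rw [show (fun z => iteratedDerivWithin m (nodeFn V y t w U z j) (Set.Icc 0 q₁) q)
      = (fun z : Space d × Space d => vec Y q z.1 z.2) ∘ fun z => (w q z, U q z) from
    funext fun z => hiter m z hq]
  rw [pairSq_eq_pairLaw X hq₁ (hv.comp hc)]
  simp only [Function.comp_apply]
  rw [← lintegral_map (f := fun z => ENNReal.ofReal (‖vec Y q z.1 z.2‖ ^ 2))
    (hv.norm.pow 2).measurable.ennreal_ofReal hc.measurable,
    IsPair.map_eq X hν0 hq0.le hq₁ hw hq, ← pairSq_eq_pairLaw X hq' hv]
  have hsk := X.sig_nonneg (q := q)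
  set Mb := √d + ‖score V t y‖
  have hFb : X.TB q N' J' 1 F ((Cb + C12) * Mb) := by
    have hd : (0 : ℝ) ≤ √d := Real.sqrt_nonneg _
    have h1 : Cb * Mb ≤ (Cb + C12) * Mb := by gcongr; linarith
    have h2 : C12 * √d ≤ (Cb + C12) * Mb := by
      refine mul_le_mul (by linarith) ?_ hd (by positivity)
      exact le_add_of_nonneg_right (norm_nonneg _)
    fin_cases j
    · exact (hb d X q hq').mono (by positivity) h1
    · exact (h12 d X q hq').1.mono (by positivity) h2
    · exact (h12 d X q hq').2.mono (by positivity) h2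
  have hL := hit d X q ν hq' hν 1 F _ (by positivity) hF hFb
  refine le_trans (le_of_eq ?_) (le_trans (lintegral_vec_le hY hq' hL)
    (ENNReal.ofReal_le_ofReal (pow_le_pow_left₀ (by positivity) ?_ 2)))
  · have hg : Continuous fun z : Space d × Space d => ‖vec Y q z.1 z.2‖ ^ 2 := hv.norm.pow 2
    have hgm : Measurable fun z : Space d × Space d => ENNReal.ofReal (‖vec Y q z.1 z.2‖ ^ 2) *
        ENNReal.ofReal (X.wt q z.1 / sd X.V [] (X.t, X.y)) :=
      hg.measurable.ennreal_ofReal.mul
        (((continuous_wt (X := X) hq').comp continuous_fst).div_const _).measurable.ennreal_ofReal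
    rw [lintegral_prod _ hgm.aemeasurable]
    unfold pairSq
    refine lintegral_congr fun a => ?_
    dsimp only
    rw [lintegral_mul_const' _ _ ENNReal.ofReal_ne_top]
    rfl
  · have hk := kap_one_le (X := X) hq'
    show C₀ * ((Cb + C12) * Mb) * X.sig q ^ m ≤ _
    rw [sig_eq (X := X) hq'] at hsk ⊢
    have hM0 : 0 ≤ Mb := by positivity
    calc C₀ * ((Cb + C12) * Mb) * (√t / (t - q ^ 2)) ^ m
        ≤ (C₀ * (Cb + C12) + 1) * Mb * 1 * (√t / (t - q ^ 2)) ^ m := by
          refine mul_le_mul_of_nonneg_right ?_ (pow_nonneg hsk _)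
          nlinarith
      _ ≤ (C₀ * (Cb + C12) + 1) * Mb * (√t / √(t - q ^ 2)) * (√t / (t - q ^ 2)) ^ m := by
          refine mul_le_mul_of_nonneg_right (mul_le_mul_of_nonneg_left hk ?_) (pow_nonneg hsk _)
          positivity

end

end P347.Zero
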