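import Vale.Agent.P347.Zero.Sweeps
import Vale.Agent.P347.Zero.PathsFacts
import Vale.Agent.P347.Zero.Sweep
import Vale.Agent.P347.Zero.Time

/-!
# P347: one sweep in a circuit

What all the nodes hand back and the two forms at the fine end give, by linear combinations alone,
what the next iterate hands to every node, and the value `X` at the coarse end; the ends alone give
the first points. No gate is added.
-/

namespace P347.Zero

open MeasureTheory ProbabilityTheory Set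
open scoped ENNReal

noncomputable section

attribute [local irreducible] score smooth scoreD

variable {d : ℕ}

theorem Bld.eval_fsum {En : Env d} (S : Bld En) (V : Space d → ℝ) (c : Space d) (x : En.X)
    (ξ : ℕ → Space d) {ι : Type} (s : Finset ι) (a : ι → ℝ) (φ : ι → Form) :
    S.eval V c x ξ (∑ i ∈ s, a i • φ i) = ∑ i ∈ s, a i • S.eval V c x ξ (φ i) := by
  classical
  induction s using Finset.induction_on with
  | empty => simp [Bld.eval_zero]
  | insert i s hi ih => simp only [Finset.sum_insert hi, Bld.eval_add, Bld.eval_smul, ih]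

/-- The two sums of a sweep against its recursion. -/
theorem sweep_parts_le {J M : ℕ} {t s h ρ G θ sx sy Lx Ly a u C : ℝ} (ht : 0 < t) (hs : 0 < s)
    (hst : s ≤ t) (h0 : 0 ≤ h) (h1 : h ≤ 1 / 2) (hρ : 0 < ρ) (hG : 0 ≤ G) (hθ : 0 ≤ θ)
    (hsx : 0 ≤ sx) (hsy : 0 ≤ sy) (hLx : 0 ≤ Lx) (hLy : 0 ≤ Ly) (ha : 0 ≤ a) (hu : 0 ≤ u)
    (hC : 0 ≤ C) :
    (∀ p : Fin J × Fin M, gridNode (pairGrid t s h) p
        * ∑ i, |upWeight (pairGrid t s h) p i| * (C * (sx + Lx * a)
          + C * (tanP G sx Lx a / √(t - gridNode (pairGrid t s h) i ^ 2) + tanQ G ρ sx Lx a u) / ρ)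
      ≤ 16 * toSize M * C * sweepOut t ρ G θ sx sy Lx Ly a u) ∧
    ∀ (j₀ : ℕ) (W : Fin J × Fin M → ℝ), UpW (pairGrid t s h) j₀ W →
      ∑ i, |W i| * (gridNode (pairGrid t s h) i / ρ
          * (C * (sqP G θ sx sy Lx Ly a / √(t - gridNode (pairGrid t s h) i ^ 2)
            + sqQ G θ ρ sx Lx Ly a u)))
        ≤ 16 * toSize M * C * sweepOut t ρ G θ sx sy Lx Ly a u := by
  have hT : (0 : ℝ) ≤ toSize M := le_trans zero_le_one (one_le_toSize M)
  have hU : 0 ≤ uPart ρ sx Lx a u := by unfold uPart; positivity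
  have hb0 : 0 ≤ sx + Lx * a := by positivity
  have hP : 0 ≤ tanP G sx Lx a := by unfold tanP; positivity
  have hQ : 0 ≤ tanQ G ρ sx Lx a u := by unfold tanQ; positivity
  have hP' : 0 ≤ sqP G θ sx sy Lx Ly a := by unfold sqP; positivity
  have hQ' : 0 ≤ sqQ G θ ρ sx Lx Ly a u := by unfold sqQ; positivity
  constructor
  · intro p
    refine (sweep_sum_z ht hs hst h0 h1 hρ p (b := fun _ => C * (sx + Lx * a))
      (B := fun i => C * (tanP G sx Lx a / √(t - gridNode (pairGrid t s h) i ^ 2)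
        + tanQ G ρ sx Lx a u))
      (mul_nonneg hC hb0) (mul_nonneg hC hP) (mul_nonneg hC hQ) (fun _ => le_rfl)
      fun i => le_of_eq (by ring)).trans ?_
    have : 0 ≤ 16 * toSize M * C
        * (√t / ρ * sqP G θ sx sy Lx Ly a + t / ρ * sqQ G θ ρ sx Lx Ly a u) := by positivity
    unfold sweepOut
    linarith
  · intro j₀ W hW
    refine (sweep_sum_x ht hs hst h0 h1 hρ hW
      (B := fun i => C * (sqP G θ sx sy Lx Ly a / √(t - gridNode (pairGrid t s h) i ^ 2)
        + sqQ G θ ρ sx Lx Ly a u))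
      (mul_nonneg hC hP') (mul_nonneg hC hQ') (fun i => by positivity)
      fun i => le_of_eq (by ring)).trans ?_
    have : 0 ≤ 16 * toSize M * C * (t * (sx + Lx * a) + √t / ρ * tanP G sx Lx a
        + t / ρ * tanQ G ρ sx Lx a u) := by positivity
    unfold sweepOut
    linarith

section Parts

variable {n J qb : ℕ} {C C₀ : ℝ} {En : Env d} {P : Par} {S : Bld En}

/-- The form of the point at a node. -/
def sweepZ (P : Par) (J n : ℕ) (φ₁ : Form) (fb fB : Fin J × Fin (n + 1) → Form)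
    (p : Fin J × Fin (n + 1)) : Form :=
  (gridNode (pairGrid P.t P.s P.h) p / √(P.t - P.s)) • φ₁
    + ((1 - gridNode (pairGrid P.t P.s P.h) p / √(P.t - P.s)) • Form.centre
      + ∑ i, (-(gridNode (pairGrid P.t P.s P.h) p * upWeight (pairGrid P.t P.s P.h) p i))
          • (fb i + P.ρ⁻¹ • fB i))

/-- The form of `X`, for the weights `W`. -/
def sweepX (P : Par) (J n : ℕ) (φX : Form) (fS : Fin J × Fin (n + 1) → Form)
    (W : Fin J × Fin (n + 1) → ℝ) : Form :=
  φX + ∑ i, (-(W i * (gridNode (pairGrid P.t P.s P.h) i / P.ρ))) • fS i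

variable {π : Paths En S.circ.T P} {A : Lev} {fb fB fS : Fin J × Fin (n + 1) → Form}

/-- The seminorms of the point at a node. -/
theorem has_sweepZ (hC : 0 ≤ C) (hok : S.Ok) (hP : P.Ok d S.circ.T qb C₀) (hG : 0 ≤ P.G)
    (hA : A.Ok P)
    (hout : ∀ i, NodeOut π S (gridNode (pairGrid P.t P.s P.h) i) A C (fb i) (fB i) (fS i))
    {φ₁ : Form} {e₁ l₁ : ℝ} (he₁ : 0 ≤ e₁) (hl₁ : 0 ≤ l₁) (h₁ : S.Has φ₁ 0 e₁ l₁)
    (hν : 8 * (6 + 16 * toSize (n + 1) * C) * (√(S.circ.T : ℝ) * S.circ.tau / √P.t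
      + P.t * (√(S.circ.T : ℝ) * P.bx) + √P.t / P.ρ * (P.G * P.bx)) ≤ P.ν)
    (p : Fin J × Fin (n + 1)) :
    S.Has (sweepZ P J n φ₁ fb fB p)
      (P.ν * √(P.t - gridNode (pairGrid P.t P.s P.h) p ^ 2) / 8)
      (e₁ + 16 * toSize (n + 1) * C
        * sweepOut P.t P.ρ P.G P.θ P.sx P.sy P.Lx P.Ly A.ea A.eu)
      (1 + l₁ + 16 * toSize (n + 1) * C
        * sweepOut P.t P.ρ P.G P.θ 0 0 P.Lx P.Ly A.la A.lu) := by
  have hs := hP.s_pos
  have ht : 0 < P.t := by linarith [hP.s_le]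
  have hst : P.s < P.t := by linarith [hP.s_le]
  have h0 : 0 ≤ P.h := hP.h_pos.le
  have h1 : P.h ≤ 1 / 2 := by linarith [hP.h_le]
  have hρ : 0 < P.ρ := (Real.sqrt_pos.2 ht).trans_le hP.ρ_ge
  have hLx : 0 ≤ P.Lx := zero_le_one.trans hP.Lx_ge
  have hLy : 0 ≤ P.Ly := zero_le_one.trans hP.Ly_ge
  have hbx := hP.bx_nn
  have hτ := hok.tau
  have hTs : (0 : ℝ) ≤ toSize (n + 1) := le_trans zero_le_one (one_le_toSize _)
  set q := gridNode (pairGrid P.t P.s P.h) p with hqdef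
  obtain ⟨hc0, hc6⟩ := one_sub_node_div_le ht hs hP.s_le h0 h1 p
  obtain ⟨oe, -⟩ := sweep_parts_le (J := J) (M := n + 1) ht hs hst.le h0 h1 hρ hG hP.θ_pos.le
    hP.sx_nn hP.sy_nn hLx hLy hA.ea hA.eu hC
  obtain ⟨ol, -⟩ := sweep_parts_le (J := J) (M := n + 1) ht hs hst.le h0 h1 hρ hG hP.θ_pos.le
    (le_refl (0 : ℝ)) (le_refl (0 : ℝ)) hLx hLy hA.la hA.lu hC
  have hq0 : 0 ≤ q := (gridNode_pair_mem ht h0 (by linarith) p).1
  have hsum := Bld.Has.sum hok Finset.univ
    (fun i => -(q * upWeight (pairGrid P.t P.s P.h) p i)) (fun i => fb i + P.ρ⁻¹ • fB i) _ _ _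
    fun i _ => (hout i).hb.add hok ((hout i).hB.smul P.ρ⁻¹)
  have habs : ∀ i, |-(q * upWeight (pairGrid P.t P.s P.h) p i)|
      = q * |upWeight (pairGrid P.t P.s P.h) p i| := fun i => by
    rw [abs_neg, abs_mul, abs_of_nonneg hq0]
  have hρi : |P.ρ⁻¹| = P.ρ⁻¹ := abs_of_pos (inv_pos.2 hρ)
  have hcq : |q / √(P.t - P.s)| = q / √(P.t - P.s) := abs_of_nonneg hc0.1
  have hcq' : |1 - q / √(P.t - P.s)| = 1 - q / √(P.t - P.s) := abs_of_nonneg (sub_nonneg.2 hc0.2)
  refine ((h₁.smul (q / √(P.t - P.s))).add hok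
    ((Bld.has_centre.smul (1 - q / √(P.t - P.s))).add hok hsum)).mono ?_ ?_ ?_
  · simp only [habs, hρi, hcq', mul_zero, zero_add, mul_assoc, ← Finset.mul_sum]
    have hb := sweep_blur_z ht hs hst.le h0 h1 hρ p
      (a := C * (√(S.circ.T : ℝ) * P.bx)) (c := C * (P.G * P.bx)) (by positivity) (by positivity)
      (b := fun i => C * (√(S.circ.T : ℝ) * (√(P.t - gridNode (pairGrid P.t P.s P.h) i ^ 2) * P.bx)))
      (B := fun _ => C * (P.G * P.bx)) (fun i => le_of_eq (by ring)) fun _ => le_rfl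
    simp only [div_eq_inv_mul _ P.ρ] at hb
    refine (add_le_add (mul_le_mul_of_nonneg_right hc6
      (mul_nonneg (Real.sqrt_nonneg _) hτ)) hb).trans ?_
    set r := P.t - q ^ 2
    have hr0 : 0 ≤ r := by
      have := (pow_le_pow_left₀ hq0 (gridNode_pair_mem ht h0 (by linarith) p).2 2).trans_eq
        (Real.sq_sqrt (sub_nonneg.2 hst.le))
      linarith
    have hrt : r ≤ P.t := sub_le_self _ (sq_nonneg q)
    have ht' := Real.sqrt_pos.2 ht
    have e1 : r / P.t * (√(S.circ.T : ℝ) * S.circ.tau)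
        ≤ √r * (√(S.circ.T : ℝ) * S.circ.tau / √P.t) := by
      have e : r / P.t ≤ √r / √P.t := by
        rw [div_le_div_iff₀ ht ht']
        calc r * √P.t = √r * (√r * √P.t) := by rw [← mul_assoc, Real.mul_self_sqrt hr0]
          _ ≤ √r * (√P.t * √P.t) := by gcongr
          _ = _ := by rw [Real.mul_self_sqrt ht.le]
      refine (mul_le_mul_of_nonneg_right e (by positivity)).trans_eq ?_
      ring
    have e2 : r * √r * (C * (√(S.circ.T : ℝ) * P.bx))
        ≤ C * (√r * (P.t * (√(S.circ.T : ℝ) * P.bx))) := by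
      calc _ ≤ P.t * √r * (C * (√(S.circ.T : ℝ) * P.bx)) := by gcongr
        _ = _ := by ring
    have e3 : r * (P.ρ⁻¹ * (C * (P.G * P.bx))) ≤ C * (√r * (√P.t / P.ρ * (P.G * P.bx))) := by
      calc _ = √r * √r * (P.ρ⁻¹ * (C * (P.G * P.bx))) := by rw [Real.mul_self_sqrt hr0]
        _ ≤ √r * √P.t * (P.ρ⁻¹ * (C * (P.G * P.bx))) := by gcongr
        _ = _ := by ring
    have k1 := mul_le_mul_of_nonneg_left e1 (by norm_num : (0 : ℝ) ≤ 6)
    have k2 := mul_le_mul_of_nonneg_left (add_le_add e2 e3)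
      (by positivity : (0 : ℝ) ≤ 16 * toSize (n + 1))
    have k3 := mul_le_mul_of_nonneg_left hν (Real.sqrt_nonneg r)
    set X1 := √(S.circ.T : ℝ) * S.circ.tau / √P.t
    set X2 := P.t * (√(S.circ.T : ℝ) * P.bx)
    set X3 := √P.t / P.ρ * (P.G * P.bx)
    have k4 : 0 ≤ √r * (6 * (X2 + X3) + 16 * toSize (n + 1) * C * X1) := by positivity
    linarith
  · simp only [habs, hρi, hcq, mul_zero, zero_add, mul_assoc, ← Finset.mul_sum, ← div_eq_inv_mul]
    simpa only [mul_assoc] using add_le_add (mul_le_of_le_one_left he₁ hc0.2) (oe p)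
  · simp only [habs, hρi, mul_assoc, ← Finset.mul_sum, hcq, hcq', mul_one, ← div_eq_inv_mul]
    have hol := ol p
    simp only [zero_add, mul_assoc] at hol ⊢
    have hl' := mul_le_of_le_one_left hl₁ hc0.2
    have hc1 := hc0.1
    linarith

/-- The seminorms of `X`. -/
theorem has_sweepX (hC : 0 ≤ C) (hok : S.Ok) (hP : P.Ok d S.circ.T qb C₀) (hG : 0 ≤ P.G)
    (hA : A.Ok P)
    (hout : ∀ i, NodeOut π S (gridNode (pairGrid P.t P.s P.h) i) A C (fb i) (fB i) (fS i))
    {φX : Form} {eX lX : ℝ} (hX : S.Has φX 0 eX lX) {j₀ : ℕ} {W : Fin J × Fin (n + 1) → ℝ}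
    (hW : UpW (pairGrid P.t P.s P.h) j₀ W) {nz : ℝ}
    (hnz : ∑ i, |W i| * (gridNode (pairGrid P.t P.s P.h) i / P.ρ
      * (C * (P.θ⁻¹ * P.G * P.by'))) ≤ nz) :
    S.Has (sweepX P J n φX fS W) nz
      (eX + 16 * toSize (n + 1) * C * sweepOut P.t P.ρ P.G P.θ P.sx P.sy P.Lx P.Ly A.ea A.eu)
      (lX + 16 * toSize (n + 1) * C * sweepOut P.t P.ρ P.G P.θ 0 0 P.Lx P.Ly A.la A.lu) := by
  have hs := hP.s_pos
  have ht : 0 < P.t := by linarith [hP.s_le]
  have hst : P.s < P.t := by linarith [hP.s_le]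
  have h0 : 0 ≤ P.h := hP.h_pos.le
  have h1 : P.h ≤ 1 / 2 := by linarith [hP.h_le]
  have hρ : 0 < P.ρ := (Real.sqrt_pos.2 ht).trans_le hP.ρ_ge
  have hLx : 0 ≤ P.Lx := zero_le_one.trans hP.Lx_ge
  have hLy : 0 ≤ P.Ly := zero_le_one.trans hP.Ly_ge
  obtain ⟨-, we⟩ := sweep_parts_le (J := J) (M := n + 1) ht hs hst.le h0 h1 hρ hG hP.θ_pos.le
    hP.sx_nn hP.sy_nn hLx hLy hA.ea hA.eu hC
  obtain ⟨-, wl⟩ := sweep_parts_le (J := J) (M := n + 1) ht hs hst.le h0 h1 hρ hG hP.θ_pos.le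
    (le_refl (0 : ℝ)) (le_refl (0 : ℝ)) hLx hLy hA.la hA.lu hC
  have hsum := Bld.Has.sum hok Finset.univ
    (fun i => -(W i * (gridNode (pairGrid P.t P.s P.h) i / P.ρ))) fS _ _ _ fun i _ => (hout i).hS
  have habs : ∀ i, |-(W i * (gridNode (pairGrid P.t P.s P.h) i / P.ρ))|
      = |W i| * (gridNode (pairGrid P.t P.s P.h) i / P.ρ) := fun i => by
    rw [abs_neg, abs_mul, abs_of_nonneg (div_nonneg
      (gridNode_pair_mem (s := P.s) ht h0 (by linarith) i).1 hρ.le)]
  refine (hX.add hok hsum).mono ?_ ?_ ?_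
  · rw [zero_add]; simpa only [habs, mul_assoc] using hnz
  · simpa only [habs, mul_assoc] using add_le_add (le_refl eX) (we j₀ W hW)
  · simpa only [habs, mul_assoc] using add_le_add (le_refl lX) (wl j₀ W hW)

/-- The start has the law of the pair at the fine end. -/
theorem start_pairLaw (hs : 0 ≤ P.s) (hst : P.s ≤ P.t) {V : Space d → ℝ} (hV : Quarter.InClass V)
    (c : Space d) :
    MeasurePreserving
      (fun p : En.X × (Fin S.circ.T → Space d) => π.start V c p.1 (extFun p.2))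
      S.idealLaw (pairLaw V c P.t √(P.t - P.s)) := by
  have hq : √(P.t - P.s) ^ 2 ≤ P.t := by
    rw [Real.sq_sqrt (sub_nonneg.2 hst)]; exact sub_le_self _ hs
  have := isProbability_pairLaw hV c hq
  exact measurePreserving_fst.comp (π.start_law V hV c)

/-- The distance of the point at a node to the exact trajectory. -/
theorem near_sweepZ (hC : 0 ≤ C) (hP : P.Ok d S.circ.T qb C₀) (hG : 0 ≤ P.G) (hA : A.Ok P)
    (hout : ∀ i, NodeOut π S (gridNode (pairGrid P.t P.s P.h) i) A C (fb i) (fB i) (fS i))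
    {φ₁ : Form} {D₁ : ℝ} (hD₁ : 0 ≤ D₁) (n₁ : S.Near φ₁ (π.zT √(P.t - P.s)) D₁) {E : ℝ}
    (hE : 0 ≤ E) (p : Fin J × Fin (n + 1))
    (hdef : ∀ V, Quarter.InClass V → ∀ c : Space d,
      eLpNorm (fun z => π.w V c √(P.t - P.s) z - π.w V c (gridNode (pairGrid P.t P.s P.h) p) z
          - ∑ i, upWeight (pairGrid P.t P.s P.h) p i • velW V c P.t P.ρ √(P.t - P.s) (π.w V c)
              (π.U V c) z 0 (gridNode (pairGrid P.t P.s P.h) i)) 2
          (pairLaw V c P.t √(P.t - P.s))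
        ≤ ENNReal.ofReal (E * (√d + ‖c‖))) :
    S.Near (sweepZ P J n φ₁ fb fB p) (π.zT (gridNode (pairGrid P.t P.s P.h) p))
      (D₁ + E + 16 * toSize (n + 1) * C
        * sweepOut P.t P.ρ P.G P.θ P.def0 P.def0 2 2 A.Da A.Du) := by
  intro V hV c
  have hs := hP.s_pos
  have ht : 0 < P.t := by linarith [hP.s_le]
  have hst : P.s < P.t := by linarith [hP.s_le]
  have h0 : 0 ≤ P.h := hP.h_pos.le
  have h1 : P.h ≤ 1 / 2 := by linarith [hP.h_le]
  have hρ : 0 < P.ρ := (Real.sqrt_pos.2 ht).trans_le hP.ρ_ge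
  have hd0 := hP.def_nn
  have hDa := hA.Da
  have hDu := hA.Du
  set N := √(d : ℝ) + ‖c‖
  have hN0 : 0 ≤ N := by positivity
  obtain ⟨oD, -⟩ := sweep_parts_le (J := J) (M := n + 1) ht hs hst.le h0 h1 hρ hG hP.θ_pos.le
    hd0 hd0 zero_le_two zero_le_two hA.Da hA.Du hC
  set b : ℝ := C * (P.def0 + 2 * A.Da) * N with hb
  set B : Fin J × Fin (n + 1) → ℝ := fun i =>
    C * (tanP P.G P.def0 2 A.Da / √(P.t - gridNode (pairGrid P.t P.s P.h) i ^ 2)
      + tanQ P.G P.ρ P.def0 2 A.Da A.Du) * N with hB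
  have hb0 : 0 ≤ b := by simp only [hb]; positivity
  have hB0 : ∀ i, 0 ≤ B i := fun i => by simp only [hB, tanP, tanQ, uPart]; positivity
  have hq := gridNode_pair_mem (s := P.s) ht h0 (by linarith) p
  have h := eLpNorm_sweep_z hV ht hs hst h0 (by linarith) hρ (π.isPair V hV c)
    (start_pairLaw (π := π) hs.le hst.le hV c) hq (mul_nonneg hE hN0) (hdef V hV c)
    (S.measurable_evalFun c hV φ₁).aestronglyMeasurable (mul_nonneg hD₁ hN0) (n₁ V hV c)
    (f₀ := fun i p => S.evalFun V c (fb i) p) (f₁ := fun i p => S.evalFun V c (fB i) p)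
    (fun i => (S.measurable_evalFun c hV (fb i)).aestronglyMeasurable)
    (fun i => (S.measurable_evalFun c hV (fB i)).aestronglyMeasurable)
    (b := fun _ => b) (fun _ => hb0) hB0
    (fun i => (hout i).nb V hV c) fun i => (hout i).nB V hV c
  refine le_of_eq_of_le (congrArg (fun F => eLpNorm F 2 _) (funext fun ω => ?_))
    (h.trans (ENNReal.ofReal_le_ofReal ?_))
  · simp only [sweepZ, Bld.evalFun, Bld.eval_add, Bld.eval_fsum, Bld.eval_smul,
      Bld.eval_centre, neg_smul, Finset.sum_neg_distrib, Finset.smul_sum, smul_smul,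
      ← sub_eq_add_neg, ← add_sub_assoc]
    rfl
  · have hsum : gridNode (pairGrid P.t P.s P.h) p *
        ∑ i, |upWeight (pairGrid P.t P.s P.h) p i| * (b + B i / P.ρ)
        ≤ 16 * toSize (n + 1) * C
          * sweepOut P.t P.ρ P.G P.θ P.def0 P.def0 2 2 A.Da A.Du * N := by
      refine le_trans (le_of_eq ?_) (mul_le_mul_of_nonneg_right (oD p) hN0)
      rw [mul_assoc (gridNode _ p), Finset.sum_mul]
      exact congrArg (gridNode _ p * ·) (Finset.sum_congr rfl fun i _ => by simp only [hb, hB]; ring)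
    have h5 : √P.t * (E * N) ≤ E * N :=
      mul_le_of_le_one_left (mul_nonneg hE hN0) (Real.sqrt_le_one.2 hP.t_le)
    linarith

/-- The distance of `X` to the exact trajectory. -/
theorem near_sweepX (hC : 0 ≤ C) (hP : P.Ok d S.circ.T qb C₀) (hG : 0 ≤ P.G) (hA : A.Ok P)
    (hout : ∀ i, NodeOut π S (gridNode (pairGrid P.t P.s P.h) i) A C (fb i) (fB i) (fS i))
    {φX : Form} {DX : ℝ} (hDX : 0 ≤ DX) (nX : S.Near φX (π.xT √(P.t - P.s)) DX) {E : ℝ}
    (hE : 0 ≤ E) {j₀ : ℕ} {W : Fin J × Fin (n + 1) → ℝ} (hW : UpW (pairGrid P.t P.s P.h) j₀ W)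
    {q : ℝ} (hq : q ∈ Icc 0 √(P.t - P.s))
    (hdef : ∀ V, Quarter.InClass V → ∀ c : Space d,
      eLpNorm (fun z => pairX V c P.t P.ρ (π.w V c) (π.U V c) √(P.t - P.s) z
          - pairX V c P.t P.ρ (π.w V c) (π.U V c) q z
          - ∑ i, W i • velX V c P.t P.ρ √(P.t - P.s) (π.w V c) (π.U V c) z 0
              (gridNode (pairGrid P.t P.s P.h) i)) 2 (pairLaw V c P.t √(P.t - P.s))
        ≤ ENNReal.ofReal (E * (√d + ‖c‖))) :
    S.Near (sweepX P J n φX fS W) (π.xT q)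
      (DX + E + 16 * toSize (n + 1) * C
        * sweepOut P.t P.ρ P.G P.θ P.def0 P.def0 2 2 A.Da A.Du) := by
  intro V hV c
  have hs := hP.s_pos
  have ht : 0 < P.t := by linarith [hP.s_le]
  have hst : P.s < P.t := by linarith [hP.s_le]
  have h0 : 0 ≤ P.h := hP.h_pos.le
  have h1 : P.h ≤ 1 / 2 := by linarith [hP.h_le]
  have hρ : 0 < P.ρ := (Real.sqrt_pos.2 ht).trans_le hP.ρ_ge
  have hd0 := hP.def_nn
  have hθ := hP.θ_pos.le
  have hDa := hA.Da
  have hDu := hA.Du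
  set N := √(d : ℝ) + ‖c‖
  have hN0 : 0 ≤ N := by positivity
  obtain ⟨-, wD⟩ := sweep_parts_le (J := J) (M := n + 1) ht hs hst.le h0 h1 hρ hG hθ
    hd0 hd0 zero_le_two zero_le_two hA.Da hA.Du hC
  set B : Fin J × Fin (n + 1) → ℝ := fun i =>
    C * (sqP P.G P.θ P.def0 P.def0 2 2 A.Da / √(P.t - gridNode (pairGrid P.t P.s P.h) i ^ 2)
      + sqQ P.G P.θ P.ρ P.def0 2 2 A.Da A.Du) * N with hB
  have hB0 : ∀ i, 0 ≤ B i := fun i => by simp only [hB, sqP, sqQ, uPart]; positivity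
  have h := eLpNorm_sweep_x hV ht hs hst h0 (by linarith) hρ (π.isPair V hV c)
    (start_pairLaw (π := π) hs.le hst.le hV c) hq (mul_nonneg hE hN0) (hdef V hV c)
    (S.measurable_evalFun c hV φX).aestronglyMeasurable (mul_nonneg hDX hN0) (nX V hV c)
    (f₂ := fun i p => S.evalFun V c (fS i) p)
    (fun i => (S.measurable_evalFun c hV (fS i)).aestronglyMeasurable) hB0
    fun i => (hout i).nS V hV c
  refine le_of_eq_of_le (congrArg (fun F => eLpNorm F 2 _) (funext fun p => ?_))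
    (h.trans (ENNReal.ofReal_le_ofReal ?_))
  · simp only [sweepX, Bld.evalFun, Bld.eval_add, Bld.eval_fsum, smul_smul, neg_smul,
      Finset.sum_neg_distrib, ← sub_eq_add_neg]
    rfl
  · have hsum : ∑ i, |W i| * (gridNode (pairGrid P.t P.s P.h) i / P.ρ * B i)
        ≤ 16 * toSize (n + 1) * C
          * sweepOut P.t P.ρ P.G P.θ P.def0 P.def0 2 2 A.Da A.Du * N := by
      refine le_trans (le_of_eq ?_) (mul_le_mul_of_nonneg_right (wD j₀ W hW) hN0)
      rw [Finset.sum_mul]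
      exact Finset.sum_congr rfl fun i _ => by simp only [hB]; ring
    linarith

end Parts

/-- The quadrature defect against the size of the centre. -/
theorem defect_le {d J m : ℕ} {V : Space d → ℝ} (hV : Quarter.InClass V) (c : Space d)
    {t h Cd : ℝ} (ht : 0 ≤ t) (ht1 : t ≤ 1) (hCd : 0 ≤ Cd) :
    Cd * J * √h ^ m * (√d + ‖score V t c‖) ≤ 5 * Cd * (J * √h ^ m) * (√d + ‖c‖) := by
  have h2 : √((d : ℝ) * t) ≤ √(d : ℝ) :=
    Real.sqrt_le_sqrt (mul_le_of_le_one_right d.cast_nonneg ht1)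
  have h3 : √(d : ℝ) + ‖score V t c‖ ≤ 5 * (√(d : ℝ) + ‖c‖) := by
    linarith [norm_score_le hV ht c, norm_nonneg c]
  refine (mul_le_mul_of_nonneg_left h3 (by positivity)).trans_eq ?_
  ring

section Start

variable {n J qb : ℕ} {C₀ : ℝ} {En : Env d} {P : Par} {S : Bld En} {π : Paths En S.circ.T P}

/-- The first point of a node: the two ends only. -/
theorem start_z (hok : S.Ok) (hP : P.Ok d S.circ.T qb C₀) {φ₁ : Form} {e₁ l₁ D₁ : ℝ} (he₁ : 0 ≤ e₁)
    (hl₁ : 0 ≤ l₁) (hD₁ : 0 ≤ D₁) (h₁ : S.Has φ₁ 0 e₁ l₁)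
    (n₁ : S.Near φ₁ (π.zT √(P.t - P.s)) D₁)
    (hν : 48 * (√(S.circ.T : ℝ) * S.circ.tau / √P.t) ≤ P.ν)
    {E : ℝ} (hE : 0 ≤ E) (p : Fin J × Fin (n + 1))
    (hdef : ∀ V, Quarter.InClass V → ∀ c : Space d,
      eLpNorm (fun z => π.w V c √(P.t - P.s) z - π.w V c (gridNode (pairGrid P.t P.s P.h) p) z
          - ∑ i, upWeight (pairGrid P.t P.s P.h) p i • velW V c P.t P.ρ √(P.t - P.s) (π.w V c)
              (π.U V c) z 0 (gridNode (pairGrid P.t P.s P.h) i)) 2
          (pairLaw V c P.t √(P.t - P.s))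
        ≤ ENNReal.ofReal (E * (√d + ‖c‖))) :
    ∃ ψ : Form,
      S.Has ψ (P.ν * √(P.t - gridNode (pairGrid P.t P.s P.h) p ^ 2) / 8) e₁ (1 + l₁) ∧
      S.Near ψ (π.zT (gridNode (pairGrid P.t P.s P.h) p))
        (D₁ + E + 864 * toSize (n + 1) * (P.t + P.t / P.ρ)) := by
  have hs := hP.s_pos
  have ht : 0 < P.t := by linarith [hP.s_le]
  have hst : P.s < P.t := by linarith [hP.s_le]
  have h0 : 0 ≤ P.h := hP.h_pos.le
  have h1 : P.h ≤ 1 / 2 := by linarith [hP.h_le]
  have hρ : 0 < P.ρ := (Real.sqrt_pos.2 ht).trans_le hP.ρ_ge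
  have hTs : (0 : ℝ) ≤ toSize (n + 1) := le_trans zero_le_one (one_le_toSize _)
  obtain ⟨hc0, hc6⟩ := one_sub_node_div_le ht hs hP.s_le h0 h1 p
  have hqm := gridNode_pair_mem (s := P.s) ht h0 (by linarith) p
  set q := gridNode (pairGrid P.t P.s P.h) p with hqdef
  have hcq : |q / √(P.t - P.s)| = q / √(P.t - P.s) := abs_of_nonneg hc0.1
  have hcq' : |1 - q / √(P.t - P.s)| = 1 - q / √(P.t - P.s) := abs_of_nonneg (sub_nonneg.2 hc0.2)
  refine ⟨(q / √(P.t - P.s)) • φ₁ + (1 - q / √(P.t - P.s)) • Form.centre, ?_, ?_⟩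
  · refine ((h₁.smul (q / √(P.t - P.s))).add hok
      (Bld.has_centre.smul (1 - q / √(P.t - P.s)))).mono ?_ ?_ ?_
    · rw [mul_zero, zero_add, hcq']
      set X := √(S.circ.T : ℝ) * S.circ.tau
      have hX : 0 ≤ X := mul_nonneg (Real.sqrt_nonneg _) hok.tau
      set r := P.t - q ^ 2
      have hr0 : 0 ≤ r := by
        have := (pow_le_pow_left₀ hqm.1 hqm.2 2).trans_eq (Real.sq_sqrt (sub_nonneg.2 hst.le))
        linarith
      have e : r / P.t ≤ √r / √P.t := by
        have ht' := Real.sqrt_pos.2 ht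
        rw [div_le_div_iff₀ ht ht']
        calc r * √P.t = √r * (√r * √P.t) := by rw [← mul_assoc, Real.mul_self_sqrt hr0]
          _ ≤ √r * (√P.t * √P.t) := by
              have : r ≤ P.t := sub_le_self _ (sq_nonneg q)
              gcongr
          _ = _ := by rw [Real.mul_self_sqrt ht.le]
      calc (1 - q / √(P.t - P.s)) * X ≤ 6 * (√r / √P.t) * X :=
            mul_le_mul_of_nonneg_right (hc6.trans (by linarith)) hX
        _ = √r * (48 * (X / √P.t)) / 8 := by ring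
        _ ≤ √r * P.ν / 8 := by gcongr
        _ = _ := by ring
    · rw [hcq, mul_zero, add_zero]; exact mul_le_of_le_one_left he₁ hc0.2
    · rw [hcq, hcq']
      have := mul_le_of_le_one_left hl₁ hc0.2
      linarith [hc0.1]
  · intro V hV c
    set N := √(d : ℝ) + ‖c‖
    have hN0 : 0 ≤ N := by positivity
    have hsize : ∀ (j : Fin 3) (i : Fin J × Fin (n + 1)),
        eLpNorm (fun p : En.X × (Fin S.circ.T → Space d) => (0 : Space d)
          - nodeFn V c P.t (π.w V c) (π.U V c) (π.start V c p.1 (extFun p.2)) j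
              (gridNode (pairGrid P.t P.s P.h) i)) 2 S.idealLaw ≤ ENNReal.ofReal (54 * N) :=
      fun j i => by
        have h := π.size_fT hs hst.le (gridNode_pair_mem ht h0 (by linarith) i) hP.t_le hV c j
        rw [← eLpNorm_neg] at h
        simpa only [Paths.fT, Pi.neg_def, zero_sub] using h
    have h := eLpNorm_sweep_z hV ht hs hst h0 (by linarith) hρ (π.isPair V hV c)
      (start_pairLaw (π := π) hs.le hst.le hV c) hqm (mul_nonneg hE hN0) (hdef V hV c)
      (S.measurable_evalFun c hV φ₁).aestronglyMeasurable (mul_nonneg hD₁ hN0) (n₁ V hV c)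
      (f₀ := fun _ _ => 0) (f₁ := fun _ _ => 0)
      (fun _ => aestronglyMeasurable_const) (fun _ => aestronglyMeasurable_const)
      (b := fun _ => 54 * N) (B := fun _ => 54 * N) (fun _ => by positivity)
      (fun _ => by positivity) (hsize 0) (hsize 1)
    refine le_of_eq_of_le (congrArg (fun F => eLpNorm F 2 _) (funext fun ω => ?_))
      (h.trans (ENNReal.ofReal_le_ofReal ?_))
    · simp only [Bld.evalFun, Bld.eval_add, Bld.eval_smul, Bld.eval_centre, smul_zero, add_zero,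
        Finset.sum_const_zero, sub_zero]
      rfl
    · have hsum := sweep_sum_z ht hs hst.le h0 h1 hρ p (b0 := 54 * N) (P := 0) (Q := 54 * N)
        (by positivity) le_rfl (by positivity) (b := fun _ => 54 * N) (B := fun _ => 54 * N)
        (fun _ => le_rfl) fun i => by simp
      have h5 : √P.t * (E * N) ≤ E * N :=
        mul_le_of_le_one_left (mul_nonneg hE hN0) (Real.sqrt_le_one.2 hP.t_le)
      rw [← hqdef] at hsum
      linarith

/-- The first value `X` of a node: its value at the fine end. -/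
theorem start_x (hP : P.Ok d S.circ.T qb C₀) {φX : Form} {DX : ℝ} (hDX : 0 ≤ DX)
    (nX : S.Near φX (π.xT √(P.t - P.s)) DX) {E : ℝ} (hE : 0 ≤ E) (p : Fin J × Fin (n + 1))
    (hdef : ∀ V, Quarter.InClass V → ∀ c : Space d,
      eLpNorm (fun z => pairX V c P.t P.ρ (π.w V c) (π.U V c) √(P.t - P.s) z
          - pairX V c P.t P.ρ (π.w V c) (π.U V c) (gridNode (pairGrid P.t P.s P.h) p) z
          - ∑ i, upWeight (pairGrid P.t P.s P.h) p i • velX V c P.t P.ρ √(P.t - P.s) (π.w V c)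
              (π.U V c) z 0 (gridNode (pairGrid P.t P.s P.h) i)) 2
          (pairLaw V c P.t √(P.t - P.s))
        ≤ ENNReal.ofReal (E * (√d + ‖c‖))) :
    S.Near φX (π.xT (gridNode (pairGrid P.t P.s P.h) p))
      (DX + E + 864 * toSize (n + 1) * (P.t / P.ρ)) := by
  intro V hV c
  have hs := hP.s_pos
  have ht : 0 < P.t := by linarith [hP.s_le]
  have hst : P.s < P.t := by linarith [hP.s_le]
  have h0 : 0 ≤ P.h := hP.h_pos.le
  have h1 : P.h ≤ 1 / 2 := by linarith [hP.h_le]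
  have hρ : 0 < P.ρ := (Real.sqrt_pos.2 ht).trans_le hP.ρ_ge
  have hgm : Monotone (pairGrid P.t P.s P.h) := pairGrid_monotone ht.le h0 (by linarith)
  set N := √(d : ℝ) + ‖c‖
  have hN0 : 0 ≤ N := by positivity
  have hsize : ∀ i : Fin J × Fin (n + 1),
      eLpNorm (fun p : En.X × (Fin S.circ.T → Space d) => (0 : Space d)
        - nodeFn V c P.t (π.w V c) (π.U V c) (π.start V c p.1 (extFun p.2)) 2
            (gridNode (pairGrid P.t P.s P.h) i)) 2 S.idealLaw ≤ ENNReal.ofReal (54 * N) :=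
    fun i => by
      have h := π.size_fT hs hst.le (gridNode_pair_mem ht h0 (by linarith) i) hP.t_le hV c 2
      rw [← eLpNorm_neg] at h
      simpa only [Paths.fT, Pi.neg_def, zero_sub] using h
  have h := eLpNorm_sweep_x hV ht hs hst h0 (by linarith) hρ (π.isPair V hV c)
    (start_pairLaw (π := π) hs.le hst.le hV c) (gridNode_pair_mem ht h0 (by linarith) p)
    (mul_nonneg hE hN0) (hdef V hV c) (S.measurable_evalFun c hV φX).aestronglyMeasurable
    (mul_nonneg hDX hN0) (nX V hV c) (f₂ := fun _ _ => 0) (fun _ => aestronglyMeasurable_const)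
    (B := fun _ => 54 * N) (fun _ => by positivity) hsize
  refine le_of_eq_of_le (congrArg (fun F => eLpNorm F 2 _) (funext fun ω => ?_))
    (h.trans (ENNReal.ofReal_le_ofReal ?_))
  · simp only [smul_zero, Finset.sum_const_zero, sub_zero]
    rfl
  · have hsum := sweep_sum_x ht hs hst.le h0 h1 hρ (upW_upWeight hgm p) (P := 0) (Q := 54 * N)
      le_rfl (by positivity) (B := fun _ => 54 * N) (fun _ => by positivity) fun i => by simp
    linarith

end Start

/-- The sweep step and the first points from the forms at the fine end; the nodes are those of the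
geometric grid. -/
theorem sweep_steps (n : ℕ) (C : ℝ) (hC : 0 ≤ C) :
    ∃ C' : ℝ, 1 ≤ C' ∧ ∀ (d T qb : ℕ) (C₀ : ℝ) (En : Env d) (P : Par) (π : Paths En T P) (J : ℕ)
      (S₀ : Bld En), S₀.Ok → S₀.circ.T = T → P.Ok d T qb C₀ → 0 ≤ P.G →
      P.t * (1 - P.h) ^ J ≤ P.s →
      C' * (√(T : ℝ) * S₀.circ.tau / √P.t + P.t * (√(T : ℝ) * P.bx) + √P.t / P.ρ * (P.G * P.bx))
        ≤ P.ν →
      C' * (P.t / P.ρ ^ 2 * (P.θ⁻¹ * P.G * P.by')) ≤ P.ν →
      ∀ (φ₁ φX : Form) (e₁ eX l₁ lX D₁ DX : ℝ),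
        0 ≤ e₁ → 0 ≤ eX → 0 ≤ l₁ → 0 ≤ lX → 0 ≤ D₁ → 0 ≤ DX →
        S₀.Has φ₁ 0 e₁ l₁ → S₀.Has φX 0 eX lX →
        S₀.Near φ₁ (π.zT √(P.t - P.s)) D₁ → S₀.Near φX (π.xT √(P.t - P.s)) DX →
      SweepStep π S₀ (fun p : Fin J × Fin (n + 1) => gridNode (pairGrid P.t P.s P.h) p) C C'
          (e₁ + eX) (1 + l₁ + lX) (D₁ + DX + C' * (J * √P.h ^ (n + 1)))
          (C' * (P.t / P.ρ * (P.θ⁻¹ * P.G * P.by'))) ∧
        StartStep π S₀ (fun p : Fin J × Fin (n + 1) => gridNode (pairGrid P.t P.s P.h) p)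
          (e₁ + eX) (1 + l₁ + lX)
          (D₁ + DX + C' * (J * √P.h ^ (n + 1)) + C' * (P.t + P.t / P.ρ)) := by
  obtain ⟨Cd, hCd, hdef⟩ := pair_defect pairTimeSpec n
  have hTs : (1 : ℝ) ≤ toSize (n + 1) := one_le_toSize _
  set K : ℝ := 16 * toSize (n + 1) * C
  have hK : 0 ≤ K := by positivity
  set C' : ℝ := 8 * (6 + K) + 5 * Cd + 864 * toSize (n + 1) with hC'def
  refine ⟨C', by linarith, ?_⟩
  intro d T qb C₀ En P π J S₀ hok₀ hT₀ hP hG hJ hblz hblx φ₁ φX e₁ eX l₁ lX D₁ DX he₁ heX hl₁ hlX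
    hD₁ hDX h₁ hX n₁ nX
  have hs := hP.s_pos
  have ht : 0 < P.t := by linarith [hP.s_le]
  have hst : P.s < P.t := by linarith [hP.s_le]
  have h0 : 0 ≤ P.h := hP.h_pos.le
  have h1 : P.h ≤ 1 / 2 := by linarith [hP.h_le]
  have hρ : 0 < P.ρ := (Real.sqrt_pos.2 ht).trans_le hP.ρ_ge
  have hθ : 0 ≤ P.θ := hP.θ_pos.le
  have hLx : 0 ≤ P.Lx := zero_le_one.trans hP.Lx_ge
  have hLy : 0 ≤ P.Ly := zero_le_one.trans hP.Ly_ge
  have hbx := hP.bx_nn
  have hby := hP.by_nn
  have hgm : Monotone (pairGrid P.t P.s P.h) := pairGrid_monotone ht.le h0 (by linarith)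
  set E : ℝ := (J : ℝ) * √P.h ^ (n + 1)
  have hE : 0 ≤ E := by positivity
  have hE5 : 0 ≤ 5 * Cd * E := by positivity
  have hKE : 5 * Cd * E ≤ C' * E := mul_le_mul_of_nonneg_right (by linarith) hE
  have hdef' : ∀ V, Quarter.InClass V → ∀ c : Space d, _ := fun V hV c =>
    hdef d V hV (regular score_spec hV) c P.t P.ρ P.s P.h J ht hP.t_le hP.ρ_ge hs hst h0 h1 hJ
      _ _ (π.isPair V hV c)
  have hX' : ∀ V, Quarter.InClass V → ∀ c : Space d,
      Cd * J * √P.h ^ (n + 1) * (√d + ‖score V P.t c‖) * √P.t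
        ≤ 5 * Cd * E * (√d + ‖c‖) := fun V hV c =>
    (mul_le_of_le_one_right (by positivity) (Real.sqrt_le_one.2 hP.t_le)).trans
      (defect_le hV c ht.le hP.t_le hCd.le)
  set Y := P.θ⁻¹ * P.G * P.by'
  have hY : 0 ≤ Y := by positivity
  have ht0 : 0 ≤ P.t / P.ρ := by positivity
  have hνX : 0 ≤ P.ν * P.ρ / 8 := by have := hP.ν_pos; positivity
  constructor
  · intro S A f hext hok hA hout
    have hT : S.circ.T = T := hext.T.trans hT₀
    subst hT
    rw [← hext.tau] at hblz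
    have h₁' := hext.has h₁
    have hX'' := hext.has hX
    have n₁' := hext.near h₁.below n₁
    have nX' := hext.near hX.below nX
    set Oe := sweepOut P.t P.ρ P.G P.θ P.sx P.sy P.Lx P.Ly A.ea A.eu with hOe
    set Ol := sweepOut P.t P.ρ P.G P.θ 0 0 P.Lx P.Ly A.la A.lu with hOl
    set OD := sweepOut P.t P.ρ P.G P.θ P.def0 P.def0 2 2 A.Da A.Du with hOD
    have hOe0 : 0 ≤ Oe :=
      sweepOut_nonneg ht.le hρ.le hG hθ hP.sx_nn hP.sy_nn hLx hLy hA.ea hA.eu
    have hOl0 : 0 ≤ Ol := sweepOut_nonneg ht.le hρ.le hG hθ le_rfl le_rfl hLx hLy hA.la hA.lu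
    have hOD0 : 0 ≤ OD := sweepOut_nonneg ht.le hρ.le hG hθ hP.def_nn hP.def_nn zero_le_two
      zero_le_two hA.Da hA.Du
    have hKe : K * Oe ≤ C' * Oe := mul_le_mul_of_nonneg_right (by linarith) hOe0
    have hKl : K * Ol ≤ C' * Ol := mul_le_mul_of_nonneg_right (by linarith) hOl0
    have hKD : K * OD ≤ C' * OD := mul_le_mul_of_nonneg_right (by linarith) hOD0
    refine ⟨⟨fun p => (sweepZ P J n φ₁ (fun i => (f i).1) (fun i => (f i).2.1) p,
        sweepX P J n φX (fun i => (f i).2.2) (upWeight (pairGrid P.t P.s P.h) p)),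
        fun p => ⟨?_, ?_, ?_, ?_⟩⟩,
      sweepX P J n φX (fun i => (f i).2.2) (gridFull (pairGrid P.t P.s P.h)), ?_, ?_⟩
    · refine (has_sweepZ hC hok hP hG hA hout he₁ hl₁ h₁' (le_trans ?_ hblz) p).mono le_rfl ?_ ?_
      · have := hok.tau
        exact mul_le_mul_of_nonneg_right (by linarith) (by positivity)
      all_goals simp only [Lev.next, ← hOe, ← hOl]; linarith
    · have hb := sweep_blur_x_node ht hs hst.le h0 h1 hρ p (c := C * Y) (by positivity)
        (B := fun _ => C * Y) (fun _ => by positivity) fun _ => le_rfl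
      refine (has_sweepX hC hok hP hG hA hout hX'' (upW_upWeight hgm p) (hb.trans ?_)).mono le_rfl
        ?_ ?_
      · have hr : P.t - gridNode (pairGrid P.t P.s P.h) p ^ 2 ≤ P.t :=
          sub_le_self _ (sq_nonneg _)
        calc 16 * toSize (n + 1)
              * ((P.t - gridNode (pairGrid P.t P.s P.h) p ^ 2) * (C * Y / P.ρ))
            ≤ 16 * toSize (n + 1) * (P.t * (C * Y / P.ρ)) := by gcongr
          _ = K * (P.t / P.ρ ^ 2 * Y) * P.ρ := by simp only [K]; field_simp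
          _ ≤ P.ν / 8 * P.ρ := by
              refine mul_le_mul_of_nonneg_right ?_ hρ.le
              have : 8 * K * (P.t / P.ρ ^ 2 * Y) ≤ C' * (P.t / P.ρ ^ 2 * Y) :=
                mul_le_mul_of_nonneg_right (by linarith) (by positivity)
              linarith
          _ = _ := by ring
      all_goals simp only [Lev.next, ← hOe, ← hOl]; linarith
    · refine (near_sweepZ hC hP hG hA hout hD₁ n₁' hE5 p fun V hV c =>
        ((hdef' V hV c).1 p).1.trans (ENNReal.ofReal_le_ofReal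
          (defect_le hV c ht.le hP.t_le hCd.le))).mono ?_
      simp only [Lev.next, ← hOD]; linarith
    · refine (near_sweepX hC hP hG hA hout hDX nX' hE5 (upW_upWeight hgm p)
        (gridNode_pair_mem ht h0 (by linarith) p) fun V hV c =>
        ((hdef' V hV c).1 p).2.trans (ENNReal.ofReal_le_ofReal (hX' V hV c))).mono ?_
      simp only [Lev.next, ← hOD]; linarith
    · have hb := sweep_blur_x ht hs hst.le h0 (by linarith) hρ (Nat.zero_le J) (upW_gridFull hgm)
        (c := C * Y) (M := n + 1) (by positivity) (B := fun _ => C * Y) (fun _ => by positivity)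
        fun _ => le_rfl
      refine (has_sweepX hC hok hP hG hA hout hX'' (upW_gridFull hgm) (hb.trans ?_)).mono le_rfl
        ?_ ?_
      · rw [geomR_zero hst.le]
        have : 4 * toSize (n + 1) * C * (P.t / P.ρ * Y) ≤ C' * (P.t / P.ρ * Y) :=
          mul_le_mul_of_nonneg_right (by simp only [K] at hC'def hK ⊢; linarith) (by positivity)
        refine le_trans (le_of_eq ?_) this
        ring
      all_goals simp only [Lev.next, ← hOe, ← hOl]; linarith
    · refine (near_sweepX hC hP hG hA hout hDX nX' hE5 (upW_gridFull hgm)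
        ⟨le_rfl, Real.sqrt_nonneg _⟩ fun V hV c =>
        (hdef' V hV c).2.trans (ENNReal.ofReal_le_ofReal (hX' V hV c))).mono ?_
      simp only [Lev.next, ← hOD]; linarith
  · subst hT₀
    have hcC : 864 * toSize (n + 1) * (P.t + P.t / P.ρ) ≤ C' * (P.t + P.t / P.ρ) :=
      mul_le_mul_of_nonneg_right (by linarith) (by positivity)
    have hcC' : 864 * toSize (n + 1) * (P.t / P.ρ) ≤ C' * (P.t + P.t / P.ρ) := by
      have : 0 ≤ 864 * toSize (n + 1) * P.t := by positivity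
      linarith
    have hν48 : 48 * (√(S₀.circ.T : ℝ) * S₀.circ.tau / √P.t) ≤ P.ν := by
      refine le_trans ?_ hblz
      have := hok₀.tau
      refine mul_le_mul (by linarith) ?_ (by positivity) (by linarith)
      have : 0 ≤ P.t * (√(S₀.circ.T : ℝ) * P.bx) + √P.t / P.ρ * (P.G * P.bx) := by positivity
      linarith
    have hz := fun p : Fin J × Fin (n + 1) =>
      start_z hok₀ hP he₁ hl₁ hD₁ h₁ n₁ hν48 hE5 p fun V hV c =>
        ((hdef' V hV c).1 p).1.trans (ENNReal.ofReal_le_ofReal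
          (defect_le hV c ht.le hP.t_le hCd.le))
    choose ψ hψ1 hψ2 using hz
    refine ⟨fun p => (ψ p, φX), fun p => ⟨?_, ?_, ?_, ?_⟩⟩
    · exact (hψ1 p).mono le_rfl (le_add_of_nonneg_right heX) (le_add_of_nonneg_right hlX)
    · exact hX.mono hνX (le_add_of_nonneg_left he₁) (le_add_of_nonneg_left (by linarith))
    · exact (hψ2 p).mono (by linarith)
    · exact (start_x hP hDX nX hE5 p fun V hV c =>
        ((hdef' V hV c).1 p).2.trans (ENNReal.ofReal_le_ofReal (hX' V hV c))).mono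
        (by linarith)

end

end P347.Zero
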