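import Vale.Agent.P347.Zero.Sweeps
import Vale.Agent.P347.Zero.SweepBlock
import Vale.Agent.P347.Zero.RunPaths
import Vale.Agent.P347.Zero.PassEnds
import Vale.Agent.P347.Zero.PassBottom

/-!
# P347: the upward pass, put together

`NodeBlock` is what the block at one node gives. With it, `sweep_steps` and the numbers of
`PassParams` make the pass: `k + 1` sweeps over the geometric grid between the two ends.
-/

namespace P347.Zero

open MeasureTheory ProbabilityTheory Filter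
open scoped ENNReal

noncomputable section

/-- A block for one node: windows of order `n`, `M` rows, `k` iterations, `K` terms. -/
def NodeBlock : Prop :=
  ∀ n M k K : ℕ, 2 ≤ M →
    ∃ (N : ℕ) (C : ℝ), 1 ≤ C ∧ ∀ (d : ℕ) (En : Env d) (S₀ : Bld En) (T : ℕ) (P : Par) (C₀ : ℝ)
      (π : Paths En T P) (J m : ℕ) (φa : Form),
      C ≤ C₀ → S₀.Ok → S₀.circ.T = T → P.Ok d T S₀.qb C₀ →
      S₀.Has φa 0 0 0 → S₀.Near φa π.aux 0 →
      C * ((C * P.h ^ 2) ^ K + P.h ^ n + (C * P.θ) ^ k + P.θ ^ (M - 1)) ≤ P.def0 →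
      NodeStep π S₀ (gridNode (pairGrid P.t P.s P.h) : Fin J × Fin m → ℝ) C N

/-- Start, `k + 1` sweeps and the end, for any numbers. -/
theorem pass_core {d : ℕ} {Ω : Type} [MeasurableSpace Ω] [StandardBorelSpace Ω] {μ : Measure Ω}
    [IsProbabilityMeasure μ] {A : Alg d (Ω × Space d) (Space d)} {P : Par}
    {τp δp Lp τ₀ g Cn C' D X₀ : ℝ} {T qb J n N k : ℕ} (ht1 : P.t ≤ 1) (hs : 0 < P.s)
    (hst : P.s < P.t) (hρ : 0 < P.ρ) (hδ : 0 ≤ δp) (hLp : 0 ≤ Lp)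
    (hval : ∀ V, Quarter.InClass V → ValidPost μ A V P.t P.s τp δp Lp) (hA : A.Meas) (hT : 2 ≤ T)
    (hτ₀ : 0 ≤ τ₀) (hτp : 0 < τp) (hpad : √2 * τ₀ ≤ τp)
    (hN : ∀ (En : Env d) (π : Paths En T P) (S₀ : Bld En) (φa : Form), S₀.Ok → S₀.circ.T = T →
      S₀.qb = qb → S₀.Has φa 0 0 0 → S₀.Near φa π.aux 0 →
      NodeStep π S₀ (fun i : Fin J × Fin (n + 1) => gridNode (pairGrid P.t P.s P.h) i) Cn N)
    (hS : ∀ (En : Env d) (π : Paths En T P) (S₀ : Bld En) (φ₁ φX : Form) (DX : ℝ), S₀.Ok →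
      S₀.circ.T = T → S₀.circ.tau = √2 * τ₀ → 0 ≤ DX → S₀.Has φ₁ 0 δp Lp →
      S₀.Has φX 0 (2 * δp) (2 * Lp) → S₀.Near φ₁ (π.zT √(P.t - P.s)) 0 →
      S₀.Near φX (π.xT √(P.t - P.s)) DX → DX = 4 * √P.s + 100 * P.s →
      SweepStep π S₀ (fun i : Fin J × Fin (n + 1) => gridNode (pairGrid P.t P.s P.h) i) Cn C'
          (δp + 2 * δp) (1 + Lp + 2 * Lp) D (C' * (P.t / P.ρ * (P.θ⁻¹ * P.G * P.by'))) ∧
        StartStep π S₀ (fun i : Fin J × Fin (n + 1) => gridNode (pairGrid P.t P.s P.h) i)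
          (δp + 2 * δp) (1 + Lp + 2 * Lp) X₀)
    (hL : Loop P C' (δp + 2 * δp) (1 + Lp + 2 * Lp) D X₀ g)
    (hbud : 3 + (k + 1) * (J * (n + 1) * N) ≤ T)
    (hnz : C' * (P.t / P.ρ * (P.θ⁻¹ * P.G * P.by')) ≤ P.ρ) :
    ∃ (Ω' : Type) (_ : MeasurableSpace Ω') (P' : Measure Ω')
      (A' : Alg d (Ω' × Space d) (Space d)),
      StandardBorelSpace Ω' ∧ IsProbabilityMeasure P' ∧ A'.Meas ∧
      A'.size ≤ A.size + 1 + T * qb ∧
      ∀ V, Quarter.InClass V → Valid P' A' V P.t τ₀ (√2 * P.ρ)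
        (2 * (δp + 2 * δp + C' * sweepSrc P.t P.ρ P.G P.θ P.sx P.sy P.Lx P.Ly)
          + (2 * distSrc P C' D + (160 * C' * g) ^ (k + 1) * X₀))
        (2 * (1 + Lp + 2 * Lp)) := by
  obtain ⟨S₀, φ₁, φX, φa, hok₀, hT₀, htau₀, hqb₀, hlen₀, h1h, h1n, hXh, hXn, hah, han⟩ :=
    pass_start (μ := μ) (A := A) (P := P) (τp := τp) (δp := δp) (Lp := Lp) ht1 hs hst hρ
      hδ hLp hval hT (mul_nonneg (Real.sqrt_nonneg 2) hτ₀) qb
  obtain ⟨hS₀, h0⟩ := hS _ _ S₀ φ₁ φX _ hok₀ hT₀ htau₀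
    (add_nonneg (mul_nonneg (by norm_num) (Real.sqrt_nonneg _)) (mul_nonneg (by norm_num) hs.le))
    h1h hXh h1n hXn rfl
  have hcard : Fintype.card (Fin J × Fin (n + 1)) = J * (n + 1) := by simp
  obtain ⟨S, φ, hext, hSok, hlen, hφ, hnear⟩ := sweeps hL hok₀ (hN _ _ S₀ φa hok₀ hT₀ hqb₀ hah han)
    hS₀ h0 k (by rw [hlen₀, hcard, hT₀]; omega)
  rw [hlen₀, hcard] at hlen
  have hsrc := mul_nonneg hL.C_nn (sweepSrc_nonneg hL.t_nn hρ.le hL.G_nn hL.θ_nn hL.sx_nn hL.sy_nn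
      (zero_le_one.trans hL.Lx_ge) (zero_le_one.trans hL.Ly_ge))
  obtain ⟨Ω', m', P', A', r1, r2, r3, r4, r5⟩ := pass_finish (μ := μ) (A := A) (P := P)
    (τp := τp) (δp := δp) (Lp := Lp) ht1 hs hst hρ hδ hLp hval hA hT hτ₀
    hτp hpad hSok (hext.T.trans hT₀) (hext.tau.trans htau₀) (hlen₀ ▸ hext.le) (by omega) hφ hnz
    (mul_nonneg zero_le_two (add_nonneg hL.e_nn hsrc)) (mul_nonneg zero_le_two hL.l_nn)
    (add_nonneg (mul_nonneg zero_le_two hL.src_nn) (mul_nonneg (pow_nonneg hL.rate.1 _) hL.X_nn))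
    hnear
  exact ⟨Ω', m', P', A', r1, r2, r3, r4.trans (by rw [hext.qb, hqb₀]), r5⟩

/-- Three of the sampler's numbers within the constant. -/
theorem sampler_le {C a R : ℝ} (hC : 3 ≤ C) (ha : 0 ≤ a) (hR : 0 ≤ R) :
    a + 2 * a ≤ C * (a + R) := by
  have e1 := mul_le_mul_of_nonneg_right hC ha
  have e2 := mul_nonneg (show 0 ≤ C by linarith) hR
  linarith

/-- The Lipschitz constants of the fine end within the constant. -/
theorem lip_le {C L : ℝ} (hC : 3 ≤ C) (hL : 0 ≤ L) : 1 + L + 2 * L ≤ C * (1 + L) := by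
  have e1 := mul_le_mul_of_nonneg_right hC (show 0 ≤ 1 + L by linarith)
  linarith

/-- What comes from the fine end and the quadrature, with one constant. -/
theorem fine_le {Kd rs s t tr E C C' : ℝ} (hK : 0 ≤ Kd) (hrs : 0 ≤ rs) (hs : 0 ≤ s)
    (ht : 0 ≤ t) (htr : 0 ≤ tr) (hE : E ≤ Kd) (hC' : 0 ≤ C') (hC : C = 200 + 2 * C') :
    0 + (4 * rs + 100 * s) + C' * E ≤ C * (Kd + rs + s) ∧
      0 + (4 * rs + 100 * s) + C' * E + C' * (t + tr) ≤ C * (Kd + rs + s + t + tr) := by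
  subst hC
  have e1 := mul_le_mul_of_nonneg_left hE hC'
  have e2 := mul_nonneg hC' (show 0 ≤ rs + s by linarith)
  have e3 := mul_nonneg hC' (show 0 ≤ Kd + rs + s by linarith)
  have e4 := mul_nonneg hC' (show 0 ≤ t + tr by linarith)
  constructor <;> linarith

variable {ε η K α β κ : ℝ} {p x y : Expo}

/-- The blurs and the sizes of a pass. -/
theorem pass_numbers (H : PassHyp ε η K α β κ p x y) (C : ℝ) (hC : 0 ≤ C) :
    ∀ᶠ d : ℕ in atTop, ∀ t : ℝ, 2 * passS d K < t → t ≤ (d : ℝ) ^ (-ε) →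
      ∀ P : Par, P = passPar d t η K α β κ x y → ∀ σ, σ = √2 * (√t * (d : ℝ) ^ (-(α + η))) →
      ∀ c, 0 ≤ c → c ≤ C →
        c * (√(passT d η : ℝ) * σ / √P.t + P.t * (√(passT d η : ℝ) * P.bx)
          + √P.t / P.ρ * (P.G * P.bx)) ≤ P.ν ∧
        c * (P.t / P.ρ ^ 2 * (P.θ⁻¹ * P.G * P.by')) ≤ P.ν ∧
        c * (P.t / P.ρ * (P.θ⁻¹ * P.G * P.by')) ≤ P.ρ ∧
        σ ≤ √t * (d : ℝ) ^ (-p.α) := by
  filter_upwards [ev_two, H.blurs (2 * C) (by linarith)] with d hd hbl t hts hte P hP σ hσ c hc hcC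
  subst hP hσ
  obtain ⟨hs, ht, ht1⟩ := H.t_facts hd hts hte
  have hd0 : (0 : ℝ) < d := by linarith
  have hd1 : (1 : ℝ) ≤ d := by linarith
  obtain ⟨b1, b2, b3, b4, b5⟩ := hbl t ht hte
  refine ⟨?_, ?_, ?_, b1⟩
  · simp only [passPar]
    refine (mul_le_mul_of_nonneg_right hcC (by positivity)).trans ?_
    ring_nf at b2 b3 ⊢
    linarith
  · simp only [passPar]
    refine le_trans ?_ b4
    refine le_trans (mul_le_mul_of_nonneg_right (show c ≤ 2 * C by linarith) (by positivity)) ?_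
    exact le_of_eq (by ring)
  · simp only [passPar]
    have hν1 : (d : ℝ) ^ (-α) ≤ 1 :=
      Real.rpow_le_one_of_one_le_of_nonpos hd1 (by linarith [H.α_nn])
    have hρ : 0 ≤ √t * (d : ℝ) ^ β / √2 := by positivity
    refine le_trans (le_trans ?_ b5) (mul_le_of_le_one_left hρ hν1)
    refine le_trans (mul_le_mul_of_nonneg_right (show c ≤ 2 * C by linarith) (by positivity)) ?_
    exact le_of_eq (by ring)

/-- The pass from the block at one node. -/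
theorem passMain_of_nodeBlock (hNB : NodeBlock) : PassMain := by
  intro ε η K α β κ p x y hη hpa hxa hya hα hxα hyα hxb hyb hpl hxl hyl hpq hxq hyq hpD hxD hyD
    h1 h2 h3 h4 h5 h6 h7 h8
  have H : PassHyp ε η K α β κ p x y := ⟨hη, hpa, hxa, hya, hα, hxα, hyα, hxb, hyb, hpl, hxl, hyl,
    hpq, hxq, hyq, hpD, hxD, hyD, h1, h2, h3, h4, h5, h6, h7, h8⟩
  obtain ⟨m, hm⟩ := H.block_tails
  obtain ⟨k, hk⟩ := H.ends
  obtain ⟨N, Cn, hCn, hnode⟩ := hNB m (m + 2) m m (by omega)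
  obtain ⟨C', hC', hsweep⟩ := sweep_steps m Cn (zero_le_one.trans hCn)
  obtain ⟨C, hC⟩ : ∃ C, C = 200 + 2 * C' := ⟨_, rfl⟩
  have hev : ∀ᶠ d : ℕ in atTop, HasPost d ε (2 * K + 20) p → HasVal d ε x → HasVal d ε y →
      ∀ r : ℝ, 2 * (d : ℝ) ^ (-(2 * K + 20)) < r → r ≤ (d : ℝ) ^ (-ε) →
        ∃ (Ω : Type) (_ : MeasurableSpace Ω) (P : Measure Ω)
          (A : Alg d (Ω × Space d) (Space d)),
          StandardBorelSpace Ω ∧ IsProbabilityMeasure P ∧ A.Meas ∧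
          (A.size : ℝ) ≤ (d : ℝ) ^ (max p.q (max x.q y.q) + η) ∧
          ∀ V : Space d → ℝ, Quarter.InClass V →
            Valid P A V r (√r * (d : ℝ) ^ (-(α + η))) (√r * (d : ℝ) ^ β)
              ((d : ℝ) ^ (-(min K (min (min p.D (x.D - x.ℓ - y.ℓ)) (y.D - κ) + β) - η)))
              ((d : ℝ) ^ (p.ℓ + η)) := by
    show ∀ᶠ d : ℕ in atTop, HasPost d ε (2 * K + 20) p → HasVal d ε x → HasVal d ε y →
      ∀ r : ℝ, 2 * passS d K < r → _
    filter_upwards [ev_two, H.par_ok Cn (zero_le_one.trans hCn),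
      H.budget (3 + (k + 1) * ((m + 1) * N)),
      H.size_le, H.loop C, hk (k + 1) (Nat.le_succ k) C, H.small C, H.def_le,
      hm m (m + 2) m m le_rfl (by omega) le_rfl le_rfl Cn (zero_le_one.trans hCn),
      hm m (m + 2) m m le_rfl (by omega) le_rfl le_rfl 1 zero_le_one,
      pass_numbers H C (by linarith)]
      with d hd hok hbud hsz hloop hend hsm hdef htail htail1 hnum hP hX hY t hts hte
    obtain ⟨hs, ht, ht1⟩ := H.t_facts hd hts hte
    have hd0 : (0 : ℝ) < d := by linarith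
    obtain ⟨J, hJ, hJT, hJb⟩ := hbud t hts hte
    obtain ⟨Ω, mΩ, μ, A, hΩ, hμ, hA, hAq, hval⟩ := hP t (passS d K) le_rfl hts.le hte
    have hPok := hok hX hY t hts hte
    obtain ⟨hbz, hbx, hnz, hpad⟩ := hnum t hts hte _ rfl _ rfl C' (by linarith) (by linarith)
    have hρ : 0 < √t * (d : ℝ) ^ β / √2 := by positivity
    have hT2 : 2 ≤ passT d η := by
      have : 3 + (k + 1) * ((m + 1) * N) ≤ (3 + (k + 1) * ((m + 1) * N)) * (J + 1) :=
        Nat.le_mul_of_pos_right _ (Nat.succ_pos J)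
      omega
    have hbudget : 3 + (k + 1) * (J * (m + 1) * N) ≤ passT d η := by
      refine le_trans ?_ hJT
      have : (3 + (k + 1) * ((m + 1) * N)) * (J + 1)
          = 3 * J + (k + 1) * ((m + 1) * N) + (3 + (k + 1) * (J * (m + 1) * N)) := by ring
      omega
    have hE0 : 0 ≤ (J : ℝ) * √((d : ℝ) ^ (-(η / 100))) ^ (m + 1) := by positivity
    have hE : (J : ℝ) * √((d : ℝ) ^ (-(η / 100))) ^ (m + 1) ≤ (d : ℝ) ^ (-(|K| + 15)) := by
      have := (htail1.2 J hJb).trans hdef.1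
      rwa [one_mul] at this
    have hK0 : 0 ≤ (d : ℝ) ^ (-(|K| + 15)) := Real.rpow_nonneg hd0.le _
    have hs0 : 0 ≤ √(passS d K) := Real.sqrt_nonneg _
    have htρ : 0 ≤ t / (√t * (d : ℝ) ^ β / √2) := div_nonneg ht.le hρ.le
    obtain ⟨hDR, hX₀R⟩ := fine_le (C' := C') hK0 hs0 hs.le ht.le htρ hE (by linarith) hC
    have hδ : 0 ≤ t * (d : ℝ) ^ (-p.D) := by positivity
    have hLp : 0 ≤ (d : ℝ) ^ p.ℓ := by positivity
    have hL := hloop t hts hte C' (t * (d : ℝ) ^ (-p.D) + 2 * (t * (d : ℝ) ^ (-p.D)))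
      (1 + (d : ℝ) ^ p.ℓ + 2 * (d : ℝ) ^ p.ℓ) _ _ (by linarith) (by linarith) (by positivity)
      (by positivity) (by positivity) (by positivity)
      (hDR.trans (mul_le_mul_of_nonneg_left (by linarith) (by linarith))) hX₀R
    obtain ⟨f1, f2⟩ := hend t hts hte C' (t * (d : ℝ) ^ (-p.D) + 2 * (t * (d : ℝ) ^ (-p.D)))
      (1 + (d : ℝ) ^ p.ℓ + 2 * (d : ℝ) ^ p.ℓ) _ _ (by linarith) (by linarith) (by positivity)
      (by positivity) hL.X_nn (hX₀R.trans (hsm t hts hte).1)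
      (sampler_le (by linarith) hδ (add_nonneg (add_nonneg hK0 hs0) hs.le)) hDR
      (lip_le (by linarith) hLp)
    obtain ⟨Ω', m', P', A', r1, r2, r3, r4, r5⟩ := pass_core (μ := μ) (A := A) (k := k)
      (P := passPar d t η K α β κ x y) (J := J) (n := m) (N := N) (qb := passQb d x y) (Cn := Cn)
      ht1 hs (show passS d K < t by linarith) hρ hδ hLp hval hA hT2 (by positivity) (by positivity)
      hpad
      (fun En π S₀ φa a b c e f => hnode d En S₀ _ _ Cn π J (m + 1) φa le_rfl a b (c ▸ hPok) e f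
        htail.1)
      (fun En π S₀ φ₁ φX DX a b c e g1 g2 g3 g4 g5 => by
        subst g5
        exact hsweep d (passT d η) _ Cn En _ π J S₀ a b hPok (Real.rpow_nonneg hd0.le _) hJ
          (by rw [c]; exact hbz) hbx φ₁ φX _ _ _ _ _ _ hδ (mul_nonneg zero_le_two hδ) hLp
          (mul_nonneg zero_le_two hLp) le_rfl e g1 g2 g3 g4)
      hL hbudget hnz
    have hρ2 : √2 * (√t * (d : ℝ) ^ β / √2) = √t * (d : ℝ) ^ β := by
      field_simp
    refine ⟨Ω', m', P', A', r1, r2, r3, (Nat.cast_le.2 r4).trans (hsz A.size hAq), fun V hV => ?_⟩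
    exact hρ2 ▸ (r5 V hV).mono (add_nonneg
      (mul_nonneg zero_le_two (add_nonneg hL.e_nn (mul_nonneg hL.C_nn (sweepSrc_nonneg hL.t_nn
        hL.ρ_pos.le hL.G_nn hL.θ_nn hL.sx_nn hL.sy_nn (zero_le_one.trans hL.Lx_ge)
        (zero_le_one.trans hL.Ly_ge)))))
      (add_nonneg (mul_nonneg zero_le_two hL.src_nn) (mul_nonneg (pow_nonneg hL.rate.1 _) hL.X_nn)))
      f1 f2
  obtain ⟨d₀, hd₀⟩ := eventually_atTop.1 hev
  exact ⟨d₀, hd₀⟩

end

end P347.Zero
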