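import Vale.Agent.P347.Zero.Crude
import Vale.Agent.P347.Quarter.Tame

/-!
# P347: conditional averages of derivatives of the logarithm of the smoothed target

At time `v` the point is `y + v • w`, at variance `t - v ^ 2`. The average of a derivative of
`log smooth` moves only by the contractions of lower derivatives, and one space derivative of an
average costs the factor `w - v • score`, whose second moment is bounded.
-/

namespace P347.Zero

open MeasureTheory ProbabilityTheory Filter Topology Finset P347.Quarter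
open scoped RealInnerProductSpace

noncomputable section

variable {d : ℕ} {V : Space d → ℝ}

theorem inner_bv (w : Space d) (i : Fin d) : ⟪bv i, w⟫ = w i := by
  simp [bv, EuclideanSpace.inner_single_left]

theorem sum_proj_bv (a : Fin d → ℝ) (i : Fin d) :
    (∑ j, a j • (EuclideanSpace.proj j : Space d →L[ℝ] ℝ)) (bv i) = a i := by
  simp [_root_.sum_apply, bv, EuclideanSpace.basisFun_apply]

/-- Bounded with a bounded space derivative, as long as the time stays away from `0`. -/
structure Nice (G : ℝ × Space d → ℝ) : Prop where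
  cd : ∀ p : ℝ × Space d, 0 < p.1 → ContDiffAt ℝ 1 G p
  bd : ∀ r₀ : ℝ, 0 < r₀ → ∃ K : ℝ, 0 ≤ K ∧ ∀ r, r₀ ≤ r → r ≤ 1 → ∀ z,
    |G (r, z)| ≤ K ∧ ‖fderiv ℝ (fun z => G (r, z)) z‖ ≤ K

theorem Nice.contDiff {G : ℝ × Space d → ℝ} (h : Nice G) {r : ℝ} (hr : 0 < r) :
    ContDiff ℝ 1 fun z => G (r, z) :=
  contDiff_iff_contDiffAt.2 fun z =>
    (h.cd (r, z) hr).comp z (contDiffAt_const.prodMk contDiffAt_id)

theorem Nice.continuousAt {G : ℝ × Space d → ℝ} (h : Nice G) {p : ℝ × Space d} (hp : 0 < p.1) :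
    ContinuousAt G p :=
  (h.cd p hp).continuousAt

theorem nice_const (c : ℝ) : Nice fun _ : ℝ × Space d => c :=
  ⟨fun _ _ => contDiffAt_const, fun _ _ => ⟨|c|, abs_nonneg c, fun r _ _ z => by simp⟩⟩

theorem Nice.add {F G : ℝ × Space d → ℝ} (hF : Nice F) (hG : Nice G) :
    Nice fun p => F p + G p := by
  refine ⟨fun p hp => (hF.cd p hp).add (hG.cd p hp), fun r₀ h0 => ?_⟩
  obtain ⟨K, hK, hKb⟩ := hF.bd r₀ h0
  obtain ⟨M, hM, hMb⟩ := hG.bd r₀ h0
  refine ⟨K + M, by positivity, fun r hr hr1 z => ?_⟩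
  obtain ⟨a1, a2⟩ := hKb r hr hr1 z
  obtain ⟨b1, b2⟩ := hMb r hr hr1 z
  refine ⟨(abs_add_le _ _).trans (add_le_add a1 b1), ?_⟩
  have hr0 : 0 < r := lt_of_lt_of_le h0 hr
  rw [fderiv_fun_add ((hF.contDiff hr0).differentiable one_ne_zero z)
    ((hG.contDiff hr0).differentiable one_ne_zero z)]
  exact (norm_add_le _ _).trans (add_le_add a2 b2)

theorem Nice.mul {F G : ℝ × Space d → ℝ} (hF : Nice F) (hG : Nice G) :
    Nice fun p => F p * G p := by
  refine ⟨fun p hp => (hF.cd p hp).mul (hG.cd p hp), fun r₀ h0 => ?_⟩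
  obtain ⟨K, hK, hKb⟩ := hF.bd r₀ h0
  obtain ⟨M, hM, hMb⟩ := hG.bd r₀ h0
  refine ⟨K * M + M * K + K * M, by positivity, fun r hr hr1 z => ?_⟩
  obtain ⟨a1, a2⟩ := hKb r hr hr1 z
  obtain ⟨b1, b2⟩ := hMb r hr hr1 z
  have hp : 0 ≤ K * M := mul_nonneg hK hM
  constructor
  · rw [abs_mul]
    exact (mul_le_mul a1 b1 (abs_nonneg _) hK).trans (by linarith)
  have hr0 : 0 < r := lt_of_lt_of_le h0 hr
  rw [fderiv_fun_mul ((hF.contDiff hr0).differentiable one_ne_zero z)
    ((hG.contDiff hr0).differentiable one_ne_zero z)]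
  refine (norm_add_le _ _).trans ?_
  rw [norm_smul, norm_smul, Real.norm_eq_abs, Real.norm_eq_abs]
  have e1 := mul_le_mul a1 b2 (norm_nonneg _) hK
  have e2 := mul_le_mul b1 a2 (norm_nonneg _) hM
  linarith

theorem Nice.sum {κ : Type} (s : Finset κ) {G : κ → ℝ × Space d → ℝ} (h : ∀ k, Nice (G k)) :
    Nice fun p => ∑ k ∈ s, G k p := by
  classical
  induction s using Finset.induction with
  | empty => simpa using nice_const 0
  | @insert a s ha ih =>
    simp only [Finset.sum_insert ha]
    exact (h a).add ih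

theorem Nice.congr {F G : ℝ × Space d → ℝ} (hF : Nice F)
    (h : ∀ r, 0 < r → ∀ z, G (r, z) = F (r, z)) : Nice G := by
  refine ⟨fun p hp => (hF.cd p hp).congr_of_eventuallyEq ?_, fun r₀ h0 => ?_⟩
  · filter_upwards [continuous_fst.continuousAt.preimage_mem_nhds (Ioi_mem_nhds hp)] with u hu
    exact h u.1 hu u.2
  · obtain ⟨K, hK, hKb⟩ := hF.bd r₀ h0
    refine ⟨K, hK, fun r hr hr1 z => ?_⟩
    have e : (fun z => G (r, z)) = fun z => F (r, z) := funext (h r (lt_of_lt_of_le h0 hr))
    rw [e, h r (lt_of_lt_of_le h0 hr) z]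
    exact hKb r hr hr1 z

theorem nice_sd (hV : InClass V) (L : List (Fin d)) : Nice (sd V L) := by
  refine ⟨fun p hp => (contDiffOn_sd hV 1 L).contDiffAt (isOpen_times.mem_nhds ⟨hp, trivial⟩),
    fun r₀ h0 => ?_⟩
  obtain ⟨K, hK, hKb⟩ := exists_sd_bound d L h0
  choose M hM hMb using fun i => exists_sd_bound d (i :: L) h0
  have hS : (0 : ℝ) ≤ ∑ i, M i := sum_nonneg fun i _ => hM i
  refine ⟨K + ∑ i, M i, by positivity, fun r hr _ z =>
    ⟨(hKb V hV r hr z).trans (by linarith), ?_⟩⟩
  refine ((norm_fderiv_pd_le L (smooth V r) z).trans ?_).trans (le_add_of_nonneg_left hK)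
  exact sum_le_sum fun i _ => hMb i V hV r hr z

theorem nice_ld (hV : InClass V) (L : List (Fin d)) (hL : 2 ≤ L.length) : Nice (ld V L) := by
  refine ⟨fun p hp => contDiffAt_ld hV L 1 hp, fun r₀ h0 => ?_⟩
  obtain ⟨K, hK, hKb⟩ := exists_ld_bound hV h0 L hL
  choose M hM hMb using fun i : Fin d => exists_ld_bound hV h0 (i :: L) (by simp; omega)
  have hS : (0 : ℝ) ≤ ∑ i, M i := sum_nonneg fun i _ => hM i
  refine ⟨K + ∑ i, M i, by positivity, fun r hr hr1 z =>
    ⟨(hKb r hr hr1 z).trans (by linarith), ?_⟩⟩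
  refine ((norm_fderiv_pd_le L (fun z => Real.log (smooth V r z)) z).trans ?_).trans
    (le_add_of_nonneg_left hK)
  exact sum_le_sum fun i _ => hMb i r hr hr1 z

/-! ### The product of the density with a derivative of the logarithm -/

/-- The contractions of two derivatives of lower order. -/
def proper (V : Space d → ℝ) (L : List (Fin d)) (p : ℝ × Space d) : ℝ :=
  quadSum V L p - 2 * ∑ l, ld V [l] p * ld V (l :: L) p

theorem proper_eq (L : List (Fin d)) {mid : List (List Bool)}
    (hm : pats L.length = List.replicate L.length true :: mid ++ [List.replicate L.length false])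
    (p : ℝ × Space d) :
    proper V L p
      = (mid.map fun π => contract (fun A => ld V A p) (fun A => ld V A p) π L).sum := by
  obtain ⟨h1, h2, h3, h4⟩ := pick_replicate L
  simp only [proper, quadSum, hm, List.map_append, List.map_cons, List.map_nil, List.sum_append,
    List.sum_cons, List.sum_nil, contract, h1, h2, h3, h4]
  have e : ∑ l, ld V (l :: L) p * ld V [l] p = ∑ l, ld V [l] p * ld V (l :: L) p :=
    sum_congr rfl fun l _ => mul_comm _ _
  rw [e]
  ring

theorem nice_proper (hV : InClass V) (L : List (Fin d)) (hL : 1 ≤ L.length) :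
    Nice (proper V L) := by
  obtain ⟨mid, hm, hmp⟩ := pats_split L.length hL
  have key : ∀ R : List (List Bool), (∀ π ∈ R, π.length = L.length ∧ 1 ≤ numT π ∧ 1 ≤ numF π) →
      Nice fun p => (R.map fun π => contract (fun A => ld V A p) (fun A => ld V A p) π L).sum := by
    intro R
    induction R with
    | nil => intro _; simpa using nice_const (d := d) 0
    | cons π R ih =>
      intro h
      simp only [List.map_cons, List.sum_cons, contract]
      obtain ⟨hl, hT, hF⟩ := h π (by simp)
      obtain ⟨e1, e2⟩ := length_pick π L hl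
      exact (Nice.sum Finset.univ fun l => (nice_ld hV (l :: pickT π L) (by simp; omega)).mul
        (nice_ld hV (l :: pickF π L) (by simp; omega))).add
        (ih fun ρ hρ => h ρ (List.mem_cons_of_mem _ hρ))
  exact (key mid hmp).congr fun r _ z => proper_eq L hm (r, z)

/-- The density times a derivative of the logarithm. -/
def fL (V : Space d → ℝ) (L : List (Fin d)) (p : ℝ × Space d) : ℝ := sd V [] p * ld V L p

/-- The density times the lower contractions. -/
def fP (V : Space d → ℝ) (L : List (Fin d)) (p : ℝ × Space d) : ℝ := sd V [] p * proper V L p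

/-- The space derivatives of `fL`. -/
def g1 (V : Space d → ℝ) (L : List (Fin d)) (i : Fin d) (p : ℝ × Space d) : ℝ :=
  sd V [i] p * ld V L p + sd V [] p * ld V (i :: L) p

/-- The second space derivatives of `fL`. -/
def g2 (V : Space d → ℝ) (L : List (Fin d)) (j i : Fin d) (p : ℝ × Space d) : ℝ :=
  sd V [j, i] p * ld V L p + sd V [i] p * ld V (j :: L) p
    + (sd V [j] p * ld V (i :: L) p + sd V [] p * ld V (j :: i :: L) p)

/-- The time derivative of `fL`. -/
def dotL (V : Space d → ℝ) (L : List (Fin d)) (p : ℝ × Space d) : ℝ :=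
  1 / 2 * ∑ i, g2 V L i i p + 1 / 2 * fP V L p

theorem nice_fP (hV : InClass V) (L : List (Fin d)) (hL : 1 ≤ L.length) : Nice (fP V L) :=
  (nice_sd hV []).mul (nice_proper hV L hL)

theorem nice_fL (hV : InClass V) (L : List (Fin d)) (hL : 2 ≤ L.length) : Nice (fL V L) :=
  (nice_sd hV []).mul (nice_ld hV L hL)

theorem nice_g1 (hV : InClass V) (L : List (Fin d)) (hL : 2 ≤ L.length) (i : Fin d) :
    Nice (g1 V L i) :=
  ((nice_sd hV [i]).mul (nice_ld hV L hL)).add
    ((nice_sd hV []).mul (nice_ld hV (i :: L) (by simp; omega)))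

theorem nice_g2 (hV : InClass V) (L : List (Fin d)) (hL : 2 ≤ L.length) (j i : Fin d) :
    Nice (g2 V L j i) :=
  (((nice_sd hV [j, i]).mul (nice_ld hV L hL)).add
    ((nice_sd hV [i]).mul (nice_ld hV (j :: L) (by simp; omega)))).add
    (((nice_sd hV [j]).mul (nice_ld hV (i :: L) (by simp; omega))).add
      ((nice_sd hV []).mul (nice_ld hV (j :: i :: L) (by simp))))

theorem nice_dotL (hV : InClass V) (L : List (Fin d)) (hL : 2 ≤ L.length) : Nice (dotL V L) :=
  ((nice_const (1 / 2)).mul (Nice.sum Finset.univ fun i => nice_g2 hV L hL i i)).add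
    ((nice_const (1 / 2)).mul (nice_fP hV L (by omega)))

theorem hasFDerivAt_sd_space (hV : InClass V) (L : List (Fin d)) {r : ℝ} (hr : 0 < r)
    (z : Space d) : HasFDerivAt (fun z => sd V L (r, z))
      (∑ i, sd V (i :: L) (r, z) • (EuclideanSpace.proj i : Space d →L[ℝ] ℝ)) z :=
  ((((reg_smooth hV hr).one L).differentiable one_ne_zero z).hasFDerivAt).congr_fderiv
    (congrFun (fderiv_eq_sum_pd L (smooth V r)) z)

theorem fderiv_fL (hV : InClass V) (L : List (Fin d)) {r : ℝ} (hr : 0 < r) (z : Space d) :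
    fderiv ℝ (fun z => fL V L (r, z)) z
      = ∑ i, g1 V L i (r, z) • (EuclideanSpace.proj i : Space d →L[ℝ] ℝ) := by
  have h : HasFDerivAt (fun z => fL V L (r, z)) _ z :=
    (hasFDerivAt_sd_space hV [] hr z).mul (hasDerivAt_ld_space hV L hr z).2
  rw [h.fderiv, smul_sum, smul_sum, ← sum_add_distrib]
  refine sum_congr rfl fun i _ => ?_
  rw [smul_smul, smul_smul, ← add_smul]
  simp only [g1]
  congr 1
  ring

theorem fderiv_g1 (hV : InClass V) (L : List (Fin d)) (i j : Fin d) {r : ℝ} (hr : 0 < r)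
    (z : Space d) : fderiv ℝ (fun z => g1 V L i (r, z)) z (bv j) = g2 V L j i (r, z) := by
  have h : HasFDerivAt (fun z => g1 V L i (r, z)) _ z :=
    ((hasFDerivAt_sd_space hV [i] hr z).mul (hasDerivAt_ld_space hV L hr z).2).fun_add
      ((hasFDerivAt_sd_space hV [] hr z).mul (hasDerivAt_ld_space hV (i :: L) hr z).2)
  rw [h.fderiv]
  simp only [_root_.add_apply, _root_.smul_apply, sum_proj_bv, smul_eq_mul, g2]
  ring

theorem hasDerivAt_fL (hV : InClass V) (L : List (Fin d)) {r : ℝ} (hr : 0 < r) (z : Space d) :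
    HasDerivAt (fun r' => fL V L (r', z)) (dotL V L (r, z)) r := by
  have h : HasDerivAt (fun r' => fL V L (r', z)) _ r :=
    (hasDerivAt_pd_smooth hV hr [] z).mul (hasDerivAt_ld hV L hr z)
  refine h.congr_deriv ?_
  have hp := (smooth_pos' hV r z).ne'
  have e : ∀ l, sd V [l] (r, z) = sd V [] (r, z) * ld V [l] (r, z) := fun l => by
    rw [ld_single hV hr, mul_div_cancel₀ _ (show sd V [] (r, z) ≠ 0 from hp)]
  have e2 : ∑ i, g2 V L i i (r, z) = (∑ i, sd V [i, i] (r, z)) * ld V L (r, z)
      + sd V [] (r, z) * (2 * ∑ l, ld V [l] (r, z) * ld V (l :: L) (r, z))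
      + sd V [] (r, z) * ∑ i, ld V (i :: i :: L) (r, z) := by
    simp only [g2, e, sum_mul, mul_sum, ← sum_add_distrib]
    exact sum_congr rfl fun i _ => by ring
  simp only [dotL, fP, proper, e2]
  simp only [sd]
  ring

/-! ### Averages along a ray -/

theorem radius_ev {t v₀ : ℝ} (hv : v₀ ^ 2 < t) :
    ∀ᶠ v in 𝓝 v₀, (t - v₀ ^ 2) / 2 ≤ t - v ^ 2 :=
  (((continuous_pow 2).tendsto v₀).eventually
    (Iic_mem_nhds (show v₀ ^ 2 < (t + v₀ ^ 2) / 2 by linarith))).mono
    fun v hv' => by
      have : v ^ 2 ≤ (t + v₀ ^ 2) / 2 := hv'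
      linarith

theorem abs_le_one_of_sq {t v : ℝ} (ht : t ≤ 1) (hv : v ^ 2 < t) : |v| ≤ 1 :=
  (sq_le_one_iff_abs_le_one v).1 (by linarith)

/-- The average of `G` against a factor of at most linear growth. -/
def gint (t : ℝ) (y : Space d) (G : ℝ × Space d → ℝ) (ψ : ℝ → Space d → ℝ) (v : ℝ) : ℝ :=
  ∫ w, G (t - v ^ 2, y + v • w) * ψ v w ∂stdGaussian (Space d)

theorem Nice.integrable_gint {G : ℝ × Space d → ℝ} (h : Nice G) {t v : ℝ} (ht : t ≤ 1)
    (hv : v ^ 2 < t) (y : Space d) {ψ : Space d → ℝ} (hψ : Continuous ψ) {C : ℝ} {n : ℕ}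
    (hb : ∀ w, |ψ w| ≤ C * (1 + ‖w‖) ^ n) :
    Integrable (fun w => G (t - v ^ 2, y + v • w) * ψ w) (stdGaussian (Space d)) := by
  have hr : 0 < t - v ^ 2 := by linarith
  obtain ⟨K, hK, hKb⟩ := h.bd _ hr
  refine integrable_of_poly (C := K * C) (n := n)
    (((h.contDiff hr).continuous.comp (by fun_prop : Continuous fun w => y + v • w)).mul
      hψ).aestronglyMeasurable fun w => ?_
  rw [Real.norm_eq_abs, abs_mul, mul_assoc]
  exact mul_le_mul (hKb _ le_rfl (by linarith [sq_nonneg v]) _).1 (hb w) (abs_nonneg _) hK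

theorem Nice.continuousAt_gint {G : ℝ × Space d → ℝ} (h : Nice G) {t : ℝ} (ht : t ≤ 1)
    (y : Space d) {ψ : ℝ → Space d → ℝ} (hψ : Continuous (Function.uncurry ψ)) {C : ℝ}
    (hb : ∀ v w, |v| ≤ 1 → |ψ v w| ≤ C * (1 + ‖w‖)) {v₀ : ℝ} (hv : v₀ ^ 2 < t) :
    ContinuousAt (gint t y G ψ) v₀ := by
  obtain ⟨K, hK, hKb⟩ := h.bd ((t - v₀ ^ 2) / 2) (by linarith)
  refine continuousAt_of_dominated (bound := fun w => K * C * (1 + ‖w‖) ^ 1) ?_ ?_
    (integrable_poly _ _ _) (Eventually.of_forall fun w => ?_)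
  · filter_upwards [radius_ev hv] with v hv'
    exact (((h.contDiff (by linarith : 0 < t - v ^ 2)).continuous.comp
      (by fun_prop : Continuous fun w => y + v • w)).mul
      (hψ.comp (Continuous.prodMk_right v))).aestronglyMeasurable
  · filter_upwards [radius_ev hv] with v hv'
    refine Eventually.of_forall fun w => ?_
    rw [Real.norm_eq_abs, abs_mul, mul_assoc, pow_one]
    exact mul_le_mul (hKb _ hv' (by linarith [sq_nonneg v]) _).1
      (hb v w (abs_le_one_of_sq ht (by linarith))) (abs_nonneg _) hK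
  · refine ContinuousAt.mul ?_ (hψ.comp (Continuous.prodMk_left w)).continuousAt
    exact ContinuousAt.comp (g := G) (f := fun v : ℝ => (t - v ^ 2, y + v • w))
      (h.continuousAt (by show 0 < t - v₀ ^ 2; linarith)) (by fun_prop)

theorem Nice.continuousOn_gint {G : ℝ × Space d → ℝ} (h : Nice G) {t Q : ℝ} (ht : t ≤ 1)
    (hQ : Q ^ 2 < t) (y : Space d) {ψ : ℝ → Space d → ℝ}
    (hψ : Continuous (Function.uncurry ψ)) {C : ℝ}
    (hb : ∀ v w, |v| ≤ 1 → |ψ v w| ≤ C * (1 + ‖w‖)) :
    ContinuousOn (gint t y G ψ) (Set.Icc 0 Q) := fun v hv =>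
  (h.continuousAt_gint ht y hψ hb
    (lt_of_le_of_lt (pow_le_pow_left₀ hv.1 hv.2 2) hQ)).continuousWithinAt

theorem one_growth (_v : ℝ) (w : Space d) (_ : |_v| ≤ 1) :
    |(1 : ℝ)| ≤ 1 * (1 + ‖w‖) := by simp

theorem affine_growth (m : ℝ) (j : Fin d) {v : ℝ} (w : Space d) (hv : |v| ≤ 1) :
    |w j - v * m| ≤ (1 + |m|) * (1 + ‖w‖) := by
  refine (abs_sub _ _).trans ?_
  rw [abs_mul]
  have h1 : |w j| ≤ ‖w‖ := by simpa using PiLp.norm_apply_le w j
  have h2 := mul_le_mul_of_nonneg_right hv (abs_nonneg m)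
  nlinarith [abs_nonneg m, norm_nonneg w]

/-- Gaussian integration by parts along a ray. -/
theorem Nice.gint_parts {G : ℝ × Space d → ℝ} (h : Nice G) {t v : ℝ} (ht : t ≤ 1)
    (hv : v ^ 2 < t) (y : Space d) (i : Fin d) :
    ∫ w, w i * G (t - v ^ 2, y + v • w) ∂stdGaussian (Space d)
      = v * ∫ w, fderiv ℝ (fun z => G (t - v ^ 2, z)) (y + v • w) (bv i) ∂stdGaussian (Space d) := by
  have hr : 0 < t - v ^ 2 := by linarith
  obtain ⟨K, hK, hKb⟩ := h.bd _ hr
  have hG := h.contDiff hr
  have hd : ∀ w, HasFDerivAt (fun w => G (t - v ^ 2, y + v • w))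
      (v • fderiv ℝ (fun z => G (t - v ^ 2, z)) (y + v • w)) w := by
    intro w
    refine (((hG.differentiable one_ne_zero (y + v • w)).hasFDerivAt).comp w
      (((hasFDerivAt_id w).const_smul v).const_add y)).congr_fderiv ?_
    ext u
    simp
  have hT : Tame fun w => G (t - v ^ 2, y + v • w) := by
    refine tame_of_lip (hG.comp (by fun_prop)) (L := |v| * K) fun w => ?_
    rw [(hd w).fderiv, norm_smul, Real.norm_eq_abs]
    exact mul_le_mul_of_nonneg_left (hKb _ le_rfl (by linarith [sq_nonneg v]) _).2 (abs_nonneg v)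
  have := gauss_parts hT (bv i)
  simp only [inner_bv] at this
  rw [this, ← integral_const_mul]
  exact integral_congr_ae (Eventually.of_forall fun w => by simp [(hd w).fderiv])

/-- The derivative of an average in the base point. -/
theorem Nice.hasDerivAt_gint {G : ℝ × Space d → ℝ} (h : Nice G) {t v : ℝ} (ht : t ≤ 1)
    (hv : v ^ 2 < t) (y : Space d) (j : Fin d) (τ : ℝ) :
    HasDerivAt (fun τ => v * gint t (y + τ • bv j) G (fun _ _ => 1) v)
      (gint t (y + τ • bv j) G (fun _ w => w j) v) τ := by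
  have hr : 0 < t - v ^ 2 := by linarith
  obtain ⟨K, hK, hKb⟩ := h.bd _ hr
  have hG : Lip1 (fun z => G (t - v ^ 2, z)) K :=
    ⟨h.contDiff hr, fun z => (hKb _ le_rfl (by linarith [sq_nonneg v]) z).2⟩
  have hl : HasDerivAt (fun τ : ℝ => y + τ • bv j) (bv j) τ := by
    simpa using ((hasDerivAt_id τ).smul_const (bv j)).const_add y
  have h1 := ((hG.hasFDerivAt_gav v (y + τ • bv j)).comp_hasDerivAt τ hl).const_mul v
  have hb : Bdd (fderiv ℝ fun z => G (t - v ^ 2, z)) K :=
    ⟨hG.smooth.continuous_fderiv one_ne_zero, hG.bound⟩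
  refine (h1.congr_deriv ?_).congr_of_eventuallyEq (Eventually.of_forall fun τ => ?_)
  · simp only [Quarter.gav]
    rw [ContinuousLinearMap.integral_apply ((hb.shift v _).integrable _),
      ← h.gint_parts ht hv _ j]
    simp only [gint, mul_comm]
  · simp [gint, Quarter.gav]

theorem sd_avg (hV : InClass V) {t v : ℝ} (hv : v ^ 2 < t) (hv0 : 0 ≤ v) (y : Space d)
    (L : List (Fin d)) :
    ∫ w, sd V L (t - v ^ 2, y + v • w) ∂stdGaussian (Space d) = sd V L (t, y) := by
  have h := congrFun (pd_smooth_eq hV (r₀ := t - v ^ 2) (r := t) (by linarith)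
    (by linarith [sq_nonneg v]) L) y
  rw [show t - (t - v ^ 2) = v ^ 2 by ring, Real.sqrt_sq hv0] at h
  exact h.symm

/-! ### The identity and its derivative -/

theorem hasDerivAt_gint_fL (hV : InClass V) {L : List (Fin d)} (hL : 2 ≤ L.length) {t v₀ : ℝ}
    (ht : t ≤ 1) (hv : v₀ ^ 2 < t) (y : Space d) :
    HasDerivAt (gint t y (fL V L) fun _ _ => 1)
      (-(v₀ * gint t y (fP V L) (fun _ _ => 1) v₀)) v₀ := by
  set γ := stdGaussian (Space d) with hγ
  have hr : 0 < t - v₀ ^ 2 := by linarith
  obtain ⟨K, hK, hKb⟩ := (nice_dotL hV L hL).bd _ (half_pos hr)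
  obtain ⟨M, hM, hMb⟩ := (nice_fL hV L hL).bd _ (half_pos hr)
  have hf := nice_fL hV L hL
  set F' : ℝ → Space d → ℝ := fun v w => -(2 * v) * dotL V L (t - v ^ 2, y + v • w)
    + ∑ i, w i * g1 V L i (t - v ^ 2, y + v • w) with hF'
  have hcF : ∀ v, 0 < t - v ^ 2 → Continuous fun w => fL V L (t - v ^ 2, y + v • w) :=
    fun v hv' => (hf.contDiff hv').continuous.comp (by fun_prop)
  have hd : ∀ v w, 0 < t - v ^ 2 →
      HasDerivAt (fun v => fL V L (t - v ^ 2, y + v • w)) (F' v w) v := by
    intro v w hv'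
    set p : ℝ × Space d := (t - v ^ 2, y + v • w) with hp
    have hD := ((hf.cd p hv').differentiableAt one_ne_zero).hasFDerivAt
    have hγ' : HasDerivAt (fun v : ℝ => (t - v ^ 2, y + v • w)) (-(2 * v), w) v := by
      refine HasDerivAt.prodMk ?_ ?_
      · simpa using ((hasDerivAt_pow 2 v).const_sub t)
      · simpa using ((hasDerivAt_id v).smul_const w).const_add y
    refine (hD.comp_hasDerivAt (f := fun v : ℝ => (t - v ^ 2, y + v • w)) v hγ').congr_deriv ?_
    have e1 : fderiv ℝ (fL V L) p ((1 : ℝ), (0 : Space d)) = dotL V L p := by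
      have g0 : HasDerivAt (fun r' : ℝ => (r', p.2)) ((1 : ℝ), (0 : Space d)) p.1 :=
        (hasDerivAt_id' p.1).prodMk (hasDerivAt_const p.1 p.2)
      exact (HasFDerivAt.comp_hasDerivAt (l := fL V L) (f := fun r' : ℝ => (r', p.2)) p.1 hD
        g0).unique (hasDerivAt_fL hV L hv' p.2)
    have e2 : fderiv ℝ (fL V L) p ((0 : ℝ), w) = ∑ i, w i * g1 V L i p := by
      have g : HasFDerivAt (fun z => fL V L (p.1, z))
          ((fderiv ℝ (fL V L) p).comp (ContinuousLinearMap.inr ℝ ℝ (Space d))) p.2 :=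
        hD.comp p.2 (f := fun z => (p.1, z)) (hasFDerivAt_prodMk_right (𝕜 := ℝ) p.1 p.2)
      have := g.fderiv
      rw [fderiv_fL hV L hv' p.2] at this
      have := congrArg (fun A : Space d →L[ℝ] ℝ => A w) this
      simp [_root_.sum_apply, mul_comm] at this
      exact this.symm
    rw [show (-(2 * v), w) = (-(2 * v)) • ((1 : ℝ), (0 : Space d)) + ((0 : ℝ), w) by simp,
      map_add, map_smul, e1, e2, smul_eq_mul]
  have hFc : ∀ v, 0 < t - v ^ 2 → Continuous (F' v) := fun v hv' =>
    (continuous_const.mul (((nice_dotL hV L hL).contDiff hv').continuous.comp (by fun_prop))).add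
      (continuous_finsetSum _ fun i _ => (by fun_prop : Continuous fun w : Space d => w i).mul
        (((nice_g1 hV L hL i).contDiff hv').continuous.comp (by fun_prop)))
  have key := (hasDerivAt_integral_of_dominated_loc_of_deriv_le (μ := γ) (x₀ := v₀)
    (F := fun v w => fL V L (t - v ^ 2, y + v • w)) (F' := F')
    (s := {v | (t - v₀ ^ 2) / 2 ≤ t - v ^ 2})
    (bound := fun w => 2 * K + M * ‖w‖) (radius_ev hv) ?_ ?_ (hFc v₀ hr).aestronglyMeasurable ?_
    ((integrable_const (2 * K)).add (integrable_norm_stdGaussian.const_mul M)) ?_).2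
  rotate_left
  · filter_upwards [radius_ev hv] with v hv'
    exact (hcF v (by linarith)).aestronglyMeasurable
  · exact Integrable.of_bound (hcF v₀ hr).aestronglyMeasurable M
      (Eventually.of_forall fun w => (hMb _ (by linarith) (by linarith [sq_nonneg v₀]) _).1)
  · refine Eventually.of_forall fun w v (hv' : (t - v₀ ^ 2) / 2 ≤ t - v ^ 2) => ?_
    have hv1 : |v| ≤ 1 := abs_le_one_of_sq ht (by linarith)
    have hr1 : t - v ^ 2 ≤ 1 := by linarith [sq_nonneg v]
    refine (norm_add_le _ _).trans (add_le_add ?_ ?_)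
    · rw [norm_mul, norm_neg, norm_mul, Real.norm_two, Real.norm_eq_abs, Real.norm_eq_abs]
      exact mul_le_mul (by linarith) (hKb _ hv' hr1 _).1 (abs_nonneg _) (by norm_num)
    · have e : (∑ i, w i * g1 V L i (t - v ^ 2, y + v • w))
          = fderiv ℝ (fun z => fL V L (t - v ^ 2, z)) (y + v • w) w := by
        rw [fderiv_fL hV L (by linarith)]
        simp [_root_.sum_apply, mul_comm]
      rw [e]
      exact (ContinuousLinearMap.le_opNorm _ _).trans
        (mul_le_mul_of_nonneg_right (hMb _ hv' hr1 _).2 (norm_nonneg _))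
  · exact Eventually.of_forall fun w v (hv' : (t - v₀ ^ 2) / 2 ≤ t - v ^ 2) =>
      hd v w (by linarith)
  refine (key.congr_deriv ?_).congr_of_eventuallyEq (Eventually.of_forall fun v => by simp [gint, γ])
  -- integration by parts
  have iI : ∀ {G : ℝ × Space d → ℝ}, Nice G →
      Integrable (fun w => G (t - v₀ ^ 2, y + v₀ • w)) γ := by
    intro G hG
    simpa using hG.integrable_gint ht hv y (ψ := fun _ => 1) continuous_const (C := 1) (n := 1)
      fun w => by simp
  have i1 : Integrable (fun w => -(2 * v₀) * dotL V L (t - v₀ ^ 2, y + v₀ • w)) γ :=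
    (iI (nice_dotL hV L hL)).const_mul _
  have i2 : ∀ i, Integrable (fun w => w i * g1 V L i (t - v₀ ^ 2, y + v₀ • w)) γ := by
    intro i
    simpa [mul_comm] using (nice_g1 hV L hL i).integrable_gint ht hv y (ψ := fun w => w i)
      (by fun_prop) (C := 1) (n := 1) fun w => by
        have : |w i| ≤ ‖w‖ := by simpa using PiLp.norm_apply_le w i
        linarith
  have i3 := fun i => iI (nice_g2 hV L hL i i)
  simp only [hF']
  rw [integral_add i1 (integrable_finsetSum _ fun i _ => i2 i), integral_const_mul,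
    integral_finsetSum _ fun i _ => i2 i]
  simp only [dotL]
  rw [integral_add ((integrable_finsetSum _ fun i _ => i3 i).const_mul _)
      ((iI (nice_fP hV L (by omega))).const_mul _),
    integral_const_mul, integral_const_mul, integral_finsetSum _ fun i _ => i3 i,
    sum_congr rfl fun i _ => show ∫ w, w i * g1 V L i (t - v₀ ^ 2, y + v₀ • w) ∂γ
        = v₀ * ∫ w, g2 V L i i (t - v₀ ^ 2, y + v₀ • w) ∂γ by
      rw [(nice_g1 hV L hL i).gint_parts ht hv y i]
      simp only [fderiv_g1 hV L i i hr]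
      rfl, ← mul_sum]
  simp only [gint, mul_one, γ]
  ring

/-- A derivative of the logarithm as an average of the same at a finer variance plus averages of
lower contractions. -/
theorem fL_eq (hV : InClass V) {L : List (Fin d)} (hL : 2 ≤ L.length) {t Q : ℝ} (ht : t ≤ 1)
    (hQ0 : 0 ≤ Q) (hQ : Q ^ 2 < t) (y : Space d) :
    fL V L (t, y) = gint t y (fL V L) (fun _ _ => 1) Q
      + ∫ v in (0 : ℝ)..Q, v * gint t y (fP V L) (fun _ _ => 1) v := by
  have hc := (continuous_id.continuousOn (s := Set.Icc 0 Q)).mul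
    ((nice_fP hV L (by omega)).continuousOn_gint ht hQ y
      (ψ := fun _ _ => 1) continuous_const (C := 1) one_growth)
  have h := intervalIntegral.integral_eq_sub_of_hasDerivAt
    (f := gint t y (fL V L) fun _ _ => 1)
    (f' := fun v => -(v * gint t y (fP V L) (fun _ _ => 1) v))
    (a := 0) (b := Q) (fun v hv => by
      rw [Set.uIcc_of_le hQ0] at hv
      exact hasDerivAt_gint_fL hV hL ht (lt_of_le_of_lt (pow_le_pow_left₀ hv.1 hv.2 2) hQ) y)
    (hc.neg.intervalIntegrable_of_Icc hQ0)
  rw [intervalIntegral.integral_neg] at h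
  have e : gint t y (fL V L) (fun _ _ => 1) 0 = fL V L (t, y) := by simp [gint]
  rw [e] at h
  linarith

/-- One space derivative of the identity. -/
theorem ld_cons_eq (hV : InClass V) {L : List (Fin d)} (hL : 2 ≤ L.length) {t Q : ℝ} (ht : t ≤ 1)
    (hQ0 : 0 < Q) (hQ : Q ^ 2 < t) (y : Space d) (j : Fin d) :
    sd V [] (t, y) * ld V (j :: L) (t, y)
      = Q⁻¹ * gint t y (fL V L) (fun v w => w j - v * ld V [j] (t, y)) Q
        + ∫ v in (0 : ℝ)..Q, gint t y (fP V L) (fun v w => w j - v * ld V [j] (t, y)) v := by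
  set γ := stdGaussian (Space d) with hγ
  set m := ld V [j] (t, y) with hm
  have ht0 : 0 < t := lt_of_le_of_lt (sq_nonneg Q) hQ
  have hP := nice_fP hV L (show 1 ≤ L.length by omega)
  have hsq : ∀ v ∈ Set.Icc (0 : ℝ) Q, v ^ 2 < t := fun v hv =>
    lt_of_le_of_lt (pow_le_pow_left₀ hv.1 hv.2 2) hQ
  obtain ⟨K, hK, hKb⟩ := hP.bd (t - Q ^ 2) (by linarith)
  -- the integral
  have hcont : ∀ τ : ℝ, ContinuousOn
      (fun v => v * gint t (y + τ • bv j) (fP V L) (fun _ _ => 1) v) (Set.Icc 0 Q) := fun τ =>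
    (continuous_id.continuousOn).mul (hP.continuousOn_gint ht hQ _ continuous_const one_growth)
  have hcontj : ∀ τ : ℝ, ContinuousOn
      (fun v => gint t (y + τ • bv j) (fP V L) (fun _ w => w j) v) (Set.Icc 0 Q) := fun τ =>
    hP.continuousOn_gint ht hQ _ (by fun_prop) (C := 1) fun v w _ => by
      have : |w j| ≤ ‖w‖ := by simpa using PiLp.norm_apply_le w j
      linarith
  have dI := (intervalIntegral.hasDerivAt_integral_of_dominated_loc_of_deriv_le (x₀ := (0 : ℝ))
    (μ := volume) (a := 0) (b := Q) (F := fun τ v => v * gint t (y + τ • bv j) (fP V L) (fun _ _ => 1) v)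
    (F' := fun τ v => gint t (y + τ • bv j) (fP V L) (fun _ w => w j) v)
    (bound := fun _ => K * ∫ w, ‖w‖ ∂γ) (Filter.univ_mem)
    (Eventually.of_forall fun τ => ((hcont τ).mono (by
      rw [Set.uIoc_of_le hQ0.le]; exact Set.Ioc_subset_Icc_self)).aestronglyMeasurable
        measurableSet_uIoc)
    ((hcont 0).intervalIntegrable_of_Icc hQ0.le)
    (((hcontj 0).mono (by
      rw [Set.uIoc_of_le hQ0.le]; exact Set.Ioc_subset_Icc_self)).aestronglyMeasurable
        measurableSet_uIoc)
    ?_ intervalIntegrable_const ?_).2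
  rotate_left
  · refine Eventually.of_forall fun v hv τ _ => ?_
    rw [Set.uIoc_of_le hQ0.le] at hv
    have hv' : t - Q ^ 2 ≤ t - v ^ 2 := by
      have := pow_le_pow_left₀ hv.1.le hv.2 2; linarith
    simp only [gint]
    rw [← integral_const_mul]
    refine (norm_integral_le_integral_norm _).trans (integral_mono_of_nonneg
      (Eventually.of_forall fun w => norm_nonneg _) (integrable_norm_stdGaussian.const_mul K)
      (Eventually.of_forall fun w => ?_))
    simp only
    rw [norm_mul]
    exact mul_le_mul (hKb _ hv' (by linarith [sq_nonneg v]) _).1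
      (PiLp.norm_apply_le w j) (norm_nonneg _) hK
  · refine Eventually.of_forall fun v hv τ _ => ?_
    rw [Set.uIoc_of_le hQ0.le] at hv
    exact hP.hasDerivAt_gint ht (hsq v ⟨hv.1.le, hv.2⟩) y j τ
  -- differentiate the identity
  have d1 := ((nice_fL hV L hL).hasDerivAt_gint ht hQ y j 0).const_mul Q⁻¹
  have hl : HasDerivAt (fun τ : ℝ => y + τ • bv j) (bv j) 0 := by
    simpa using ((hasDerivAt_id (0 : ℝ)).smul_const (bv j)).const_add y
  have hz : HasFDerivAt (fun z => fL V L (t, z)) (fderiv ℝ (fun z => fL V L (t, z)) y)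
      (y + (0 : ℝ) • bv j) := by
    simpa using (((nice_fL hV L hL).contDiff ht0).differentiable one_ne_zero y).hasFDerivAt
  have dl := hz.comp_hasDerivAt (f := fun τ : ℝ => y + τ • bv j) 0 hl
  have e0 : (fun τ : ℝ => Q⁻¹ * (Q * gint t (y + τ • bv j) (fL V L) (fun _ _ => 1) Q)
      + ∫ v in (0 : ℝ)..Q, v * gint t (y + τ • bv j) (fP V L) (fun _ _ => 1) v)
      = fun τ => fL V L (t, y + τ • bv j) := by
    funext τ
    rw [← mul_assoc, inv_mul_cancel₀ hQ0.ne', one_mul, ← fL_eq hV hL ht hQ0.le hQ]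
  have d2 := (d1.add dI).congr_of_eventuallyEq
    (f₁ := fun τ : ℝ => fL V L (t, y + τ • bv j))
    (Eventually.of_forall fun τ => (congrFun e0 τ).symm)
  have key := dl.unique d2
  rw [fderiv_fL hV L ht0, sum_proj_bv] at key
  simp only [zero_smul, add_zero] at key
  have hp := (smooth_pos' hV t y).ne'
  have hmj : sd V [j] (t, y) = sd V [] (t, y) * m := by
    rw [hm, ld_single hV ht0, mul_div_cancel₀ _ (show sd V [] (t, y) ≠ 0 from hp)]
  -- split the factor
  have split : ∀ {G : ℝ × Space d → ℝ}, Nice G → ∀ v, v ^ 2 < t →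
      gint t y G (fun v w => w j - v * m) v
        = gint t y G (fun _ w => w j) v - m * (v * gint t y G (fun _ _ => 1) v) := by
    intro G hG v hv
    simp only [gint]
    rw [← mul_assoc m v, ← integral_const_mul (m * v), ← integral_sub
      (hG.integrable_gint ht hv y (by fun_prop) (C := 1) (n := 1) fun w => by
        have : |w j| ≤ ‖w‖ := by simpa using PiLp.norm_apply_le w j
        linarith)
      ((hG.integrable_gint ht hv y continuous_const (C := 1) (n := 1) fun w => by simp).const_mul _)]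
    exact integral_congr_ae (Eventually.of_forall fun w => by ring)
  rw [split (nice_fL hV L hL) Q hQ, intervalIntegral.integral_congr
    (g := fun v => gint t y (fP V L) (fun _ w => w j) v
      - m * (v * gint t y (fP V L) (fun _ _ => 1) v))
    (fun v hv => split hP v (hsq v (by rwa [Set.uIcc_of_le hQ0.le] at hv)))]
  have hc0 := hcont 0
  have hcj := hcontj 0
  simp only [zero_smul, add_zero] at hc0 hcj
  rw [intervalIntegral.integral_sub (hcj.intervalIntegrable_of_Icc hQ0.le)
    ((hc0.intervalIntegrable_of_Icc hQ0.le).const_mul m), intervalIntegral.integral_const_mul]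
  have hA := fL_eq hV hL ht hQ0.le hQ y
  simp only [g1] at key
  rw [hmj] at key
  simp only [fL] at key hA ⊢
  field_simp at key ⊢
  linear_combination key - Q * m * hA

/-! ### The second moment of the factor -/

/-- The second moment of `⟨a, w - v m⟩` is at most three times `|a|²`. -/
theorem moment_two (hV : InClass V) {t v : ℝ} (ht : t ≤ 1) (hv0 : 0 ≤ v) (hv : v ^ 2 < t)
    (y : Space d) (a : Fin d → ℝ)
    (hH : ∑ i, ∑ j, a i * a j * ld V [i, j] (t, y) ≤ 2 * ∑ i, a i ^ 2) :
    gint t y (sd V []) (fun v w => (∑ i, a i * (w i - v * ld V [i] (t, y))) ^ 2) v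
      ≤ 3 * (∑ i, a i ^ 2) * sd V [] (t, y) := by
  set γ := stdGaussian (Space d) with hγ
  have hr : 0 < t - v ^ 2 := by linarith
  have ht0 : 0 < t := lt_of_le_of_lt (sq_nonneg v) hv
  set P : Space d → ℝ := fun w => sd V [] (t - v ^ 2, y + v • w)
  have hPn := nice_sd hV ([] : List (Fin d))
  have hPd : ∀ w, HasFDerivAt P (v • ∑ i, sd V [i] (t - v ^ 2, y + v • w) •
      (EuclideanSpace.proj i : Space d →L[ℝ] ℝ)) w := by
    intro w
    refine ((hasFDerivAt_sd_space hV [] hr (y + v • w)).comp w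
      (((hasFDerivAt_id w).const_smul v).const_add y)).congr_fderiv ?_
    ext u
    simp
  have first : ∀ i, ∫ w, w i * P w ∂γ = v * sd V [i] (t, y) := by
    intro i
    rw [hPn.gint_parts ht hv y i, ← sd_avg hV hv hv0 y [i]]
    simp only [(hasFDerivAt_sd_space hV [] hr _).fderiv, sum_proj_bv]
  have second : ∀ i k, ∫ w, w i * (w k * P w) ∂γ
      = (if i = k then sd V [] (t, y) else 0) + v ^ 2 * sd V [k, i] (t, y) := by
    intro i k
    obtain ⟨K, hK, hKb⟩ := hPn.bd _ hr
    have hT : Tame P := by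
      refine tame_of_lip ((hPn.contDiff hr).comp (by fun_prop)) (L := |v| * K) fun w => ?_
      rw [(hPd w).fderiv, norm_smul, Real.norm_eq_abs, ← (hasFDerivAt_sd_space hV [] hr _).fderiv]
      exact mul_le_mul_of_nonneg_left (hKb _ le_rfl (by linarith [sq_nonneg v]) _).2 (abs_nonneg v)
    have hTk : Tame fun w : Space d => w k * P w :=
      (tame_clm (EuclideanSpace.proj k : Space d →L[ℝ] ℝ)).mul hT
    have h := gauss_parts hTk (bv i)
    simp only [inner_bv] at h
    rw [h]
    have hdk : ∀ w, fderiv ℝ (fun w : Space d => w k * P w) w (bv i)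
        = (if i = k then 1 else 0) * P w
          + v * (w k * sd V [i] (t - v ^ 2, y + v • w)) := by
      intro w
      have hw : HasFDerivAt (fun w : Space d => w k) (EuclideanSpace.proj k : Space d →L[ℝ] ℝ) w :=
        (EuclideanSpace.proj k : Space d →L[ℝ] ℝ).hasFDerivAt
      rw [(hw.fun_mul (hPd w)).fderiv]
      simp only [_root_.add_apply, _root_.smul_apply, sum_proj_bv, smul_eq_mul]
      simp only [bv, EuclideanSpace.basisFun_apply, PiLp.proj_apply, PiLp.single_apply]
      rcases eq_or_ne i k with rfl | hne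
      · simp; ring
      · simp [hne, hne.symm]; ring
    simp only [hdk]
    rw [integral_add ((hT.integrable).const_mul _), integral_const_mul, integral_const_mul,
      (nice_sd hV [i]).gint_parts ht hv y k, sd_avg hV hv hv0 y []]
    · simp only [(hasFDerivAt_sd_space hV [i] hr _).fderiv, sum_proj_bv,
        sd_avg hV hv hv0 y [k, i]]
      split <;> ring
    · refine Integrable.const_mul ?_ _
      simpa [mul_comm] using (nice_sd hV [i]).integrable_gint ht hv y (ψ := fun w => w k)
        (by fun_prop) (C := 1) (n := 1) fun w => by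
          have : |w k| ≤ ‖w‖ := by simpa using PiLp.norm_apply_le w k
          linarith
  set μ := fun i => v * ld V [i] (t, y) with hμ
  have hp : 0 < sd V [] (t, y) := smooth_pos' hV t y
  have hsd : ∀ i, sd V [i] (t, y) = sd V [] (t, y) * ld V [i] (t, y) := fun i => by
    rw [ld_single hV ht0, mul_div_cancel₀ _ hp.ne']
  have hsd2 : ∀ k i, sd V [k, i] (t, y)
      = sd V [] (t, y) * (ld V [i, k] (t, y) + ld V [i] (t, y) * ld V [k] (t, y)) := by
    intro k i
    have h := sd_append_single hV ht0 [k] i y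
    simp [pats, pickT, pickF] at h
    rw [h, hsd k, ld_perm hV ht0 (List.Perm.swap i k []) y]
    ring
  have key : ∀ i k, ∫ w, (w i - μ i) * (w k - μ k) * P w ∂γ
      = sd V [] (t, y) * ((if i = k then 1 else 0) + v ^ 2 * ld V [i, k] (t, y)) := by
    intro i k
    have i2 : Integrable (fun w => w i * (w k * P w)) γ := by
      refine (hPn.integrable_gint ht hv y (ψ := fun w => w i * w k) (by fun_prop) (C := 1) (n := 2)
        fun w => ?_).congr (Eventually.of_forall fun w => by simp only [P]; ring)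
      have h1 : |w i| ≤ ‖w‖ := by simpa using PiLp.norm_apply_le w i
      have h2 : |w k| ≤ ‖w‖ := by simpa using PiLp.norm_apply_le w k
      rw [abs_mul]
      nlinarith [mul_le_mul h1 h2 (abs_nonneg _) (norm_nonneg w), norm_nonneg w]
    have i1 : ∀ i, Integrable (fun w => w i * P w) γ := fun i => by
      simpa [mul_comm, P] using hPn.integrable_gint ht hv y (ψ := fun w => w i)
        (by fun_prop) (C := 1) (n := 1) fun w => by
          have : |w i| ≤ ‖w‖ := by simpa using PiLp.norm_apply_le w i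
          linarith
    have i0 : Integrable P γ := by
      simpa [P] using hPn.integrable_gint ht hv y (ψ := fun _ => 1) continuous_const (C := 1)
        (n := 1) fun w => by simp
    have e : (fun w => (w i - μ i) * (w k - μ k) * P w) = fun w => w i * (w k * P w)
        - μ k * (w i * P w) - μ i * (w k * P w) + μ i * μ k * P w := by
      funext w; ring
    have iA : Integrable (fun w => w i * (w k * P w) - μ k * (w i * P w)) γ :=
      i2.sub ((i1 i).const_mul (μ k))
    have iB : Integrable (fun w => w i * (w k * P w) - μ k * (w i * P w) - μ i * (w k * P w)) γ :=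
      iA.sub ((i1 k).const_mul (μ i))
    rw [e, integral_add iB (i0.const_mul _), integral_sub iA ((i1 k).const_mul _),
      integral_sub i2 ((i1 i).const_mul _), integral_const_mul, integral_const_mul,
      integral_const_mul, second, first, first, sd_avg hV hv hv0 y [], hsd, hsd, hsd2]
    simp only [hμ]
    split <;> ring
  have e : ∀ w, sd V [] (t - v ^ 2, y + v • w) * (∑ i, a i * (w i - μ i)) ^ 2
      = ∑ i, ∑ k, a i * a k * ((w i - μ i) * (w k - μ k) * P w) := by
    intro w
    rw [sq (∑ i, a i * (w i - μ i)), sum_mul_sum]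
    simp only [mul_sum, P]
    exact sum_congr rfl fun i _ => sum_congr rfl fun k _ => by ring
  simp only [gint]
  rw [integral_congr_ae (Eventually.of_forall e)]
  have hint : ∀ i k, Integrable (fun w => a i * a k * ((w i - μ i) * (w k - μ k) * P w)) γ := by
    intro i k
    refine Integrable.const_mul ((hPn.integrable_gint ht hv y
      (ψ := fun w => (w i - μ i) * (w k - μ k)) (by fun_prop)
      (C := (1 + |ld V [i] (t, y)|) * (1 + |ld V [k] (t, y)|)) (n := 2) fun w => ?_).congr
      (Eventually.of_forall fun w => by simp only [P]; ring)) _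
    rw [abs_mul, sq]
    have hv1 := abs_le_one_of_sq ht hv
    refine (mul_le_mul (affine_growth _ i w hv1) (affine_growth _ k w hv1) (abs_nonneg _)
      (by positivity)).trans (le_of_eq (by ring))
  rw [integral_finsetSum _ fun i _ => integrable_finsetSum _ fun k _ => hint i k]
  simp only [integral_finsetSum _ fun k _ => hint _ k, integral_const_mul, key]
  have e2 : (∑ i, ∑ k, a i * a k *
      (sd V [] (t, y) * ((if i = k then 1 else 0) + v ^ 2 * ld V [i, k] (t, y))))
      = sd V [] (t, y) * (∑ i, a i ^ 2 + v ^ 2 * ∑ i, ∑ k, a i * a k * ld V [i, k] (t, y)) := by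
    simp only [mul_add, sum_add_distrib, mul_ite, mul_one, mul_zero, sum_ite_eq, mem_univ, if_true,
      mul_sum]
    congr 1
    · exact sum_congr rfl fun i _ => by ring
    · exact sum_congr rfl fun i _ => sum_congr rfl fun k _ => by ring
  rw [e2]
  have hA : 0 ≤ ∑ i, a i ^ 2 := sum_nonneg fun i _ => sq_nonneg _
  have h1 := mul_le_mul_of_nonneg_left hH (sq_nonneg v)
  have h2 := mul_le_mul_of_nonneg_right (show v ^ 2 ≤ 1 by linarith) hA
  nlinarith

end

end P347.Zero
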