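import Vale.Agent.P347.Zero.Heat

/-!
# P347, gamma* = 0: the score as a ratio of Gaussian averages
-/

namespace P347.Zero

open MeasureTheory ProbabilityTheory Filter Topology P347.Quarter
open scoped RealInnerProductSpace

noncomputable section

variable {d : ℕ} {V : Space d → ℝ}

/-- The unsmoothed density. -/
def expNeg (V : Space d → ℝ) (x : Space d) : ℝ := Real.exp (-V x)

/-- Its gradient, up to sign. -/
def gradExp (V : Space d → ℝ) (x : Space d) : Space d := expNeg V x • gradient V x

theorem smooth_def (V : Space d → ℝ) (r : ℝ) : smooth V r = gav √r (expNeg V) := rfl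

theorem half_sq_le (hV : InClass V) (x : Space d) : ‖x‖ ^ 2 / 2 ≤ V x :=
  (hV.model.block.bounds x).1

theorem hasFDerivAt_expNeg (hV : InClass V) (x : Space d) :
    HasFDerivAt (expNeg V) (innerSL ℝ (-gradExp V x)) x := by
  refine ((hV.smooth.differentiable (by norm_num) x).hasFDerivAt.neg.exp).congr_fderiv ?_
  ext w
  simp [gradExp, expNeg]

theorem bdd_gradExp (hV : InClass V) : Bdd (gradExp V) 2 := by
  refine ⟨(hV.smooth.continuous.neg.rexp).smul (contDiff_gradient hV.smooth).continuous,
    fun x => ?_⟩
  have h1 := gradient_zero_le hV x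
  have h2 := Real.add_one_le_exp (‖x‖ ^ 2 / 2)
  have h3 : Real.exp (-V x) ≤ (Real.exp (‖x‖ ^ 2 / 2))⁻¹ := by
    rw [← Real.exp_neg, Real.exp_le_exp]; linarith [half_sq_le hV x]
  rw [gradExp, norm_smul, expNeg, Real.norm_eq_abs, Real.abs_exp]
  refine (mul_le_mul h3 h1 (norm_nonneg _) (by positivity)).trans ?_
  rw [inv_mul_le_iff₀ (Real.exp_pos _)]
  nlinarith [sq_nonneg (‖x‖ - 1)]

theorem lip1_expNeg (hV : InClass V) : Lip1 (expNeg V) 2 := by
  refine ⟨(hV.smooth.of_le (by norm_num)).neg.exp, fun x => ?_⟩
  rw [(hasFDerivAt_expNeg hV x).fderiv, innerSL_apply_norm, norm_neg]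
  exact (bdd_gradExp hV).bound x

theorem bdd_expNeg (hV : InClass V) : Bdd (expNeg V) 1 := InClass.bdd_exp hV

theorem hasFDerivAt_smooth (hV : InClass V) (r : ℝ) (z : Space d) :
    HasFDerivAt (smooth V r) (innerSL ℝ (-gav √r (gradExp V) z)) z := by
  refine ((lip1_expNeg hV).hasFDerivAt_gav √r z).congr_fderiv ?_
  ext w
  have hf : Bdd (fderiv ℝ (expNeg V)) 2 :=
    ⟨(lip1_expNeg hV).smooth.continuous_fderiv one_ne_zero, (lip1_expNeg hV).bound⟩
  rw [gav, ContinuousLinearMap.integral_apply ((hf.shift √r z).integrable _), innerSL_apply_apply,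
    inner_neg_left, real_inner_comm, Quarter.inner_gav (bdd_gradExp hV), gav, ← integral_neg]
  refine integral_congr_ae (Eventually.of_forall fun u => ?_)
  simp only [(hasFDerivAt_expNeg hV _).fderiv, innerSL_apply_apply, inner_neg_left]
  rw [real_inner_comm]

theorem score_eq (hV : InClass V) (r : ℝ) (z : Space d) :
    score V r z = -((smooth V r z)⁻¹ • gav √r (gradExp V) z) := by
  refine ext_inner_right ℝ fun w => ?_
  rw [score, P347.inner_gradient,
    ((hasFDerivAt_smooth hV r z).log (smooth_pos' hV r z).ne').fderiv]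
  simp [inner_smul_left]

theorem score_zero (hV : InClass V) (z : Space d) : score V 0 z = -gradient V z := by
  have h := (Real.exp_pos (-V z)).ne'
  rw [score_eq hV]
  simp [smooth, gav, gradExp, expNeg, smul_smul, h]

/-- Smoothing a bounded continuous function is continuous in the width and the point. -/
theorem continuous_gav_pair {F : Type} [NormedAddCommGroup F] [NormedSpace ℝ F]
    [SecondCountableTopology F] {f : Space d → F} {B : ℝ} (h : Bdd f B) :
    Continuous fun p : ℝ × Space d => gav √p.1 f p.2 :=
  continuous_of_dominated (fun p => (h.shift √p.1 p.2).cont.aestronglyMeasurable)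
    (fun p => Eventually.of_forall (h.shift √p.1 p.2).bound) (integrable_const B)
    (Eventually.of_forall fun w => h.cont.comp (by fun_prop))

theorem continuous_smooth (hV : InClass V) :
    Continuous fun p : ℝ × Space d => smooth V p.1 p.2 :=
  continuous_gav_pair (bdd_expNeg hV)

theorem continuous_score (hV : InClass V) :
    Continuous fun p : ℝ × Space d => score V p.1 p.2 := by
  simp only [score_eq hV]
  exact (((continuous_smooth hV).inv₀ fun p => (smooth_pos' hV _ _).ne').smul
    (continuous_gav_pair (bdd_gradExp hV))).neg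

theorem smooth_le_one (hV : InClass V) (r : ℝ) (z : Space d) : smooth V r z ≤ 1 :=
  (le_abs_self _).trans (((bdd_expNeg hV).gav √r).bound z)

/-- The smoothed gradient of the density is bounded. -/
theorem smooth_mul_score_le (hV : InClass V) (r : ℝ) (z : Space d) :
    smooth V r z * ‖score V r z‖ ≤ 2 := by
  have h := smooth_pos' hV r z
  rw [score_eq hV, norm_neg, norm_smul, Real.norm_eq_abs, abs_of_pos (inv_pos.2 h),
    mul_inv_cancel_left₀ h.ne']
  exact ((bdd_gradExp hV).gav √r).bound z

theorem score_apply (V : Space d → ℝ) (r : ℝ) (z : Space d) (i : Fin d) :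
    score V r z i = ld V [i] (r, z) := by
  have h : score V r z i = ⟪score V r z, bv i⟫ := by
    simp [bv, EuclideanSpace.inner_single_right]
  rw [h, score, P347.inner_gradient]
  rfl

/-- The score is smooth in time and point at positive times. -/
theorem contDiffOn_score (hV : InClass V) (n : ℕ) :
    ContDiffOn ℝ n (fun z : ℝ × Space d => score V z.1 z.2) (Set.Ioi 0 ×ˢ Set.univ) := by
  rw [contDiffOn_euclidean]
  intro i p hp
  refine ((contDiffAt_ld hV [i] n hp.1).congr_of_eventuallyEq ?_).contDiffWithinAt
  filter_upwards [continuous_fst.continuousAt.preimage_mem_nhds (Ioi_mem_nhds hp.1)] with u hu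
  exact score_apply V u.1 u.2 i

theorem differentiable_score (hV : InClass V) {r : ℝ} (hr : 0 < r) :
    ContDiff ℝ 1 (score V r) :=
  contDiff_iff_contDiffAt.2 fun z =>
    (((contDiffOn_score hV 1).contDiffAt (isOpen_times.mem_nhds (x := (r, z)) ⟨hr, trivial⟩)).comp z
      (contDiffAt_const.prodMk contDiffAt_id) :)

end

end P347.Zero
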