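import Vale.Agent.P347.Zero.Circuit
import Vale.Agent.P347.Zero.Base
import Vale.Agent.P347.Zero.Posterior


/-!
# P347: building a circuit gate by gate

A state is a circuit with a budget `T` of gates, the number `len` of gates already fixed, and for
each of them an error (as a multiple of `√d + ‖c‖`), a Lipschitz constant and the data of its
oracle. A form is a combination of the centre, of two external vectors and of the values of the
gates. The external vectors are random (`Env`). Every bound on a form is a seminorm, and nothing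
proved about a form changes when gates are added.
-/

namespace P347.Zero

open MeasureTheory ProbabilityTheory
open scoped ENNReal

noncomputable section

variable {d : ℕ}

/-- A combination of the centre, of the external vectors and of gate values. -/
abbrev Form : Type := ℝ × (Fin 2 → ℝ) × (ℕ →₀ ℝ)

/-- The external vectors: their ideal law given the centre, the error (as a multiple of `√d + ‖c‖`)
and the Lipschitz constant with which they are handed in. -/
structure Env (d : ℕ) where
  /-- The random ideal. -/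
  X : Type
  ms : MeasurableSpace X
  /-- Its law. -/
  law : Measure X
  prob : IsProbabilityMeasure law
  /-- The ideal vectors. -/
  vec : (Space d → ℝ) → Space d → X → Fin 2 → Space d
  meas : ∀ V, Quarter.InClass V → ∀ c, Measurable (vec V c)
  /-- The errors. -/
  err : Fin 2 → ℝ
  /-- The Lipschitz constants. -/
  lip : Fin 2 → ℝ
  err_nonneg : ∀ k, 0 ≤ err k
  lip_nonneg : ∀ k, 0 ≤ lip k

attribute [instance] Env.ms Env.prob

/-- The ideal input of a circuit. -/
def Env.inp (En : Env d) (V : Space d → ℝ) (c : Space d) (x : En.X) : Inp d := (c, En.vec V c x)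

/-- A circuit under construction. -/
structure Bld {d : ℕ} (En : Env d) where
  /-- The circuit. -/
  circ : Circuit d
  /-- The number of gates that are fixed. -/
  len : ℕ
  /-- The accuracies of the oracles. -/
  dlt : ℕ → ℝ
  /-- The Lipschitz constants of the oracles. -/
  lc : ℕ → ℝ
  /-- The errors of the gates. -/
  err : ℕ → ℝ
  /-- The Lipschitz constants of the gates. -/
  lip : ℕ → ℝ
  /-- A bound for the number of queries of one gate. -/
  qb : ℕ

namespace Form

/-- The form uses only gates below `n`. -/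
def Below (n : ℕ) (φ : Form) : Prop := ∀ i, n ≤ i → φ.2.2 i = 0

/-- A weighted sum of the absolute coefficients. -/
def semi (n : ℕ) (a : ℝ) (b : Fin 2 → ℝ) (f : ℕ → ℝ) (φ : Form) : ℝ :=
  |φ.1| * a + ∑ k, |φ.2.1 k| * b k + ∑ i ∈ Finset.range n, |φ.2.2 i| * f i

theorem Below.mono {n m : ℕ} {φ : Form} (h : Below n φ) (hnm : n ≤ m) : Below m φ :=
  fun i hi => h i (hnm.trans hi)

theorem Below.add {n : ℕ} {φ ψ : Form} (h : Below n φ) (h' : Below n ψ) : Below n (φ + ψ) :=
  fun i hi => by simp [h i hi, h' i hi]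

theorem Below.smul {n : ℕ} {φ : Form} (h : Below n φ) (a : ℝ) : Below n (a • φ) :=
  fun i hi => by simp [h i hi]

theorem below_zero (n : ℕ) : Below n (0 : Form) := fun _ _ => by simp

/-- The centre. -/
def centre : Form := (1, 0, 0)

/-- One external vector. -/
def ext (k : Fin 2) : Form := (0, Pi.single k 1, 0)

theorem below_ext (k : Fin 2) (n : ℕ) : Below n (ext k) := fun _ _ => by simp [ext]

/-- One gate. -/
def single (g : ℕ) : Form := (0, 0, Finsupp.single g 1)

theorem below_single {g n : ℕ} (h : g < n) : Below n (single g) := fun i hi => by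
  simp [single, Finsupp.single_apply, show g ≠ i by omega]

theorem below_centre (n : ℕ) : Below n centre := fun _ _ => by simp [centre]

theorem semi_ext {n m : ℕ} (hnm : n ≤ m) {φ : Form} (h : Below n φ) (a : ℝ) (b : Fin 2 → ℝ)
    {f f' : ℕ → ℝ} (hf : ∀ i < n, f i = f' i) : semi m a b f' φ = semi n a b f φ := by
  simp only [semi]
  congr 1
  refine (Finset.sum_subset (Finset.range_mono hnm) fun i _ hi => ?_).symm.trans
    (Finset.sum_congr rfl fun i hi => by rw [hf i (Finset.mem_range.1 hi)])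
  rw [h i (by simpa using hi)]
  simp

theorem semi_add (n : ℕ) {a : ℝ} {b : Fin 2 → ℝ} {f : ℕ → ℝ} (ha : 0 ≤ a) (hb : ∀ k, 0 ≤ b k)
    (hf : ∀ i < n, 0 ≤ f i) (φ ψ : Form) :
    semi n a b f (φ + ψ) ≤ semi n a b f φ + semi n a b f ψ := by
  simp only [semi, Prod.fst_add, Prod.snd_add, Pi.add_apply, Finsupp.add_apply]
  rw [add_add_add_comm (|φ.1| * a + _), add_add_add_comm (|φ.1| * a), ← add_mul,
    ← Finset.sum_add_distrib, ← Finset.sum_add_distrib]
  refine add_le_add (add_le_add (mul_le_mul_of_nonneg_right (abs_add_le _ _) ha)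
    (Finset.sum_le_sum fun k _ => ?_)) (Finset.sum_le_sum fun i hi => ?_)
  · rw [← add_mul]
    exact mul_le_mul_of_nonneg_right (abs_add_le _ _) (hb k)
  · rw [← add_mul]
    exact mul_le_mul_of_nonneg_right (abs_add_le _ _) (hf i (Finset.mem_range.1 hi))

theorem semi_smul (n : ℕ) (a : ℝ) (b : Fin 2 → ℝ) (f : ℕ → ℝ) (x : ℝ) (φ : Form) :
    semi n a b f (x • φ) = |x| * semi n a b f φ := by
  simp only [semi, Prod.smul_fst, Prod.smul_snd, Pi.smul_apply, Finsupp.smul_apply, smul_eq_mul,
    abs_mul, mul_add, Finset.mul_sum, mul_assoc]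

theorem semi_zero (n : ℕ) (a : ℝ) (b : Fin 2 → ℝ) (f : ℕ → ℝ) : semi n a b f (0 : Form) = 0 := by
  simp [semi]

theorem semi_single {g n : ℕ} (h : g < n) (a : ℝ) (b : Fin 2 → ℝ) (f : ℕ → ℝ) :
    semi n a b f (single g) = f g := by
  simp only [semi, single, abs_zero, zero_mul, zero_add, Pi.zero_apply, Finset.sum_const_zero]
  rw [Finset.sum_eq_single g (fun i _ hi => by simp [hi.symm])
    (fun hg => absurd (Finset.mem_range.2 h) hg)]
  simp

theorem semi_centre (n : ℕ) (a : ℝ) (b : Fin 2 → ℝ) (f : ℕ → ℝ) : semi n a b f centre = a := by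
  simp [semi, centre]

theorem semi_ext_vec (n : ℕ) (a : ℝ) (b : Fin 2 → ℝ) (f : ℕ → ℝ) (k : Fin 2) :
    semi n a b f (ext k) = b k := by
  simp [semi, ext, Pi.single_apply, apply_ite abs]

theorem semi_fin (n : ℕ) (a : ℝ) (b : Fin 2 → ℝ) (f : ℕ → ℝ) (φ : Form) :
    semi n a b f φ = |φ.1| * a + ∑ k, |φ.2.1 k| * b k + ∑ i : Fin n, |φ.2.2 i| * f i := by
  rw [semi, Fin.sum_univ_eq_sum_range (fun i => |φ.2.2 i| * f i) n]

end Form

namespace Bld

variable {En : Env d} (S : Bld En)

/-- The ideal value of a form. -/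
def eval (V : Space d → ℝ) (c : Space d) (x : En.X) (ξ : ℕ → Space d) (φ : Form) : Space d :=
  φ.1 • c + ∑ k, φ.2.1 k • En.vec V c x k
    + Finsupp.linearCombination ℝ (S.circ.val V (En.inp V c x) ξ) φ.2.2

variable (V : Space d → ℝ) (c : Space d) (x : En.X) (ξ : ℕ → Space d)

theorem eval_add (φ ψ : Form) : S.eval V c x ξ (φ + ψ) = S.eval V c x ξ φ + S.eval V c x ξ ψ := by
  simp only [eval, Prod.fst_add, Prod.snd_add, Pi.add_apply, add_smul, map_add,
    Finset.sum_add_distrib]
  abel

theorem eval_smul (a : ℝ) (φ : Form) : S.eval V c x ξ (a • φ) = a • S.eval V c x ξ φ := by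
  simp only [eval, Prod.smul_fst, Prod.smul_snd, Pi.smul_apply, smul_add, smul_smul, map_smul,
    smul_eq_mul, Finset.smul_sum]

theorem eval_zero : S.eval V c x ξ (0 : Form) = 0 := by simp [eval]

theorem eval_single (g : ℕ) :
    S.eval V c x ξ (Form.single g) = S.circ.val V (En.inp V c x) ξ g := by
  simp [eval, Form.single, Finsupp.linearCombination_single]

theorem eval_centre : S.eval V c x ξ Form.centre = c := by
  simp [eval, Form.centre]

theorem eval_ext (k : Fin 2) : S.eval V c x ξ (Form.ext k) = En.vec V c x k := by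
  simp [eval, Form.ext, Pi.single_apply, ite_smul]

theorem eval_eq_sum {n : ℕ} {φ : Form} (h : φ.Below n) :
    S.eval V c x ξ φ = φ.1 • c + ∑ k, φ.2.1 k • En.vec V c x k
      + ∑ i : Fin n, φ.2.2 i • S.circ.val V (En.inp V c x) ξ i := by
  have hsub : φ.2.2.support ⊆ Finset.range n := fun i hi => by
    by_contra hn
    exact Finsupp.mem_support_iff.1 hi (h i (by simpa using hn))
  have e : Finsupp.linearCombination ℝ (S.circ.val V (En.inp V c x) ξ) φ.2.2
      = ∑ i ∈ Finset.range n, φ.2.2 i • S.circ.val V (En.inp V c x) ξ i := by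
    rw [Finsupp.linearCombination_apply, Finsupp.sum]
    refine Finset.sum_subset hsub fun i _ hi => ?_
    rw [Finsupp.notMem_support_iff.1 hi, zero_smul]
  rw [eval, e, Fin.sum_univ_eq_sum_range (fun i => φ.2.2 i • S.circ.val V (En.inp V c x) ξ i) n]

/-- The ideal value of a form, as a function of the random ideal and of the Gaussians. -/
abbrev evalFun (φ : Form) (p : En.X × (Fin S.circ.T → Space d)) : Space d :=
  S.eval V c p.1 (extFun p.2) φ

variable {V} in
theorem measurable_eval (hV : Quarter.InClass V) (φ : Form) :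
    Measurable fun p : En.X × (ℕ → Space d) => S.eval V c p.1 p.2 φ := by
  have hs : ∀ g r, (S.circ.gate g).kind = some r → Measurable (score V r) := fun _ r _ =>
    ((continuous_score hV).comp (Continuous.prodMk continuous_const continuous_id)).measurable
  have h : ∀ p : En.X × (ℕ → Space d), S.eval V c p.1 p.2 φ
      = φ.1 • c + ∑ k, φ.2.1 k • En.vec V c p.1 k
        + ∑ i ∈ φ.2.2.support, φ.2.2 i • S.circ.val V (En.inp V c p.1) p.2 i := fun p => by
    rw [eval, Finsupp.linearCombination_apply]; rfl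
  let q : En.X × (ℕ → Space d) → Inp d × (ℕ → Space d) := fun p => (En.inp V c p.1, p.2)
  have hv : Measurable (En.vec V c) := En.meas V hV c
  have hq : Measurable q :=
    ((measurable_const (a := c)).prodMk (hv.comp measurable_fst)).prodMk measurable_snd
  have h1 : ∀ k : Fin 2, Measurable fun p : En.X × (ℕ → Space d) => En.vec V c p.1 k := fun k => by
    show Measurable ((fun f : Fin 2 → Space d => f k) ∘ En.vec V c ∘ Prod.fst)
    exact (measurable_pi_apply k).comp (hv.comp measurable_fst)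
  have h2 : ∀ i, Measurable fun p : En.X × (ℕ → Space d) =>
      S.circ.val V (En.inp V c p.1) p.2 i := fun i => by
    show Measurable ((fun z : Inp d × (ℕ → Space d) => S.circ.val V z.1 z.2 i) ∘ q)
    exact (S.circ.measurable_val V hs i).comp hq
  simp only [h]
  exact (measurable_const.add (Finset.measurable_sum _ fun k _ =>
    Measurable.fun_const_smul (h1 k) (φ.2.1 k))).add
    (Finset.measurable_sum _ fun i _ => Measurable.fun_const_smul (h2 i) (φ.2.2 i))

variable {V} in
theorem measurable_evalFun (hV : Quarter.InClass V) (φ : Form) :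
    Measurable (S.evalFun V c φ) := by
  let q : En.X × (Fin S.circ.T → Space d) → En.X × (ℕ → Space d) := fun p => (p.1, extFun p.2)
  have hq : Measurable q := measurable_fst.prodMk (measurable_extFun.comp measurable_snd)
  show Measurable ((fun p : En.X × (ℕ → Space d) => S.eval V c p.1 p.2 φ) ∘ q)
  exact (S.measurable_eval c hV φ).comp hq

/-- Bounds on a form: the blur it hands on, its error and its Lipschitz constant. -/
structure Has (φ : Form) (nz e lp : ℝ) : Prop where
  below : φ.Below S.len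
  noise : √(S.circ.T : ℝ) * Form.semi S.len S.circ.tau 0 (fun i => |S.circ.sig i|) φ ≤ nz
  error : Form.semi S.len 0 En.err S.err φ ≤ e
  lips : Form.semi S.len 1 En.lip S.lip φ ≤ lp

/-- The functions that forms are compared with. -/
abbrev Truth (En : Env d) : Type :=
  (Space d → ℝ) → Space d → En.X → (ℕ → Space d) → Space d

/-- The law of the random ideal and of the Gaussians. -/
abbrev idealLaw : Measure (En.X × (Fin S.circ.T → Space d)) :=
  En.law.prod (famLaw d (Fin S.circ.T))

/-- The ideal value of a form is within `D` times `√d + ‖c‖` of `truth` in mean square. -/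
def Near (φ : Form) (truth : Truth En) (D : ℝ) : Prop :=
  ∀ V : Space d → ℝ, Quarter.InClass V → ∀ c : Space d,
    eLpNorm (fun p => S.evalFun V c φ p - truth V c p.1 (extFun p.2)) 2 S.idealLaw
      ≤ ENNReal.ofReal (D * (√d + ‖c‖))

/-- The size of the ideal value of a form. -/
def Sized (φ : Form) (sz : ℝ) : Prop := S.Near φ (fun _ _ _ _ => 0) sz

/-- The conditions on the fixed gates. -/
structure Ok : Prop where
  pos : 0 < S.circ.T
  tau : 0 ≤ S.circ.tau
  le_T : S.len ≤ S.circ.T
  tgt : ∀ g < S.len, 0 < (S.circ.gate g).tgt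
  err_nonneg : ∀ g < S.len, 0 ≤ S.err g
  lip_nonneg : ∀ g < S.len, 0 ≤ S.lip g
  blur : ∀ g < S.len, √(S.circ.T : ℝ) * (|(S.circ.gate g).cen| * S.circ.tau
      + ∑ i : Fin g, |(S.circ.gate g).coef i| * |S.circ.sig i|) ≤ (S.circ.gate g).tgt
  valid : ∀ g r, g < S.len → (S.circ.gate g).kind = some r → 0 ≤ S.dlt g ∧ 0 ≤ S.lc g ∧
    ∀ V, Quarter.InClass V → Valid (S.circ.orc g).P (S.circ.orc g).A V r (S.circ.gate g).tgt
      (S.circ.rho g) (S.dlt g) (S.lc g)
  err_some : ∀ g r, g < S.len → (S.circ.gate g).kind = some r → ∃ sz : ℝ, 0 ≤ sz ∧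
    (∀ V, Quarter.InClass V → ∀ c : Space d,
      eLpNorm (fun p : En.X × (Fin S.circ.T → Space d) =>
        S.circ.argVal V (En.inp V c p.1) (extFun p.2) g) 2
        S.idealLaw ≤ ENNReal.ofReal (sz * (√d + ‖c‖))) ∧
    S.dlt g * (1 + sz) + S.lc g * (∑ k, |(S.circ.gate g).ext k| * En.err k
      + ∑ i : Fin g, |(S.circ.gate g).coef i| * S.err i) ≤ S.err g
  err_none : ∀ g, g < S.len → (S.circ.gate g).kind = none →
    ∑ k, |(S.circ.gate g).ext k| * En.err k
      + ∑ i : Fin g, |(S.circ.gate g).coef i| * S.err i ≤ S.err g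
  lip_some : ∀ g r, g < S.len → (S.circ.gate g).kind = some r →
    S.lc g * (|(S.circ.gate g).cen| + ∑ k, |(S.circ.gate g).ext k| * En.lip k
      + ∑ i : Fin g, |(S.circ.gate g).coef i| * S.lip i) ≤ S.lip g
  lip_none : ∀ g, g < S.len → (S.circ.gate g).kind = none →
    |(S.circ.gate g).cen| + ∑ k, |(S.circ.gate g).ext k| * En.lip k
      + ∑ i : Fin g, |(S.circ.gate g).coef i| * S.lip i ≤ S.lip g
  cheap : ∀ g r, g < S.len → (S.circ.gate g).kind = some r → (S.circ.orc g).A.size ≤ S.qb

/-- The second state extends the first. -/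
structure Ext (S S' : Bld En) : Prop where
  T : S'.circ.T = S.circ.T
  tau : S'.circ.tau = S.circ.tau
  qb : S'.qb = S.qb
  le : S.len ≤ S'.len
  gate : ∀ g < S.len, S'.circ.gate g = S.circ.gate g
  orc : ∀ g < S.len, S'.circ.orc g = S.circ.orc g
  rho : ∀ g < S.len, S'.circ.rho g = S.circ.rho g
  err : ∀ g < S.len, S'.err g = S.err g
  lip : ∀ g < S.len, S'.lip g = S.lip g

theorem Ext.refl : S.Ext S :=
  ⟨rfl, rfl, rfl, le_rfl, fun _ _ => rfl, fun _ _ => rfl, fun _ _ => rfl, fun _ _ => rfl, fun _ _ => rfl⟩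

variable {S} {S' S'' : Bld En}

theorem Ext.trans (h : S.Ext S') (h' : S'.Ext S'') : S.Ext S'' :=
  ⟨h'.T.trans h.T, h'.tau.trans h.tau, h'.qb.trans h.qb, h.le.trans h'.le,
    fun g hg => (h'.gate g (lt_of_lt_of_le hg h.le)).trans (h.gate g hg),
    fun g hg => (h'.orc g (lt_of_lt_of_le hg h.le)).trans (h.orc g hg),
    fun g hg => (h'.rho g (lt_of_lt_of_le hg h.le)).trans (h.rho g hg),
    fun g hg => (h'.err g (lt_of_lt_of_le hg h.le)).trans (h.err g hg),
    fun g hg => (h'.lip g (lt_of_lt_of_le hg h.le)).trans (h.lip g hg)⟩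

theorem Ext.sig (h : S.Ext S') {g : ℕ} (hg : g < S.len) : S'.circ.sig g = S.circ.sig g := by
  rw [Circuit.sig, Circuit.sig, h.gate g hg, h.rho g hg]

theorem Ext.val (h : S.Ext S') (V : Space d → ℝ) (c : Inp d) (ξ : ℕ → Space d) :
    ∀ g < S.len, S'.circ.val V c ξ g = S.circ.val V c ξ g := by
  intro g
  induction g using Nat.strong_induction_on with
  | _ g ih =>
    intro hg
    have e : S'.circ.argVal V c ξ g = S.circ.argVal V c ξ g := by
      simp only [Circuit.argVal, h.gate g hg]
      congr 1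
      exact Finset.sum_congr rfl fun i _ => by rw [ih i i.isLt (lt_trans i.isLt hg)]
    cases hk : (S.circ.gate g).kind with
    | none =>
      rw [S.circ.val_none hk, S'.circ.val_none (by rw [h.gate g hg, hk]), e, h.gate g hg]
    | some r => rw [S.circ.val_some hk, S'.circ.val_some (by rw [h.gate g hg, hk]), e]

theorem Ext.eval (h : S.Ext S') (V : Space d → ℝ) (c : Space d) (x : En.X) (ξ : ℕ → Space d)
    {φ : Form} (hφ : φ.Below S.len) : S'.eval V c x ξ φ = S.eval V c x ξ φ := by
  rw [S'.eval_eq_sum V c x ξ hφ, S.eval_eq_sum V c x ξ hφ]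
  congr 1
  exact Finset.sum_congr rfl fun i _ => by rw [h.val V (En.inp V c x) ξ i i.isLt]

theorem Ext.has (h : S.Ext S') {φ : Form} {nz e lp : ℝ} (hφ : S.Has φ nz e lp) :
    S'.Has φ nz e lp := by
  refine ⟨hφ.below.mono h.le, ?_, ?_, ?_⟩
  · rw [h.T, h.tau, Form.semi_ext h.le hφ.below _ _ fun i hi => by rw [h.sig hi]]
    exact hφ.noise
  · rw [Form.semi_ext h.le hφ.below _ _ fun i hi => (h.err i hi).symm]
    exact hφ.error
  · rw [Form.semi_ext h.le hφ.below _ _ fun i hi => (h.lip i hi).symm]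
    exact hφ.lips

theorem Ext.near (h : S.Ext S') {φ : Form} (hb : φ.Below S.len)
    {truth : Truth En} {D : ℝ}
    (hn : S.Near φ truth D) : S'.Near φ truth D := by
  intro V hV c
  simp only [evalFun, idealLaw]
  rw [h.T]
  simp only [h.eval V c _ _ hb]
  exact hn V hV c

theorem Has.add (hok : S.Ok) {φ ψ : Form} {nz e lp nz' e' lp' : ℝ} (h : S.Has φ nz e lp)
    (h' : S.Has ψ nz' e' lp') : S.Has (φ + ψ) (nz + nz') (e + e') (lp + lp') := by
  refine ⟨h.below.add h'.below, ?_, ?_, ?_⟩
  · refine le_trans ?_ (add_le_add h.noise h'.noise)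
    rw [← mul_add]
    exact mul_le_mul_of_nonneg_left (Form.semi_add _ hok.tau (fun _ => le_rfl) (fun i _ => abs_nonneg _) _ _)
      (Real.sqrt_nonneg _)
  · exact (Form.semi_add _ le_rfl En.err_nonneg hok.err_nonneg _ _).trans (add_le_add h.error h'.error)
  · exact (Form.semi_add _ zero_le_one En.lip_nonneg hok.lip_nonneg _ _).trans (add_le_add h.lips h'.lips)

theorem Has.smul {φ : Form} {nz e lp : ℝ} (h : S.Has φ nz e lp) (a : ℝ) :
    S.Has (a • φ) (|a| * nz) (|a| * e) (|a| * lp) := by
  refine ⟨h.below.smul a, ?_, ?_, ?_⟩ <;> rw [Form.semi_smul]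
  · rw [mul_left_comm]; exact mul_le_mul_of_nonneg_left h.noise (abs_nonneg a)
  · exact mul_le_mul_of_nonneg_left h.error (abs_nonneg a)
  · exact mul_le_mul_of_nonneg_left h.lips (abs_nonneg a)

theorem Has.mono {φ : Form} {nz e lp nz' e' lp' : ℝ} (h : S.Has φ nz e lp) (h1 : nz ≤ nz')
    (h2 : e ≤ e') (h3 : lp ≤ lp') : S.Has φ nz' e' lp' :=
  ⟨h.below, h.noise.trans h1, h.error.trans h2, h.lips.trans h3⟩

theorem has_zero : S.Has (0 : Form) 0 0 0 :=
  ⟨Form.below_zero _, by simp [Form.semi_zero], by simp [Form.semi_zero],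
    by simp [Form.semi_zero]⟩

theorem has_ext (k : Fin 2) : S.Has (Form.ext k) 0 (En.err k) (En.lip k) :=
  ⟨Form.below_ext _ _, by simp [Form.semi_ext_vec], by simp [Form.semi_ext_vec],
    by simp [Form.semi_ext_vec]⟩

theorem has_centre : S.Has Form.centre (√(S.circ.T : ℝ) * S.circ.tau) 0 1 :=
  ⟨Form.below_centre _, by simp [Form.semi_centre], by simp [Form.semi_centre],
    by simp [Form.semi_centre]⟩

theorem Has.sum (hok : S.Ok) {ι : Type} (s : Finset ι) (a : ι → ℝ) (φ : ι → Form)
    (nz e lp : ι → ℝ) (h : ∀ i ∈ s, S.Has (φ i) (nz i) (e i) (lp i)) :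
    S.Has (∑ i ∈ s, a i • φ i) (∑ i ∈ s, |a i| * nz i) (∑ i ∈ s, |a i| * e i)
      (∑ i ∈ s, |a i| * lp i) := by
  classical
  induction s using Finset.induction_on with
  | empty => simpa using (has_zero (S := S))
  | insert i s hi ih =>
    simp only [Finset.sum_insert hi]
    exact ((h i (Finset.mem_insert_self i s)).smul (a i)).add hok
      (ih fun j hj => h j (Finset.mem_insert_of_mem hj))

variable (S) in
/-- One more gate. -/
def push (G : Gate) (O : Orc d) (ρ δ L e lp : ℝ) : Bld En where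
  circ := { S.circ with
    gate := Function.update S.circ.gate S.len G
    orc := Function.update S.circ.orc S.len O
    rho := Function.update S.circ.rho S.len ρ }
  len := S.len + 1
  dlt := Function.update S.dlt S.len δ
  lc := Function.update S.lc S.len L
  err := Function.update S.err S.len e
  lip := Function.update S.lip S.len lp
  qb := S.qb

theorem ext_push (G : Gate) (O : Orc d) (ρ δ L e lp : ℝ) : S.Ext (S.push G O ρ δ L e lp) :=
  ⟨rfl, rfl, rfl, Nat.le_succ _, fun g hg => Function.update_of_ne hg.ne _ _,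
    fun g hg => Function.update_of_ne hg.ne _ _, fun g hg => Function.update_of_ne hg.ne _ _,
    fun g hg => Function.update_of_ne hg.ne _ _, fun g hg => Function.update_of_ne hg.ne _ _⟩

theorem push_argVal (G : Gate) (O : Orc d) (ρ δ L e lp : ℝ) (V : Space d → ℝ) (c : Inp d)
    (ξ : ℕ → Space d) {g : ℕ} (hg : g < S.len) :
    (S.push G O ρ δ L e lp).circ.argVal V c ξ g = S.circ.argVal V c ξ g := by
  have h := ext_push (S := S) G O ρ δ L e lp
  simp only [Circuit.argVal, h.gate g hg]
  congr 1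
  exact Finset.sum_congr rfl fun i _ => by rw [h.val V c ξ i (lt_trans i.isLt hg)]

/-- The gate of a form. -/
def gateOf (φ : Form) (tgt : ℝ) (kind : Option ℝ) : Gate := ⟨φ.1, φ.2.1, φ.2.2, tgt, kind⟩

theorem push_ok (hok : S.Ok) (hlen : S.len < S.circ.T) {φ : Form} {nz e lp : ℝ}
    (hφ : S.Has φ nz e lp) {tgt : ℝ} (htgt : 0 < tgt) (hnz : nz ≤ tgt) (kind : Option ℝ)
    (O : Orc d) (ρ δ L e' lp' : ℝ) (he : 0 ≤ e') (hlp : 0 ≤ lp')
    (hsome : ∀ r, kind = some r → 0 ≤ δ ∧ 0 ≤ L ∧
      (∀ V, Quarter.InClass V → Valid O.P O.A V r tgt ρ δ L) ∧ O.A.size ≤ S.qb ∧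
      ∃ sz : ℝ, 0 ≤ sz ∧ S.Sized φ sz ∧ δ * (1 + sz) + L * e ≤ e' ∧ L * lp ≤ lp')
    (hnone : kind = none → e ≤ e' ∧ lp ≤ lp') :
    (S.push (gateOf φ tgt kind) O ρ δ L e' lp').Ok := by
  set S' := S.push (gateOf φ tgt kind) O ρ δ L e' lp' with hS'
  have hext : S.Ext S' := ext_push _ _ _ _ _ _ _
  have hg0 : S'.circ.gate S.len = gateOf φ tgt kind := Function.update_self _ _ _
  have he0 : S'.err S.len = e' := Function.update_self _ _ _
  have hl0 : S'.lip S.len = lp' := Function.update_self _ _ _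
  have hd0 : S'.dlt S.len = δ := Function.update_self _ _ _
  have hL0 : S'.lc S.len = L := Function.update_self _ _ _
  have ho0 : S'.circ.orc S.len = O := Function.update_self _ _ _
  have hr0 : S'.circ.rho S.len = ρ := Function.update_self _ _ _
  have old : ∀ g < S.len, S'.dlt g = S.dlt g ∧ S'.lc g = S.lc g := fun g hg =>
    ⟨Function.update_of_ne hg.ne _ _, Function.update_of_ne hg.ne _ _⟩
  have split : ∀ g < S'.len, g < S.len ∨ g = S.len := fun g hg =>
    Nat.lt_succ_iff_lt_or_eq.1 hg
  have hsum : ∀ (f f' : ℕ → ℝ), (∀ i < S.len, f' i = f i) →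
      ∑ i : Fin S.len, |φ.2.2 i| * f' i = ∑ i : Fin S.len, |φ.2.2 i| * f i :=
    fun f f' h => Finset.sum_congr rfl fun i _ => by rw [h i i.isLt]
  have hse := hφ.error
  have hsl := hφ.lips
  rw [Form.semi_fin, mul_zero, zero_add] at hse
  rw [Form.semi_fin, mul_one] at hsl
  refine ⟨hok.pos, hok.tau, hlen, fun g hg => ?_, fun g hg => ?_, fun g hg => ?_, fun g hg => ?_,
    fun g r hg hk => ?_, fun g r hg hk => ?_, fun g hg hk => ?_, fun g r hg hk => ?_,
    fun g hg hk => ?_, fun g r hg hk => ?_⟩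
  · rcases split g hg with h | rfl
    · rw [hext.gate g h]; exact hok.tgt g h
    · rw [hg0]; exact htgt
  · rcases split g hg with h | rfl
    · rw [hext.err g h]; exact hok.err_nonneg g h
    · exact he0.symm ▸ he
  · rcases split g hg with h | rfl
    · rw [hext.lip g h]; exact hok.lip_nonneg g h
    · exact hl0.symm ▸ hlp
  · rcases split g hg with h | rfl
    · rw [hext.gate g h]
      refine le_of_eq_of_le ?_ (hok.blur g h)
      exact congrArg _ (congrArg _ (Finset.sum_congr rfl fun i _ => by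
        rw [hext.sig (lt_trans i.isLt h)]))
    · rw [hg0]
      refine le_trans ?_ (hφ.noise.trans hnz)
      rw [Form.semi_fin]
      simp only [Pi.zero_apply, mul_zero, Finset.sum_const_zero, add_zero]
      refine le_of_eq (congrArg _ (congrArg _ (Finset.sum_congr rfl fun i _ => ?_)))
      rw [hext.sig i.isLt]; rfl
  · rcases split g hg with h | rfl
    · rw [hext.gate g h] at hk ⊢
      rw [(old g h).1, (old g h).2, hext.orc g h, hext.rho g h]
      exact hok.valid g r h hk
    · rw [hg0] at hk ⊢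
      obtain ⟨h1, h2, h3, -⟩ := hsome r hk
      rw [hd0, hL0, ho0, hr0]
      exact ⟨h1, h2, h3⟩
  · rcases split g hg with h | rfl
    · rw [hext.gate g h] at hk
      obtain ⟨sz, h0, h1, h2⟩ := hok.err_some g r h hk
      refine ⟨sz, h0, fun V hV c => ?_, ?_⟩
      · simp only [hS', push_argVal _ _ _ _ _ _ _ _ _ _ h]
        exact h1 V hV c
      · rw [(old g h).1, (old g h).2, hext.err g h, hext.gate g h]
        refine le_of_eq_of_le ?_ h2
        exact congrArg _ (congrArg _ (congrArg _ (Finset.sum_congr rfl fun i _ => by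
          rw [hext.err i (lt_trans i.isLt h)])))
    · rw [hg0] at hk
      obtain ⟨h1, h2, -, -, sz, h0, hsz, h3, -⟩ := hsome r hk
      refine ⟨sz, h0, fun V hV c => ?_, ?_⟩
      · refine le_of_eq_of_le (congrArg (fun F => eLpNorm F 2 _) (funext fun x => ?_)) (hsz V hV c)
        show S'.circ.argVal V (En.inp V c x.1) (extFun x.2) S.len = S.eval V c x.1 (extFun x.2) φ - 0
        rw [sub_zero, S.eval_eq_sum V c _ _ hφ.below, Circuit.argVal, hg0]
        exact congrArg _ (Finset.sum_congr rfl fun i _ => by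
          rw [hext.val V _ _ i i.isLt]; rfl)
      · rw [hg0]
        simp only [gateOf]
        rw [hsum S.err S'.err fun i hi => hext.err i hi]
        simp only [he0, hl0, hd0, hL0]
        exact le_trans (add_le_add le_rfl (mul_le_mul_of_nonneg_left hse h2)) h3
  · rcases split g hg with h | rfl
    · rw [hext.gate g h] at hk
      rw [hext.err g h, hext.gate g h]
      refine le_of_eq_of_le ?_ (hok.err_none g h hk)
      exact congrArg _ (Finset.sum_congr rfl fun i _ => by rw [hext.err i (lt_trans i.isLt h)])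
    · rw [hg0] at hk ⊢
      simp only [gateOf]
      rw [hsum S.err S'.err fun i hi => hext.err i hi]
      simp only [he0, hl0, hd0, hL0]
      exact hse.trans (hnone hk).1
  · rcases split g hg with h | rfl
    · rw [hext.gate g h] at hk
      rw [(old g h).2, hext.lip g h, hext.gate g h]
      refine le_of_eq_of_le ?_ (hok.lip_some g r h hk)
      exact congrArg _ (congrArg _ (Finset.sum_congr rfl fun i _ => by
        rw [hext.lip i (lt_trans i.isLt h)]))
    · rw [hg0] at hk ⊢
      obtain ⟨h1, h2, -, -, sz, -, -, -, h4⟩ := hsome r hk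
      simp only [gateOf]
      rw [hsum S.lip S'.lip fun i hi => hext.lip i hi]
      simp only [he0, hl0, hd0, hL0]
      exact (mul_le_mul_of_nonneg_left hsl h2).trans h4
  · rcases split g hg with h | rfl
    · rw [hext.gate g h] at hk
      rw [hext.lip g h, hext.gate g h]
      refine le_of_eq_of_le ?_ (hok.lip_none g h hk)
      exact congrArg _ (Finset.sum_congr rfl fun i _ => by rw [hext.lip i (lt_trans i.isLt h)])
    · rw [hg0] at hk ⊢
      simp only [gateOf]
      rw [hsum S.lip S'.lip fun i hi => hext.lip i hi]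
      simp only [he0, hl0, hd0, hL0]
      exact hsl.trans (hnone hk).2
  · rw [hext.qb]
    rcases split g hg with h | rfl
    · rw [hext.gate g h] at hk
      rw [hext.orc g h]; exact hok.cheap g r h hk
    · rw [hg0] at hk
      rw [ho0]; exact (hsome r hk).2.2.2.1

/-- A score gate at a form. -/
theorem push_score (hok : S.Ok) (hlen : S.len < S.circ.T) {φ : Form} {nz e lp sz : ℝ}
    (hφ : S.Has φ nz e lp) (he : 0 ≤ e) (hlp : 0 ≤ lp) (hsz0 : 0 ≤ sz) (hsz : S.Sized φ sz)
    {r tgt ρ δ L : ℝ} (htgt : 0 < tgt) (hnz : nz ≤ tgt) (O : Orc d) (hδ : 0 ≤ δ) (hL : 0 ≤ L)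
    (hO : ∀ V, Quarter.InClass V → Valid O.P O.A V r tgt ρ δ L) (hq : O.A.size ≤ S.qb) :
    ∃ (S' : Bld En) (ψ : Form), S.Ext S' ∧ S'.Ok ∧ S'.len = S.len + 1 ∧
      S'.Has ψ (√(S.circ.T : ℝ) * |ρ|) (δ * (1 + sz) + L * e) (L * lp) ∧
      ∀ V c x ξ, S'.eval V c x ξ ψ = score V r (S.eval V c x ξ φ) := by
  set e' := δ * (1 + sz) + L * e
  set lp' := L * lp
  set S' := S.push (gateOf φ tgt (some r)) O ρ δ L e' lp'
  have hext : S.Ext S' := ext_push _ _ _ _ _ _ _
  have hg0 : S'.circ.gate S.len = gateOf φ tgt (some r) := Function.update_self _ _ _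
  have hk : (S'.circ.gate S.len).kind = some r := by rw [hg0]; rfl
  have hlt : S.len < S'.len := Nat.lt_succ_self _
  refine ⟨S', Form.single S.len, hext, push_ok hok hlen hφ htgt hnz _ O ρ δ L e' lp'
    (by positivity) (by positivity) (fun r' hr => ?_) (fun h => by simp at h), rfl,
    ⟨Form.below_single hlt, ?_, ?_, ?_⟩, fun V c x ξ => ?_⟩
  · obtain rfl : r = r' := Option.some.inj hr
    exact ⟨hδ, hL, hO, hq, sz, hsz0, hsz, le_rfl, le_rfl⟩
  · rw [Form.semi_single hlt]
    simp only [Circuit.sig, hk]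
    simp [S', push]
  · rw [Form.semi_single hlt]; exact le_of_eq (Function.update_self _ _ _)
  · rw [Form.semi_single hlt]; exact le_of_eq (Function.update_self _ _ _)
  · rw [S'.eval_single, S'.circ.val_some hk, S.eval_eq_sum V c x ξ hφ.below, Circuit.argVal, hg0]
    exact congrArg _ (congrArg _ (Finset.sum_congr rfl fun i _ => by
      rw [hext.val V (En.inp V c x) ξ i i.isLt]; rfl))

/-- A reset gate at a form. -/
theorem push_reset (hok : S.Ok) (hlen : S.len < S.circ.T) {φ : Form} {nz e lp : ℝ}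
    (hφ : S.Has φ nz e lp) (he : 0 ≤ e) (hlp : 0 ≤ lp) {tgt : ℝ} (htgt : 0 < tgt) (hnz : nz ≤ tgt)
    (O : Orc d) :
    ∃ (S' : Bld En) (ψ : Form), S.Ext S' ∧ S'.Ok ∧ S'.len = S.len + 1 ∧
      S'.Has ψ 0 e lp ∧ ψ = Form.single S.len ∧ (S'.circ.gate S.len).kind = none ∧
      ∀ V c x ξ, S'.eval V c x ξ ψ = S.eval V c x ξ φ + tgt • ξ S.len := by
  set S' := S.push (gateOf φ tgt none) O 0 0 0 e lp
  have hext : S.Ext S' := ext_push _ _ _ _ _ _ _
  have hg0 : S'.circ.gate S.len = gateOf φ tgt none := Function.update_self _ _ _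
  have hk : (S'.circ.gate S.len).kind = none := by rw [hg0]; rfl
  have hlt : S.len < S'.len := Nat.lt_succ_self _
  refine ⟨S', Form.single S.len, hext, push_ok hok hlen hφ htgt hnz _ O 0 0 0 e lp he hlp
    (fun r' hr => by simp at hr) (fun _ => ⟨le_rfl, le_rfl⟩), rfl,
    ⟨Form.below_single hlt, ?_, ?_, ?_⟩, rfl, hk, fun V c x ξ => ?_⟩
  · rw [Form.semi_single hlt]
    simp [Circuit.sig, hk]
  · rw [Form.semi_single hlt]; exact le_of_eq (Function.update_self _ _ _)
  · rw [Form.semi_single hlt]; exact le_of_eq (Function.update_self _ _ _)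
  · rw [S'.eval_single, S'.circ.val_none hk, S.eval_eq_sum V c x ξ hφ.below, Circuit.argVal, hg0]
    exact congrArg (· + tgt • ξ S.len) (congrArg _ (Finset.sum_congr rfl fun i _ => by
      rw [hext.val V (En.inp V c x) ξ i i.isLt]; rfl))

/-- A finite family of constructions, one after another. -/
theorem push_all {β : Type} [Inhabited β] (m K : ℕ) (P : Fin m → Bld En → β → Prop)
    (hP : ∀ i {A B : Bld En} b, A.Ext B → P i A b → P i B b)
    (step : ∀ i (A : Bld En), S.Ext A → A.Ok → A.len + K ≤ A.circ.T →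
      ∃ B b, A.Ext B ∧ B.Ok ∧ B.len ≤ A.len + K ∧ P i B b)
    (hok : S.Ok) (hb : S.len + m * K ≤ S.circ.T) :
    ∃ (S' : Bld En) (b : Fin m → β), S.Ext S' ∧ S'.Ok ∧ S'.len ≤ S.len + m * K ∧
      ∀ i, P i S' (b i) := by
  have main : ∀ k, k ≤ m → ∃ (S' : Bld En) (b : Fin m → β), S.Ext S' ∧ S'.Ok ∧
      S'.len ≤ S.len + k * K ∧ ∀ i : Fin m, (i : ℕ) < k → P i S' (b i) := by
    intro k
    induction k with
    | zero => exact fun _ => ⟨S, fun _ => default, Ext.refl S, hok, by simp, fun i h => absurd h (by omega)⟩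
    | succ k ih =>
      intro hk
      obtain ⟨A, b, hA, hAok, hAlen, hAP⟩ := ih (by omega)
      have hmul : (k + 1) * K ≤ m * K := Nat.mul_le_mul_right K hk
      rw [Nat.succ_mul] at hmul
      obtain ⟨B, x, hB, hBok, hBlen, hBP⟩ := step ⟨k, hk⟩ A hA hAok (by rw [hA.T]; omega)
      refine ⟨B, Function.update b ⟨k, hk⟩ x, hA.trans hB, hBok, by rw [Nat.succ_mul]; omega,
        fun i hi => ?_⟩
      by_cases h : i = ⟨k, hk⟩
      · subst h; rw [Function.update_self]; exact hBP
      · rw [Function.update_of_ne h]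
        exact hP i _ hB (hAP i (by
          rcases Nat.lt_succ_iff_lt_or_eq.1 hi with h' | h'
          · exact h'
          · exact absurd (Fin.ext h') h))
  obtain ⟨S', b, h1, h2, h3, h4⟩ := main m le_rfl
  exact ⟨S', b, h1, h2, h3, fun i => h4 i i.isLt⟩

end Bld

end

end P347.Zero
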