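import Vale.Agent.P347.Zero.Build

/-!
# P347: comparing the ideal values of forms with their truths

`Near` is stable under sums and scalings, and a score gate passes it on with factor `2`.
-/

namespace P347.Zero

open MeasureTheory ProbabilityTheory
open scoped ENNReal

noncomputable section

variable {d : ℕ}

namespace Bld

variable {En : Env d} {S : Bld En}

/-- A truth is measurable in the random ideal and the Gaussians. -/
def TMeas (F : Truth En) : Prop :=
  ∀ V : Space d → ℝ, Quarter.InClass V → ∀ c : Space d,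
    Measurable fun p : En.X × (ℕ → Space d) => F V c p.1 p.2

theorem TMeas.zero : TMeas (fun _ _ _ _ => (0 : Space d) : Truth En) :=
  fun _ _ _ => measurable_const

theorem TMeas.centre : TMeas (fun _ c _ _ => c : Truth En) := fun _ _ _ => measurable_const

theorem TMeas.vec (k : Fin 2) : TMeas (fun V c x _ => En.vec V c x k : Truth En) := fun V hV c => by
  show Measurable ((fun f : Fin 2 → Space d => f k) ∘ En.vec V c ∘ Prod.fst)
  exact (measurable_pi_apply k).comp ((En.meas V hV c).comp measurable_fst)

theorem TMeas.gauss (g : ℕ) : TMeas (fun _ _ _ ξ => ξ g : Truth En) := fun _ _ _ => by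
  show Measurable ((fun f : ℕ → Space d => f g) ∘ Prod.snd)
  exact (measurable_pi_apply g).comp measurable_snd

theorem TMeas.add {F G : Truth En} (hF : TMeas F) (hG : TMeas G) :
    TMeas (fun V c x ξ => F V c x ξ + G V c x ξ : Truth En) :=
  fun V hV c => (hF V hV c).add (hG V hV c)

theorem TMeas.smul {F : Truth En} (hF : TMeas F) (a : ℝ) :
    TMeas (fun V c x ξ => a • F V c x ξ : Truth En) :=
  fun V hV c => Measurable.fun_const_smul (hF V hV c) a

theorem TMeas.sum {ι : Type} (s : Finset ι) {F : ι → Truth En} (hF : ∀ i ∈ s, TMeas (F i)) :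
    TMeas (fun V c x ξ => ∑ i ∈ s, F i V c x ξ : Truth En) :=
  fun V hV c => Finset.measurable_sum _ fun i hi => hF i hi V hV c

theorem TMeas.score {F : Truth En} (hF : TMeas F) (r : ℝ) :
    TMeas (fun V c x ξ => Zero.score V r (F V c x ξ) : Truth En) :=
  fun V hV c => ((continuous_score hV).comp
    (Continuous.prodMk continuous_const continuous_id)).measurable.comp (hF V hV c)

/-- A truth as a function on the probability space. -/
abbrev truthFun (S : Bld En) (F : Truth En) (V : Space d → ℝ) (c : Space d)
    (p : En.X × (Fin S.circ.T → Space d)) : Space d :=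
  F V c p.1 (extFun p.2)

theorem TMeas.measurable {F : Truth En} (hF : TMeas F) {V : Space d → ℝ}
    (hV : Quarter.InClass V) (c : Space d) : Measurable (S.truthFun F V c) := by
  show Measurable ((fun p : En.X × (ℕ → Space d) => F V c p.1 p.2) ∘
    fun p : En.X × (Fin S.circ.T → Space d) => (p.1, extFun p.2))
  exact (hF V hV c).comp (measurable_fst.prodMk (measurable_extFun.comp measurable_snd))

theorem Near.mono {φ : Form} {F : Truth En} {D D' : ℝ} (h : S.Near φ F D) (hD : D ≤ D') :
    S.Near φ F D' := fun V hV c =>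
  (h V hV c).trans (ENNReal.ofReal_le_ofReal
    (mul_le_mul_of_nonneg_right hD (by positivity)))

theorem near_zero : S.Near (0 : Form) (fun _ _ _ _ => 0) 0 := fun V hV c => by
  simp [evalFun, eval_zero]

theorem near_centre : S.Near Form.centre (fun _ c _ _ => c) 0 := fun V hV c => by
  simp [evalFun, eval_centre]

theorem near_ext (k : Fin 2) : S.Near (Form.ext k) (fun V c x _ => En.vec V c x k) 0 :=
  fun V hV c => by simp [evalFun, eval_ext]

/-- An exact identity of ideal values. -/
theorem near_of_eq {φ : Form} {F : Truth En}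
    (h : ∀ V c x ξ, S.eval V c x ξ φ = F V c x ξ) : S.Near φ F 0 := fun V hV c => by
  simp [evalFun, h]

/-- The truth may be replaced by a close one. -/
theorem Near.triangle {φ : Form} {F G : Truth En} {D D' : ℝ} (hD : 0 ≤ D) (hD' : 0 ≤ D')
    (hF : TMeas F) (hG : TMeas G) (h : S.Near φ F D)
    (h' : ∀ V : Space d → ℝ, Quarter.InClass V → ∀ c : Space d,
      eLpNorm (fun p => S.truthFun F V c p - S.truthFun G V c p) 2 S.idealLaw
        ≤ ENNReal.ofReal (D' * (√d + ‖c‖))) :
    S.Near φ G (D + D') := by
  intro V hV c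
  have e : (fun p => S.evalFun V c φ p - G V c p.1 (extFun p.2))
      = (fun p => S.evalFun V c φ p - S.truthFun F V c p)
        + fun p => S.truthFun F V c p - S.truthFun G V c p := by
    funext p; simp
  rw [e, add_mul, ENNReal.ofReal_add (by positivity) (by positivity)]
  exact (eLpNorm_add_le ((S.measurable_evalFun c hV φ).sub (hF.measurable hV c)).aestronglyMeasurable
    ((hF.measurable hV c).sub (hG.measurable hV c)).aestronglyMeasurable one_le_two).trans
    (add_le_add (h V hV c) (h' V hV c))

theorem Near.congr {φ : Form} {F G : Truth En} {D : ℝ} (h : S.Near φ F D)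
    (e : ∀ V c x ξ, F V c x ξ = G V c x ξ) : S.Near φ G D := fun V hV c => by
  simp only [← e]
  exact h V hV c

theorem Near.add {φ ψ : Form} {F G : Truth En} {D D' : ℝ} (hD : 0 ≤ D) (hD' : 0 ≤ D')
    (hF : TMeas F) (hG : TMeas G) (h : S.Near φ F D) (h' : S.Near ψ G D') :
    S.Near (φ + ψ) (fun V c x ξ => F V c x ξ + G V c x ξ) (D + D') := by
  intro V hV c
  have e : (fun p => S.evalFun V c (φ + ψ) p - (F V c p.1 (extFun p.2) + G V c p.1 (extFun p.2)))
      = (fun p => S.evalFun V c φ p - S.truthFun F V c p)
        + fun p => S.evalFun V c ψ p - S.truthFun G V c p := by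
    funext p
    simp only [evalFun, eval_add, Pi.add_apply]
    abel
  rw [e, add_mul, ENNReal.ofReal_add (by positivity) (by positivity)]
  exact (eLpNorm_add_le ((S.measurable_evalFun c hV φ).sub (hF.measurable hV c)).aestronglyMeasurable
    ((S.measurable_evalFun c hV ψ).sub (hG.measurable hV c)).aestronglyMeasurable one_le_two).trans
    (add_le_add (h V hV c) (h' V hV c))

theorem Near.smul {φ : Form} {F : Truth En} {D : ℝ} (a : ℝ) (h : S.Near φ F D) :
    S.Near (a • φ) (fun V c x ξ => a • F V c x ξ) (|a| * D) := by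
  intro V hV c
  have e : (fun p => S.evalFun V c (a • φ) p - a • F V c p.1 (extFun p.2))
      = a • fun p => S.evalFun V c φ p - S.truthFun F V c p := by
    funext p
    simp only [evalFun, eval_smul, Pi.smul_apply, smul_sub]
  rw [e, eLpNorm_const_smul, Real.enorm_eq_ofReal_abs, mul_assoc,
    ENNReal.ofReal_mul (abs_nonneg a)]
  exact mul_le_mul_right (h V hV c) _

theorem Near.sum {ι : Type} (s : Finset ι) (a : ι → ℝ) {φ : ι → Form} {F : ι → Truth En}
    {D : ι → ℝ} (hD : ∀ i ∈ s, 0 ≤ D i) (hF : ∀ i ∈ s, TMeas (F i))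
    (h : ∀ i ∈ s, S.Near (φ i) (F i) (D i)) :
    S.Near (∑ i ∈ s, a i • φ i) (fun V c x ξ => ∑ i ∈ s, a i • F i V c x ξ)
      (∑ i ∈ s, |a i| * D i) := by
  classical
  induction s using Finset.induction_on with
  | empty => simpa using (near_zero (S := S))
  | insert i s hi ih =>
    simp only [Finset.sum_insert hi]
    refine ((h i (Finset.mem_insert_self i s)).smul (a i)).add
      (mul_nonneg (abs_nonneg _) (hD i (Finset.mem_insert_self i s)))
      (Finset.sum_nonneg fun j hj =>
        mul_nonneg (abs_nonneg _) (hD j (Finset.mem_insert_of_mem hj)))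
      ((hF i (Finset.mem_insert_self i s)).smul _)
      (TMeas.sum s fun j hj => (hF j (Finset.mem_insert_of_mem hj)).smul (a j))
      (ih (fun j hj => hD j (Finset.mem_insert_of_mem hj))
        (fun j hj => hF j (Finset.mem_insert_of_mem hj))
        fun j hj => h j (Finset.mem_insert_of_mem hj))

/-- The size of a form close to a truth of known size. -/
theorem Near.sized {φ : Form} {F : Truth En} {D sz : ℝ} (hD : 0 ≤ D) (hsz : 0 ≤ sz)
    (hF : TMeas F) (h : S.Near φ F D)
    (h' : ∀ V : Space d → ℝ, Quarter.InClass V → ∀ c : Space d,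
      eLpNorm (S.truthFun F V c) 2 S.idealLaw ≤ ENNReal.ofReal (sz * (√d + ‖c‖))) :
    S.Sized φ (D + sz) :=
  h.triangle hD hsz hF TMeas.zero fun V hV c => by simpa using h' V hV c

/-- A score gate: the score is `2`-Lipschitz. -/
theorem Near.score {φ ψ : Form} {S' : Bld En} {F : Truth En} {D r : ℝ} (hr : 0 ≤ r)
    (hext : S.Ext S') (hb : φ.Below S.len) (h : S.Near φ F D)
    (e : ∀ V c x ξ, S'.eval V c x ξ ψ = Zero.score V r (S.eval V c x ξ φ)) :
    S'.Near ψ (fun V c x ξ => Zero.score V r (F V c x ξ)) (2 * D) := by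
  intro V hV c
  have h' := hext.near hb h V hV c
  refine (eLpNorm_le_mul_eLpNorm_of_ae_le_mul (c := 2)
    (g := fun p => S'.evalFun V c φ p - F V c p.1 (extFun p.2))
    (Filter.Eventually.of_forall fun p => ?_) 2).trans ?_
  · have h2 := ((score_spec d V hV).2.1 r hr).norm_sub_le (S'.eval V c p.1 (extFun p.2) φ) (F V c p.1 (extFun p.2))
    simp only [evalFun, e, ← hext.eval V c p.1 _ hb]
    simpa using h2
  · rw [mul_assoc, ENNReal.ofReal_mul zero_le_two]
    exact mul_le_mul' le_rfl h'

end Bld

end

end P347.Zero
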