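import Vale.Agent.P347.Zero.CircuitDefs

/-!
# P347: compilation of circuits

If every score gate has a valid oracle and the blurs fit, then the reset values computed by the
program are close in `L²` to the ideal values at a family of independent standard Gaussians.
-/

namespace P347.Zero

open MeasureTheory ProbabilityTheory
open scoped ENNReal

noncomputable section

variable {d : ℕ}

/-- One call at an approximate argument. -/
theorem call_err {R Ω₀ Ω : Type} [MeasurableSpace R] [MeasurableSpace Ω₀] [MeasurableSpace Ω]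
    {μ : Measure R} [IsProbabilityMeasure μ] {P₀ : Measure Ω₀} [IsProbabilityMeasure P₀]
    {P : Measure Ω} [IsProbabilityMeasure P] {V : Space d → ℝ} (hV : Quarter.InClass V)
    {A : Alg d (Ω × Space d) (Space d)} (hA : A.Meas) {rad τ ρ δ L : ℝ} (hδ : 0 ≤ δ)
    (hlip : ∀ ω y y', ‖A.eval (oracle V) (ω, y) - A.eval (oracle V) (ω, y')‖ ≤ L * ‖y - y'‖)
    (hs : Measurable (score V rad))
    {Z : Space d → Space d × Ω → Space d} (hZ : Measurable (Function.uncurry Z))
    (hZerr : ∀ c, (∫⁻ N, ∫⁻ ω, ENNReal.ofReal (‖A.eval (oracle V) (ω, c + τ • N)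
        - (score V rad c + ρ • Z c (N, ω))‖ ^ 2) ∂P ∂stdGaussian (Space d))
      ≤ ENNReal.ofReal ((δ * (√d + ‖c‖)) ^ 2))
    {r : Ω₀ → R} {n : Ω₀ → Space d × Ω}
    (hn : MeasurePreserving (fun w => (r w, n w)) P₀ (μ.prod ((stdGaussian (Space d)).prod P)))
    {c : R → Space d} (hc : Measurable c) {Y : Ω₀ → Space d} (hY : Measurable Y) :
    eLpNorm (fun w => A.eval (oracle V) ((n w).2, Y w)
        - (score V rad (c (r w)) + ρ • Z (c (r w)) (n w))) 2 P₀
      ≤ ENNReal.ofReal δ * (ENNReal.ofReal √d + eLpNorm c 2 μ)
        + ENNReal.ofReal L * eLpNorm (fun w => Y w - (c (r w) + τ • (n w).1)) 2 P₀ := by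
  have hO := Quarter.measurable_oracle hV.smooth
  have hev : Measurable fun z : Ω × Space d => A.eval (oracle V) z :=
    hA.eval (O := fun _ => oracle V) (hO.comp measurable_snd) measurable_id
  have hrm : Measurable r := measurable_fst.comp hn.measurable
  have hnm : Measurable n := measurable_snd.comp hn.measurable
  let G : R × (Space d × Ω) → Space d := fun z =>
    A.eval (oracle V) (z.2.2, c z.1 + τ • z.2.1) - (score V rad (c z.1) + ρ • Z (c z.1) z.2)
  have hGm : Measurable G :=
    (hev.comp ((measurable_snd.comp measurable_snd).prodMk ((hc.comp measurable_fst).add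
      ((measurable_fst.comp measurable_snd).const_smul τ)))).sub
      ((hs.comp (hc.comp measurable_fst)).add
        ((hZ.comp ((hc.comp measurable_fst).prodMk measurable_snd)).const_smul ρ))
  have hG : eLpNorm G 2 (μ.prod ((stdGaussian (Space d)).prod P))
      ≤ ENNReal.ofReal δ * (ENNReal.ofReal √d + eLpNorm c 2 μ) := by
    have key : eLpNorm G 2 (μ.prod ((stdGaussian (Space d)).prod P))
        ≤ eLpNorm (fun x => δ * (√d + ‖c x‖)) 2 μ := by
      rw [eLpNorm_eq_lintegral_rpow_enorm_toReal two_ne_zero ENNReal.ofNat_ne_top,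
        eLpNorm_eq_lintegral_rpow_enorm_toReal two_ne_zero ENNReal.ofNat_ne_top]
      refine ENNReal.rpow_le_rpow ?_ (by norm_num)
      simp only [ENNReal.toReal_ofNat, ENNReal.rpow_two]
      rw [lintegral_prod _ (hGm.enorm.pow_const 2).aemeasurable]
      refine lintegral_mono fun x => ?_
      have hGx : Measurable fun y => G (x, y) :=
        hGm.comp (measurable_const.prodMk measurable_id)
      rw [lintegral_prod (fun y => ‖G (x, y)‖ₑ ^ 2) (hGx.enorm.pow_const 2).aemeasurable]
      have hx : 0 ≤ δ * (√d + ‖c x‖) := by positivity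
      rw [Real.enorm_eq_ofReal hx, ← ENNReal.ofReal_pow hx]
      refine le_trans (le_of_eq (lintegral_congr fun N => lintegral_congr fun ω => ?_)) (hZerr (c x))
      rw [← ofReal_norm, ← ENNReal.ofReal_pow (norm_nonneg _)]
    refine key.trans ?_
    have e : (fun x => δ * (√d + ‖c x‖)) = δ • fun x => √d + ‖c x‖ := by
      funext x; simp
    rw [e, eLpNorm_const_smul, Real.enorm_eq_ofReal hδ]
    refine mul_le_mul_right ?_ _
    refine (eLpNorm_add_le aestronglyMeasurable_const hc.norm.aestronglyMeasurable one_le_two).trans ?_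
    rw [eLpNorm_norm c (p := 2), eLpNorm_const _ two_ne_zero (NeZero.ne μ)]
    simp [Real.enorm_eq_ofReal (Real.sqrt_nonneg _)]
  let F : Ω₀ → Space d := fun w => A.eval (oracle V) ((n w).2, Y w)
    - A.eval (oracle V) ((n w).2, c (r w) + τ • (n w).1)
  have hFm : Measurable F := (hev.comp ((measurable_snd.comp hnm).prodMk hY)).sub
    (hev.comp ((measurable_snd.comp hnm).prodMk
      ((hc.comp hrm).add ((measurable_fst.comp hnm).const_smul τ))))
  have hF : eLpNorm F 2 P₀
      ≤ ENNReal.ofReal L * eLpNorm (fun w => Y w - (c (r w) + τ • (n w).1)) 2 P₀ :=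
    (eLpNorm_le_mul_eLpNorm_of_ae_le_mul (c := L)
      (Filter.Eventually.of_forall fun w => hlip _ _ _) 2).trans le_rfl
  have e : (fun w => A.eval (oracle V) ((n w).2, Y w)
      - (score V rad (c (r w)) + ρ • Z (c (r w)) (n w))) = F + G ∘ fun w => (r w, n w) := by
    funext w; simp [F, G]
  rw [e, add_comm (ENNReal.ofReal δ * _)]
  refine (eLpNorm_add_le hFm.aestronglyMeasurable
    (hGm.comp hn.measurable).aestronglyMeasurable one_le_two).trans (add_le_add hF ?_)
  rw [eLpNorm_comp_measurePreserving hGm.aestronglyMeasurable hn]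
  exact hG

/-- Splitting off the last coordinate. -/
theorem mp_init {m : ℕ} {X : Fin (m + 1) → Type} [∀ i, MeasurableSpace (X i)]
    (μ : ∀ i, Measure (X i)) [∀ i, IsProbabilityMeasure (μ i)] :
    MeasurePreserving (fun f : ∀ i, X i => ((fun i : Fin m => f i.castSucc), f (Fin.last m)))
      (Measure.pi μ) ((Measure.pi fun i : Fin m => μ i.castSucc).prod (μ (Fin.last m))) := by
  have hsnoc : Measurable fun p : (∀ i : Fin m, X i.castSucc) × X (Fin.last m) =>
      (Fin.snoc p.1 p.2 : ∀ i, X i) := by
    refine measurable_pi_lambda _ fun i => ?_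
    induction i using Fin.lastCases with
    | last => simpa [Fin.snoc_last] using measurable_snd
    | cast j => simp only [Fin.snoc_castSucc]; fun_prop
  have hmap : ((Measure.pi fun i : Fin m => μ i.castSucc).prod (μ (Fin.last m))).map
      (fun p => (Fin.snoc p.1 p.2 : ∀ i, X i)) = Measure.pi μ := by
    refine (Measure.pi_eq fun s hs => ?_).symm
    rw [Measure.map_apply hsnoc (MeasurableSet.univ_pi hs)]
    have hpre : (fun p : (∀ i : Fin m, X i.castSucc) × X (Fin.last m) =>
        (Fin.snoc p.1 p.2 : ∀ i, X i)) ⁻¹' Set.univ.pi s =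
        (Set.univ.pi fun i : Fin m => s i.castSucc) ×ˢ s (Fin.last m) := by
      ext p
      simp only [Set.mem_preimage, Set.mem_univ_pi, Set.mem_prod]
      refine ⟨fun h => ⟨fun i => by simpa using h i.castSucc, by simpa using h (Fin.last m)⟩,
        fun h i => ?_⟩
      induction i using Fin.lastCases with
      | last => simpa using h.2
      | cast j => simpa using h.1 j
    rw [hpre, Measure.prod_prod, Measure.pi_pi, Fin.prod_univ_castSucc]
  refine ⟨by fun_prop, ?_⟩
  rw [← hmap, Measure.map_map (by fun_prop) hsnoc]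
  refine Eq.trans ?_ Measure.map_id
  congr 1
  funext p
  simp

/-- Extension by zero. -/
def extFun {m : ℕ} (x : Fin m → Space d) (i : ℕ) : Space d :=
  if h : i < m then x ⟨i, h⟩ else 0

theorem measurable_extFun {m : ℕ} : Measurable (extFun : (Fin m → Space d) → ℕ → Space d) := by
  refine measurable_pi_lambda _ fun i => ?_
  unfold extFun
  split_ifs <;> fun_prop

namespace Circuit

variable (C : Circuit d) (V : Space d → ℝ)

theorem val_congr (c : Inp d) (g : ℕ) : ∀ {ξ ξ' : ℕ → Space d},
    (∀ i ≤ g, ξ i = ξ' i) → C.val V c ξ g = C.val V c ξ' g := by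
  induction g using Nat.strong_induction_on with
  | _ g ih =>
    intro ξ ξ' h
    have ha : C.argVal V c ξ g = C.argVal V c ξ' g := by
      simp only [argVal]
      congr 1
      refine Finset.sum_congr rfl fun i _ => ?_
      rw [ih i i.isLt fun k hk => h k (hk.trans i.isLt.le)]
    cases hk : (C.gate g).kind with
    | none => rw [C.val_none hk, C.val_none hk, ha, h g le_rfl]
    | some r => rw [C.val_some hk, C.val_some hk, ha]

theorem argVal_congr (c : Inp d) (g : ℕ) {ξ ξ' : ℕ → Space d} (h : ∀ i < g, ξ i = ξ' i) :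
    C.argVal V c ξ g = C.argVal V c ξ' g := by
  simp only [argVal]
  congr 1
  refine Finset.sum_congr rfl fun i _ => ?_
  rw [C.val_congr V c i fun k hk => h k (lt_of_le_of_lt hk i.isLt)]

theorem measurable_val (hs : ∀ g r, (C.gate g).kind = some r → Measurable (score V r)) (g : ℕ) :
    Measurable fun p : Inp d × (ℕ → Space d) => C.val V p.1 p.2 g := by
  induction g using Nat.strong_induction_on with
  | _ g ih =>
    have ha : Measurable fun p : Inp d × (ℕ → Space d) => C.argVal V p.1 p.2 g :=
      ((((measurable_fst (α := Space d)).comp measurable_fst).const_smul (C.gate g).cen).add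
        (Finset.measurable_sum _ fun k _ => ((measurable_pi_apply k).comp
          (measurable_snd.comp measurable_fst)).const_smul ((C.gate g).ext k))).add
        (Finset.measurable_sum _ fun i _ => (ih i i.isLt).const_smul ((C.gate g).coef i))
    cases hk : (C.gate g).kind with
    | none =>
      simp only [C.val_none hk]
      exact ha.add ((measurable_pi_apply (X := fun _ : ℕ => Space d) g).comp measurable_snd |>.fun_const_smul (C.gate g).tgt)
    | some r =>
      simp only [C.val_some hk]
      exact (hs g r hk).comp ha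

theorem measurable_argVal (hs : ∀ g r, (C.gate g).kind = some r → Measurable (score V r)) (g : ℕ) :
    Measurable fun p : Inp d × (ℕ → Space d) => C.argVal V p.1 p.2 g :=
  ((((measurable_fst (α := Space d)).comp measurable_fst).const_smul (C.gate g).cen).add
    (Finset.measurable_sum _ fun k _ => ((measurable_pi_apply k).comp
      (measurable_snd.comp measurable_fst)).const_smul ((C.gate g).ext k))).add
    (Finset.measurable_sum _ fun i _ => (C.measurable_val V hs i).const_smul ((C.gate g).coef i))

/-- The copy for consumer `j`. -/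
def cpy (G : Space d) (F : Fin C.T → Space d) (j : ℕ) : Space d :=
  (√(C.T : ℝ))⁻¹ • G + C.cp F j

theorem cpy_eq (G : Space d) (F : Fin C.T → Space d) {j : ℕ} (hj : j < C.T) :
    C.cpy G F j = copyN G F ⟨j, hj⟩ := by
  simp [cpy, cp, hj, copyN, add_sub_assoc]

/-- The blurs of the centre (item `0`) and of the first `m` gates. -/
def items (m : ℕ) (z : Space d × C.Seeds m) (G : ℕ → Space d) (i : Fin (m + 1)) (j : ℕ) : Space d :=
  Fin.cases (C.cpy z.1 z.2.1 j) (fun k : Fin m => C.cpy (G k) (z.2.2 k).2.2.2 j) i

/-- The coefficient of item `i` in the blur of the argument of gate `m`. -/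
def aCoef (m : ℕ) : Fin (m + 1) → ℝ :=
  Fin.cases ((C.gate m).cen * (C.tau * √(C.T : ℝ)) / (C.gate m).tgt)
    fun i : Fin m => (C.gate m).coef i * (C.sig i * √(C.T : ℝ)) / (C.gate m).tgt

/-- The blur of the argument of gate `m`. -/
def narg (m : ℕ) (z : Space d × C.Seeds m) (G : ℕ → Space d) (P : Space d) : Space d :=
  ∑ i, C.aCoef m i • C.items m z G i m + (C.pad m / (C.gate m).tgt) • P

variable (Z : ∀ g, Space d → Space d × (C.orc g).Ω → Space d)

/-- The ideal Gaussian and the output blur of gate `m`. -/
def gateOut (m : ℕ) (c : Inp d) (ξ : ℕ → Space d)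
    (u : Space d × ((C.orc m).Ω × Space d)) : Space d × Space d :=
  match (C.gate m).kind with
  | none => (u.1, u.2.2)
  | some _ => (u.2.2, Z m (C.argVal V c ξ m) (u.1, u.2.1))

/-- Forget the last gate. -/
def initState {m : ℕ} (z : Space d × C.Seeds (m + 1)) : Space d × C.Seeds m :=
  (z.1, C.initSeeds z.2)

/-- The ideal Gaussians and the output blurs. -/
def ideal (c : Inp d) : (m : ℕ) → Space d × C.Seeds m → (ℕ → Space d) × (ℕ → Space d)
  | 0, _ => (0, 0)
  | m + 1, z =>
    let p := ideal c m (C.initState z)
    let o := C.gateOut V Z m c p.1 (C.narg m (C.initState z) p.2 (z.2.2 (Fin.last m)).2.1,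
      ((z.2.2 (Fin.last m)).1, (z.2.2 (Fin.last m)).2.2.1))
    (Function.update p.1 m o.1, Function.update p.2 m o.2)

/-- The index type of consumers still to come. -/
abbrev Later (m : ℕ) : Type := {j : Fin C.T // m ≤ (j : ℕ)}

/-- The Gaussians of the first `m` gates and the blurs for later consumers. -/
def stateMap (c : Inp d) (m : ℕ) (z : Space d × C.Seeds m) :
    (Fin m → Space d) × (Fin (m + 1) × C.Later m → Space d) :=
  (fun i => (C.ideal V Z c m z).1 i, fun p => C.items m z (C.ideal V Z c m z).2 p.1 p.2.1)

/-- The law of the state. -/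
abbrev startLaw (m : ℕ) : Measure (Space d × C.Seeds m) :=
  (stdGaussian (Space d)).prod (C.seedLaw m)

theorem mp_next (m : ℕ) :
    MeasurePreserving (fun z : Space d × C.Seeds (m + 1) => (C.initState z, z.2.2 (Fin.last m)))
      (C.startLaw (m + 1)) ((C.startLaw m).prod (C.cellLaw m)) := by
  have h0 := mp_init (fun g : Fin (m + 1) => C.cellLaw g)
  have h1 : MeasurePreserving
      (fun s : C.Seeds (m + 1) => (C.initSeeds s, s.2 (Fin.last m)))
      (C.seedLaw (m + 1)) ((C.seedLaw m).prod (C.cellLaw m)) :=
    (measurePreserving_prodAssoc (famLaw d (Fin C.T))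
      (Measure.pi fun g : Fin m => C.cellLaw g) (C.cellLaw m)).symm.comp
      ((MeasurePreserving.id _).prod h0)
  exact (measurePreserving_prodAssoc (stdGaussian (Space d)) (C.seedLaw m) (C.cellLaw m)).symm.comp
    ((MeasurePreserving.id _).prod h1)

variable {C V Z}

/-- The blurs fit: the coefficients of a unit combination. -/
theorem aCoef_sq (m : ℕ) (htgt : 0 < (C.gate m).tgt) (hτ : 0 ≤ C.tau)
    (hblur : √(C.T : ℝ) * (|(C.gate m).cen| * C.tau
      + ∑ i : Fin m, |(C.gate m).coef i| * |C.sig i|) ≤ (C.gate m).tgt) :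
    ∑ i, C.aCoef m i ^ 2 + (C.pad m / (C.gate m).tgt) ^ 2 = 1 := by
  set t := (C.gate m).tgt with ht
  set a := (C.gate m).cen * (C.tau * √(C.T : ℝ)) with ha
  set b : Fin m → ℝ := fun i => (C.gate m).coef i * (C.sig i * √(C.T : ℝ)) with hb
  have hsum : a ^ 2 + ∑ i, b i ^ 2 ≤ t ^ 2 := by
    have h1 : |a| + ∑ i, |b i| ≤ t := by
      refine le_of_eq_of_le ?_ hblur
      simp only [ha, hb, abs_mul, abs_of_nonneg hτ, abs_of_nonneg (Real.sqrt_nonneg _),
        Finset.mul_sum, mul_add]
      congr 1
      · ring
      · exact Finset.sum_congr rfl fun i _ => by ring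
    have h2 : ∑ i, b i ^ 2 ≤ (∑ i, |b i|) ^ 2 := by
      simp only [← sq_abs (b _)]
      exact Finset.sum_sq_le_sq_sum_of_nonneg fun i _ => abs_nonneg _
    have h3 : 0 ≤ ∑ i, |b i| := Finset.sum_nonneg fun i _ => abs_nonneg _
    nlinarith [sq_abs a, abs_nonneg a]
  have hp : C.pad m ^ 2 = t ^ 2 - a ^ 2 - ∑ i, b i ^ 2 := by
    rw [pad, Real.sq_sqrt]
    simp only [ht, ha, hb] at hsum ⊢
    linarith
  rw [Fin.sum_univ_succ]
  simp only [aCoef, Fin.cases_zero, Fin.cases_succ]
  simp only [div_pow, ← Finset.sum_div]
  rw [← add_div, ← add_div, hp, div_eq_one_iff_eq (pow_ne_zero 2 htgt.ne')]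
  ring

/-- The blur of the argument in the units of the argument. -/
theorem tgt_smul_narg (m : ℕ) (htgt : (C.gate m).tgt ≠ 0) (z : Space d × C.Seeds m)
    (G : ℕ → Space d) (P : Space d) :
    (C.gate m).tgt • C.narg m z G P = ((C.gate m).cen * (C.tau * √(C.T : ℝ))) • C.cpy z.1 z.2.1 m
      + ∑ i : Fin m, ((C.gate m).coef i * (C.sig i * √(C.T : ℝ))) • C.cpy (G i) (z.2.2 i).2.2.2 m
      + C.pad m • P := by
  have e : ∀ x : ℝ, (C.gate m).tgt * (x / (C.gate m).tgt) = x := fun x => by field_simp
  simp only [narg, Fin.sum_univ_succ, aCoef, items, Fin.cases_zero, Fin.cases_succ, smul_add,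
    Finset.smul_sum, smul_smul, e]

variable (hs : ∀ g r, (C.gate g).kind = some r → Measurable (score V r))
  (hZm : ∀ g, Measurable (Function.uncurry (Z g)))

include hs hZm in
theorem measurable_gateOut (m : ℕ) :
    Measurable fun p : (Inp d × (ℕ → Space d)) × (Space d × ((C.orc m).Ω × Space d)) =>
      C.gateOut V Z m p.1.1 p.1.2 p.2 := by
  unfold gateOut
  cases (C.gate m).kind with
  | none => fun_prop
  | some r =>
    exact (measurable_snd.comp (measurable_snd.comp measurable_snd)).prodMk
      ((hZm m).comp (((C.measurable_argVal V hs m).comp measurable_fst).prodMk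
        ((measurable_fst.comp measurable_snd).prodMk
          (measurable_fst.comp (measurable_snd.comp measurable_snd)))))

theorem measurable_items (m : ℕ) (i : Fin (m + 1)) (j : ℕ) :
    Measurable fun p : (Space d × C.Seeds m) × (ℕ → Space d) => C.items m p.1 p.2 i j := by
  have := C.measurable_cp j
  induction i using Fin.cases with
  | zero => simp only [items, Fin.cases_zero, cpy]; fun_prop
  | succ k => simp only [items, Fin.cases_succ, cpy]; fun_prop

theorem measurable_narg (m : ℕ) :
    Measurable fun p : ((Space d × C.Seeds m) × (ℕ → Space d)) × Space d =>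
      C.narg m p.1.1 p.1.2 p.2 := by
  unfold narg
  exact (Finset.measurable_sum _ fun i _ =>
    ((C.measurable_items m i m).comp measurable_fst).const_smul (C.aCoef m i)).add
      ((measurable_snd).fun_const_smul (C.pad m / (C.gate m).tgt))

theorem measurable_initState (m : ℕ) : Measurable (C.initState (m := m)) :=
  measurable_fst.prodMk ((measurable_fst.comp measurable_snd).prodMk
    (measurable_pi_lambda _ fun _ => (measurable_pi_apply _).comp
      (measurable_snd.comp measurable_snd)))

theorem measurable_lastCell (m : ℕ) :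
    Measurable fun z : Space d × C.Seeds (m + 1) => z.2.2 (Fin.last m) :=
  (measurable_pi_apply (Fin.last m)).comp (measurable_snd.comp measurable_snd)

include hs hZm in
theorem measurable_ideal (m : ℕ) :
    Measurable fun p : Inp d × (Space d × C.Seeds m) => C.ideal V Z p.1 m p.2 := by
  induction m with
  | zero => exact measurable_const
  | succ m ih =>
    let q : Inp d × (Space d × C.Seeds (m + 1)) → (ℕ → Space d) × (ℕ → Space d) :=
      fun p => C.ideal V Z p.1 m (C.initState p.2)
    have hi : Measurable fun p : Inp d × (Space d × C.Seeds (m + 1)) => C.initState p.2 :=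
      (C.measurable_initState m).comp measurable_snd
    have hq : Measurable q := ih.comp (measurable_fst.prodMk hi)
    let cl : Inp d × (Space d × C.Seeds (m + 1)) → C.Cell m := fun p => p.2.2.2 (Fin.last m)
    have hc : Measurable cl := (C.measurable_lastCell m).comp measurable_snd
    have hP : Measurable fun p => (cl p).2.1 := measurable_fst.comp (measurable_snd.comp hc)
    let nin : Inp d × (Space d × C.Seeds (m + 1)) →
        ((Space d × C.Seeds m) × (ℕ → Space d)) × Space d := fun p =>
      ((C.initState p.2, (q p).2), (cl p).2.1)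
    have hnin : Measurable nin := (hi.prodMk (measurable_snd.comp hq)).prodMk hP
    have hn := Measurable.comp (C.measurable_narg m) hnin
    let arg : Inp d × (Space d × C.Seeds (m + 1)) →
        (Inp d × (ℕ → Space d)) × (Space d × ((C.orc m).Ω × Space d)) := fun p =>
      ((p.1, (q p).1), (C.narg m (C.initState p.2) (q p).2 (cl p).2.1, ((cl p).1, (cl p).2.2.1)))
    have harg : Measurable arg :=
      (measurable_fst.prodMk (measurable_fst.comp hq)).prodMk (hn.prodMk
        ((measurable_fst.comp hc).prodMk
          (measurable_fst.comp (measurable_snd.comp (measurable_snd.comp hc)))))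
    have ho := Measurable.comp (measurable_gateOut hs hZm m) harg
    have hu := (measurable_update_at m (measurable_fst.comp hq) (measurable_fst.comp ho)).prodMk
      (measurable_update_at m (measurable_snd.comp hq) (measurable_snd.comp ho))
    simp only [ideal]
    exact hu

variable (c : Inp d)

include hs hZm in
/-- The state consists of independent standard Gaussians. -/
theorem mp_state
    (hZlaw : ∀ g r, g < C.T → (C.gate g).kind = some r → ∀ x,
      ((stdGaussian (Space d)).prod (C.orc g).P).map (Z g x) = stdGaussian (Space d))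
    (htgt : ∀ g, g < C.T → 0 < (C.gate g).tgt) (hτ : 0 ≤ C.tau)
    (hblur : ∀ g, g < C.T → √(C.T : ℝ) * (|(C.gate g).cen| * C.tau
      + ∑ i : Fin g, |(C.gate g).coef i| * |C.sig i|) ≤ (C.gate g).tgt)
    (hT : 0 < C.T) (m : ℕ) (hm : m ≤ C.T) :
    MeasurePreserving (C.stateMap V Z c m) (C.startLaw m)
      ((famLaw d (Fin m)).prod (famLaw d (Fin (m + 1) × C.Later m))) := by
  induction m with
  | zero =>
    have h1 : MeasurePreserving (fun z : Space d × C.Seeds 0 => (z.1, z.2.1)) (C.startLaw 0)
        ((stdGaussian (Space d)).prod (famLaw d (Fin C.T))) :=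
      (MeasurePreserving.id _).prod measurePreserving_fst
    have h2 : MeasurePreserving (fun f : Fin C.T → Space d =>
        ((fun i : Fin 0 => f i.elim0), fun p : Fin 1 × C.Later 0 => f p.2.1))
        (famLaw d (Fin C.T)) ((famLaw d (Fin 0)).prod (famLaw d (Fin (0 + 1) × C.Later 0))) := by
      refine famLaw_split (e := fun i : Fin 0 => i.elim0) (e' := fun p : Fin 1 × C.Later 0 => p.2.1) ?_
      rintro (a | a) (b | b) h
      · exact a.elim0
      · exact a.elim0
      · exact b.elim0
      · simp only [Sum.elim_inr] at h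
        exact congrArg Sum.inr (Prod.ext (Fin.ext (by omega)) (Subtype.ext h))
    have e : C.stateMap V Z c 0 = (fun f : Fin C.T → Space d =>
        ((fun i : Fin 0 => f i.elim0), fun p : Fin 1 × C.Later 0 => f p.2.1)) ∘
        (fun p : Space d × (Fin C.T → Space d) => fun j => copyN p.1 p.2 j) ∘
        fun z : Space d × C.Seeds 0 => (z.1, z.2.1) := by
      funext z
      refine Prod.ext (funext fun i => i.elim0) (funext fun p => ?_)
      have hp : p.1 = 0 := Fin.ext (by omega)
      simp only [stateMap, Function.comp_apply, hp, items, Fin.cases_zero]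
      exact C.cpy_eq _ _ p.2.1.2
    rw [e]
    exact h2.comp ((famLaw_copies hT).comp h1)
  | succ m ih =>
    have hmT : m < C.T := by omega
    specialize ih (by omega)
    have hinj : Function.Injective (Sum.elim
        (fun i : Fin (m + 1) => (i, (⟨⟨m, hmT⟩, le_rfl⟩ : C.Later m)))
        (fun p : Fin (m + 1) × C.Later (m + 1) =>
          (p.1, (⟨p.2.1, by have := p.2.2; omega⟩ : C.Later m)))) := by
      rintro (a | a) (b | b) h <;> simp only [Sum.elim_inl, Sum.elim_inr, Prod.mk.injEq,
        Subtype.mk.injEq] at h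
      · rw [h.1]
      · have h2 := congrArg (fun j : Fin C.T => (j : ℕ)) h.2
        have := b.2.2
        simp only at h2
        omega
      · have h2 := congrArg (fun j : Fin C.T => (j : ℕ)) h.2
        have := a.2.2
        simp only at h2
        omega
      · exact congrArg Sum.inr (Prod.ext h.1 (Subtype.ext h.2))
    have hN := ((MeasurePreserving.id (famLaw d (Fin m))).prod (famLaw_split hinj)).comp ih
    let Φ : (Fin m → Space d) → Space d × ((C.orc m).Ω × Space d) → Space d × Space d :=
      fun x u => C.gateOut V Z m c (extFun x) u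
    have hΦm : Measurable (Function.uncurry Φ) :=
      (measurable_gateOut hs hZm m).comp
        (((measurable_const (a := c)).prodMk (measurable_extFun.comp measurable_fst)).prodMk
          measurable_snd)
    have hΦ : ∀ x, MeasurePreserving (Φ x)
        ((stdGaussian (Space d)).prod ((C.orc m).P.prod (stdGaussian (Space d))))
        ((stdGaussian (Space d)).prod (stdGaussian (Space d))) := by
      intro x
      simp only [Φ, gateOut]
      cases hk : (C.gate m).kind with
      | none => exact (MeasurePreserving.id _).prod measurePreserving_snd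
      | some r =>
        have hz : MeasurePreserving (Z m (C.argVal V c (extFun x) m))
            ((stdGaussian (Space d)).prod (C.orc m).P) (stdGaussian (Space d)) :=
          ⟨(hZm m).comp (measurable_const.prodMk measurable_id), hZlaw m r hmT hk _⟩
        exact ((MeasurePreserving.id _).prod hz).comp
          (Measure.measurePreserving_swap.comp
            (measurePreserving_prodAssoc _ (C.orc m).P _).symm)
    have hg := gate_law (T := C.T) hT hN (C.aCoef m) (C.pad m / (C.gate m).tgt)
      (aCoef_sq m (htgt m hmT) hτ (hblur m hmT)) Φ hΦm hΦ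
    have hsn : MeasurePreserving
        (fun p : (Fin m → Space d) × Space d => (Fin.snoc p.1 p.2 : Fin (m + 1) → Space d))
        ((famLaw d (Fin m)).prod (stdGaussian (Space d))) (famLaw d (Fin (m + 1))) := by
      have h := (measurePreserving_piFinSuccAbove (fun _ : Fin (m + 1) => stdGaussian (Space d))
        (Fin.last m)).symm
      have e : (fun p : (Fin m → Space d) × Space d => (Fin.snoc p.1 p.2 : Fin (m + 1) → Space d)) =
          ((MeasurableEquiv.piFinSuccAbove (fun _ : Fin (m + 1) => Space d) (Fin.last m)).symm :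
            _ → _) ∘ Prod.swap := by
        funext p
        simp [MeasurableEquiv.piFinSuccAbove, Fin.insertNthEquiv, Fin.insertNth_last']
      rw [e]
      exact h.comp Measure.measurePreserving_swap
    let eK : Fin (m + 1 + 1) × C.Later (m + 1) ≃
        (Fin (m + 1) × C.Later (m + 1)) ⊕ C.Later (m + 1) :=
      ((finSumFinEquiv (m := m + 1) (n := 1)).symm.prodCongr (Equiv.refl _)).trans
        ((Equiv.sumProdDistrib _ _ _).trans
          (Equiv.sumCongr (Equiv.refl _) (Equiv.uniqueProd (C.Later (m + 1)) (Fin 1))))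
    have hjoin : MeasurePreserving
        (fun q : (Fin (m + 1) × C.Later (m + 1) → Space d) × (Fin C.T → Space d) =>
          fun k => Sum.elim q.1 (fun j : C.Later (m + 1) => q.2 j.1) (eK k))
        ((famLaw d (Fin (m + 1) × C.Later (m + 1))).prod (famLaw d (Fin C.T)))
        (famLaw d (Fin (m + 1 + 1) × C.Later (m + 1))) :=
      (famLaw_sum eK).comp ((MeasurePreserving.id _).prod
        (famLaw_reindex Subtype.val_injective))
    have key : C.stateMap V Z c (m + 1) = (fun w : ((Fin m → Space d) × Space d) ×
          ((Fin (m + 1) × C.Later (m + 1) → Space d) × (Fin C.T → Space d)) => ((Fin.snoc w.1.1 w.1.2 : Fin (m + 1) → Space d),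
        fun k => Sum.elim w.2.1 (fun j : C.Later (m + 1) => w.2.2 j.1) (eK k))) ∘
        (fun w : (Space d × C.Seeds m) × C.Cell m =>
          let o := Φ (C.stateMap V Z c m w.1).1
            (∑ i, C.aCoef m i • (C.stateMap V Z c m w.1).2 (i, ⟨⟨m, hmT⟩, le_rfl⟩)
              + (C.pad m / (C.gate m).tgt) • w.2.2.1, (w.2.1, w.2.2.2.1))
          (((C.stateMap V Z c m w.1).1, o.1),
            ((fun p : Fin (m + 1) × C.Later (m + 1) => (C.stateMap V Z c m w.1).2
              (p.1, ⟨p.2.1, by have := p.2.2; omega⟩)), fun j => copyN o.2 w.2.2.2.2 j))) ∘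
        fun z : Space d × C.Seeds (m + 1) => (C.initState z, z.2.2 (Fin.last m)) := by
      funext z
      have hout : C.gateOut V Z m c (extFun fun i : Fin m => (C.ideal V Z c m (C.initState z)).1 i) =
          C.gateOut V Z m c (C.ideal V Z c m (C.initState z)).1 := by
        funext u
        simp only [gateOut]
        rw [C.argVal_congr V c m (ξ' := (C.ideal V Z c m (C.initState z)).1) fun i hi => by
          simp [extFun, hi]]
      refine Prod.ext (funext fun i => ?_) (funext fun k => ?_)
      · induction i using Fin.lastCases with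
        | last => simp [stateMap, ideal, narg, Φ, hout]
        | cast j => simp [stateMap, ideal, Function.update_of_ne j.isLt.ne]
      · obtain ⟨i, j⟩ := k
        induction i using Fin.lastCases with
        | last =>
          have : eK (Fin.last (m + 1), j) = Sum.inr j := by
            simp [eK, show Fin.last (m + 1) = Fin.natAdd (m + 1) (0 : Fin 1) from Fin.ext rfl]
          rw [show Fin.last (m + 1) = (Fin.last m).succ from (Fin.succ_last m).symm]
          simp only [stateMap, Function.comp_apply, items, Fin.cases_succ]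
          rw [← Fin.succ_last m] at this
          simp only [this, Sum.elim_inr, ideal, Fin.val_last, Function.update_self]
          rw [C.cpy_eq _ _ j.1.2]
          simp [narg, Φ, hout, items]
        | cast i =>
          have : eK (i.castSucc, j) = Sum.inl (i, j) := by
            simp [eK, show i.castSucc = Fin.castAdd 1 i from rfl]
          simp only [stateMap, Function.comp_apply, this, Sum.elim_inl]
          induction i using Fin.cases with
          | zero => simp [items, initState, initSeeds]
          | succ k =>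
            rw [show k.succ.castSucc = k.castSucc.succ from (Fin.succ_castSucc k).symm]
            simp [items, initState, initSeeds, ideal, Function.update_of_ne k.isLt.ne]
    rw [key]
    exact (hsn.prod hjoin).comp (hg.comp (C.mp_next m))

omit c in
/-- The argument error is the combination of the errors of the inputs and of the earlier gates. -/
theorem argHat_sub (hT : 0 < C.T) (m : ℕ) (htgt : (C.gate m).tgt ≠ 0) (c : Inp d)
    (o : Fin 2 → Space d) (N : Space d)
    (s : C.Seeds (m + 1)) (ξ G raw : ℕ → Space d) :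
    C.argHat m (s, (c.1 + C.tau • N, o)) raw - (C.argVal V c ξ m +
        (C.gate m).tgt • C.narg m (N, C.initSeeds s) G (s.2 (Fin.last m)).2.1) =
      ∑ k, (C.gate m).ext k • (o k - c.2 k)
        + ∑ i : Fin m, (C.gate m).coef i • (raw i - (C.val V c ξ i + C.sig i • G i)) := by
  have hq : √(C.T : ℝ) * (√(C.T : ℝ))⁻¹ = 1 :=
    mul_inv_cancel₀ (Real.sqrt_ne_zero'.2 (by exact_mod_cast hT))
  have e : ∀ a b : ℝ, a * (b * √(C.T : ℝ)) * (√(C.T : ℝ))⁻¹ = a * b := fun a b => by
    rw [mul_assoc, mul_assoc b, hq, mul_one]
  rw [tgt_smul_narg m htgt]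
  simp only [argHat, argVal, cpy, initSeeds, smul_add, smul_sub, smul_smul,
    Finset.sum_add_distrib, Finset.sum_sub_distrib, e]
  abel

omit c in
theorem mp_initState (m : ℕ) :
    MeasurePreserving (C.initState (m := m)) (C.startLaw (m + 1)) (C.startLaw m) :=
  measurePreserving_fst.comp (C.mp_next m)

omit c in
theorem measurable_raw (hV : Quarter.InClass V) (m : ℕ) {X : Type} [MeasurableSpace X]
    {s : X → C.Seeds m} {Y : X → Inp d} (hsm : Measurable s) (hY : Measurable Y) :
    Measurable fun x => C.raw V m (s x) (Y x) :=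
  (C.prog_meas m).eval (O := fun _ => oracle V)
    ((Quarter.measurable_oracle hV.smooth).comp measurable_snd) (hsm.prodMk hY)

/-! A random ideal `x` gives the input `cx x`; the external vectors handed in are `ox x`. -/

omit c

variable {X : Type} [MeasurableSpace X] {μ : Measure X} [IsProbabilityMeasure μ]
  (cx : X → Inp d) (ox : X → Fin 2 → Space d)

/-- The input handed to the program. -/
def inp (x : X) (N : Space d) : Inp d := ((cx x).1 + C.tau • N, ox x)

variable (V Z) in
/-- The error of gate `g` among the first `m`. -/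
def gateErr (m g : ℕ) (p : X × (Space d × C.Seeds m)) : Space d :=
  C.raw V m p.2.2 (C.inp cx ox p.1 p.2.1) g - (C.val V (cx p.1) (C.ideal V Z (cx p.1) m p.2).1 g
    + C.sig g • (C.ideal V Z (cx p.1) m p.2).2 g)

variable (V Z) in
/-- The blur of the argument of the last gate. -/
def lastNarg (c : Inp d) (m : ℕ) (z : Space d × C.Seeds (m + 1)) : Space d :=
  C.narg m (C.initState z) (C.ideal V Z c m (C.initState z)).2 (z.2.2 (Fin.last m)).2.1

variable (V) in
/-- The computed argument of the last gate. -/
def lastArg (m : ℕ) (p : X × (Space d × C.Seeds (m + 1))) : Space d :=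
  C.argHat m (p.2.2, C.inp cx ox p.1 p.2.1)
    (C.raw V m (C.initSeeds p.2.2) (C.inp cx ox p.1 p.2.1))

variable (V Z) in
/-- The ideal argument of the last gate. -/
def lastVal (m : ℕ) (p : X × (Space d × C.Seeds (m + 1))) : Space d :=
  C.argVal V (cx p.1) (C.ideal V Z (cx p.1) m (C.initState p.2)).1 m

variable {cx ox} (hcx : Measurable cx) (hox : Measurable ox)

include hcx hox in
theorem measurable_inp {α : Type} [MeasurableSpace α] {f : α → X} {n : α → Space d}
    (hf : Measurable f) (hn : Measurable n) : Measurable fun a => C.inp cx ox (f a) (n a) :=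
  ((((measurable_fst (α := Space d)).comp hcx).comp hf).add (hn.fun_const_smul C.tau)).prodMk
    (hox.comp hf)

include hs hZm hcx hox in
theorem measurable_gateErr (hV : Quarter.InClass V) (m g : ℕ) :
    Measurable (C.gateErr V Z cx ox m g (X := X)) := by
  let q : X × (Space d × C.Seeds m) → Inp d := fun p => cx p.1
  have hq : Measurable q := hcx.comp measurable_fst
  have hp : Measurable fun p : X × (Space d × C.Seeds m) => C.ideal V Z (q p) m p.2 :=
    (measurable_ideal hs hZm m).comp (hq.prodMk measurable_snd)
  have hY : Measurable fun p : X × (Space d × C.Seeds m) => C.inp cx ox p.1 p.2.1 :=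
    measurable_inp hcx hox measurable_fst (measurable_fst.comp measurable_snd)
  exact ((measurable_pi_apply g).comp
    (measurable_raw hV m (measurable_snd.comp measurable_snd) hY)).sub
    (((C.measurable_val V hs g).comp (hq.prodMk (measurable_fst.comp hp))).add
      (((measurable_pi_apply g).comp (measurable_snd.comp hp)).fun_const_smul (C.sig g)))

include hcx hox in
theorem measurable_lastArg (hV : Quarter.InClass V) (m : ℕ) :
    Measurable (C.lastArg V cx ox m (X := X)) := by
  have hY : Measurable fun p : X × (Space d × C.Seeds (m + 1)) => C.inp cx ox p.1 p.2.1 :=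
    measurable_inp hcx hox measurable_fst (measurable_fst.comp measurable_snd)
  let h : X × (Space d × C.Seeds (m + 1)) → (C.Seeds (m + 1) × Inp d) × (ℕ → Space d) := fun p =>
    ((p.2.2, C.inp cx ox p.1 p.2.1), C.raw V m (C.initSeeds p.2.2) (C.inp cx ox p.1 p.2.1))
  have hh : Measurable h := ((measurable_snd.comp measurable_snd).prodMk hY).prodMk
    (measurable_raw hV m
      (measurable_snd.comp ((C.measurable_initState m).comp measurable_snd)) hY)
  show Measurable ((fun p : (C.Seeds (m + 1) × Inp d) × (ℕ → Space d) => C.argHat m p.1 p.2) ∘ h)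
  exact (C.measurable_argHat m).comp hh

include hs hZm hcx hox in
/-- The argument of the last gate is wrong by the combination of the errors before it. -/
theorem argErr_le (hV : Quarter.InClass V) (hT : 0 < C.T) (m : ℕ) (htgt : (C.gate m).tgt ≠ 0)
    (E : ℕ → ℝ≥0∞)
    (hE : ∀ i, i < m → eLpNorm (C.gateErr V Z cx ox m i) 2 (μ.prod (C.startLaw m)) ≤ E i) :
    eLpNorm (fun p => C.lastArg V cx ox m p - (C.lastVal V Z cx m p
        + (C.gate m).tgt • C.lastNarg V Z (cx p.1) m p.2)) 2 (μ.prod (C.startLaw (m + 1)))
      ≤ ∑ k, ENNReal.ofReal |(C.gate m).ext k| * eLpNorm (fun x => ox x k - (cx x).2 k) 2 μ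
        + ∑ i : Fin m, ENNReal.ofReal |(C.gate m).coef i| * E i := by
  let ν := μ.prod (C.startLaw (m + 1))
  let f : Fin 2 → X → Space d := fun k x => ox x k - (cx x).2 k
  let π : X × (Space d × C.Seeds (m + 1)) → X × (Space d × C.Seeds m) :=
    fun p => (p.1, C.initState p.2)
  have hπ : MeasurePreserving π ν (μ.prod (C.startLaw m)) :=
    (MeasurePreserving.id μ).prod (C.mp_initState m)
  have hfst : MeasurePreserving (fun p : X × (Space d × C.Seeds (m + 1)) => p.1) ν μ :=
    measurePreserving_fst
  have hfm : ∀ k, Measurable (f k) := fun k => ((measurable_pi_apply k).comp hox).sub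
    ((measurable_pi_apply k).comp (measurable_snd.comp hcx))
  let F : Fin 2 → X × (Space d × C.Seeds (m + 1)) → Space d := fun k =>
    (C.gate m).ext k • (f k ∘ fun p => p.1)
  let G : Fin m → X × (Space d × C.Seeds (m + 1)) → Space d := fun i =>
    (C.gate m).coef i • (C.gateErr V Z cx ox m i ∘ π)
  have hF : ∀ k, AEStronglyMeasurable (F k) ν := fun k =>
    (((hfm k).comp measurable_fst).aestronglyMeasurable).const_smul _
  have hG : ∀ i, AEStronglyMeasurable (G i) ν := fun i =>
    (((measurable_gateErr hs hZm hcx hox hV m i).comp hπ.measurable).aestronglyMeasurable).const_smul _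
  have e : (fun p => C.lastArg V cx ox m p - (C.lastVal V Z cx m p
        + (C.gate m).tgt • C.lastNarg V Z (cx p.1) m p.2))
      = (∑ k, F k) + ∑ i, G i := by
    funext p
    simp only [Finset.sum_apply, Pi.add_apply, Pi.smul_apply, Function.comp_apply, gateErr, lastArg,
      lastVal, lastNarg, initState, inp, F, G, f, π]
    exact argHat_sub hT m htgt (cx p.1) (ox p.1) p.2.1 p.2.2
      (C.ideal V Z (cx p.1) m (p.2.1, C.initSeeds p.2.2)).1
      (C.ideal V Z (cx p.1) m (p.2.1, C.initSeeds p.2.2)).2
      (C.raw V m (C.initSeeds p.2.2) ((cx p.1).1 + C.tau • p.2.1, ox p.1))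
  rw [e]
  refine (eLpNorm_add_le (Finset.aestronglyMeasurable_sum _ fun k _ => hF k)
    (Finset.aestronglyMeasurable_sum _ fun i _ => hG i) one_le_two).trans (add_le_add ?_ ?_)
  · refine (eLpNorm_sum_le (fun k _ => hF k) one_le_two).trans (Finset.sum_le_sum fun k _ => ?_)
    simp only [F]
    rw [eLpNorm_const_smul, Real.enorm_eq_ofReal_abs,
      eLpNorm_comp_measurePreserving (hfm k).aestronglyMeasurable hfst]
  · refine (eLpNorm_sum_le (fun i _ => hG i) one_le_two).trans (Finset.sum_le_sum fun i _ => ?_)
    simp only [G]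
    rw [eLpNorm_const_smul, Real.enorm_eq_ofReal_abs,
      eLpNorm_comp_measurePreserving
        (measurable_gateErr hs hZm hcx hox hV m i).aestronglyMeasurable hπ]
    exact mul_le_mul_right (hE i i.isLt) _

omit hs hZm in
/-- The law of an argument blur and the seeds of the oracle, given the ideal. -/
theorem mp_call (c : Inp d) (m : ℕ) (hm : m < C.T)
    (hst : MeasurePreserving (C.stateMap V Z c m) (C.startLaw m)
      ((famLaw d (Fin m)).prod (famLaw d (Fin (m + 1) × C.Later m))))
    (hsq : ∑ i, C.aCoef m i ^ 2 + (C.pad m / (C.gate m).tgt) ^ 2 = 1) :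
    MeasurePreserving
      (fun z : Space d × C.Seeds (m + 1) =>
        ((fun i : Fin m => (C.ideal V Z c m (C.initState z)).1 i),
          (C.lastNarg V Z c m z, (z.2.2 (Fin.last m)).1)))
      (C.startLaw (m + 1))
      ((famLaw d (Fin m)).prod ((stdGaussian (Space d)).prod (C.orc m).P)) := by
  have hcol : Function.Injective
      (fun i : Fin (m + 1) => (i, (⟨⟨m, hm⟩, le_rfl⟩ : C.Later m))) :=
    fun a b h => (Prod.mk.inj h).1
  have h1 := ((MeasurePreserving.id (famLaw d (Fin m))).prod
    (famLaw_reindex (d := d) hcol)).comp hst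
  have h2 : MeasurePreserving (fun u : C.Cell m => (u.2.1, u.1)) (C.cellLaw m)
      ((stdGaussian (Space d)).prod (C.orc m).P) :=
    Measure.measurePreserving_swap.comp
      ((MeasurePreserving.id (C.orc m).P).prod measurePreserving_fst)
  have h3 := (h1.prod h2).comp (C.mp_next m)
  have hc := (famLaw_comb (d := d) (C.aCoef m) (C.pad m / (C.gate m).tgt) hsq).prod
    (MeasurePreserving.id (C.orc m).P)
  have h4 := (MeasurePreserving.id (famLaw d (Fin m))).prod (hc.comp
    (measurePreserving_prodAssoc (famLaw d (Fin (m + 1))) (stdGaussian (Space d))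
      (C.orc m).P).symm)
  have h5 := h4.comp (measurePreserving_prodAssoc (famLaw d (Fin m)) (famLaw d (Fin (m + 1)))
    ((stdGaussian (Space d)).prod (C.orc m).P))
  exact h5.comp h3

omit [MeasurableSpace X] in
theorem gateErr_none (g : ℕ) (hk : (C.gate g).kind = none) :
    C.gateErr V Z cx ox (g + 1) g (X := X) = fun p => C.lastArg V cx ox g p
      - (C.lastVal V Z cx g p + (C.gate g).tgt • C.lastNarg V Z (cx p.1) g p.2) := by
  funext p
  simp only [gateErr, lastArg, lastVal, lastNarg, C.raw_succ_none V hk, ideal, C.val_none hk,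
    gateOut, hk, sig, zero_smul, add_zero, Function.update_self]
  rw [C.argVal_congr V (cx p.1) g (ξ' := (C.ideal V Z (cx p.1) g (C.initState p.2)).1)
    fun i hi => Function.update_of_ne hi.ne _ _]

omit [MeasurableSpace X] in
theorem gateErr_some (g : ℕ) {r : ℝ} (hk : (C.gate g).kind = some r) :
    C.gateErr V Z cx ox (g + 1) g (X := X) = fun p =>
      (C.orc g).A.eval (oracle V) ((p.2.2.2 (Fin.last g)).1, C.lastArg V cx ox g p)
        - (score V r (C.lastVal V Z cx g p) + C.rho g • Z g (C.lastVal V Z cx g p)
            (C.lastNarg V Z (cx p.1) g p.2, (p.2.2.2 (Fin.last g)).1)) := by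
  funext p
  simp only [gateErr, lastArg, lastVal, lastNarg, C.raw_succ_some V hk, ideal, C.val_some hk,
    gateOut, hk, sig, Function.update_self]
  rw [C.argVal_congr V (cx p.1) g (ξ' := (C.ideal V Z (cx p.1) g (C.initState p.2)).1)
    fun i hi => Function.update_of_ne hi.ne _ _]

omit [MeasurableSpace X] in
theorem gateErr_lt {m g : ℕ} (h : g < m) :
    C.gateErr V Z cx ox (m + 1) g (X := X) =
      C.gateErr V Z cx ox m g ∘ fun p => (p.1, C.initState p.2) := by
  funext p
  simp only [gateErr, Function.comp_apply, C.raw_succ_of_ne V h.ne, ideal,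
    Function.update_of_ne h.ne, initState]
  congr 2
  exact C.val_congr V (cx p.1) g fun i hi => Function.update_of_ne (by omega) _ _

omit hox in
include hs hZm hcx in
/-- The law of an argument blur and the seeds of the oracle, given a random ideal. -/
theorem mp_callX (g : ℕ) (hg : g < C.T)
    (hst : ∀ c, MeasurePreserving (C.stateMap V Z c g) (C.startLaw g)
      ((famLaw d (Fin g)).prod (famLaw d (Fin (g + 1) × C.Later g))))
    (hsq : ∑ i, C.aCoef g i ^ 2 + (C.pad g / (C.gate g).tgt) ^ 2 = 1) :
    MeasurePreserving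
      (fun p : X × (Space d × C.Seeds (g + 1)) =>
        ((p.1, fun i : Fin g => (C.ideal V Z (cx p.1) g (C.initState p.2)).1 i),
          (C.lastNarg V Z (cx p.1) g p.2, (p.2.2.2 (Fin.last g)).1)))
      (μ.prod (C.startLaw (g + 1)))
      ((μ.prod (famLaw d (Fin g))).prod ((stdGaussian (Space d)).prod (C.orc g).P)) := by
  let φ : X → Space d × C.Seeds (g + 1) → (Fin g → Space d) × (Space d × (C.orc g).Ω) := fun x z =>
    ((fun i : Fin g => (C.ideal V Z (cx x) g (C.initState z)).1 i),
      (C.lastNarg V Z (cx x) g z, (z.2.2 (Fin.last g)).1))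
  have hφm : Measurable (Function.uncurry φ) := by
    let q : X × (Space d × C.Seeds (g + 1)) → (ℕ → Space d) × (ℕ → Space d) := fun p =>
      C.ideal V Z (cx p.1) g (C.initState p.2)
    have hi : Measurable fun p : X × (Space d × C.Seeds (g + 1)) => C.initState p.2 :=
      (C.measurable_initState g).comp measurable_snd
    have hq : Measurable q := (measurable_ideal hs hZm g).comp
      ((hcx.comp measurable_fst).prodMk hi)
    have hl : Measurable fun p : X × (Space d × C.Seeds (g + 1)) => p.2.2.2 (Fin.last g) :=
      (C.measurable_lastCell g).comp measurable_snd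
    exact (measurable_pi_lambda _ fun i : Fin g =>
      (measurable_pi_apply (i : ℕ)).comp (measurable_fst.comp hq)).prodMk
      (((C.measurable_narg g).comp ((hi.prodMk (measurable_snd.comp hq)).prodMk
        (measurable_fst.comp (measurable_snd.comp hl)))).prodMk (measurable_fst.comp hl))
  have h1 : MeasurePreserving (fun p : X × (Space d × C.Seeds (g + 1)) => (p.1, φ p.1 p.2))
      (μ.prod (C.startLaw (g + 1)))
      (μ.prod ((famLaw d (Fin g)).prod ((stdGaussian (Space d)).prod (C.orc g).P))) :=
    (MeasurePreserving.id μ).skew_product (g := φ) hφm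
      (Filter.Eventually.of_forall fun x => (mp_call (cx x) g hg (hst (cx x)) hsq).map_eq)
  exact (measurePreserving_prodAssoc μ (famLaw d (Fin g))
    ((stdGaussian (Space d)).prod (C.orc g).P)).symm.comp h1

include hs hZm hcx hox in
/-- The error of a score gate. -/
theorem err_some (hV : Quarter.InClass V) (g : ℕ) (hg : g < C.T) {r : ℝ}
    (hk : (C.gate g).kind = some r) {δ L : ℝ} (hδ : 0 ≤ δ)
    (hlip : ∀ ω y y', ‖(C.orc g).A.eval (oracle V) (ω, y) - (C.orc g).A.eval (oracle V) (ω, y')‖
      ≤ L * ‖y - y'‖)
    (hZerr : ∀ x, (∫⁻ N, ∫⁻ ω, ENNReal.ofReal (‖(C.orc g).A.eval (oracle V)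
          (ω, x + (C.gate g).tgt • N) - (score V r x + C.rho g • Z g x (N, ω))‖ ^ 2)
        ∂(C.orc g).P ∂stdGaussian (Space d)) ≤ ENNReal.ofReal ((δ * (√d + ‖x‖)) ^ 2))
    (hst : ∀ c, MeasurePreserving (C.stateMap V Z c g) (C.startLaw g)
      ((famLaw d (Fin g)).prod (famLaw d (Fin (g + 1) × C.Later g))))
    (hsq : ∑ i, C.aCoef g i ^ 2 + (C.pad g / (C.gate g).tgt) ^ 2 = 1) :
    eLpNorm (C.gateErr V Z cx ox (g + 1) g) 2 (μ.prod (C.startLaw (g + 1)))
      ≤ ENNReal.ofReal δ * (ENNReal.ofReal √d
          + eLpNorm (fun x => C.argVal V (cx x.1) (extFun x.2) g) 2 (μ.prod (famLaw d (Fin C.T))))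
        + ENNReal.ofReal L * eLpNorm (fun p => C.lastArg V cx ox g p - (C.lastVal V Z cx g p
            + (C.gate g).tgt • C.lastNarg V Z (cx p.1) g p.2)) 2
          (μ.prod (C.startLaw (g + 1))) := by
  have hcf : Measurable fun x : X × (Fin g → Space d) => C.argVal V (cx x.1) (extFun x.2) g := by
    let h : X × (Fin g → Space d) → Inp d × (ℕ → Space d) := fun x => (cx x.1, extFun x.2)
    have hh : Measurable h :=
      (hcx.comp measurable_fst).prodMk (measurable_extFun.comp measurable_snd)
    show Measurable ((fun p : Inp d × (ℕ → Space d) => C.argVal V p.1 p.2 g) ∘ h)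
    exact (C.measurable_argVal V hs g).comp hh
  have hn := mp_callX (μ := μ) hs hZm hcx g hg hst hsq
  have hxi : ∀ p : X × (Space d × C.Seeds (g + 1)),
      C.argVal V (cx p.1) (extFun fun i : Fin g =>
          (C.ideal V Z (cx p.1) g (C.initState p.2)).1 i) g = C.lastVal V Z cx g p := fun p =>
    C.argVal_congr V (cx p.1) g fun i hi => by simp [extFun, hi]
  have hce := call_err
    (r := fun p : X × (Space d × C.Seeds (g + 1)) =>
      (p.1, fun i : Fin g => (C.ideal V Z (cx p.1) g (C.initState p.2)).1 i))
    (n := fun p => (C.lastNarg V Z (cx p.1) g p.2, (p.2.2.2 (Fin.last g)).1))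
    hV (C.orc g).meas hδ hlip (hs g r hk) (hZm g) hZerr hn hcf (measurable_lastArg hcx hox hV g)
  simp only [hxi] at hce
  have hnorm : eLpNorm (fun x => C.argVal V (cx x.1) (extFun x.2) g) 2 (μ.prod (famLaw d (Fin g)))
      = eLpNorm (fun x => C.argVal V (cx x.1) (extFun x.2) g) 2
          (μ.prod (famLaw d (Fin C.T))) := by
    rw [← eLpNorm_comp_measurePreserving hcf.aestronglyMeasurable
      ((MeasurePreserving.id μ).prod (famLaw_reindex (d := d) (Fin.castLE_injective hg.le)))]
    congr 1
    funext x
    exact C.argVal_congr V (cx x.1) g fun i hi => by simp [extFun, hi, hi.trans hg]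
  rw [gateErr_some g hk, ← hnorm]
  exact hce

omit hs hZm hcx hox in
/-- **Compilation.** The reset values are close to the ideal values at independent standard
Gaussians `Ξ c`, for a random ideal input, with any error bounds that satisfy the linear recursion
of the gates. -/
theorem compile (hV : Quarter.InClass V) (hs : ∀ r, Measurable (score V r)) (hT : 0 < C.T)
    (hτ : 0 ≤ C.tau) (htgt : ∀ g, g < C.T → 0 < (C.gate g).tgt)
    (hblur : ∀ g, g < C.T → √(C.T : ℝ) * (|(C.gate g).cen| * C.tau
      + ∑ i : Fin g, |(C.gate g).coef i| * |C.sig i|) ≤ (C.gate g).tgt)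
    {δ L : ℕ → ℝ}
    (hvalid : ∀ g r, g < C.T → (C.gate g).kind = some r → 0 ≤ δ g ∧
      Valid (C.orc g).P (C.orc g).A V r (C.gate g).tgt (C.rho g) (δ g) (L g)) :
    ∃ Ξ : Inp d → Space d × C.Seeds C.T → Fin C.T → Space d,
      Measurable (Function.uncurry Ξ) ∧
      (∀ c, MeasurePreserving (Ξ c) (C.startLaw C.T) (famLaw d (Fin C.T))) ∧
      ∀ {X : Type} [MeasurableSpace X] (μ : Measure X) [IsProbabilityMeasure μ] (cx : X → Inp d)
        (ox : X → Fin 2 → Space d), Measurable cx → Measurable ox → ∀ (E : ℕ → ℝ≥0∞),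
        (∀ g r, g < C.T → (C.gate g).kind = some r →
          ENNReal.ofReal (δ g) * (ENNReal.ofReal √d
              + eLpNorm (fun x => C.argVal V (cx x.1) (extFun x.2) g) 2
                  (μ.prod (famLaw d (Fin C.T))))
            + ENNReal.ofReal (L g) * (∑ k, ENNReal.ofReal |(C.gate g).ext k|
                * eLpNorm (fun x => ox x k - (cx x).2 k) 2 μ
              + ∑ i : Fin g, ENNReal.ofReal |(C.gate g).coef i| * E i) ≤ E g) →
        (∀ g, g < C.T → (C.gate g).kind = none →
          ∑ k, ENNReal.ofReal |(C.gate g).ext k| * eLpNorm (fun x => ox x k - (cx x).2 k) 2 μ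
            + ∑ i : Fin g, ENNReal.ofReal |(C.gate g).coef i| * E i ≤ E g) →
        ∀ g, g < C.T → (C.gate g).kind = none →
          eLpNorm (fun p => C.raw V C.T p.2.2 (C.inp cx ox p.1 p.2.1) g
            - C.val V (cx p.1) (extFun (Ξ (cx p.1) p.2)) g) 2 (μ.prod (C.startLaw C.T)) ≤ E g := by
  have hex : ∀ g, ∃ Z : Space d → Space d × (C.orc g).Ω → Space d,
      Measurable (Function.uncurry Z) ∧ ∀ r, g < C.T → (C.gate g).kind = some r →
        (∀ x, ((stdGaussian (Space d)).prod (C.orc g).P).map (Z x) = stdGaussian (Space d)) ∧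
        ∀ x, (∫⁻ N, ∫⁻ ω, ENNReal.ofReal (‖(C.orc g).A.eval (oracle V) (ω, x + (C.gate g).tgt • N)
            - (score V r x + C.rho g • Z x (N, ω))‖ ^ 2) ∂(C.orc g).P ∂stdGaussian (Space d))
          ≤ ENNReal.ofReal ((δ g * (√d + ‖x‖)) ^ 2) := by
    intro g
    by_cases h : g < C.T ∧ ∃ r, (C.gate g).kind = some r
    · obtain ⟨hg, r, hr⟩ := h
      obtain ⟨Z, h1, h2, h3⟩ := (hvalid g r hg hr).2.law
      refine ⟨Z, h1, fun r' _ hr' => ?_⟩
      obtain rfl : r = r' := by rw [hr] at hr'; exact Option.some.inj hr'
      exact ⟨h2, h3⟩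
    · exact ⟨fun _ _ => 0, measurable_const, fun r hg hr => absurd ⟨hg, r, hr⟩ h⟩
  choose Z hZm hZ using hex
  have hsg : ∀ g r, (C.gate g).kind = some r → Measurable (score V r) := fun _ r _ => hs r
  have hlaw : ∀ c m, m ≤ C.T → MeasurePreserving (C.stateMap V Z c m) (C.startLaw m)
      ((famLaw d (Fin m)).prod (famLaw d (Fin (m + 1) × C.Later m))) := fun c m hm =>
    mp_state hsg hZm c (fun g r hg hr => (hZ g r hg hr).1) htgt hτ hblur hT m hm
  refine ⟨fun c z i => (C.ideal V Z c C.T z).1 i, ?_,
    fun c => measurePreserving_fst.comp (hlaw c C.T le_rfl),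
    @fun X _ μ _ cx ox hcx hox E hsome hnone g hg hk => ?_⟩
  · exact measurable_pi_lambda _ fun i =>
      ((measurable_pi_apply _).comp measurable_fst).comp (measurable_ideal hsg hZm C.T)
  have main : ∀ m, m ≤ C.T → ∀ g, g < m →
      eLpNorm (C.gateErr V Z cx ox m g) 2 (μ.prod (C.startLaw m)) ≤ E g := by
    intro m
    induction m with
    | zero => exact fun _ g hg => absurd hg (Nat.not_lt_zero g)
    | succ m ih =>
      intro hm g hg
      have hmT : m < C.T := by omega
      rcases Nat.lt_succ_iff_lt_or_eq.1 hg with h | rfl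
      · have hπ : MeasurePreserving
            (fun p : X × (Space d × C.Seeds (m + 1)) => (p.1, C.initState p.2))
            (μ.prod (C.startLaw (m + 1))) (μ.prod (C.startLaw m)) :=
          (MeasurePreserving.id μ).prod (C.mp_initState m)
        rw [gateErr_lt h, eLpNorm_comp_measurePreserving
          (measurable_gateErr hsg hZm hcx hox hV m g).aestronglyMeasurable hπ]
        exact ih (by omega) g h
      have hbd := argErr_le hsg hZm hcx hox hV hT g (htgt g hmT).ne' E
        (μ := μ) fun i hi => ih (by omega) i hi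
      cases hkg : (C.gate g).kind with
      | none =>
        rw [gateErr_none g hkg]
        exact hbd.trans (hnone g hmT hkg)
      | some r =>
        obtain ⟨hδ, hval⟩ := hvalid g r hmT hkg
        exact (err_some hsg hZm hcx hox hV g hmT hkg hδ hval.lip (hZ g r hmT hkg).2
          (fun c => hlaw c g (by omega))
          (aCoef_sq g (htgt g hmT) hτ (hblur g hmT))).trans
          ((add_le_add le_rfl (mul_le_mul_right hbd _)).trans (hsome g r hmT hkg))
  refine le_trans (le_of_eq ?_) (main C.T le_rfl g hg)
  congr 1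
  funext p
  simp only [gateErr, sig, hk, zero_smul, add_zero]
  rw [C.val_congr V (cx p.1) g fun i hi =>
    show extFun (fun i : Fin C.T => (C.ideal V Z (cx p.1) C.T p.2).1 i) i
        = (C.ideal V Z (cx p.1) C.T p.2).1 i by
      simp [extFun, lt_of_le_of_lt hi hg]]

end Circuit

end

end P347.Zero
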