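import Vale.Agent.P347.Zero.CircuitLaw

/-!
# P347: circuits of oracle calls

A gate has as argument a multiple of the centre plus a combination of two external vectors and of
the values of the earlier gates, blurred to a given size. A score gate has the score at the argument as ideal value, and its
program asks an oracle at the blurred argument. A reset gate has the argument plus `tgt` times a
fresh Gaussian as ideal value; this value is then known exactly.
-/

namespace P347.Zero

open MeasureTheory ProbabilityTheory

noncomputable section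

variable {d : ℕ}

/-- The input of a circuit: the centre and the external vectors. -/
abbrev Inp (d : ℕ) : Type := Space d × (Fin 2 → Space d)

/-- An oracle program together with its seeds. -/
structure Orc (d : ℕ) where
  /-- The seeds. -/
  Ω : Type
  ms : MeasurableSpace Ω
  /-- The law of the seeds. -/
  P : Measure Ω
  prob : IsProbabilityMeasure P
  std : StandardBorelSpace Ω
  /-- The program. -/
  A : Alg d (Ω × Space d) (Space d)
  meas : A.Meas

attribute [instance] Orc.ms Orc.prob Orc.std

/-- A gate: the coefficients of the centre and of earlier gates, the blur of the argument, and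
`some r` for a score gate at variance `r`, `none` for a reset gate. -/
structure Gate where
  /-- The coefficient of the centre. -/
  cen : ℝ
  /-- The coefficients of the external vectors. -/
  ext : Fin 2 → ℝ
  /-- The coefficients of earlier gates. -/
  coef : ℕ → ℝ
  /-- The blur of the argument. -/
  tgt : ℝ
  /-- The kind. -/
  kind : Option ℝ

/-- A circuit: its gates, their oracles and output noises, and the blur of the centre. -/
structure Circuit (d : ℕ) where
  /-- The number of gates. -/
  T : ℕ
  /-- The gates. -/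
  gate : ℕ → Gate
  /-- The oracles of score gates. -/
  orc : ℕ → Orc d
  /-- The output noises of score gates. -/
  rho : ℕ → ℝ
  /-- The blur of the centre. -/
  tau : ℝ

namespace Circuit

variable (C : Circuit d)

/-- The output blur of a gate. -/
def sig (g : ℕ) : ℝ :=
  match (C.gate g).kind with
  | some _ => C.rho g
  | none => 0

/-- The ideal values. -/
def val (V : Space d → ℝ) (c : Inp d) (ξ : ℕ → Space d) (g : ℕ) : Space d :=
  match (C.gate g).kind with
  | some r => score V r ((C.gate g).cen • c.1 + ∑ k, (C.gate g).ext k • c.2 k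
      + ∑ i : Fin g, (C.gate g).coef i • val V c ξ i)
  | none => (C.gate g).cen • c.1 + ∑ k, (C.gate g).ext k • c.2 k
      + ∑ i : Fin g, (C.gate g).coef i • val V c ξ i + (C.gate g).tgt • ξ g
  termination_by g
  decreasing_by all_goals exact i.isLt

/-- The ideal argument. -/
def argVal (V : Space d → ℝ) (c : Inp d) (ξ : ℕ → Space d) (g : ℕ) : Space d :=
  (C.gate g).cen • c.1 + ∑ k, (C.gate g).ext k • c.2 k + ∑ i : Fin g, (C.gate g).coef i • C.val V c ξ i

theorem val_some {V : Space d → ℝ} {c : Inp d} {ξ : ℕ → Space d} {g : ℕ} {r : ℝ}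
    (h : (C.gate g).kind = some r) : C.val V c ξ g = score V r (C.argVal V c ξ g) := by
  rw [val, h]; rfl

theorem val_none {V : Space d → ℝ} {c : Inp d} {ξ : ℕ → Space d} {g : ℕ}
    (h : (C.gate g).kind = none) :
    C.val V c ξ g = C.argVal V c ξ g + (C.gate g).tgt • ξ g := by
  rw [val, h]; rfl

/-- The seeds of a gate: oracle, pad, spare and copies. -/
abbrev Cell (g : ℕ) : Type :=
  (C.orc g).Ω × (Space d × (Space d × (Fin C.T → Space d)))

/-- The law of the seeds of a gate. -/
def cellLaw (g : ℕ) : Measure (C.Cell g) :=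
  (C.orc g).P.prod ((stdGaussian (Space d)).prod ((stdGaussian (Space d)).prod (famLaw d (Fin C.T))))

instance (g : ℕ) : IsProbabilityMeasure (C.cellLaw g) := by unfold cellLaw; infer_instance

/-- The seeds of the first `m` gates and of the copies of the centre. -/
abbrev Seeds (m : ℕ) : Type := (Fin C.T → Space d) × ∀ g : Fin m, C.Cell g

/-- The law of the seeds. -/
def seedLaw (m : ℕ) : Measure (C.Seeds m) :=
  (famLaw d (Fin C.T)).prod (Measure.pi fun g : Fin m => C.cellLaw g)

instance (m : ℕ) : IsProbabilityMeasure (C.seedLaw m) := by unfold seedLaw; infer_instance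

/-- The centred copy seed of consumer `j`. -/
def cp (F : Fin C.T → Space d) (j : ℕ) : Space d :=
  if h : j < C.T then F ⟨j, h⟩ - famMean F else 0

/-- The pad that brings the argument of gate `g` to its blur. -/
def pad (g : ℕ) : ℝ :=
  √((C.gate g).tgt ^ 2 - ((C.gate g).cen * (C.tau * √(C.T : ℝ))) ^ 2
    - ∑ i : Fin g, ((C.gate g).coef i * (C.sig i * √(C.T : ℝ))) ^ 2)

/-- The computed argument of gate `m`. -/
def argHat (m : ℕ) (w : C.Seeds (m + 1) × Inp d) (raw : ℕ → Space d) : Space d :=
  (C.gate m).cen • (w.2.1 + (C.tau * √(C.T : ℝ)) • C.cp w.1.1 m)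
    + ∑ k, (C.gate m).ext k • w.2.2 k
    + ∑ i : Fin m, (C.gate m).coef i •
        (raw i + (C.sig i * √(C.T : ℝ)) • C.cp (w.1.2 i.castSucc).2.2.2 m)
    + C.pad m • (w.1.2 (Fin.last m)).2.1

/-- Forget the last gate. -/
def initSeeds {m : ℕ} (s : C.Seeds (m + 1)) : C.Seeds m := (s.1, fun g => s.2 g.castSucc)

/-- The program of one gate. -/
def gateAlg (m : ℕ) : Alg d ((C.Seeds (m + 1) × Inp d) × (ℕ → Space d)) (ℕ → Space d) :=
  match (C.gate m).kind with
  | none => Alg.pure d fun z => Function.update z.2 m (C.argHat m z.1 z.2)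
  | some _ => (((C.orc m).A).comap fun z : (C.Seeds (m + 1) × Inp d) × (ℕ → Space d) =>
      ((z.1.1.2 (Fin.last m)).1, C.argHat m z.1 z.2)).seq
        (Alg.pure d fun z => Function.update z.1.2 m z.2)

/-- The program of the first `m` gates. -/
def prog : (m : ℕ) → Alg d (C.Seeds m × Inp d) (ℕ → Space d)
  | 0 => Alg.pure d fun _ => 0
  | m + 1 => ((prog m).comap fun z : C.Seeds (m + 1) × Inp d => (C.initSeeds z.1, z.2)).seq
      (C.gateAlg m)

/-- The values computed by the first `m` gates. -/
def raw (V : Space d → ℝ) (m : ℕ) (s : C.Seeds m) (Y : Inp d) : ℕ → Space d :=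
  (C.prog m).eval (oracle V) (s, Y)

/-- The number of queries. -/
def cost : ℕ :=
  ∑ g ∈ Finset.range C.T, match (C.gate g).kind with
    | some _ => (C.orc g).A.size
    | none => 0

theorem raw_succ (V : Space d → ℝ) (m : ℕ) (s : C.Seeds (m + 1)) (Y : Inp d) :
    C.raw V (m + 1) s Y = (C.gateAlg m).eval (oracle V) ((s, Y), C.raw V m (C.initSeeds s) Y) := by
  rw [raw, prog, Alg.seq_eval, Alg.comap_eval]; rfl

theorem raw_succ_of_ne (V : Space d → ℝ) {m g : ℕ} (hg : g ≠ m) (s : C.Seeds (m + 1)) (Y : Inp d) :
    C.raw V (m + 1) s Y g = C.raw V m (C.initSeeds s) Y g := by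
  rw [raw_succ, gateAlg]
  cases (C.gate m).kind <;>
    simp [Alg.seq_eval, Alg.pure_eval, Function.update_of_ne hg]

theorem raw_succ_none (V : Space d → ℝ) {m : ℕ} (h : (C.gate m).kind = none)
    (s : C.Seeds (m + 1)) (Y : Inp d) :
    C.raw V (m + 1) s Y m = C.argHat m (s, Y) (C.raw V m (C.initSeeds s) Y) := by
  rw [raw_succ, gateAlg, h]
  simp [Alg.pure_eval]

theorem raw_succ_some (V : Space d → ℝ) {m : ℕ} {r : ℝ} (h : (C.gate m).kind = some r)
    (s : C.Seeds (m + 1)) (Y : Inp d) :
    C.raw V (m + 1) s Y m = (C.orc m).A.eval (oracle V)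
      ((s.2 (Fin.last m)).1, C.argHat m (s, Y) (C.raw V m (C.initSeeds s) Y)) := by
  rw [raw_succ, gateAlg, h]
  simp [Alg.seq_eval, Alg.pure_eval, Alg.comap_eval]

theorem prog_size (m : ℕ) : (C.prog m).size = ∑ g ∈ Finset.range m,
    match (C.gate g).kind with
    | some _ => (C.orc g).A.size
    | none => 0 := by
  induction m with
  | zero => rfl
  | succ m ih =>
    rw [Finset.sum_range_succ, ← ih, prog, gateAlg]
    cases (C.gate m).kind <;> simp [Alg.seq, Alg.comap, Alg.pure]

theorem prog_size_cost : (C.prog C.T).size = C.cost := C.prog_size C.T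

theorem measurable_cp (j : ℕ) : Measurable fun F : Fin C.T → Space d => C.cp F j := by
  unfold cp famMean
  split_ifs <;> fun_prop

theorem measurable_argHat (m : ℕ) :
    Measurable fun z : (C.Seeds (m + 1) × Inp d) × (ℕ → Space d) => C.argHat m z.1 z.2 := by
  have := C.measurable_cp m
  unfold argHat
  fun_prop

theorem prog_meas (m : ℕ) : (C.prog m).Meas := by
  induction m with
  | zero => exact Alg.pure_meas measurable_const
  | succ m ih =>
    refine Alg.seq_meas (Alg.comap_meas ih ?_) ?_
    · exact Measurable.prodMk (Measurable.prodMk (measurable_fst.comp measurable_fst)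
        (measurable_pi_lambda _ fun g => (measurable_pi_apply _).comp
          (measurable_snd.comp measurable_fst))) measurable_snd
    have hA := C.measurable_argHat m
    rw [gateAlg]
    cases (C.gate m).kind with
    | none => exact Alg.pure_meas (measurable_update_at m measurable_snd hA)
    | some r =>
      refine Alg.seq_meas (Alg.comap_meas (C.orc m).meas (Measurable.prodMk ?_ hA))
        (Alg.pure_meas (measurable_update_at m (measurable_snd.comp measurable_fst) measurable_snd))
      exact measurable_fst.comp ((measurable_pi_apply _).comp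
        (measurable_snd.comp (measurable_fst.comp measurable_fst)))

/-- Lipschitz constants of the computed values in the input, with any units of its parts. -/
theorem lip_raw {V : Space d → ℝ} {L Lp : ℕ → ℝ} {u0 : ℝ} {u : Fin 2 → ℝ}
    (hA : ∀ g r, g < C.T → (C.gate g).kind = some r → 0 ≤ L g ∧ ∀ ω y y',
      ‖(C.orc g).A.eval (oracle V) (ω, y) - (C.orc g).A.eval (oracle V) (ω, y')‖ ≤ L g * ‖y - y'‖)
    (hsome : ∀ g r, g < C.T → (C.gate g).kind = some r →
      L g * (|(C.gate g).cen| * u0 + ∑ k, |(C.gate g).ext k| * u k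
        + ∑ i : Fin g, |(C.gate g).coef i| * Lp i) ≤ Lp g)
    (hnone : ∀ g, g < C.T → (C.gate g).kind = none →
      |(C.gate g).cen| * u0 + ∑ k, |(C.gate g).ext k| * u k
        + ∑ i : Fin g, |(C.gate g).coef i| * Lp i ≤ Lp g)
    {Y Y' : Inp d} {D : ℝ} (hD : 0 ≤ D) (hY : ‖Y.1 - Y'.1‖ ≤ u0 * D)
    (hY' : ∀ k, ‖Y.2 k - Y'.2 k‖ ≤ u k * D) :
    ∀ m, m ≤ C.T → ∀ (s : C.Seeds m) g, g < m →
      ‖C.raw V m s Y g - C.raw V m s Y' g‖ ≤ Lp g * D
  | 0, _, _, g, hg => absurd hg (Nat.not_lt_zero g)
  | m + 1, hm, s, g, hg => by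
    have ih := lip_raw hA hsome hnone hD hY hY' m (by omega) (C.initSeeds s)
    rcases Nat.lt_succ_iff_lt_or_eq.1 hg with h | rfl
    · rw [C.raw_succ_of_ne V h.ne, C.raw_succ_of_ne V h.ne]; exact ih g h
    have harg : ‖C.argHat g (s, Y) (C.raw V g (C.initSeeds s) Y)
        - C.argHat g (s, Y') (C.raw V g (C.initSeeds s) Y')‖ ≤
        (|(C.gate g).cen| * u0 + ∑ k, |(C.gate g).ext k| * u k
          + ∑ i : Fin g, |(C.gate g).coef i| * Lp i) * D := by
      have e : C.argHat g (s, Y) (C.raw V g (C.initSeeds s) Y)
          - C.argHat g (s, Y') (C.raw V g (C.initSeeds s) Y') = (C.gate g).cen • (Y.1 - Y'.1)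
            + ∑ k, (C.gate g).ext k • (Y.2 k - Y'.2 k) + ∑ i : Fin g, (C.gate g).coef i •
              (C.raw V g (C.initSeeds s) Y i - C.raw V g (C.initSeeds s) Y' i) := by
        simp only [argHat, smul_add, smul_sub, Finset.sum_add_distrib, Finset.sum_sub_distrib]
        abel
      rw [e, add_mul, add_mul, Finset.sum_mul, Finset.sum_mul, mul_assoc]
      refine (norm_add₃_le ..).trans (add_le_add (add_le_add ?_ ?_) ?_)
      · rw [norm_smul, Real.norm_eq_abs]
        exact mul_le_mul_of_nonneg_left hY (abs_nonneg _)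
      · refine (norm_sum_le _ _).trans (Finset.sum_le_sum fun k _ => ?_)
        rw [norm_smul, Real.norm_eq_abs, mul_assoc]
        exact mul_le_mul_of_nonneg_left (hY' k) (abs_nonneg _)
      · refine (norm_sum_le _ _).trans (Finset.sum_le_sum fun i _ => ?_)
        rw [norm_smul, Real.norm_eq_abs, mul_assoc]
        exact mul_le_mul_of_nonneg_left (ih i i.isLt) (abs_nonneg _)
    cases hk : (C.gate g).kind with
    | none =>
      rw [C.raw_succ_none V hk, C.raw_succ_none V hk]
      exact harg.trans (mul_le_mul_of_nonneg_right (hnone g (by omega) hk) hD)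
    | some r =>
      rw [C.raw_succ_some V hk, C.raw_succ_some V hk]
      obtain ⟨h0, hl⟩ := hA g r (by omega) hk
      refine (hl _ _ _).trans ?_
      refine (mul_le_mul_of_nonneg_left harg h0).trans ?_
      rw [← mul_assoc]
      exact mul_le_mul_of_nonneg_right (hsome g r (by omega) hk) hD

end Circuit

end

end P347.Zero
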