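import Vale.Agent.P347.Zero.Layer
import Vale.Agent.P347.Zero.Blur

/-!
# P347: laws used by the compilation of circuits

Sub-families and combinations of independent standard Gaussians, copies, and one gate: a column
of blurs is combined with a pad into the blur of the argument, the gate turns it into its ideal
noise and the blur of its output, and the output blur is copied.
-/

namespace P347.Zero

open MeasureTheory ProbabilityTheory
open scoped RealInnerProductSpace

noncomputable section

variable {d : ℕ}

/-- The law of a family of independent standard Gaussians. -/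
abbrev famLaw (d : ℕ) (ι : Type) [Fintype ι] : Measure (ι → Space d) :=
  Measure.pi fun _ : ι => stdGaussian (Space d)

/-- A sub-family is again a family of independent standard Gaussians. -/
theorem famLaw_reindex {ι ι' : Type} [Fintype ι] [Fintype ι'] {e : ι' → ι}
    (he : Function.Injective e) :
    MeasurePreserving (fun f : ι → Space d => fun j => f (e j)) (famLaw d ι) (famLaw d ι') := by
  have hm : Measurable fun f : ι → Space d => fun j => f (e j) :=
    measurable_pi_lambda _ fun j => measurable_pi_apply (e j)
  refine ⟨hm, (Measure.pi_eq fun s hs => ?_).symm⟩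
  rw [Measure.map_apply hm (MeasurableSet.univ_pi hs)]
  have hpre : (fun f : ι → Space d => fun j => f (e j)) ⁻¹' Set.univ.pi s =
      Set.univ.pi (Function.extend e s fun _ => Set.univ) := by
    ext f
    simp only [Set.mem_preimage, Set.mem_univ_pi]
    constructor
    · intro h i
      by_cases hi : ∃ j, e j = i
      · obtain ⟨j, rfl⟩ := hi; rw [he.extend_apply]; exact h j
      · rw [Function.extend_apply' _ _ _ hi]; trivial
    · intro h j; simpa [he.extend_apply] using h (e j)
  rw [hpre, Measure.pi_pi]
  classical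
  rw [← Finset.prod_subset (Finset.subset_univ (Finset.univ.image e)) fun i _ hi => by
    rw [Function.extend_apply' _ _ _ (by simpa using hi)]; simp]
  rw [Finset.prod_image fun a _ b _ h => he h]
  simp [he.extend_apply]

/-- Joining two families. -/
theorem famLaw_sum {ι ι' κ : Type} [Fintype ι] [Fintype ι'] [Fintype κ] (e : κ ≃ ι ⊕ ι') :
    MeasurePreserving (fun p : (ι → Space d) × (ι' → Space d) => fun k => Sum.elim p.1 p.2 (e k))
      ((famLaw d ι).prod (famLaw d ι')) (famLaw d κ) := by
  have h1 := (measurePreserving_sumPiEquivProdPi (X := fun _ : ι ⊕ ι' => Space d)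
    (μ := fun _ => stdGaussian (Space d))).symm
  have h2 := famLaw_reindex (d := d) e.injective
  have hf : (fun p : (ι → Space d) × (ι' → Space d) => fun k => Sum.elim p.1 p.2 (e k)) =
      (fun f : ι ⊕ ι' → Space d => fun k => f (e k)) ∘
        (MeasurableEquiv.sumPiEquivProdPi fun _ : ι ⊕ ι' => Space d).symm := by
    funext p k
    cases h : e k <;> simp [MeasurableEquiv.sumPiEquivProdPi, Equiv.sumPiEquivProdPi, h]
  rw [hf]
  exact h2.comp h1

/-- Splitting a family. -/
theorem famLaw_split {ι ι' κ : Type} [Fintype ι] [Fintype ι'] [Fintype κ] {e : ι → κ} {e' : ι' → κ}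
    (he : Function.Injective (Sum.elim e e')) :
    MeasurePreserving (fun f : κ → Space d => ((fun i => f (e i)), fun i => f (e' i)))
      (famLaw d κ) ((famLaw d ι).prod (famLaw d ι')) :=
  (measurePreserving_sumPiEquivProdPi (X := fun _ : ι ⊕ ι' => Space d)
    (μ := fun _ => stdGaussian (Space d))).comp (famLaw_reindex he)

/-- A family is the standard Gaussian of the orthogonal sum. -/
theorem famLaw_toLp {ι : Type} [Fintype ι] :
    MeasurePreserving (WithLp.toLp 2) (famLaw d ι) (stdGaussian (PiLp 2 fun _ : ι => Space d)) := by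
  refine ⟨by fun_prop, Measure.ext_of_charFun ?_⟩
  funext t
  rw [charFun_pi]
  simp only [charFun_stdGaussian]
  rw [← Complex.exp_sum]
  congr 1
  have hn : (‖t‖ : ℂ) ^ 2 = ∑ i, (‖t.ofLp i‖ : ℂ) ^ 2 := by
    exact_mod_cast PiLp.norm_sq_eq_of_L2 _ t
  rw [hn, ← Finset.sum_neg_distrib, Finset.sum_div]

/-- A unit combination of a family and one more Gaussian. -/
theorem famLaw_comb {ι : Type} [Fintype ι] (a : ι → ℝ) (b : ℝ) (h : ∑ i, a i ^ 2 + b ^ 2 = 1) :
    MeasurePreserving (fun p : (ι → Space d) × Space d => ∑ i, a i • p.1 i + b • p.2)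
      ((famLaw d ι).prod (stdGaussian (Space d))) (stdGaussian (Space d)) := by
  set L : WithLp 2 ((PiLp 2 fun _ : ι => Space d) × Space d) →L[ℝ] Space d :=
    ((∑ i, a i • (PiLp.proj 2 (fun _ : ι => Space d) i)) ∘L
        ContinuousLinearMap.fst ℝ (PiLp 2 fun _ : ι => Space d) (Space d) +
      b • ContinuousLinearMap.snd ℝ (PiLp 2 fun _ : ι => Space d) (Space d)) ∘L
      (WithLp.prodContinuousLinearEquiv 2 ℝ (PiLp 2 fun _ : ι => Space d)
        (Space d)).toContinuousLinearMap with hL
  set L' : Space d →L[ℝ] WithLp 2 ((PiLp 2 fun _ : ι => Space d) × Space d) :=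
    (WithLp.prodContinuousLinearEquiv 2 ℝ (PiLp 2 fun _ : ι => Space d)
        (Space d)).symm.toContinuousLinearMap ∘L
      (((PiLp.continuousLinearEquiv 2 ℝ fun _ : ι => Space d).symm.toContinuousLinearMap ∘L
        ContinuousLinearMap.pi fun i => a i • ContinuousLinearMap.id ℝ (Space d)).prod
        (b • ContinuousLinearMap.id ℝ (Space d))) with hL'
  have hadj : L' = ContinuousLinearMap.adjoint L := by
    rw [ContinuousLinearMap.eq_adjoint_iff]
    intro x y
    simp [hL, hL', WithLp.prod_inner_apply, PiLp.inner_apply, inner_add_right, inner_sum,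
      inner_smul_left, inner_smul_right]
  have hiso : ∀ t, ‖ContinuousLinearMap.adjoint L t‖ = ‖t‖ := by
    intro t
    rw [← hadj]
    refine (pow_left_inj₀ (norm_nonneg _) (norm_nonneg _) two_ne_zero).1 ?_
    rw [WithLp.prod_norm_sq_eq_of_L2, PiLp.norm_sq_eq_of_L2]
    simp only [hL', ContinuousLinearMap.comp_apply]
    simp [norm_smul, mul_pow, ← Finset.sum_mul]
    rw [← add_mul, h, one_mul]
  have hK : MeasurePreserving (WithLp.toLp 2)
      ((stdGaussian (PiLp 2 fun _ : ι => Space d)).prod (stdGaussian (Space d)))
      (stdGaussian (WithLp 2 ((PiLp 2 fun _ : ι => Space d) × Space d))) :=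
    ⟨by fun_prop, map_toLp_prod⟩
  have hLp : MeasurePreserving L
      (stdGaussian (WithLp 2 ((PiLp 2 fun _ : ι => Space d) × Space d))) (stdGaussian (Space d)) :=
    ⟨L.continuous.measurable, map_stdGaussian_of_adjoint _ hiso⟩
  have hf : (fun p : (ι → Space d) × Space d => ∑ i, a i • p.1 i + b • p.2) =
      (L ∘ WithLp.toLp 2) ∘ Prod.map (WithLp.toLp 2) id := by
    funext p; simp [hL]
  rw [hf]
  exact (hLp.comp hK).comp (famLaw_toLp.prod (MeasurePreserving.id _))

/-- The mean of a family. -/
def famMean {T : ℕ} (F : Fin T → Space d) : Space d := (T : ℝ)⁻¹ • ∑ j, F j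

/-- The `j`-th copy of a Gaussian. -/
def copyN {T : ℕ} (G : Space d) (F : Fin T → Space d) (j : Fin T) : Space d :=
  (√(T : ℝ))⁻¹ • G + F j - famMean F

theorem measurable_copyN {T : ℕ} :
    Measurable fun p : Space d × (Fin T → Space d) => fun j => copyN p.1 p.2 j := by
  unfold copyN famMean; fun_prop

/-- Copies are independent. -/
theorem famLaw_copies {T : ℕ} (hT : 0 < T) :
    MeasurePreserving (fun p : Space d × (Fin T → Space d) => fun j => copyN p.1 p.2 j)
      ((stdGaussian (Space d)).prod (famLaw d (Fin T))) (famLaw d (Fin T)) := by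
  have h2 : MeasurePreserving (WithLp.ofLp)
      (stdGaussian (PiLp 2 fun _ : Fin T => Space d)) (famLaw d (Fin T)) := by
    refine ⟨by fun_prop, ?_⟩
    rw [← famLaw_toLp.map_eq, Measure.map_map (by fun_prop) (by fun_prop)]
    exact Measure.map_id
  exact (h2.comp (g := WithLp.ofLp) ⟨by fun_prop, map_copies (H := Space d) hT⟩).comp
    ((MeasurePreserving.id _).prod famLaw_toLp)

/-- One gate. The columns not yet consumed are kept. -/
theorem gate_law {R Ω₀ ι J Ω : Type} [MeasurableSpace R] [MeasurableSpace Ω₀] [Fintype ι]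
    [Fintype J] [MeasurableSpace Ω] {T : ℕ} (hT : 0 < T)
    {μ : Measure R} [IsProbabilityMeasure μ] {P₀ : Measure Ω₀} [IsProbabilityMeasure P₀]
    {P : Measure Ω} [IsProbabilityMeasure P]
    {r : Ω₀ → R} {col : Ω₀ → ι → Space d} {rest : Ω₀ → J → Space d}
    (hN : MeasurePreserving (fun w => (r w, (col w, rest w))) P₀
      (μ.prod ((famLaw d ι).prod (famLaw d J))))
    (a : ι → ℝ) (b : ℝ) (hab : ∑ i, a i ^ 2 + b ^ 2 = 1)
    (Φ : R → Space d × (Ω × Space d) → Space d × Space d) (hΦm : Measurable (Function.uncurry Φ))
    (hΦ : ∀ x, MeasurePreserving (Φ x) ((stdGaussian (Space d)).prod (P.prod (stdGaussian (Space d))))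
      ((stdGaussian (Space d)).prod (stdGaussian (Space d)))) :
    MeasurePreserving
      (fun w : Ω₀ × (Ω × (Space d × (Space d × (Fin T → Space d)))) =>
        let o := Φ (r w.1) (∑ i, a i • col w.1 i + b • w.2.2.1, (w.2.1, w.2.2.2.1))
        ((r w.1, o.1), (rest w.1, fun j => copyN o.2 w.2.2.2.2 j)))
      (P₀.prod (P.prod ((stdGaussian (Space d)).prod ((stdGaussian (Space d)).prod (famLaw d (Fin T))))))
      ((μ.prod (stdGaussian (Space d))).prod ((famLaw d J).prod (famLaw d (Fin T)))) := by
  set γ := stdGaussian (Space d)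
  set A := famLaw d ι
  set B := famLaw d J
  set C := famLaw d (Fin T)
  have iγ : IsProbabilityMeasure γ := isProbabilityMeasure_stdGaussian
  have iA : IsProbabilityMeasure A := inferInstanceAs (IsProbabilityMeasure (famLaw d ι))
  have iB : IsProbabilityMeasure B := inferInstanceAs (IsProbabilityMeasure (famLaw d J))
  have iC : IsProbabilityMeasure C := inferInstanceAs (IsProbabilityMeasure (famLaw d (Fin T)))
  have s0 : MeasurePreserving
      (fun w : Ω₀ × (Ω × (Space d × (Space d × (Fin T → Space d)))) =>
        ((r w.1, (col w.1, rest w.1)), w.2)) (P₀.prod (P.prod (γ.prod (γ.prod C))))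
      ((μ.prod (A.prod B)).prod (P.prod (γ.prod (γ.prod C)))) :=
    hN.prod (MeasurePreserving.id _)
  -- regroup
  have s1 : MeasurePreserving
      (fun z : (R × ((ι → Space d) × (J → Space d))) × (Ω × (Space d × (Space d × (Fin T → Space d)))) =>
        (z.1.1, (((z.1.2.1, z.2.2.1), (z.2.1, z.2.2.2.1)), (z.1.2.2, z.2.2.2.2))))
      ((μ.prod (A.prod B)).prod (P.prod (γ.prod (γ.prod C))))
      (μ.prod (((A.prod γ).prod (P.prod γ)).prod (B.prod C))) := by
    have e1 := measurePreserving_prodAssoc μ (A.prod B) (P.prod (γ.prod (γ.prod C)))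
    have swap4 : ∀ {X Y U W : Type} [MeasurableSpace X] [MeasurableSpace Y] [MeasurableSpace U]
        [MeasurableSpace W] (a : Measure X) (b : Measure Y) (c : Measure U) (e : Measure W)
        [IsProbabilityMeasure a] [IsProbabilityMeasure b] [IsProbabilityMeasure c]
        [IsProbabilityMeasure e],
        MeasurePreserving (fun z : (X × Y) × (U × W) => ((z.1.1, z.2.1), (z.1.2, z.2.2)))
          ((a.prod b).prod (c.prod e)) ((a.prod c).prod (b.prod e)) := by
      intro X Y U W _ _ _ _ a b c e _ _ _ _
      have h1 := measurePreserving_prodAssoc a b (c.prod e)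
      have h2 : MeasurePreserving (fun z : Y × (U × W) => (z.2.1, (z.1, z.2.2)))
          (b.prod (c.prod e)) (c.prod (b.prod e)) :=
        (measurePreserving_prodAssoc c b e).comp
          ((Measure.measurePreserving_swap.prod (MeasurePreserving.id e)).comp
            ((measurePreserving_prodAssoc b c e).symm))
      exact (measurePreserving_prodAssoc a c (b.prod e)).symm.comp
        (((MeasurePreserving.id a).prod h2).comp h1)
    have e2 : MeasurePreserving
        (fun z : Ω × (Space d × (Space d × (Fin T → Space d))) =>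
          ((z.2.1, (z.1, z.2.2.1)), z.2.2.2))
        (P.prod (γ.prod (γ.prod C))) ((γ.prod (P.prod γ)).prod C) := by
      have h1 := (measurePreserving_prodAssoc P γ (γ.prod C)).symm
      have h2 := (measurePreserving_prodAssoc γ P (γ.prod C)).comp
        ((Measure.measurePreserving_swap (μ := P) (ν := γ)).prod (MeasurePreserving.id (γ.prod C)))
      have h3 := (measurePreserving_prodAssoc γ (P.prod γ) C).symm.comp
        ((MeasurePreserving.id γ).prod (measurePreserving_prodAssoc P γ C).symm)
      exact h3.comp (h2.comp h1)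
    have e3 := swap4 A B (γ.prod (P.prod γ)) C
    have e4 := (measurePreserving_prodAssoc A γ (P.prod γ)).symm
    exact (((MeasurePreserving.id μ).prod ((e4.prod (MeasurePreserving.id _)).comp
      (e3.comp ((MeasurePreserving.id _).prod e2)))).comp e1)
  -- combine, apply the gate
  have s2 : MeasurePreserving
      (fun z : R × ((((ι → Space d) × Space d) × (Ω × Space d)) × ((J → Space d) × (Fin T → Space d))) =>
        (z.1, (Φ z.1 (∑ i, a i • z.2.1.1.1 i + b • z.2.1.1.2, z.2.1.2), z.2.2)))
      (μ.prod (((A.prod γ).prod (P.prod γ)).prod (B.prod C)))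
      (μ.prod ((γ.prod γ).prod (B.prod C))) := by
    have hc := famLaw_comb (d := d) a b hab
    refine (MeasurePreserving.id μ).skew_product
      (g := fun x (z : (((ι → Space d) × Space d) × (Ω × Space d)) × ((J → Space d) × (Fin T → Space d))) =>
        (Φ x (∑ i, a i • z.1.1.1 i + b • z.1.1.2, z.1.2), z.2)) ?_ ?_
    · exact ((hΦm.comp (measurable_fst.prodMk ((hc.measurable.comp
        (measurable_fst.comp (measurable_fst.comp measurable_snd))).prodMk
          (measurable_snd.comp (measurable_fst.comp measurable_snd))))).prodMk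
            (measurable_snd.comp measurable_snd))
    · exact Filter.Eventually.of_forall fun x =>
        (((hΦ x).comp (hc.prod (MeasurePreserving.id _))).prod (MeasurePreserving.id _)).map_eq
  -- copy
  have s3 : MeasurePreserving
      (fun z : R × ((Space d × Space d) × ((J → Space d) × (Fin T → Space d))) =>
        ((z.1, z.2.1.1), (z.2.2.1, fun j => copyN z.2.1.2 z.2.2.2 j)))
      (μ.prod ((γ.prod γ).prod (B.prod C))) ((μ.prod γ).prod (B.prod C)) := by
    have e1 : MeasurePreserving
        (fun z : (Space d × Space d) × ((J → Space d) × (Fin T → Space d)) =>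
          (z.1.1, (z.2.1, (z.1.2, z.2.2))))
        ((γ.prod γ).prod (B.prod C)) (γ.prod (B.prod (γ.prod C))) :=
      ((MeasurePreserving.id γ).prod ((measurePreserving_prodAssoc B γ C).comp
        (((Measure.measurePreserving_swap (μ := γ) (ν := B)).prod (MeasurePreserving.id C)).comp
          (measurePreserving_prodAssoc γ B C).symm))).comp
        (measurePreserving_prodAssoc γ γ (B.prod C))
    have e2 : MeasurePreserving
        (fun z : Space d × ((J → Space d) × (Space d × (Fin T → Space d))) =>
          (z.1, (z.2.1, fun j => copyN z.2.2.1 z.2.2.2 j)))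
        (γ.prod (B.prod (γ.prod C))) (γ.prod (B.prod C)) :=
      (MeasurePreserving.id γ).prod ((MeasurePreserving.id B).prod (famLaw_copies hT))
    exact (measurePreserving_prodAssoc μ γ (B.prod C)).symm.comp
      ((MeasurePreserving.id μ).prod (e2.comp e1))
  exact ((s3.comp s2).comp s1).comp s0

end

end P347.Zero
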