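import Vale.Agent.P347.Quarter.Units

/-!
# P347: definitions and interfaces for the scheme with arbitrarily small exponent

`smooth V r` is, up to a constant, the density of the target smoothed by a Gaussian of variance `r`;
`score V r` is the gradient of its logarithm, so `score V 0 = -∇V`.
-/

namespace P347.Zero

open MeasureTheory ProbabilityTheory
open scoped RealInnerProductSpace

noncomputable section

variable {d : ℕ}

/-- The unnormalised density of the target smoothed at variance `r`. -/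
def smooth (V : Space d → ℝ) (r : ℝ) (y : Space d) : ℝ :=
  Quarter.gav √r (fun x => Real.exp (-V x)) y

/-- The score of the smoothed target. -/
def score (V : Space d → ℝ) (r : ℝ) (y : Space d) : Space d :=
  gradient (fun z => Real.log (smooth V r z)) y

/-- The mean of `f` at variance `s` given the point `y` at variance `t`. -/
def condMean (V : Space d → ℝ) (t s : ℝ) (f : Space d → ℝ) (y : Space d) : ℝ :=
  (∫ w, f (y + √(t - s) • w) * smooth V s (y + √(t - s) • w) ∂stdGaussian (Space d)) / smooth V t y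

/-- The flow from `(y, t)` towards finer scales. -/
structure IsFlow (V : Space d → ℝ) (y : Space d) (t : ℝ) (w : ℝ → Space d → Space d) : Prop where
  init : ∀ ξ, w 0 ξ = ξ
  deriv : ∀ ξ q, q ^ 2 < t →
    HasDerivAt (fun q' => w q' ξ) (score V (t - q ^ 2) (y + q • w q ξ)) q
  cont : ∀ q, q ^ 2 < t → Continuous (w q)

/-! ## The pieces -/

/-- Module 1: regularity of the score. -/
def ScoreSpec : Prop :=
  ∀ (d : ℕ) (V : Space d → ℝ), Quarter.InClass V →
    (∀ r y, 0 < smooth V r y) ∧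
    (∀ r, 0 ≤ r → LipschitzWith 2 (score V r)) ∧
    (∀ r, 0 < r → r ≤ 1 → ‖score V r 0‖ ≤ 4 * √(d * r)) ∧
    ContinuousOn (fun z : ℝ × Space d => score V z.1 z.2) (Set.Ici 0 ×ˢ Set.univ) ∧
    ∀ n : ℕ, ContDiffOn ℝ n (fun z : ℝ × Space d => score V z.1 z.2) (Set.Ioi 0 ×ˢ Set.univ)

/-- Module 1: the flow exists and carries the Gaussian to the conditional law. -/
def FlowSpec : Prop :=
  ∀ (d : ℕ) (V : Space d → ℝ), Quarter.InClass V → ∀ (y : Space d) (t : ℝ), 0 < t → t ≤ 1 →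
    ∃ w, IsFlow V y t w ∧
      (∀ f : Space d → ℝ, Continuous f → (∀ x, f x ∈ Set.Icc (0 : ℝ) 1) → ∀ s, 0 < s → s ≤ t →
        ∫ ξ, f (y + √(t - s) • w √(t - s) ξ) ∂stdGaussian (Space d) = condMean V t s f y) ∧
      ∀ s, 0 < s → s ≤ t →
        ∫ ξ, score V s (y + √(t - s) • w √(t - s) ξ) ∂stdGaussian (Space d) = score V t y

/-- Modules 2 and 3: derivatives in time of the score along the flow. -/
def TimeSpec : Prop :=
  ∀ m : ℕ, ∃ C : ℝ, 0 < C ∧ ∀ (d : ℕ) (V : Space d → ℝ), Quarter.InClass V →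
    ∀ (y : Space d) (t : ℝ), 0 < t → t ≤ 1 → ∀ w, IsFlow V y t w → ∀ q, q ^ 2 < t →
      (∫⁻ ξ, ENNReal.ofReal (‖iteratedDeriv (m + 1)
          (fun q' => score V (t - q' ^ 2) (y + q' • w q' ξ)) q‖ ^ 2) ∂stdGaussian (Space d))
        ≤ ENNReal.ofReal ((C * √d * (√t / √(t - q ^ 2)) * (√t / (t - q ^ 2)) ^ m) ^ 2)

/-- Module 4: the derivative of the score in an independent Gaussian direction from values along
the flow. -/
def TanSpec : Prop :=
  ∀ M : ℕ, ∃ (n : ℕ) (a : Fin n → ℝ) (k : Fin n → ℝ) (C : ℝ), 0 < C ∧ (∀ i, |k i| ≤ 1) ∧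
    ∀ (d : ℕ) (V : Space d → ℝ), Quarter.InClass V → ∀ (y : Space d) (t l : ℝ), 0 < t → t ≤ 1 →
    0 < l → l ≤ √t / 2 → ∀ w, IsFlow V y t w →
      (∫⁻ ξ, ENNReal.ofReal (‖fderiv ℝ (score V t) y ξ
          - l⁻¹ • ∑ i, a i • score V (t - (k i * l) ^ 2) (y + (k i * l) • w (k i * l) ξ)‖ ^ 2)
          ∂stdGaussian (Space d))
        ≤ ENNReal.ofReal ((C * (l / √t) ^ M * √d) ^ 2)

/-- Modules 5 to 8: one move to a finer scale with few queries. -/
def DescentSpec : Prop :=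
  ∀ e : ℝ, 0 < e → e ≤ 1 → ∃ c : ℝ, 0 < c ∧ ∃ d₀ : ℕ, ∀ d : ℕ, d₀ ≤ d → ∀ t s : ℝ,
    (d : ℝ) ^ (-(20 : ℝ)) ≤ s → t ≤ (d : ℝ) ^ (-e) → t * (d : ℝ) ^ (-c) ≤ s → s < t →
    ∃ (Ω : Type) (_ : MeasurableSpace Ω) (P : Measure Ω) (A : Alg d (Ω × Space d) (Space d)),
      StandardBorelSpace Ω ∧ IsProbabilityMeasure P ∧ A.Meas ∧ (A.size : ℝ) ≤ (d : ℝ) ^ e ∧
      ∀ V : Space d → ℝ, Quarter.InClass V → ∀ v : Space d, ‖v‖ ≤ (d : ℝ) ^ 2 →
      ∀ f : Space d → ℝ, Test f →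
        |(∫ ω, f (A.eval (oracle V) (ω, v)) ∂P) - condMean V t s f v| ≤ (d : ℝ) ^ (-(4 : ℝ))

/-- The answer: every positive exponent is enough. -/
def ZeroGoal : Prop :=
  ∀ a : ℝ, 0 < a → ∃ C : ℝ, ∀ d : ℕ, 2 ≤ d →
    ∃ q : ℕ, (q : ℝ) ≤ C * (d : ℝ) ^ a ∧
      ∃ (Ω : Type) (_ : MeasurableSpace Ω) (P : Measure Ω) (M : Type) (_ : MeasurableSpace M)
        (init : M) (query : Ω → M → EuclideanSpace ℝ (Fin d))
        (update : Ω → M → ℝ × EuclideanSpace ℝ (Fin d) → M) (out : M → EuclideanSpace ℝ (Fin d)),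
        StandardBorelSpace Ω ∧ IsProbabilityMeasure P ∧ Measurable (Function.uncurry query) ∧
        Measurable (fun z : (Ω × (ℝ × EuclideanSpace ℝ (Fin d))) × M => update z.1.1 z.2 z.1.2) ∧
        Measurable out ∧
        ∀ V : EuclideanSpace ℝ (Fin d) → ℝ, ContDiff ℝ 2 V → V 0 = 0 → gradient V 0 = 0 →
          (∀ x h, ‖h‖ ^ 2 ≤ iteratedFDeriv ℝ 2 V x ![h, h] ∧
            iteratedFDeriv ℝ 2 V x ![h, h] ≤ 2 * ‖h‖ ^ 2) →
          ∀ S : Set (EuclideanSpace ℝ (Fin d)), MeasurableSet S →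
            |(P.map fun ω => out ((fun s =>
                update ω s (V (query ω s), gradient V (query ω s)))^[q] init)).real S
              - (∫ x in S, Real.exp (-V x)) / ∫ x, Real.exp (-V x)| ≤ 1 / 10

/-- Module 9: the outer chain and the ladder down. -/
def TopSpec : Prop := DescentSpec → ZeroGoal

end

end P347.Zero
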