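import Vale.Agent.P347.Quarter.Gav
import Vale.Agent.P347.Quarter.Repeat
import Vale.Agent.P347.Zero.Defs

/-!
# P347: Gaussian averages of measurable functions and the conditional means

The averages form a semigroup, so the conditional means compose; the normaliser is bounded below
explicitly, so tails under a conditional law and the cost of the last fine scale are explicit.
-/

namespace P347.Zero

open MeasureTheory ProbabilityTheory Filter
open scoped RealInnerProductSpace

noncomputable section

variable {d : ℕ} {V : Space d → ℝ}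

theorem test_mul {f g : Space d → ℝ} (hf : Test f) (hg : Test g) : Test fun x => f x * g x :=
  ⟨hf.meas.mul hg.meas, fun x => mul_nonneg (hf.nonneg x) (hg.nonneg x),
    fun x => mul_le_one₀ (hf.le_one x) (hg.nonneg x) (hg.le_one x)⟩

theorem test_shift {f : Space d → ℝ} (hf : Test f) (a : ℝ) (x : Space d) :
    Test fun z : Space d => f (x + a • z) :=
  ⟨hf.meas.comp (by fun_prop : Continuous fun z : Space d => x + a • z).measurable,
    fun _ => hf.nonneg _, fun _ => hf.le_one _⟩

theorem test_gav' {f : Space d → ℝ} (hf : Test f) (a : ℝ) : Test (Quarter.gav a f) :=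
  ⟨((hf.meas.comp (by fun_prop : Continuous fun z : Space d × Space d =>
      z.1 + a • z.2).measurable).stronglyMeasurable.integral_prod_right').measurable,
    fun x => ((test_shift hf a x).integral_mem _).1, fun x => ((test_shift hf a x).integral_mem _).2⟩

theorem gav_zero (f : Space d → ℝ) (x : Space d) : Quarter.gav 0 f x = f x := by
  simp [Quarter.gav]

/-- The averages form a semigroup. -/
theorem gav_gav {f : Space d → ℝ} (hf : Test f) {a b c : ℝ} (ha : 0 ≤ a) (hb : 0 ≤ b) (hc : 0 ≤ c)
    (h : a ^ 2 + b ^ 2 = c ^ 2) (x : Space d) :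
    Quarter.gav a (Quarter.gav b f) x = Quarter.gav c f x := by
  rcases hc.eq_or_lt with rfl | hc
  · obtain rfl : a = 0 := by nlinarith
    obtain rfl : b = 0 := by nlinarith
    simp [gav_zero]
  set μ := stdGaussian (Space d)
  set θ := Real.arccos (a / c)
  have hac : a / c ≤ 1 := by rw [div_le_one hc]; nlinarith
  have hcos : c * Real.cos θ = a := by
    rw [Real.cos_arccos (by linarith [div_nonneg ha hc.le]) hac]; field_simp
  have hsin : c * Real.sin θ = b := by
    rw [Real.sin_arccos, show 1 - (a / c) ^ 2 = (b / c) ^ 2 by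
      field_simp; linarith, Real.sqrt_sq (div_nonneg hb hc.le)]
    field_simp
  have hrot := IsGaussian.map_rotation_eq_self (μ := μ) (by simp [μ]) θ
  have hm : Measurable fun z : Space d × Space d => f (x + c • z.1) :=
    hf.meas.comp (by fun_prop : Continuous fun z : Space d × Space d => x + c • z.1).measurable
  have hT : Test fun z : Space d × Space d => f (x + a • z.1 + b • z.2) :=
    ⟨hf.meas.comp (by fun_prop : Continuous fun z : Space d × Space d =>
      x + a • z.1 + b • z.2).measurable, fun _ => hf.nonneg _, fun _ => hf.le_one _⟩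
  have h1 : ∫ z : Space d × Space d, f (x + c • z.1) ∂μ.prod μ = ∫ z, f (x + c • z) ∂μ :=
    integral_fun_fst (fun z => f (x + c • z)) |>.trans (by simp)
  have h2 : ∫ z : Space d × Space d, f (x + c • z.1) ∂μ.prod μ
      = ∫ z : Space d × Space d, f (x + a • z.1 + b • z.2) ∂μ.prod μ := by
    conv_lhs => rw [← hrot]
    rw [integral_map (by fun_prop) hm.aestronglyMeasurable]
    refine integral_congr_ae (Eventually.of_forall fun z => ?_)
    simp [ContinuousLinearMap.rotation_apply, add_assoc, smul_smul, smul_add, hcos, hsin]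
  simp only [Quarter.gav]
  rw [← h1, h2, integral_prod _ (hT.integrable _)]

/-- The Gaussian law of a large ball. -/
theorem gauss_ball (L : ℝ) :
    (stdGaussian (Space d)).real (ballSet (Space d) L)ᶜ ≤ ballTail d L := by
  have hb := (potential_halfSq (d := d)).block
  have hm := measurableSet_ballSet (E := Space d) L
  have e0 : stdGaussian (Space d) = gibbs (halfSq d) := by
    rw [← noise_eq_stdGaussian]; exact congrArg gibbs (funext fun z => by simp [tilt])
  rw [probReal_compl_eq_one_sub hm, e0]
  have := gibbs_ball hb (b := d) (le_of_eq finrank_euclideanSpace_fin) L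
  unfold ballTail
  linarith

/-- The outside of a ball of radius `R`. -/
def outside (R : ℝ) : Space d → ℝ := {x : Space d | R < ‖x‖}.indicator fun _ => 1

theorem test_outside (R : ℝ) : Test (outside (d := d) R) := by
  refine ⟨measurable_const.indicator (measurableSet_lt measurable_const measurable_norm),
    fun x => Set.indicator_nonneg (fun _ _ => zero_le_one) x, fun x => ?_⟩
  unfold outside Set.indicator
  split_ifs <;> norm_num

theorem outside_of_gt {R : ℝ} {x : Space d} (h : R < ‖x‖) : outside R x = 1 :=
  Set.indicator_of_mem (show x ∈ {x : Space d | R < ‖x‖} from h) _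

theorem gauss_outside {R : ℝ} (hR : 0 ≤ R) :
    ∫ z, outside R z ∂stdGaussian (Space d) ≤ ballTail d (R ^ 2) := by
  have hset : {x : Space d | R < ‖x‖} = (ballSet (Space d) (R ^ 2))ᶜ := by
    ext x
    simp only [ballSet, Set.mem_compl_iff, Set.mem_ofPred_eq, not_le]
    exact (pow_lt_pow_iff_left₀ hR (norm_nonneg x) two_ne_zero).symm
  rw [outside, hset, integral_indicator_const _ (measurableSet_ballSet _).compl, smul_eq_mul,
    mul_one]
  exact gauss_ball _

theorem test_weight (hV : Quarter.InClass V) : Test fun x => Real.exp (-V x) :=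
  ⟨(Real.continuous_exp.comp hV.smooth.continuous.neg).measurable, fun _ => (Real.exp_pos _).le,
    fun x => Real.exp_le_one_iff.2 (by
      have := (hV.model.block.bounds x).1
      have := sq_nonneg ‖x‖
      linarith)⟩

theorem test_smooth (hV : Quarter.InClass V) (r : ℝ) : Test (smooth V r) :=
  test_gav' (test_weight hV) _

theorem smooth_zero (V : Space d → ℝ) (y : Space d) : smooth V 0 y = Real.exp (-V y) := by
  simp [smooth, gav_zero]

theorem smooth_comp (hV : Quarter.InClass V) {s t : ℝ} (hs : 0 ≤ s) (hst : s ≤ t)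
    (y : Space d) : Quarter.gav √(t - s) (smooth V s) y = smooth V t y :=
  gav_gav (test_weight hV) (Real.sqrt_nonneg _) (Real.sqrt_nonneg _) (Real.sqrt_nonneg _) (by
    rw [Real.sq_sqrt (sub_nonneg.2 hst), Real.sq_sqrt hs, Real.sq_sqrt (hs.trans hst)]; ring) y

/-- The reciprocal of half the lower bound of the normaliser. -/
def normBound (d : ℕ) (A : ℝ) : ℝ := 2 * Real.exp ((A + 2 * √((d : ℝ) + 1)) ^ 2)

theorem normBound_pos (d : ℕ) (A : ℝ) : 0 < normBound d A := by unfold normBound; positivity

theorem smooth_lower (hV : Quarter.InClass V) {r A : ℝ} (hr1 : r ≤ 1) {y : Space d}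
    (hy : ‖y‖ ≤ A) : 1 / normBound d A ≤ smooth V r y := by
  set ρ := 2 * √((d : ℝ) + 1) with hρ
  have hρ0 : 0 ≤ ρ := by positivity
  set m := Real.exp (-(A + ρ) ^ 2)
  have hm : 0 < m := Real.exp_pos _
  have hT := test_shift (test_weight hV) √r y
  have hpt : ∀ z : Space d, m - m * outside ρ z ≤ Real.exp (-V (y + √r • z)) := fun z => by
    rcases lt_or_ge ρ ‖z‖ with h | h
    · rw [outside_of_gt h]; simp [(Real.exp_pos _).le]
    · have h0 := (test_outside (d := d) ρ).nonneg z
      refine le_trans (sub_le_self m (mul_nonneg hm.le h0)) (Real.exp_le_exp.2 (neg_le_neg ?_))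
      refine (hV.model.block.bounds _).2.trans (pow_le_pow_left₀ (norm_nonneg _) ?_ 2)
      refine (norm_add_le _ _).trans (add_le_add hy ?_)
      rw [norm_smul, Real.norm_eq_abs, abs_of_nonneg (Real.sqrt_nonneg _)]
      exact (mul_le_of_le_one_left (norm_nonneg z) (Real.sqrt_le_one.2 hr1)).trans h
  have hi := ((test_outside (d := d) ρ).integrable (stdGaussian (Space d))).const_mul m
  have h1 := integral_mono ((integrable_const m).sub hi) (hT.integrable _) hpt
  simp only [Pi.sub_apply] at h1
  rw [integral_sub (integrable_const m) hi, integral_const_mul] at h1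
  have htail : ∫ z, outside ρ z ∂stdGaussian (Space d) ≤ 1 / 2 := by
    refine (gauss_outside hρ0).trans ?_
    rw [hρ, ballTail, mul_pow, Real.sq_sqrt (by positivity)]
    calc (2 : ℝ) ^ d * Real.exp (-(2 ^ 2 * ((d : ℝ) + 1)) / 4)
        ≤ Real.exp d * Real.exp (-(2 ^ 2 * ((d : ℝ) + 1)) / 4) := by
          gcongr
          rw [← Real.exp_one_pow d]
          exact pow_le_pow_left₀ zero_le_two (by linarith [Real.exp_one_gt_d9]) d
      _ = Real.exp (-1) := by rw [← Real.exp_add]; ring_nf
      _ ≤ 1 / 2 := by linarith [Real.exp_neg_one_lt_d9]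
  have e : 1 / normBound d A = m / 2 := by
    simp only [normBound, m, Real.exp_neg, hρ]
    field_simp
  rw [e]
  refine le_trans ?_ h1
  simp only [integral_const, probReal_univ, one_smul]
  nlinarith [mul_le_mul_of_nonneg_left htail hm.le]

theorem smooth_pos (hV : Quarter.InClass V) {r : ℝ} (hr1 : r ≤ 1) (y : Space d) :
    0 < smooth V r y :=
  lt_of_lt_of_le (one_div_pos.2 (normBound_pos d ‖y‖)) (smooth_lower hV hr1 le_rfl)

theorem condMean_eq (V : Space d → ℝ) (t s : ℝ) (f : Space d → ℝ) (y : Space d) :
    condMean V t s f y = Quarter.gav √(t - s) (fun x => f x * smooth V s x) y / smooth V t y := rfl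

theorem test_condMean (hV : Quarter.InClass V) {t s : ℝ} (hs : 0 ≤ s) (hst : s ≤ t) (ht : t ≤ 1)
    {f : Space d → ℝ} (hf : Test f) : Test (condMean V t s f) := by
  have hn := test_gav' (test_mul hf (test_smooth hV s)) √(t - s)
  refine ⟨hn.meas.div (test_smooth hV t).meas,
    fun y => div_nonneg (hn.nonneg y) (smooth_pos hV ht y).le, fun y => ?_⟩
  rw [condMean_eq, div_le_one (smooth_pos hV ht y), ← smooth_comp hV hs hst y]
  exact integral_mono ((test_shift (test_mul hf (test_smooth hV s)) _ y).integrable _)
    ((test_shift (test_smooth hV s) _ y).integrable _)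
    fun z => mul_le_of_le_one_left ((test_smooth hV s).nonneg _) (hf.le_one _)

/-- The conditional means compose. -/
theorem condMean_comp (hV : Quarter.InClass V) {t u s : ℝ} (hsu : s ≤ u)
    (hut : u ≤ t) (ht : t ≤ 1) {f : Space d → ℝ} (hf : Test f) (y : Space d) :
    condMean V t u (condMean V u s f) y = condMean V t s f y := by
  have hF := test_mul hf (test_smooth hV s)
  rw [condMean_eq, condMean_eq V t s]
  refine congrArg (· / smooth V t y) ?_
  have e : (fun x => condMean V u s f x * smooth V u x)
      = Quarter.gav √(u - s) fun x => f x * smooth V s x := funext fun x => by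
    rw [condMean_eq, div_mul_cancel₀ _ (smooth_pos hV (hut.trans ht) x).ne']
  rw [e]
  exact gav_gav hF (Real.sqrt_nonneg _) (Real.sqrt_nonneg _) (Real.sqrt_nonneg _) (by
    rw [Real.sq_sqrt (sub_nonneg.2 hut), Real.sq_sqrt (sub_nonneg.2 hsu),
      Real.sq_sqrt (sub_nonneg.2 (hsu.trans hut))]
    ring) y

theorem condMean_self (hV : Quarter.InClass V) {t : ℝ} (ht : t ≤ 1) (f : Space d → ℝ)
    (y : Space d) : condMean V t t f y = f y := by
  rw [condMean_eq, sub_self, Real.sqrt_zero, gav_zero,
    mul_div_cancel_right₀ _ (smooth_pos hV ht y).ne']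

theorem condMean_sub_le (hV : Quarter.InClass V) {t s : ℝ} (hs : 0 ≤ s) (hst : s ≤ t) (ht : t ≤ 1)
    {a b θ : Space d → ℝ} (ha : Test a) (hb : Test b) (hθ : Test θ) {c : ℝ}
    (h : ∀ z, |a z - b z| ≤ c + θ z) (y : Space d) :
    |condMean V t s a y - condMean V t s b y| ≤ c + condMean V t s θ y := by
  have hS := test_smooth hV s
  have hp := smooth_pos hV ht y
  have i1 := (test_shift (test_mul ha hS) √(t - s) y).integrable (stdGaussian (Space d))
  have i2 := (test_shift (test_mul hb hS) √(t - s) y).integrable (stdGaussian (Space d))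
  have i3 := (test_shift (test_mul hθ hS) √(t - s) y).integrable (stdGaussian (Space d))
  have i4 := ((test_shift hS √(t - s) y).integrable (stdGaussian (Space d))).const_mul c
  rw [condMean_eq, condMean_eq, condMean_eq, ← sub_div, abs_div, abs_of_pos hp, div_le_iff₀ hp,
    add_mul, div_mul_cancel₀ _ hp.ne']
  simp only [Quarter.gav]
  rw [← smooth_comp hV hs hst y, Quarter.gav, ← integral_const_mul, ← integral_sub i1 i2,
    ← integral_add i4 i3]
  refine abs_integral_le_integral_abs.trans (integral_mono (i1.sub i2).abs (i4.add i3) fun z => ?_)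
  rw [← sub_mul, abs_mul, abs_of_nonneg (hS.nonneg _), ← add_mul]
  exact mul_le_mul_of_nonneg_right (h _) (hS.nonneg _)

/-- The chance of leaving a ball under a conditional law. -/
def tailRatio (d : ℕ) (A R : ℝ) : ℝ := ballTail d (R ^ 2) * normBound d A

theorem condMean_outside (hV : Quarter.InClass V) {t s : ℝ} (hs : 0 ≤ s) (ht : t ≤ 1) {A R : ℝ}
    (hR : 0 ≤ R) {y : Space d} (hy : ‖y‖ ≤ A) :
    condMean V t s (outside (A + R)) y ≤ tailRatio d A R := by
  have hS := test_smooth hV s
  have hp := smooth_pos hV ht y
  have hbt : 0 ≤ ballTail d (R ^ 2) := by unfold ballTail; positivity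
  rw [condMean_eq, div_le_iff₀ hp]
  have h1 : Quarter.gav √(t - s) (fun x => outside (A + R) x * smooth V s x) y
      ≤ ∫ z, outside R z ∂stdGaussian (Space d) := by
    refine integral_mono ((test_shift (test_mul (test_outside _) hS) _ y).integrable _)
      ((test_outside R).integrable _) fun z => ?_
    refine (mul_le_of_le_one_right ((test_outside _).nonneg _) (hS.le_one _)).trans ?_
    rcases lt_or_ge R ‖z‖ with h | h
    · rw [outside_of_gt h]; exact (test_outside _).le_one _
    · have : ‖y + √(t - s) • z‖ ≤ A + R := by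
        refine (norm_add_le _ _).trans (add_le_add hy ?_)
        rw [norm_smul, Real.norm_eq_abs, abs_of_nonneg (Real.sqrt_nonneg _)]
        exact (mul_le_of_le_one_left (norm_nonneg z)
          (Real.sqrt_le_one.2 (by linarith))).trans h
      rw [outside, Set.indicator_of_notMem (show y + √(t - s) • z ∉ {x : Space d | A + R < ‖x‖} from
        not_lt.2 this)]
      exact (test_outside R).nonneg z
  refine h1.trans ((gauss_outside hR).trans ?_)
  have h2 := mul_le_mul_of_nonneg_left (smooth_lower hV ht hy) (mul_nonneg hbt (normBound_pos d A).le)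
  rw [mul_one_div, mul_div_assoc, div_self (normBound_pos d A).ne', mul_one] at h2
  exact h2

/-- Stopping at a fine scale instead of the target. -/
theorem condMean_lip (hV : Quarter.InClass V) {t s : ℝ} (hs : 0 ≤ s) (hst : s ≤ t) (ht : t ≤ 1)
    {A R : ℝ} (hR : 0 ≤ R) {g : Space d → ℝ} (hg : Test g) {L : ℝ} (hL : 0 ≤ L) (hl : LipE L g)
    {y : Space d} (hy : ‖y‖ ≤ A) :
    |condMean V t s g y - condMean V t 0 g y| ≤ L * √s * R + tailRatio d A R := by
  have hS := test_smooth hV s
  have hq := test_weight hV
  have hp := smooth_pos hV ht y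
  have hgq := test_mul hg hq
  set τ := ballTail d (R ^ 2)
  have hτ : 0 ≤ τ := by simp only [τ, ballTail]; positivity
  have e0 : Quarter.gav √(t - 0) (fun x => g x * smooth V 0 x) y
      = Quarter.gav √(t - s) (Quarter.gav √s fun x => g x * Real.exp (-V x)) y := by
    simp only [smooth_zero, sub_zero]
    exact (gav_gav hgq (Real.sqrt_nonneg _) (Real.sqrt_nonneg _) (Real.sqrt_nonneg _) (by
      rw [Real.sq_sqrt (sub_nonneg.2 hst), Real.sq_sqrt hs, Real.sq_sqrt (hs.trans hst)]
      ring) y).symm
  have hpt : ∀ x, |g x * smooth V s x - Quarter.gav √s (fun x => g x * Real.exp (-V x)) x|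
      ≤ L * √s * R * smooth V s x + τ := fun x => by
    have i1 := ((test_shift hq √s x).integrable (stdGaussian (Space d))).const_mul (g x)
    have i2 := (test_shift hgq √s x).integrable (stdGaussian (Space d))
    have i3 := ((test_shift hq √s x).integrable (stdGaussian (Space d))).const_mul (L * √s * R)
    have i4 := (test_outside (d := d) R).integrable (stdGaussian (Space d))
    simp only [smooth, Quarter.gav]
    rw [← integral_const_mul, ← integral_sub i1 i2, ← integral_const_mul]
    refine (abs_integral_le_integral_abs.trans (integral_mono (i1.sub i2).abs (i3.add i4)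
      fun w => ?_)).trans ?_
    · simp only [Pi.add_apply, Pi.sub_apply]
      rw [← sub_mul, abs_mul, abs_of_pos (Real.exp_pos _)]
      rcases lt_or_ge R ‖w‖ with h | h
      · rw [outside_of_gt h]
        have h1 : |g x - g (x + √s • w)| * Real.exp (-V (x + √s • w)) ≤ 1 * 1 := by
          refine mul_le_mul ?_ (hq.le_one _) (Real.exp_pos _).le zero_le_one
          rw [abs_le]
          constructor <;> linarith [hg.nonneg x, hg.le_one x, hg.nonneg (x + √s • w),
            hg.le_one (x + √s • w)]
        have : 0 ≤ L * √s * R * Real.exp (-V (x + √s • w)) := by positivity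
        linarith
      · refine le_add_of_le_of_nonneg (mul_le_mul_of_nonneg_right ?_ (Real.exp_pos _).le)
          ((test_outside R).nonneg w)
        refine (hl _ _).trans ?_
        rw [sub_add_cancel_left, norm_neg, norm_smul, Real.norm_eq_abs,
          abs_of_nonneg (Real.sqrt_nonneg _), mul_assoc]
        gcongr
    · simp only [Pi.add_apply]
      rw [integral_add i3 i4]
      exact add_le_add le_rfl (gauss_outside hR)
  rw [condMean_eq, condMean_eq, e0, ← sub_div, abs_div, abs_of_pos hp, div_le_iff₀ hp]
  have hGG := test_gav' hgq √s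
  have i1 := (test_shift (test_mul hg hS) √(t - s) y).integrable (stdGaussian (Space d))
  have i2 := (test_shift hGG √(t - s) y).integrable (stdGaussian (Space d))
  have i3 := ((test_shift hS √(t - s) y).integrable (stdGaussian (Space d))).const_mul (L * √s * R)
  simp only [Quarter.gav] at hpt i2 ⊢
  rw [← integral_sub i1 i2]
  refine (abs_integral_le_integral_abs.trans (integral_mono (i1.sub i2).abs
    (i3.add (integrable_const τ)) fun z => hpt _)).trans ?_
  simp only [Pi.add_apply]
  rw [integral_add i3 (integrable_const τ), integral_const_mul]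
  simp only [integral_const, probReal_univ, one_smul]
  rw [add_mul, ← smooth_comp hV hs hst y, Quarter.gav]
  refine add_le_add le_rfl ?_
  have h2 := mul_le_mul_of_nonneg_left (smooth_lower hV ht hy)
    (mul_nonneg hτ (normBound_pos d A).le)
  rw [mul_one_div, mul_div_assoc, div_self (normBound_pos d A).ne', mul_one,
    ← smooth_comp hV hs hst y, Quarter.gav] at h2
  exact h2

/-- The exact step in its unit is a conditional mean. -/
theorem post_eq_condMean (hV : Quarter.InClass V) {η : ℝ} (h0 : 0 < η) (h1 : η ≤ 1 / 8)
    (g : Space d → ℝ) (v : Space d) :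
    Quarter.post V η g v = condMean V η 0 (fun x => g ((√η)⁻¹ • x)) (√η • v) := by
  have hs := (Real.sqrt_pos.2 h0).ne'
  have hsc : ∀ F : Space d → ℝ, Quarter.gav √η F (√η • v)
      = Quarter.gav 1 (fun x => F (√η • x)) v := fun F => by
    simp [Quarter.gav, smul_add]
  rw [hV.post_eq h0 h1, condMean_eq, sub_zero]
  simp only [smooth_zero]
  rw [show smooth V η (√η • v) = Quarter.gav √η (fun x => Real.exp (-V x)) (√η • v) from rfl, hsc,
    hsc, Quarter.gav_one_eq, Quarter.gav_one_eq]
  have e : ∀ x : Space d, Real.exp (-(Quarter.unitPot V η x + ‖x - v‖ ^ 2 / 2))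
      = Quarter.gaussZ d * (Quarter.gden d (x - v) * Real.exp (-V (√η • x))) := fun x => by
    have := (Quarter.gaussZ_pos d).ne'
    simp only [Quarter.gden, Quarter.unitPot, halfSq, neg_add_rev, Real.exp_add]
    field_simp
  simp only [e, smul_eq_mul, inv_smul_smul₀ hs]
  rw [show (fun x => g x * (Quarter.gaussZ d * (Quarter.gden d (x - v) * Real.exp (-V (√η • x)))))
      = fun x => Quarter.gaussZ d * (Quarter.gden d (x - v) * (g x * Real.exp (-V (√η • x)))) from
    funext fun x => by ring, integral_const_mul, integral_const_mul,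
    mul_div_mul_left _ _ (Quarter.gaussZ_pos d).ne']

end

end P347.Zero
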