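import Vale.Agent.P347.Zero.Heat

/-!
# P347: crude bounds on the derivatives of the logarithm of the smoothed target

Tilting recentres the potential, so every derivative of order at least two of `log (smooth V r)` is
bounded, with a constant which may depend on the dimension. These bounds only justify exchanges of
limits; the dimension-free bounds come in `Cum`.
-/

namespace P347.Zero

open MeasureTheory ProbabilityTheory Filter Topology Finset P347.Quarter
open scoped RealInnerProductSpace

noncomputable section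

variable {d : ℕ} {V : Space d → ℝ}

theorem pd_comp_sub : ∀ (L : List (Fin d)) (h : Space d → ℝ) (c : Space d),
    pd L (fun x => h (x - c)) = fun x => pd L h (x - c)
  | [], _, _ => rfl
  | i :: L, h, c => by
    funext x
    simp only [pd, pd_comp_sub L h c, fderiv_comp_sub]

/-- Affine functions have no second derivative. -/
theorem pd_add_affine {h : Space d → ℝ} (hh : ContDiff ℝ 2 h) (a : ℝ) (g : Space d)
    (L : List (Fin d)) (i j : Fin d) :
    pd (L ++ [i, j]) (fun x => a + ⟪g, x⟫ + h x) = pd (L ++ [i, j]) h := by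
  rw [pd_append, pd_append]
  congr 1
  have hd : Differentiable ℝ h := hh.differentiable (by norm_num)
  have e : ∀ y, fderiv ℝ (fun x => a + ⟪g, x⟫ + h x) y (bv j)
      = ⟪g, bv j⟫ + fderiv ℝ h y (bv j) := by
    intro y
    have h1 : HasFDerivAt (fun x => a + ⟪g, x⟫ + h x) (innerSL ℝ g + fderiv ℝ h y) y := by
      simpa using (((innerSL ℝ g).hasFDerivAt (x := y)).const_add a).fun_add (hd y).hasFDerivAt
    rw [h1.fderiv]
    simp
  funext x
  simp only [pd, e, fderiv_const_add]

/-- Leibniz along a list. -/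
theorem pd_mul {f g : Space d → ℝ} (hf : ∀ L (n : ℕ), ContDiff ℝ n (pd L f))
    (hg : ∀ L (n : ℕ), ContDiff ℝ n (pd L g)) : ∀ (L : List (Fin d)),
    pd L (fun x => f x * g x) = fun x =>
      ((pats L.length).map fun π => pd (pickT π L) f x * pd (pickF π L) g x).sum
  | [] => by funext x; simp [pats, pickT, pickF, pd]
  | i :: L => by
    have hd : ∀ A (x : Space d), HasFDerivAt (pd A f) (fderiv ℝ (pd A f) x) x :=
      fun A x => ((hf A 1).differentiable one_ne_zero x).hasFDerivAt
    have he : ∀ A (x : Space d), HasFDerivAt (pd A g) (fderiv ℝ (pd A g) x) x :=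
      fun A x => ((hg A 1).differentiable one_ne_zero x).hasFDerivAt
    funext x
    show fderiv ℝ (pd L fun x => f x * g x) x (bv i) = _
    rw [pd_mul hf hg L]
    have key : ∀ P : List (List Bool),
        DifferentiableAt ℝ (fun x => (P.map fun π => pd (pickT π L) f x * pd (pickF π L) g x).sum) x ∧
        fderiv ℝ (fun x => (P.map fun π => pd (pickT π L) f x * pd (pickF π L) g x).sum) x (bv i)
          = ((P.map (List.cons true) ++ P.map (List.cons false)).map fun π =>
              pd (pickT π (i :: L)) f x * pd (pickF π (i :: L)) g x).sum := by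
      intro P
      induction P with
      | nil => simp
      | cons π P ih =>
        have h1 : HasFDerivAt (fun x => pd (pickT π L) f x * pd (pickF π L) g x) _ x :=
          (hd (pickT π L) x).mul (he (pickF π L) x)
        obtain ⟨ih1, ih2⟩ := ih
        simp only [List.map_cons, List.sum_cons]
        refine ⟨h1.differentiableAt.add ih1, ?_⟩
        rw [fderiv_fun_add h1.differentiableAt ih1, _root_.add_apply, ih2, h1.fderiv]
        simp only [List.map_append, List.sum_append, List.map_map, List.map_cons, List.sum_cons,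
          List.cons_append, Function.comp_def, _root_.add_apply, _root_.smul_apply, smul_eq_mul,
          pickT, pickF, pd]
        ring
    exact (key (pats L.length)).2

/-- The extreme patterns, and the others. -/
theorem pats_split : ∀ n : ℕ, 1 ≤ n → ∃ mid, pats n
      = List.replicate n true :: mid ++ [List.replicate n false] ∧
    ∀ π ∈ mid, π.length = n ∧ 1 ≤ numT π ∧ 1 ≤ numF π
  | 0, h => by omega
  | 1, _ => ⟨[], by simp [pats], by simp⟩
  | n + 2, _ => by
    obtain ⟨mid, hm, hmp⟩ := pats_split (n + 1) (by omega)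
    have hT : numT (List.replicate (n + 1) true) = n + 1 ∧ numF (List.replicate (n + 1) false) = n + 1 := by
      constructor <;> (generalize n + 1 = k; induction k <;> simp [List.replicate_succ, numT, numF, *])
    refine ⟨mid.map (List.cons true) ++ [true :: List.replicate (n + 1) false] ++
      ((false :: List.replicate (n + 1) true) :: mid.map (List.cons false)), ?_, ?_⟩
    · rw [pats, hm]
      simp [List.replicate_succ]
    · intro π hπ
      simp only [List.mem_append, List.mem_map, List.mem_cons, List.not_mem_nil, or_false] at hπ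
      rcases hπ with (⟨ρ, hρ, rfl⟩ | rfl) | rfl | ⟨ρ, hρ, rfl⟩
      · obtain ⟨h1, h2, h3⟩ := hmp ρ hρ
        simp [numT, numF, h1, h3]
      · simp [numT, numF, hT.2]
      · simp [numT, numF, hT.1]
      · obtain ⟨h1, h2, h3⟩ := hmp ρ hρ
        simp [numT, numF, h1, h2]

theorem pick_replicate : ∀ (L : List (Fin d)),
    pickT (List.replicate L.length true) L = L ∧ pickF (List.replicate L.length true) L = [] ∧
    pickT (List.replicate L.length false) L = [] ∧ pickF (List.replicate L.length false) L = L
  | [] => by simp [pickT, pickF]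
  | i :: L => by
    obtain ⟨h1, h2, h3, h4⟩ := pick_replicate L
    simp [List.replicate_succ, pickT, pickF, h1, h2, h3, h4]

theorem length_pick : ∀ (π : List Bool) (L : List (Fin d)), π.length = L.length →
    (pickT π L).length = numT π ∧ (pickF π L).length = numF π
  | [], [], _ => by simp [pickT, pickF, numT, numF]
  | b :: π, i :: L, h => by
    obtain ⟨h1, h2⟩ := length_pick π L (by simpa using h)
    cases b <;> simp [pickT, pickF, numT, numF, h1, h2]

/-! ### Uniform bounds at the origin -/

/-- Derivatives of smoothings of functions bounded by one are bounded uniformly. -/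
theorem exists_pd_gav_bound : ∀ (L : List (Fin d)) {σ : ℝ}, 0 < σ → ∃ K : ℝ, 0 ≤ K ∧
    ∀ (f : Space d → ℝ) (B : ℝ), Bdd f B → ∀ x, |pd L (gav σ f) x| ≤ K * B
  | [], σ, _ => ⟨1, zero_le_one, fun f B h x => by simpa [pd] using (h.gav σ).bound x⟩
  | i :: L, σ, hσ => by
    set τ := σ * (√2 / 2) with hτ
    have hτ0 : 0 < τ := by positivity
    obtain ⟨K, hK, hKb⟩ := exists_pd_gav_bound L hτ0
    refine ⟨τ⁻¹ * K, by positivity, fun f B h x => ?_⟩
    have hb : Bdd (pd L (gav τ f)) (K * B) :=
      ⟨((reg_gav h hτ0).one L).continuous, fun y => hKb f B h y⟩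
    rw [gav_eq_gav_gav h σ]
    show |fderiv ℝ (pd L (gav τ (gav τ f))) x (bv i)| ≤ _
    rw [(reg_gav h hτ0).pd_gav τ L]
    exact (abs_fderiv_gav_le_bound hb hτ0 x (bv i)).trans (le_of_eq (by simp; ring))

theorem InClass.le_quad (hV : InClass V) (x : Space d) : V x ≤ 2 * ‖x‖ ^ 2 := by
  have hl : ∀ c : ℝ, HasDerivAt (fun c : ℝ => V (c • x)) ⟪gradient V (c • x), x⟫ c := fun c => by
    have g0 : HasDerivAt (fun c : ℝ => c • x) x c := by
      simpa using (hasDerivAt_id c).smul_const x
    have := (hV.smooth.differentiable (by norm_num) (c • x)).hasFDerivAt.comp_hasDerivAt c g0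
    rwa [← inner_gradient V (c • x) x] at this
  obtain ⟨c, ⟨hc, hc1⟩, hcx⟩ := exists_hasDerivAt_eq_slope (fun c : ℝ => V (c • x))
    (fun c => ⟪gradient V (c • x), x⟫) one_pos
    (fun c _ => (hl c).continuousAt.continuousWithinAt) fun c _ => hl c
  simp [hV.zero] at hcx
  rw [← hcx, ← inner_gradient]
  refine (real_inner_le_norm _ _).trans ?_
  refine (mul_le_mul_of_nonneg_right (gradient_zero_le hV (c • x)) (norm_nonneg x)).trans ?_
  rw [norm_smul, Real.norm_eq_abs, abs_of_pos hc]
  have : c * (‖x‖ * ‖x‖) ≤ 1 * (‖x‖ * ‖x‖) := mul_le_mul_of_nonneg_right hc1.le (by positivity)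
  nlinarith

theorem exists_smooth_lower (d : ℕ) : ∃ c : ℝ, 0 < c ∧ ∀ V : Space d → ℝ, InClass V →
    ∀ r : ℝ, 0 ≤ r → r ≤ 1 → c ≤ smooth V r 0 := by
  have hb : Bdd (fun w : Space d => Real.exp (-(2 * ‖w‖ ^ 2))) 1 :=
    ⟨by fun_prop, fun w => by
      rw [Real.norm_eq_abs, Real.abs_exp, Real.exp_le_one_iff]; nlinarith [sq_nonneg ‖w‖]⟩
  refine ⟨∫ w, Real.exp (-(2 * ‖w‖ ^ 2)) ∂stdGaussian (Space d), integral_exp_pos (hb.integrable _),
    fun V hV r h0 h1 => integral_mono (hb.integrable _)
      (((InClass.bdd_exp hV).shift √r 0).integrable _) fun w => ?_⟩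
  refine Real.exp_le_exp.2 (neg_le_neg ((InClass.le_quad hV _).trans ?_))
  rw [zero_add, norm_smul, mul_pow, Real.norm_eq_abs, sq_abs, Real.sq_sqrt h0]
  nlinarith [sq_nonneg ‖w‖]

theorem exists_sd_bound (d : ℕ) (L : List (Fin d)) {r₀ : ℝ} (h0 : 0 < r₀) :
    ∃ K : ℝ, 0 ≤ K ∧ ∀ V : Space d → ℝ, InClass V → ∀ r, r₀ ≤ r → ∀ z, |sd V L (r, z)| ≤ K := by
  obtain ⟨K, hK, hKb⟩ := exists_pd_gav_bound L (Real.sqrt_pos.2 h0)
  refine ⟨K, hK, fun V hV r hr z => ?_⟩
  have hb : Bdd (pd L (smooth V r₀)) K :=
    ⟨((reg_smooth hV h0).one L).continuous,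
      fun y => (hKb _ 1 (InClass.bdd_exp hV) y).trans (le_of_eq (mul_one K))⟩
  simp only [sd]
  rw [pd_smooth_eq hV h0 hr L]
  exact (hb.gav _).bound z

theorem contDiff_ld (hV : InClass V) {r : ℝ} (hr : 0 < r) (L : List (Fin d)) (n : ℕ) :
    ContDiff ℝ n (fun z => ld V L (r, z)) :=
  contDiff_iff_contDiffAt.2 fun x =>
    (contDiffAt_ld hV L n (p := (r, x)) hr).comp x (contDiffAt_const.prodMk contDiffAt_id)

/-- The derivatives of the density through those of the logarithm. -/
theorem sd_append_single (hV : InClass V) {r : ℝ} (hr : 0 < r) (L : List (Fin d)) (i : Fin d)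
    (z : Space d) : sd V (L ++ [i]) (r, z) = ((pats L.length).map fun π =>
      ld V (pickT π L ++ [i]) (r, z) * sd V (pickF π L) (r, z)).sum := by
  set f : Space d → ℝ := fun z => ld V [i] (r, z)
  have e : pd [i] (smooth V r) = fun z => f z * smooth V r z := by
    funext x
    have := (smooth_pos' hV r x).ne'
    simp only [f, ld_single hV hr, sd, pd]
    field_simp
  have hpf : ∀ A, pd A f = fun z => ld V (A ++ [i]) (r, z) := by
    intro A
    show pd A (pd [i] fun z => Real.log (smooth V r z)) = _
    rw [← pd_append]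
    rfl
  have h := congrFun (pd_mul (f := f) (g := smooth V r)
    (fun A n => by rw [hpf]; exact contDiff_ld hV hr _ n)
    (fun A n => (reg_smooth hV hr).contDiff n A) L) z
  simp only [sd]
  rw [pd_append, e, h]
  simp only [hpf]

/-- Crude bounds at the origin. -/
theorem exists_ld_zero (d : ℕ) {r₀ : ℝ} (h0 : 0 < r₀) : ∀ (k : ℕ) (L : List (Fin d)) (i : Fin d),
    L.length = k → ∃ K : ℝ, 0 ≤ K ∧
      ∀ V : Space d → ℝ, InClass V → ∀ r, r₀ ≤ r → r ≤ 1 → |ld V (L ++ [i]) (r, 0)| ≤ K := by
  intro k
  induction k using Nat.strong_induction_on with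
  | _ k ih =>
    intro L i hL
    obtain ⟨c, hc, hcb⟩ := exists_smooth_lower d
    obtain ⟨K0, hK0, hK0b⟩ := exists_sd_bound d (L ++ [i]) h0
    -- the lower patterns
    obtain ⟨rest, hrest, hrp⟩ : ∃ rest, pats L.length = List.replicate L.length true :: rest ∧
        ∀ π ∈ rest, π.length = L.length ∧ 1 ≤ numF π := by
      rcases Nat.eq_zero_or_pos L.length with h | h
      · exact ⟨[], by simp [h, pats], by simp⟩
      · obtain ⟨mid, hm, hmp⟩ := pats_split L.length h
        refine ⟨mid ++ [List.replicate L.length false], by simpa using hm, fun π hπ => ?_⟩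
        rcases List.mem_append.1 hπ with hπ | hπ
        · exact ⟨(hmp π hπ).1, (hmp π hπ).2.2⟩
        · simp only [List.mem_singleton] at hπ
          subst hπ
          refine ⟨by simp, ?_⟩
          obtain ⟨n, hn⟩ : ∃ n, L.length = n + 1 := ⟨L.length - 1, by omega⟩
          rw [hn, List.replicate_succ]
          simp [numF]
    have hstep : ∀ R : List (List Bool), (∀ π ∈ R, π.length = L.length ∧ 1 ≤ numF π) →
        ∃ K : ℝ, 0 ≤ K ∧ ∀ V : Space d → ℝ, InClass V → ∀ r, r₀ ≤ r → r ≤ 1 →
          |(R.map fun π => ld V (pickT π L ++ [i]) (r, 0) * sd V (pickF π L) (r, 0)).sum| ≤ K := by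
      intro R
      induction R with
      | nil => exact fun _ => ⟨0, le_rfl, fun V _ r _ _ => by simp⟩
      | cons π R ihR =>
        intro hR
        obtain ⟨hπl, hπF⟩ := hR π (by simp)
        have hlt : (pickT π L).length < k := by
          have := numT_add_numF π
          rw [(length_pick π L hπl).1]
          omega
        obtain ⟨K1, hK1, hK1b⟩ := ih _ hlt (pickT π L) i rfl
        obtain ⟨K2, hK2, hK2b⟩ := exists_sd_bound d (pickF π L) h0
        obtain ⟨K3, hK3, hK3b⟩ := ihR fun ρ hρ => hR ρ (List.mem_cons_of_mem _ hρ)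
        refine ⟨K1 * K2 + K3, by positivity, fun V hV r hr hr1 => ?_⟩
        rw [List.map_cons, List.sum_cons]
        refine (abs_add_le _ _).trans (add_le_add ?_ (hK3b V hV r hr hr1))
        rw [abs_mul]
        exact mul_le_mul (hK1b V hV r hr hr1) (hK2b V hV r hr 0) (abs_nonneg _) hK1
    obtain ⟨K4, hK4, hK4b⟩ := hstep rest hrp
    refine ⟨(K0 + K4) / c, by positivity, fun V hV r hr hr1 => ?_⟩
    have hr0 : 0 < r := lt_of_lt_of_le h0 hr
    have h := sd_append_single hV hr0 L i 0
    rw [hrest, List.map_cons, List.sum_cons, (pick_replicate L).1, (pick_replicate L).2.1] at h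
    have hp : c ≤ sd V [] (r, 0) := hcb V hV r hr0.le hr1
    have h1 := abs_le.1 (hK0b V hV r hr 0)
    have h2 := abs_le.1 (hK4b V hV r hr hr1)
    have h3 : |ld V (L ++ [i]) (r, 0)| * sd V [] (r, 0) ≤ K0 + K4 := by
      rw [← abs_of_pos (lt_of_lt_of_le hc hp), ← abs_mul, abs_le]
      constructor <;> linarith
    rw [le_div_iff₀ hc]
    exact le_trans (mul_le_mul_of_nonneg_left hp (abs_nonneg _)) h3

/-! ### Recentring -/

/-- The potential tilted to have its minimum at the origin. -/
def recentre (V : Space d → ℝ) (a : Space d) (x : Space d) : ℝ :=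
  V (x + a) - V a - ⟪gradient V a, x⟫

theorem InClass.recentre (hV : InClass V) (a : Space d) : InClass (Zero.recentre V a) := by
  have hd : Differentiable ℝ V := hV.smooth.differentiable (by norm_num)
  have h1 : ∀ x, HasFDerivAt (Zero.recentre V a)
      (fderiv ℝ V (x + a) - innerSL ℝ (gradient V a)) x := by
    intro x
    exact (((hd (x + a)).hasFDerivAt.comp x ((hasFDerivAt_id x).add_const a)).sub_const (V a)).sub
      (innerSL ℝ (gradient V a)).hasFDerivAt
  have e : fderiv ℝ (Zero.recentre V a)
      = fun x => fderiv ℝ V (x + a) - innerSL ℝ (gradient V a) := funext fun x => (h1 x).fderiv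
  refine ⟨((hV.smooth.comp (contDiff_id.add contDiff_const)).sub contDiff_const).sub
    (innerSL ℝ (gradient V a)).contDiff, by simp [Zero.recentre], ?_, fun x h => ?_⟩
  · refine ext_inner_right ℝ fun w => ?_
    rw [inner_gradient, e, inner_zero_left]
    simp
  · have e2 : fderiv ℝ (fderiv ℝ (Zero.recentre V a)) x = fderiv ℝ (fderiv ℝ V) (x + a) := by
      rw [e, fderiv_sub_const]
      exact fderiv_comp_add_right a
    have h2 := hV.hess (x + a) h
    simp only [iteratedFDeriv_two_apply, Matrix.cons_val_zero, Matrix.cons_val_one] at h2 ⊢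
    rw [e2]
    exact h2

theorem smooth_recentre (V : Space d → ℝ) (r : ℝ) (hr : 0 ≤ r) (a z : Space d) :
    smooth V r z = Real.exp (-V a - ⟪gradient V a, z - a⟫ + r * ‖gradient V a‖ ^ 2 / 2)
      * smooth (recentre V a) r (z - (a + r • gradient V a)) := by
  set g := gradient V a with hg
  set c := √r with hc
  have hcc : c * c = r := Real.mul_self_sqrt hr
  have e1 : ∀ w, Real.exp (-V (z + c • w))
      = Real.exp (-V a - ⟪g, z - a⟫) * (Real.exp (-(c * ⟪g, w⟫)) *
          Real.exp (-recentre V a (z - a + c • w))) := by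
    intro w
    rw [← Real.exp_add, ← Real.exp_add]
    congr 1
    simp only [recentre, inner_add_right, real_inner_smul_right, ← hg,
      show z - a + c • w + a = z + c • w by abel]
    ring
  have e2 : ∀ w, gden d w * Real.exp (-(c * ⟪g, w⟫))
      = Real.exp (r * ‖g‖ ^ 2 / 2) * gden d (w + c • g) := by
    intro w
    simp only [gden, halfSq, norm_add_sq_real, norm_smul, mul_pow, Real.norm_eq_abs, sq_abs,
      real_inner_smul_right, real_inner_comm g w]
    rw [div_mul_eq_mul_div, mul_div_assoc', ← Real.exp_add, ← Real.exp_add]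
    congr 2
    rw [sq c, hcc]
    ring
  simp only [smooth, Quarter.gav, ← hc]
  simp only [e1]
  rw [integral_const_mul, integral_stdGaussian_eq, integral_stdGaussian_eq]
  simp only [smul_eq_mul]
  rw [show (fun w => gden d w * (Real.exp (-(c * ⟪g, w⟫)) *
      Real.exp (-recentre V a (z - a + c • w))))
      = fun w => Real.exp (r * ‖g‖ ^ 2 / 2) * (gden d (w + c • g) *
        Real.exp (-recentre V a (z - (a + r • g) + c • (w + c • g)))) from funext fun w => by
    rw [← mul_assoc, e2]
    have : z - (a + r • g) + c • (w + c • g) = z - a + c • w := by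
      rw [smul_add, smul_smul, hcc]; abel
    rw [this]; ring]
  rw [integral_const_mul, integral_add_right_eq_self (μ := (volume : Measure (Space d)))
    (fun w => gden d w * Real.exp (-recentre V a (z - (a + r • g) + c • w))) (c • g),
    ← mul_assoc, ← Real.exp_add]

theorem exists_centre (hV : InClass V) {r : ℝ} (hr : 0 ≤ r) (z : Space d) :
    ∃ a, a + r • gradient V a = z := by
  set c : ℝ := 1 / (1 + 3 / 2 * r) with hc
  have hc0 : 0 < c := by positivity
  set F : Space d → Space d := fun a => a - c • (a + r • gradient V a - z) with hF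
  have hcd : c * (1 + 3 / 2 * r) = 1 := by rw [hc]; field_simp
  have hk : c * r / 2 ≤ 1 / 3 := by
    rw [hc]
    rw [div_mul_eq_mul_div, one_mul, div_div, div_le_div_iff₀ (by positivity) (by norm_num)]
    linarith
  have hcon : ContractingWith (1 / 3) F := by
    refine ⟨by norm_num, LipschitzWith.of_dist_le_mul fun x y => ?_⟩
    rw [dist_eq_norm, dist_eq_norm]
    have h := hV.model.cross y (x - y)
    rw [add_sub_cancel] at h
    have e : F x - F y
        = -((c * r) • (gradient V x - gradient V y - (3 / 2 : ℝ) • (x - y))) := by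
      have e2 : (c * r * (3 / 2)) • (x - y) = (x - y) - c • (x - y) := by
        rw [show c * r * (3 / 2) = 1 - c by linarith, sub_smul, one_smul]
      simp only [hF, smul_add, smul_sub, smul_smul] at e2 ⊢
      linear_combination (norm := module) -e2
    rw [e, norm_neg, norm_smul, Real.norm_eq_abs, abs_of_nonneg (by positivity)]
    refine (mul_le_mul_of_nonneg_left h (by positivity)).trans ?_
    have := mul_le_mul_of_nonneg_right hk (norm_nonneg (x - y))
    push_cast
    linarith
  refine ⟨hcon.fixedPoint F, ?_⟩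
  have h := hcon.fixedPoint_isFixedPt
  simp only [Function.IsFixedPt, hF] at h
  rw [sub_eq_self, smul_eq_zero, sub_eq_zero] at h
  exact h.resolve_left hc0.ne'

theorem ld_recentre (hV : InClass V) {r : ℝ} (hr : 0 < r) (L : List (Fin d)) (i j : Fin d)
    (a : Space d) :
    ld V (L ++ [i, j]) (r, a + r • gradient V a) = ld (recentre V a) (L ++ [i, j]) (r, 0) := by
  set g := gradient V a
  set W := recentre V a with hW
  have hWc := InClass.recentre hV a
  set h : Space d → ℝ := fun x => Real.log (smooth W r (x - (a + r • g)))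
  have e : (fun z => Real.log (smooth V r z))
      = fun x => (-V a + ⟪g, a⟫ + r * ‖g‖ ^ 2 / 2) + ⟪-g, x⟫ + h x := by
    funext x
    rw [smooth_recentre V r hr.le a x, Real.log_mul (Real.exp_pos _).ne'
      (smooth_pos' hWc _ _).ne', Real.log_exp, inner_neg_left, inner_sub_right]
    ring
  have hh : ContDiff ℝ 2 h :=
    (contDiff_ld hWc hr [] 2).comp (contDiff_id.sub contDiff_const)
  show pd (L ++ [i, j]) (fun z => Real.log (smooth V r z)) (a + r • g) = _
  rw [e, pd_add_affine hh, pd_comp_sub (L ++ [i, j]) (fun x => Real.log (smooth W r x))]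
  simp [ld]

/-- Crude bounds everywhere. -/
theorem exists_ld_bound (hV : InClass V) {r₀ : ℝ} (h0 : 0 < r₀) (L : List (Fin d))
    (hL : 2 ≤ L.length) : ∃ K : ℝ, 0 ≤ K ∧ ∀ r, r₀ ≤ r → r ≤ 1 → ∀ z, |ld V L (r, z)| ≤ K := by
  obtain ⟨M, i, j, rfl⟩ : ∃ M i j, L = M ++ [i, j] := by
    match h : L.reverse, hL with
    | [], hL => simp [List.reverse_eq_nil_iff.1 h] at hL
    | [a], hL =>
      have := congrArg List.length h
      simp at this; omega
    | a :: b :: M, _ =>
      exact ⟨M.reverse, b, a, by rw [← List.reverse_reverse L, h]; simp⟩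
  obtain ⟨K, hK, hKb⟩ := exists_ld_zero d h0 (M ++ [i]).length (M ++ [i]) j rfl
  refine ⟨K, hK, fun r hr hr1 z => ?_⟩
  obtain ⟨a, rfl⟩ := exists_centre hV (le_trans h0.le hr) z
  rw [ld_recentre hV (lt_of_lt_of_le h0 hr)]
  have := hKb (recentre V a) (InClass.recentre hV a) r hr hr1
  simpa using this

end

end P347.Zero
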