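import Vale.Agent.P347.Zero.Average

/-!
# P347: dimension-free bounds on the derivatives of the logarithm of the smoothed target

Every bipartition norm of the derivative of order `k` of `log (smooth V r)` is at most
`C_k * r ^ (-(k - 2) / 2)`. The proof is by induction on `k`, from the bound `2` on the Hessian.
-/

namespace P347.Zero

open MeasureTheory ProbabilityTheory Filter Topology Finset P347.Quarter
open scoped RealInnerProductSpace

noncomputable section

variable {d : ℕ} {V : Space d → ℝ}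

/-! ### Sums over lists and integrals -/

theorem integral_tsum' {α : Type} [MeasurableSpace α] {μ : Measure α} :
    ∀ (n : ℕ) (F : List (Fin d) → α → ℝ), (∀ L, L.length = n → Integrable (F L) μ) →
      Integrable (fun x => tsum' n fun L => F L x) μ ∧
        ∫ x, tsum' n (fun L => F L x) ∂μ = tsum' n fun L => ∫ x, F L x ∂μ
  | 0, _, h => ⟨h [] rfl, rfl⟩
  | n + 1, F, h => by
    have ih := fun i => integral_tsum' n (fun L => F (i :: L)) fun L hL => h _ (by simp [hL])
    simp only [tsum']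
    refine ⟨integrable_finsetSum _ fun i _ => (ih i).1, ?_⟩
    rw [integral_finsetSum _ fun i _ => (ih i).1]
    exact sum_congr rfl fun i _ => (ih i).2

theorem intervalIntegral_tsum' {a b : ℝ} : ∀ (n : ℕ) (F : List (Fin d) → ℝ → ℝ),
    (∀ L, L.length = n → IntervalIntegrable (F L) volume a b) →
      IntervalIntegrable (fun x => tsum' n fun L => F L x) volume a b ∧
        ∫ x in a..b, tsum' n (fun L => F L x) = tsum' n fun L => ∫ x in a..b, F L x
  | 0, _, h => ⟨h [] rfl, rfl⟩
  | n + 1, F, h => by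
    have ih := fun i => intervalIntegral_tsum' n (fun L => F (i :: L)) fun L hL => h _ (by simp [hL])
    simp only [tsum']
    have e : (fun x => ∑ i, tsum' n fun L => F (i :: L) x)
        = ∑ i, fun x => tsum' n fun L => F (i :: L) x := by
      funext x; simp [Finset.sum_apply]
    refine ⟨by rw [e]; exact IntervalIntegrable.sum _ fun i _ => (ih i).1, ?_⟩
    rw [intervalIntegral.integral_finsetSum fun i _ => (ih i).1]
    exact sum_congr rfl fun i _ => (ih i).2

theorem intervalIntegral_triple {a b : ℕ} {x z : ℝ} (F : List (Fin d) → List (Fin d) → Fin d → ℝ → ℝ)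
    (h : ∀ A B, A.length = a → B.length = b → ∀ j, IntervalIntegrable (F A B j) volume x z) :
    IntervalIntegrable (fun v => tsum' a fun A => tsum' b fun B => ∑ j, F A B j v) volume x z ∧
    ∫ v in x..z, (tsum' a fun A => tsum' b fun B => ∑ j, F A B j v)
      = tsum' a fun A => tsum' b fun B => ∑ j, ∫ v in x..z, F A B j v := by
  have h0 : ∀ A B, A.length = a → B.length = b →
      IntervalIntegrable (fun v => ∑ j, F A B j v) volume x z := by
    intro A B hA hB
    have e : (fun v => ∑ j, F A B j v) = ∑ j, F A B j := by funext v; simp [Finset.sum_apply]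
    rw [e]
    exact IntervalIntegrable.sum _ fun j _ => h A B hA hB j
  have h1 := fun A (hA : A.length = a) =>
    intervalIntegral_tsum' b (fun B v => ∑ j, F A B j v) fun B hB => h0 A B hA hB
  obtain ⟨i1, e1⟩ := intervalIntegral_tsum' a (fun A v => tsum' b fun B => ∑ j, F A B j v)
    fun A hA => (h1 A hA).1
  refine ⟨i1, e1.trans (tsum'_congr fun A hA => (h1 A hA).2.trans (tsum'_congr fun B hB => ?_))⟩
  exact intervalIntegral.integral_finsetSum fun j _ => h A B hA hB j

theorem integral_triple {a b : ℕ} {μ : Measure (Space d)}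
    (F : List (Fin d) → List (Fin d) → Fin d → Space d → ℝ)
    (h : ∀ A B, A.length = a → B.length = b → ∀ j, Integrable (F A B j) μ) :
    ∫ w, (tsum' a fun A => tsum' b fun B => ∑ j, F A B j w) ∂μ
      = tsum' a fun A => tsum' b fun B => ∑ j, ∫ w, F A B j w ∂μ := by
  have h0 : ∀ A B, A.length = a → B.length = b → Integrable (fun w => ∑ j, F A B j w) μ :=
    fun A B hA hB => integrable_finsetSum _ fun j _ => h A B hA hB j
  have h1 := fun A (hA : A.length = a) =>
    integral_tsum' b (fun B w => ∑ j, F A B j w) fun B hB => h0 A B hA hB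
  obtain ⟨-, e1⟩ := integral_tsum' a (fun A w => tsum' b fun B => ∑ j, F A B j w)
    fun A hA => (h1 A hA).1
  refine e1.trans (tsum'_congr fun A hA => (h1 A hA).2.trans (tsum'_congr fun B hB => ?_))
  exact integral_finsetSum _ fun j _ => h A B hA hB j

theorem tsum'_one (F : List (Fin d) → ℝ) : tsum' 1 F = ∑ i, F [i] := rfl

/-! ### One average -/

/-- The derivative of an average of a tensor with a bipartition bound. -/
theorem avg_split (hV : InClass V) {t v : ℝ} (ht : t ≤ 1) (hv0 : 0 ≤ v) (hv : v ^ 2 < t)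
    (y : Space d) (hH : ∀ c : Fin d → ℝ, ∑ i, ∑ j, c i * c j * ld V [i, j] (t, y) ≤ 2 * ∑ i, c i ^ 2)
    {F : List (Fin d) → ℝ × Space d → ℝ} {a b : ℕ} {C : ℝ} (hC : 0 ≤ C)
    (hN : ∀ A B, A.length = a → B.length = b → Nice fun p => sd V [] p * F (A ++ B) p)
    (hF : ∀ z, Split (fun L => F L (t - v ^ 2, z)) a b C) (S X : List (Fin d) → ℝ) :
    |tsum' a (fun A => tsum' b fun B => ∑ j, S A * X (B ++ [j]) *
        gint t y (fun p => sd V [] p * F (A ++ B) p) (fun v w => w j - v * ld V [j] (t, y)) v)|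
      ≤ sd V [] (t, y) * (2 * C * √(nsq a S) * √(nsq (b + 1) X)) := by
  set γ := stdGaussian (Space d) with hγ
  have hr : 0 < t - v ^ 2 := by linarith
  have hv1 := abs_le_one_of_sq ht hv
  set N := nsq (b + 1) X with hN'
  set φ : Fin d → Space d → ℝ := fun j w => w j - v * ld V [j] (t, y) with hφ
  have hφc : ∀ j, Continuous (φ j) := fun j => by simp only [φ]; fun_prop
  set Y : List (Fin d) → Space d → ℝ := fun B w => ∑ j, X (B ++ [j]) * φ j w with hY
  set p₀ : Space d → ℝ := fun w => sd V [] (t - v ^ 2, y + v • w) with hp₀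
  have hp : ∀ w, 0 ≤ p₀ w := fun w => (smooth_pos' hV _ _).le
  have hN1 : N = tsum' b fun B => ∑ j, X (B ++ [j]) ^ 2 := by
    rw [hN']
    unfold nsq
    rw [tsum'_append b 1]
    rfl
  -- the second moment
  have hI : ∀ B, Integrable (fun w => p₀ w * Y B w ^ 2) γ := by
    intro B
    refine (nice_sd hV []).integrable_gint ht hv y (ψ := fun w => Y B w ^ 2)
      (by simp only [Y]; fun_prop)
      (C := (∑ j, |X (B ++ [j])| * (1 + |ld V [j] (t, y)|)) ^ 2) (n := 2) fun w => ?_
    rw [← mul_pow, sum_mul, abs_pow]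
    refine pow_le_pow_left₀ (abs_nonneg _) ((abs_sum_le_sum_abs _ _).trans
      (sum_le_sum fun j _ => ?_)) 2
    rw [abs_mul, mul_assoc]
    exact mul_le_mul_of_nonneg_left (affine_growth _ j w hv1) (abs_nonneg _)
  have hB : ∀ B, ∫ w, p₀ w * Y B w ^ 2 ∂γ
      ≤ 3 * (∑ j, X (B ++ [j]) ^ 2) * sd V [] (t, y) := fun B =>
    moment_two hV ht hv0 hv y (fun j => X (B ++ [j])) (hH _)
  obtain ⟨hYi, hYe⟩ := integral_tsum' b (fun B w => p₀ w * Y B w ^ 2) fun B _ => hI B
  have hmom : ∫ w, tsum' b (fun B => p₀ w * Y B w ^ 2) ∂γ ≤ 3 * N * sd V [] (t, y) := by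
    rw [hYe, hN1]
    refine (tsum'_le fun B _ => hB B).trans (le_of_eq ?_)
    rw [tsum'_congr (G := fun B => 3 * sd V [] (t, y) * ∑ j, X (B ++ [j]) ^ 2)
      (fun B _ => by ring), tsum'_mul]
    ring
  -- the expression as one integral
  set H : Space d → ℝ := fun w => p₀ w *
    tsum' a fun A => tsum' b fun B => F (A ++ B) (t - v ^ 2, y + v • w) * S A * Y B w with hH'
  have e : tsum' a (fun A => tsum' b fun B => ∑ j, S A * X (B ++ [j]) *
      gint t y (fun p => sd V [] p * F (A ++ B) p) (fun v w => w j - v * ld V [j] (t, y)) v)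
      = ∫ w, H w ∂γ := by
    have e1 : (fun w => tsum' a fun A => tsum' b fun B => ∑ j,
        S A * X (B ++ [j]) * (p₀ w * F (A ++ B) (t - v ^ 2, y + v • w) * φ j w)) = H := by
      funext w
      simp only [H, ← tsum'_mul, Y, mul_sum]
      exact tsum'_congr fun A _ => tsum'_congr fun B _ => sum_congr rfl fun j _ => by ring
    rw [← e1, integral_triple (fun A B j w =>
      S A * X (B ++ [j]) * (p₀ w * F (A ++ B) (t - v ^ 2, y + v • w) * φ j w))
      fun A B hA hB j => ((hN A B hA hB).integrable_gint ht hv y (ψ := φ j) (hφc j)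
        (C := 1 + |ld V [j] (t, y)|) (n := 1) fun w => by
          rw [pow_one]; exact affine_growth _ j w hv1).const_mul _]
    exact tsum'_congr fun A _ => tsum'_congr fun B _ => sum_congr rfl fun j _ =>
      (integral_const_mul _ _).symm
  rw [e]
  refine le_of_forall_pos_le_add fun ε hε => ?_
  -- Cauchy and Schwarz with a free weight
  set c := sd V [] (t, y) * (C * √(nsq a S)) with hc
  have hc0 : 0 ≤ c := mul_nonneg (smooth_pos' hV t y).le (by positivity)
  set l := √(3 * N) + ε / (c + 1) with hl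
  have hN0 : 0 ≤ N := nsq_nonneg _ _
  have hl0 : 0 < l := by positivity
  have h3 : 3 * N ≤ l * l := by
    rw [← Real.mul_self_sqrt (show 0 ≤ 3 * N by positivity)]
    exact mul_self_le_mul_self (Real.sqrt_nonneg _) (le_add_of_nonneg_right (by positivity))
  have hpt : ∀ w, |H w| ≤ C * √(nsq a S) / (2 * l) * tsum' b (fun B => p₀ w * Y B w ^ 2)
      + C * √(nsq a S) * l / 2 * p₀ w := by
    intro w
    have hS := hF (y + v • w) S fun B => Y B w
    simp only [H]
    rw [abs_mul, abs_of_nonneg (hp w), tsum'_mul]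
    refine (mul_le_mul_of_nonneg_left hS (hp w)).trans ?_
    set q := nsq b fun B => Y B w with hq
    have hq0 : 0 ≤ q := nsq_nonneg _ _
    have hsq : √q ≤ q / (2 * l) + l / 2 := by
      rw [div_add_div _ _ (by positivity) two_ne_zero, le_div_iff₀ (by positivity)]
      nlinarith [Real.mul_self_sqrt hq0, sq_nonneg (√q - l)]
    calc p₀ w * (C * √(nsq a S) * √q)
        ≤ p₀ w * (C * √(nsq a S) * (q / (2 * l) + l / 2)) :=
          mul_le_mul_of_nonneg_left (mul_le_mul_of_nonneg_left hsq (by positivity)) (hp w)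
      _ = C * √(nsq a S) / (2 * l) * (p₀ w * q) + C * √(nsq a S) * l / 2 * p₀ w := by ring
  have hpi : Integrable p₀ γ := by
    simpa [p₀] using (nice_sd hV ([] : List (Fin d))).integrable_gint ht hv y (ψ := fun _ => 1)
      continuous_const (C := 1) (n := 1) fun w => by simp
  have h1 := integral_mono_of_nonneg (μ := γ) (Eventually.of_forall fun w => abs_nonneg (H w))
    ((hYi.const_mul _).add (hpi.const_mul _)) (Eventually.of_forall hpt)
  simp only [Pi.add_apply] at h1
  rw [integral_add (hYi.const_mul _) (hpi.const_mul _), integral_const_mul, integral_const_mul,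
    sd_avg hV hv hv0 y []] at h1
  refine abs_integral_le_integral_abs.trans (h1.trans ?_)
  have h4 := mul_le_mul_of_nonneg_left hmom (show 0 ≤ C * √(nsq a S) / (2 * l) by positivity)
  refine (add_le_add_left h4 _).trans ?_
  have h5 : √(3 * N) ≤ 2 * √N := by
    rw [Real.sqrt_mul (by norm_num)]
    refine mul_le_mul_of_nonneg_right ?_ (Real.sqrt_nonneg N)
    rw [Real.sqrt_le_iff]; norm_num
  have h6 : c * (ε / (c + 1)) ≤ ε := by
    rw [mul_div_assoc', div_le_iff₀ (by linarith)]
    nlinarith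
  have h7 : C * √(nsq a S) / (2 * l) * (3 * N * sd V [] (t, y))
      + C * √(nsq a S) * l / 2 * sd V [] (t, y) = c * ((3 * N / l + l) / 2) := by
    rw [hc]; field_simp
  rw [h7]
  have h8 : 3 * N / l ≤ l := by rw [div_le_iff₀ hl0]; exact h3
  have h9 := mul_le_mul_of_nonneg_left h5 hc0
  have h10 := mul_le_mul_of_nonneg_left (show (3 * N / l + l) / 2 ≤ l by linarith) hc0
  rw [hl, mul_add] at h10
  have h11 : sd V [] (t, y) * (2 * C * √(nsq a S) * √N) = c * (2 * √N) := by rw [hc]; ring
  linarith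

/-! ### The Hessian -/

theorem score_eq_sum (hV : InClass V) {r : ℝ} (hr : 0 < r) :
    score V r = fun z => ∑ i, ld V [i] (r, z) • bv i := by
  funext z
  refine ext_inner_right ℝ fun w => ?_
  simp only [score]
  rw [inner_gradient]
  have h := (hasDerivAt_ld_space hV [] hr z).2
  rw [show (fun z => Real.log (smooth V r z)) = fun z => ld V [] (r, z) from rfl, h.fderiv]
  simp only [_root_.sum_apply, _root_.smul_apply, sum_inner, real_inner_smul_left, inner_bv,
    PiLp.proj_apply, smul_eq_mul]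

theorem bilinear_ld_pair (hV : InClass V) {r : ℝ} (hr : 0 < r)
    (hlip : LipschitzWith 2 (score V r)) (z : Space d) (c e : Fin d → ℝ) :
    |∑ i, ∑ j, c i * e j * ld V [i, j] (r, z)| ≤ 2 * √(∑ i, c i ^ 2) * √(∑ j, e j ^ 2) := by
  set u : Space d := ∑ j, e j • bv j with hu
  set x : Space d := ∑ i, c i • bv i with hx
  have hn : ∀ a : Fin d → ℝ, ‖∑ j, a j • bv j‖ = √(∑ j, a j ^ 2) := by
    intro a
    rw [EuclideanSpace.norm_eq]
    congr 1
    refine sum_congr rfl fun i _ => ?_
    simp [bv, EuclideanSpace.basisFun_apply, Pi.single_apply, Finset.sum_apply]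
  obtain ⟨A, hA, h⟩ : ∃ A : Fin d → Space d →L[ℝ] ℝ, (∀ i j, A i (bv j) = ld V [j, i] (r, z)) ∧
      HasFDerivAt (score V r) (∑ i, (A i).smulRight (bv i)) z := by
    refine ⟨fun i => ∑ j, ld V [j, i] (r, z) • (EuclideanSpace.proj j : Space d →L[ℝ] ℝ),
      fun i j => sum_proj_bv _ j, ?_⟩
    rw [score_eq_sum hV hr]
    exact HasFDerivAt.fun_sum fun i _ => ((hasDerivAt_ld_space hV [i] hr z).2).smul_const (bv i)
  have e1 : ⟪x, fderiv ℝ (score V r) z u⟫ = ∑ i, ∑ j, c i * e j * ld V [i, j] (r, z) := by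
    rw [h.fderiv]
    simp only [hu, hx, map_sum, map_smul, _root_.sum_apply, ContinuousLinearMap.smulRight_apply,
      inner_sum, sum_inner, real_inner_smul_left, real_inner_smul_right, hA]
    simp only [bv, OrthonormalBasis.inner_eq_ite, mul_ite, mul_one, mul_zero, sum_ite_eq,
      mem_univ, if_true]
    rw [sum_comm]
    refine sum_congr rfl fun i _ => sum_congr rfl fun j _ => ?_
    rw [ld_perm hV hr (List.Perm.swap i j []) z]
    ring
  rw [← e1, ← hn c, ← hn e]
  refine (abs_real_inner_le_norm _ _).trans ?_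
  have h2 : ‖fderiv ℝ (score V r) z‖ ≤ 2 := by simpa using norm_fderiv_le_of_lipschitz ℝ hlip
  refine (mul_le_mul_of_nonneg_left ((ContinuousLinearMap.le_opNorm _ _).trans
    (mul_le_mul_of_nonneg_right h2 (norm_nonneg _))) (norm_nonneg _)).trans (le_of_eq ?_)
  ring

theorem bip_two (hV : InClass V) {r : ℝ} (hr : 0 < r) (hlip : LipschitzWith 2 (score V r))
    (z : Space d) : Bip (fun L => ld V L (r, z)) 2 2 := by
  intro a b ha hb hab
  obtain ⟨rfl, rfl⟩ : a = 1 ∧ b = 1 := ⟨by omega, by omega⟩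
  intro S X
  have h := bilinear_ld_pair hV hr hlip z (fun i => S [i]) (fun j => X [j])
  simp only [tsum'_one, nsq, List.singleton_append] at *
  refine le_trans (le_of_eq ?_) h
  congr 1
  exact sum_congr rfl fun i _ => sum_congr rfl fun j _ => by ring

theorem quad_ld_pair (hV : InClass V) {r : ℝ} (hr : 0 < r) (hlip : LipschitzWith 2 (score V r))
    (z : Space d) (c : Fin d → ℝ) :
    ∑ i, ∑ j, c i * c j * ld V [i, j] (r, z) ≤ 2 * ∑ i, c i ^ 2 := by
  refine (le_abs_self _).trans ((bilinear_ld_pair hV hr hlip z c c).trans (le_of_eq ?_))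
  rw [mul_assoc, Real.mul_self_sqrt (sum_nonneg fun i _ => sq_nonneg _)]

/-! ### The contractions -/

theorem length_pats : ∀ n, (pats n).length = 2 ^ n
  | 0 => rfl
  | n + 1 => by
    simp only [pats, List.length_append, List.length_map, length_pats n, pow_succ]
    omega

theorem proper_split {r : ℝ} (hV : InClass V) (hr : 0 < r) (z : Space d) {C ρ : ℝ} {k : ℕ}
    (hC : 0 ≤ C) (hρ : 0 ≤ ρ)
    (hb : ∀ n, 2 ≤ n → n ≤ k → Bip (fun L => ld V L (r, z)) n (C * ρ ^ (n - 2)))
    {a b : ℕ} (ha : 1 ≤ a) (hb' : 1 ≤ b) (hk : a + b = k) :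
    Split (fun L => proper V L (r, z)) a b (2 ^ k * C ^ 2 * ρ ^ (k - 2)) := by
  obtain ⟨mid, hm, hmp⟩ := pats_split k (by omega)
  set T := fun L => ld V L (r, z)
  set D := C ^ 2 * ρ ^ (k - 2) with hD
  have hD0 : 0 ≤ D := by positivity
  have key : ∀ R : List (List Bool), (∀ π ∈ R, π.length = k ∧ 1 ≤ numT π ∧ 1 ≤ numF π) →
      ∀ S X, |tsum' a fun A => tsum' b fun B =>
          (R.map fun π => contract T T π (A ++ B)).sum * S A * X B|
        ≤ R.length * (D * √(nsq a S) * √(nsq b X)) := by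
    intro R
    induction R with
    | nil => intro _ S X; simp [tsum'_zero]
    | cons π R ih =>
      intro h S X
      obtain ⟨hl, hT, hF⟩ := h π (by simp)
      have e : tsum' a (fun A => tsum' b fun B =>
          ((π :: R).map fun π => contract T T π (A ++ B)).sum * S A * X B)
          = tsum' a (fun A => tsum' b fun B => contract T T π (A ++ B) * S A * X B)
            + tsum' a (fun A => tsum' b fun B =>
              (R.map fun π => contract T T π (A ++ B)).sum * S A * X B) := by
        rw [← tsum'_add]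
        refine tsum'_congr fun A _ => ?_
        rw [← tsum'_add]
        exact tsum'_congr fun B _ => by simp only [List.map_cons, List.sum_cons]; ring
      rw [e, List.length_cons, Nat.cast_succ, add_mul _ (1 : ℝ), one_mul,
        add_comm (_ * _) (D * _ * _)]
      refine (abs_add_le _ _).trans
        (add_le_add ?_ (ih (fun ρ hρ => h ρ (List.mem_cons_of_mem _ hρ)) S X))
      have hpq := List.take_append_drop a π
      have hTF := numT_add_numF π
      have := contract_bip (symm_ld hV hr z) (symm_ld hV hr z) (p := π.take a) (q := π.drop a)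
        (Ct := C * ρ ^ (numT π - 1)) (Cu := C * ρ ^ (numF π - 1)) (by positivity) (by positivity)
        (by simp; omega) (by simp; omega) (by rwa [hpq]) (by rwa [hpq])
        (by rw [hpq]; exact hb _ (by omega) (by omega))
        (by rw [hpq]; exact hb _ (by omega) (by omega))
      rw [hpq, List.length_take, List.length_drop, show min a π.length = a by omega,
        show π.length - a = b by omega] at this
      refine (this S X).trans (le_of_eq ?_)
      rw [hD, show k - 2 = (numT π - 1) + (numF π - 1) by omega, pow_add]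
      ring
  intro S X
  have e : tsum' a (fun A => tsum' b fun B => proper V (A ++ B) (r, z) * S A * X B)
      = tsum' a fun A => tsum' b fun B =>
          (mid.map fun π => contract T T π (A ++ B)).sum * S A * X B :=
    tsum'_congr fun A hA => tsum'_congr fun B hB => by
      rw [proper_eq (A ++ B) (mid := mid) (by simpa [hA, hB, hk] using hm)]
  rw [e]
  refine (key mid hmp S X).trans ?_
  have hlen : (mid.length : ℝ) ≤ 2 ^ k := by
    have := congrArg List.length hm
    simp [length_pats] at this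
    exact_mod_cast (by omega : mid.length ≤ 2 ^ k)
  calc (mid.length : ℝ) * (D * √(nsq a S) * √(nsq b X))
      ≤ 2 ^ k * (D * √(nsq a S) * √(nsq b X)) := mul_le_mul_of_nonneg_right hlen (by positivity)
    _ = 2 ^ k * C ^ 2 * ρ ^ (k - 2) * √(nsq a S) * √(nsq b X) := by rw [hD]; ring

/-! ### The induction -/

theorem cum_step (hV : InClass V) (hlip : ∀ r, 0 < r → LipschitzWith 2 (score V r)) {C : ℝ}
    {k : ℕ} (hC : 1 ≤ C) (hk : 2 ≤ k)
    (hb : ∀ r, 0 < r → r ≤ 1 → ∀ z n, 2 ≤ n → n ≤ k →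
      Bip (fun L => ld V L (r, z)) n (C * (√r)⁻¹ ^ (n - 2)))
    {t : ℝ} (ht0 : 0 < t) (ht : t ≤ 1) (y : Space d) :
    Bip (fun L => ld V L (t, y)) (k + 1) (8 * 4 ^ k * C ^ 2 * (√t)⁻¹ ^ (k - 1)) := by
  set ρ := (√t)⁻¹ with hρ
  have hst : 0 < √t := Real.sqrt_pos.2 ht0
  set Q := √(t / 2) with hQ
  have hQ0 : 0 < Q := Real.sqrt_pos.2 (by linarith)
  have hQ2 : Q ^ 2 = t / 2 := Real.sq_sqrt (by linarith)
  have hQt : Q ^ 2 < t := by linarith
  have hQi : Q⁻¹ ≤ 2 * ρ := by
    rw [hρ, ← div_eq_mul_inv, inv_eq_one_div, div_le_div_iff₀ hQ0 hst, one_mul]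
    rw [Real.sqrt_le_left (by positivity)]
    rw [mul_pow, hQ2]; linarith
  have hρ1 : 1 ≤ ρ := by
    rw [hρ]; exact (one_le_inv₀ hst).2 (Real.sqrt_le_one.2 ht)
  have hHm := quad_ld_pair hV ht0 (hlip t ht0) y
  set K := C * (2 * ρ) ^ (k - 2) with hK
  set P := 2 ^ k * C ^ 2 * (2 * ρ) ^ (k - 2) with hP
  have hp := smooth_pos' hV t y
  have hinv : ∀ v ∈ Set.Icc (0 : ℝ) Q, 0 < t - v ^ 2 ∧ t - v ^ 2 ≤ 1 ∧ (√(t - v ^ 2))⁻¹ ≤ 2 * ρ := by
    intro v hv
    have h1 : v ^ 2 ≤ t / 2 := hQ2 ▸ pow_le_pow_left₀ hv.1 hv.2 2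
    refine ⟨by linarith, by linarith [sq_nonneg v], le_trans ?_ hQi⟩
    exact inv_anti₀ hQ0 (Real.sqrt_le_sqrt (by linarith))
  have main : ∀ a b, 1 ≤ a → 1 ≤ b → a + b = k →
      Split (fun L => ld V L (t, y)) a (b + 1) (8 * 4 ^ k * C ^ 2 * ρ ^ (k - 1)) := by
    intro a b ha hb' hab S X
    set Aterm : ℝ := tsum' a fun A => tsum' b fun B => ∑ j, S A * X (B ++ [j]) *
      gint t y (fL V (A ++ B)) (fun v w => w j - v * ld V [j] (t, y)) Q with hA'
    set J : ℝ → ℝ := fun v => tsum' a fun A => tsum' b fun B => ∑ j, S A * X (B ++ [j]) *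
      gint t y (fP V (A ++ B)) (fun v w => w j - v * ld V [j] (t, y)) v with hJ
    set E := √(nsq a S) * √(nsq (b + 1) X) with hE
    have hA : |Aterm| ≤ sd V [] (t, y) * (2 * K * √(nsq a S) * √(nsq (b + 1) X)) := by
      refine avg_split hV ht hQ0.le hQt y hHm (F := ld V) (by positivity)
        (fun A B hA hB => nice_fL hV _ (by simp [hA, hB]; omega)) (fun z => ?_) S X
      obtain ⟨h1, h2, h3⟩ := hinv Q ⟨hQ0.le, le_rfl⟩
      exact (hb _ h1 h2 z k hk le_rfl a b ha hb' hab).mono
        (mul_le_mul_of_nonneg_left (pow_le_pow_left₀ (by positivity) h3 _) (by linarith))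
    have hJb : ∀ v ∈ Set.Icc (0 : ℝ) Q,
        |J v| ≤ sd V [] (t, y) * (2 * P * √(nsq a S) * √(nsq (b + 1) X)) := by
      intro v hv
      obtain ⟨h1, h2, h3⟩ := hinv v hv
      refine avg_split hV ht hv.1 (lt_of_le_of_lt (pow_le_pow_left₀ hv.1 hv.2 2) hQt) y hHm
        (F := proper V) (by positivity) (fun A B hA hB => nice_fP hV _ (by simp [hA, hB]; omega))
        (fun z => ?_) S X
      refine (proper_split hV h1 z (by linarith) (by positivity) (fun n hn hn' => hb _ h1 h2 z n hn hn')
        ha hb' hab).mono ?_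
      exact mul_le_mul_of_nonneg_left (pow_le_pow_left₀ (by positivity) h3 _) (by positivity)
    have hint : ∀ A B, A.length = a → B.length = b → ∀ j, IntervalIntegrable
        (fun v => S A * X (B ++ [j]) *
          gint t y (fP V (A ++ B)) (fun v w => w j - v * ld V [j] (t, y)) v) volume 0 Q := by
      intro A B hA hB j
      refine ((continuousOn_const.mul ((nice_fP hV _ (by simp [hA, hB]; omega)).continuousOn_gint
        ht hQt y (ψ := fun v w => w j - v * ld V [j] (t, y)) (by fun_prop)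
        (C := 1 + |ld V [j] (t, y)|) fun v w hv => affine_growth _ j w hv))).intervalIntegrable_of_Icc
        hQ0.le
    obtain ⟨hJi, hJe⟩ := intervalIntegral_triple (fun A B j v => S A * X (B ++ [j]) *
      gint t y (fP V (A ++ B)) (fun v w => w j - v * ld V [j] (t, y)) v) hint
    have e : sd V [] (t, y) * tsum' a (fun A => tsum' (b + 1) fun B' =>
        ld V (A ++ B') (t, y) * S A * X B') = Q⁻¹ * Aterm + ∫ v in (0 : ℝ)..Q, J v := by
      simp only [hA', hJ]
      rw [hJe, ← tsum'_mul, ← tsum'_mul, ← tsum'_add]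
      refine tsum'_congr fun A hA => ?_
      rw [tsum'_append b 1, ← tsum'_mul, ← tsum'_mul, ← tsum'_add]
      refine tsum'_congr fun B hB => ?_
      rw [tsum'_one, mul_sum, mul_sum, ← sum_add_distrib]
      refine sum_congr rfl fun j _ => ?_
      rw [show ld V (A ++ (B ++ [j])) (t, y) = ld V (j :: (A ++ B)) (t, y) from
        ld_perm hV ht0 (by rw [← List.append_assoc]; exact List.perm_append_singleton j _) y]
      have := ld_cons_eq hV (L := A ++ B) (by simp [hA, hB]; omega) ht hQ0 hQt y j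
      rw [intervalIntegral.integral_const_mul]
      linear_combination (S A * X (B ++ [j])) * this
    have hI : |∫ v in (0 : ℝ)..Q, J v|
        ≤ sd V [] (t, y) * (2 * P * √(nsq a S) * √(nsq (b + 1) X)) * Q := by
      have := intervalIntegral.norm_integral_le_of_norm_le_const (f := J) (a := 0) (b := Q)
        (C := sd V [] (t, y) * (2 * P * √(nsq a S) * √(nsq (b + 1) X))) fun v hv => by
          rw [Set.uIoc_of_le hQ0.le] at hv
          exact hJb v ⟨hv.1.le, hv.2⟩
      simpa [abs_of_pos hQ0] using this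
    have hQ1 : Q ≤ 1 := by rw [hQ]; exact Real.sqrt_le_one.2 (by linarith)
    have hfin : sd V [] (t, y) * |tsum' a (fun A => tsum' (b + 1) fun B' =>
        ld V (A ++ B') (t, y) * S A * X B')|
        ≤ sd V [] (t, y) * ((4 * ρ * K + 2 * P) * E) := by
      rw [← abs_of_pos (show 0 < sd V [] (t, y) from hp), ← abs_mul, abs_of_pos (show 0 < sd V [] (t, y) from hp), e]
      refine (abs_add_le _ _).trans (le_trans (add_le_add (le_of_eq (abs_mul _ _)) hI) ?_)
      rw [abs_of_pos (inv_pos.2 hQ0)]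
      have hX := mul_le_mul hQi hA (abs_nonneg _) (by positivity)
      have hE0 : 0 ≤ sd V [] (t, y) * (2 * P * E) := mul_nonneg hp.le (by positivity)
      have := mul_le_mul_of_nonneg_left hQ1 hE0
      simp only [hE] at *
      linarith
    refine (le_of_mul_le_mul_left hfin hp).trans ?_
    rw [← mul_assoc (8 * 4 ^ k * C ^ 2 * ρ ^ (k - 1)) _ _ |>.symm, hE]
    refine mul_le_mul_of_nonneg_right ?_ (by positivity)
    -- constants
    obtain ⟨m, rfl⟩ : ∃ m, k = m + 2 := ⟨k - 2, by omega⟩
    simp only [hK, hP, show m + 2 - 2 = m from rfl, show m + 2 - 1 = m + 1 from rfl, mul_pow]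
    have h4 : (2 : ℝ) ^ m * 2 ^ m = 4 ^ m := by rw [← mul_pow]; norm_num
    have hm1 : (1 : ℝ) ≤ 2 ^ m := one_le_pow₀ (by norm_num)
    have hC2 : C ≤ C ^ 2 := le_self_pow₀ hC two_ne_zero
    have hρm : ρ ^ m ≤ ρ ^ (m + 1) := pow_le_pow_right₀ hρ1 (by omega)
    have a1 : 4 * ρ * (C * (2 ^ m * ρ ^ m)) ≤ 4 * C ^ 2 * (2 ^ m * 2 ^ m) * ρ ^ (m + 1) := by
      rw [pow_succ ρ m]
      calc 4 * ρ * (C * (2 ^ m * ρ ^ m)) = 4 * C * (2 ^ m * 1) * (ρ ^ m * ρ) := by ring
        _ ≤ _ := by gcongr
    have a2 : 2 * (2 ^ (m + 2) * C ^ 2 * (2 ^ m * ρ ^ m))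
        ≤ 8 * C ^ 2 * (2 ^ m * 2 ^ m) * ρ ^ (m + 1) := by
      calc 2 * (2 ^ (m + 2) * C ^ 2 * (2 ^ m * ρ ^ m))
          = 8 * C ^ 2 * (2 ^ m * 2 ^ m) * ρ ^ m := by ring
        _ ≤ _ := by gcongr
    rw [h4] at a1 a2
    have : (0 : ℝ) ≤ C ^ 2 * 4 ^ m * ρ ^ (m + 1) := by positivity
    rw [show (4 : ℝ) ^ (m + 2) = 16 * 4 ^ m by ring]
    nlinarith
  intro a' b' ha hb' hab
  rcases Nat.lt_or_ge b' 2 with h | h
  · obtain ⟨a'', rfl⟩ : ∃ a'', a' = a'' + 1 := ⟨a' - 1, by omega⟩
    exact (main b' a'' hb' (by omega) (by omega)).swap (symm_ld hV ht0 y)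
  · obtain ⟨b'', rfl⟩ : ∃ b'', b' = b'' + 1 := ⟨b' - 1, by omega⟩
    exact main a' b'' ha (by omega) (by omega)

/-- Bipartition norms of the derivatives of the logarithm of the smoothed target. -/
theorem exists_cum : ∀ k : ℕ, ∃ C : ℝ, 1 ≤ C ∧ ∀ (d : ℕ) (V : Space d → ℝ), InClass V →
    (∀ r, 0 < r → LipschitzWith 2 (score V r)) → ∀ r, 0 < r → r ≤ 1 → ∀ z n, 2 ≤ n → n ≤ k →
      Bip (fun L => ld V L (r, z)) n (C * (√r)⁻¹ ^ (n - 2))
  | 0 => ⟨1, le_rfl, fun _ _ _ _ _ _ _ _ n hn hn' => absurd hn' (by omega)⟩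
  | k + 1 => by
    obtain ⟨C, hC, hCb⟩ := exists_cum k
    refine ⟨max (max 2 C) (8 * 4 ^ k * C ^ 2), le_max_of_le_left (le_max_of_le_left one_le_two),
      fun d V hV hlip r hr hr1 z n hn hn' => ?_⟩
    rcases Nat.lt_or_ge n (k + 1) with h | h
    · refine (hCb d V hV hlip r hr hr1 z n hn (by omega)).mono ?_
      gcongr
      exact le_max_of_le_left (le_max_right _ _)
    obtain rfl : n = k + 1 := by omega
    rcases Nat.lt_or_ge k 2 with hk | hk
    · obtain rfl : k = 1 := by omega
      refine (bip_two hV hr (hlip r hr) z).mono ?_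
      rw [show 1 + 1 - 2 = 0 from rfl, pow_zero, mul_one]
      exact le_max_of_le_left (le_max_left _ _)
    · refine (cum_step hV hlip hC hk (fun r hr hr1 z n hn hn' =>
        hCb d V hV hlip r hr hr1 z n hn hn') hr hr1 z).mono ?_
      rw [show k + 1 - 2 = k - 1 by omega]
      gcongr
      exact le_max_right _ _

end

end P347.Zero
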