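import Vale.Agent.P347.Zero.PairField
import Vale.Agent.P347.Zero.Picard

/-!
# P347: the derivative of the score from a window of the flow

A window `[-l, l]` of the flow from the point `(z, r)` is computed by Picard iteration at the
nodes; the values at the times of `TanSpec` give the derivative of the score at `(z, r)` in the
direction of the Gaussian start. Everything is measured in mean square over a random centre and an
independent Gaussian start, and every evaluation of the score may carry an error.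
-/

namespace P347.Zero

open MeasureTheory ProbabilityTheory Set Filter Topology Polynomial
open scoped ENNReal

noncomputable section

variable {d : ℕ} {V : Space d → ℝ}

attribute [local irreducible] score smooth

/-! ## Smoothness in time along the flow -/

theorem isOpen_flow_times (r : ℝ) : IsOpen {q : ℝ | q ^ 2 < r} :=
  isOpen_lt (continuous_id.pow 2) continuous_const

/-- The score along the flow, as a function of time. -/
def flowScore (V : Space d → ℝ) (r : ℝ) (W : Space d → ℝ → Space d → Space d)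
    (x : Space d × Space d) (q : ℝ) : Space d :=
  score V (r - q ^ 2) (x.1 + q • W x.1 q x.2)

/-- The time derivatives of the score along the flow. -/
def flowJet (V : Space d → ℝ) (r : ℝ) (W : Space d → ℝ → Space d → Space d)
    (x : Space d × Space d) (k : ℕ) (q : ℝ) : Space d :=
  iteratedDeriv k (flowScore V r W x) q

section
variable {r : ℝ} {W : Space d → ℝ → Space d → Space d}

theorem Regular.contDiffOn_flow (h : Regular V) (hW : ∀ z, IsFlow V z r (W z))
    (x : Space d × Space d) (n : ℕ) :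
    ContDiffOn ℝ n (fun q => W x.1 q x.2) {q | q ^ 2 < r} ∧
      ContDiffOn ℝ n (flowScore V r W x) {q | q ^ 2 < r} := by
  have key : ∀ n : ℕ, ContDiffOn ℝ n (fun q => W x.1 q x.2) {q | q ^ 2 < r} →
      ContDiffOn ℝ n (flowScore V r W x) {q | q ^ 2 < r} := fun n hn => by
    have harg : ContDiffOn ℝ n (fun q => (r - q ^ 2, x.1 + q • W x.1 q x.2)) {q | q ^ 2 < r} :=
      (contDiffOn_const.sub (contDiffOn_id.pow 2)).prodMk
        (contDiffOn_const.add (contDiffOn_id.smul hn))
    exact (h.smoothOn n).comp harg fun q hq => ⟨sub_pos.2 (mem_ofPred.1 hq), mem_univ _⟩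
  have main : ∀ n : ℕ, ContDiffOn ℝ n (fun q => W x.1 q x.2) {q | q ^ 2 < r} := by
    intro n
    induction n with
    | zero =>
      rw [Nat.cast_zero, contDiffOn_zero]
      exact fun q hq => ((hW x.1).deriv x.2 q hq).continuousAt.continuousWithinAt
    | succ m ih =>
      rw [Nat.cast_succ, contDiffOn_succ_iff_deriv_of_isOpen (isOpen_flow_times r)]
      refine ⟨fun q hq => ((hW x.1).deriv x.2 q hq).differentiableAt.differentiableWithinAt,
        by simp, (key m ih).congr fun q hq => ?_⟩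
      exact ((hW x.1).deriv x.2 q hq).deriv
  exact ⟨main n, key n (main n)⟩

theorem Regular.hasDerivAt_flowJet (h : Regular V) (hW : ∀ z, IsFlow V z r (W z))
    (x : Space d × Space d) (k : ℕ) {q : ℝ} (hq : q ^ 2 < r) :
    HasDerivAt (flowJet V r W x k) (flowJet V r W x (k + 1) q) q := by
  have hU := isOpen_flow_times r
  have hd : DifferentiableAt ℝ (iteratedDeriv k (flowScore V r W x)) q := by
    have h1 := (h.contDiffOn_flow hW x (k + 1)).2.differentiableOn_iteratedDerivWithin
      (m := k) (by exact_mod_cast Nat.lt_succ_self k) hU.uniqueDiffOn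
    exact ((h1.congr fun y hy => (iteratedDerivWithin_of_isOpen hU hy).symm) q hq).differentiableAt
      (hU.mem_nhds hq)
  unfold flowJet
  rw [iteratedDeriv_succ]
  exact hd.hasDerivAt

theorem Regular.isJet_flowJet (h : Regular V) (hW : ∀ z, IsFlow V z r (W z))
    (x : Space d × Space d) (n : ℕ) {a b : ℝ} (ha : a ^ 2 < r) (hb : b ^ 2 < r) :
    IsJet (flowJet V r W x) n a b := by
  have hin : ∀ q ∈ Icc a b, q ^ 2 < r := fun q hq => by
    rcases le_or_gt 0 q with h0 | h0 <;> nlinarith [hq.1, hq.2]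
  exact ⟨fun k _ q hq => (h.hasDerivAt_flowJet hW x k (hin q hq)).hasDerivWithinAt,
    fun q hq => (h.hasDerivAt_flowJet hW x n (hin q hq)).continuousAt.continuousWithinAt⟩

theorem Regular.measurable_flowJet (h : Regular V) (hW : ∀ z, IsFlow V z r (W z)) (k : ℕ) :
    ∀ q : ℝ, q ^ 2 < r → Measurable fun x => flowJet V r W x k q := by
  induction k with
  | zero =>
    intro q hq
    have hr : 0 ≤ r - q ^ 2 := (sub_pos.2 hq).le
    simp only [flowJet, iteratedDeriv_zero, flowScore]
    exact ((h.lip _ hr).continuous.comp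
      (continuous_fst.add ((h.continuous_flow hW hq).const_smul q))).measurable
  | succ k ih =>
    intro q hq
    obtain ⟨δ, hδ, hball⟩ := Metric.isOpen_iff.1 (isOpen_flow_times r) q hq
    have hsmall : Tendsto (fun m : ℕ => δ / ((m : ℝ) + 2)) atTop (𝓝 0) := by
      have : Tendsto (fun m : ℕ => ((m : ℝ) + 2)) atTop atTop :=
        tendsto_natCast_atTop_atTop.atTop_add tendsto_const_nhds
      exact this.const_div_atTop δ
    have hne : ∀ m : ℕ, δ / ((m : ℝ) + 2) ≠ 0 := fun m => by positivity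
    refine measurable_of_tendsto_metrizable
      (f := fun (m : ℕ) x => (δ / ((m : ℝ) + 2))⁻¹ •
        (flowJet V r W x k (q + δ / ((m : ℝ) + 2)) - flowJet V r W x k q)) (fun m => ?_) ?_
    · refine Measurable.fun_const_smul ((ih _ (hball ?_)).sub (ih q hq)) (c := (δ / ((m : ℝ) + 2))⁻¹)
      rw [Metric.mem_ball, dist_eq_norm, add_sub_cancel_left, Real.norm_eq_abs,
        abs_of_pos (by positivity), div_lt_iff₀ (by positivity)]
      nlinarith
    · rw [tendsto_pi_nhds]
      intro x
      exact (h.hasDerivAt_flowJet hW x k hq).tendsto_slope_zero.comp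
        (tendsto_nhdsWithin_iff.2 ⟨hsmall, Eventually.of_forall hne⟩)

end

/-! ## The window -/

/-- A bound for the sizes of the rules on every part of a cell. -/
def basisSize (M : ℕ) : ℝ :=
  ∑ i, ∫ s in (0 : ℝ)..1, |(Lagrange.basis Finset.univ (node M) i).eval s|

theorem ruleSize_intTo_le_basisSize (M : ℕ) {c : ℝ} (hc : c ∈ Icc (0 : ℝ) 1) :
    ruleSize M (intTo c) ≤ basisSize M := by
  refine Finset.sum_le_sum fun i _ => ?_
  refine (intervalIntegral.abs_integral_le_integral_abs hc.1).trans ?_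
  exact intervalIntegral.integral_mono_interval le_rfl hc.1 hc.2
    (Eventually.of_forall fun _ => abs_nonneg _)
    ((Polynomial.continuous _).abs.intervalIntegrable 0 1)

/-- The time at the fraction `c` of the window. -/
def windowTime (l c : ℝ) : ℝ := -l + (l - -l) * c

/-- The weights of the integral from `0` to the fraction `c` of the window. -/
def windowWeight (M : ℕ) (l c : ℝ) (i : Fin M) : ℝ :=
  (l - -l) * (ruleWeight M (intTo c) i - ruleWeight M (intTo (1 / 2)) i)

theorem sum_abs_windowWeight_le (M : ℕ) {l c : ℝ} (hl : 0 ≤ l) (hc : c ∈ Icc (0 : ℝ) 1) :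
    ∑ i, |windowWeight M l c i| ≤ 4 * l * basisSize M := by
  have h1 := ruleSize_intTo_le_basisSize M hc
  have h2 := ruleSize_intTo_le_basisSize M (c := 1 / 2) ⟨by norm_num, by norm_num⟩
  calc ∑ i, |windowWeight M l c i|
      ≤ ∑ i, (2 * l) * (|ruleWeight M (intTo c) i| + |ruleWeight M (intTo (1 / 2)) i|) := by
        refine Finset.sum_le_sum fun i _ => ?_
        rw [windowWeight, abs_mul, show l - -l = 2 * l by ring, abs_of_nonneg (by positivity)]
        gcongr
        exact abs_sub _ _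
    _ = 2 * l * (ruleSize M (intTo c) + ruleSize M (intTo (1 / 2))) := by
        simp only [ruleSize, ← Finset.mul_sum, Finset.sum_add_distrib]
    _ ≤ _ := by nlinarith

theorem windowTime_mem {l c : ℝ} (hl : 0 ≤ l) (hc : c ∈ Icc (0 : ℝ) 1) :
    windowTime l c ∈ Icc (-l) l :=
  ⟨by unfold windowTime; nlinarith [hc.1], by unfold windowTime; nlinarith [hc.2]⟩

theorem sq_le_of_mem {l q : ℝ} (hq : q ∈ Icc (-l) l) : q ^ 2 ≤ l ^ 2 := by
  nlinarith [hq.1, hq.2]

/-- The integral over an unordered part is at most that over the whole interval. -/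
theorem abs_intervalIntegral_le {a b a' b' : ℝ} (hab : a ≤ b) (hsub : uIcc a' b' ⊆ Icc a b)
    {f : ℝ → ℝ} (h0 : ∀ s, 0 ≤ f s) (hf : ContinuousOn f (Icc a b)) :
    |∫ s in a'..b', f s| ≤ ∫ s in a..b, f s := by
  rcases le_total a' b' with h | h
  · rw [uIcc_of_le h] at hsub
    obtain ⟨h1, h2⟩ := (Icc_subset_Icc_iff h).1 hsub
    rw [abs_of_nonneg (intervalIntegral.integral_nonneg h fun s _ => h0 s)]
    exact intervalIntegral.integral_mono_interval h1 h h2 (Eventually.of_forall h0)
      (hf.intervalIntegrable_of_Icc hab)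
  · rw [uIcc_of_ge h] at hsub
    obtain ⟨h1, h2⟩ := (Icc_subset_Icc_iff h).1 hsub
    rw [intervalIntegral.integral_symm, abs_neg,
      abs_of_nonneg (intervalIntegral.integral_nonneg h fun s _ => h0 s)]
    exact intervalIntegral.integral_mono_interval h1 h h2 (Eventually.of_forall h0)
      (hf.intervalIntegrable_of_Icc hab)

/-- A lower integral of a squared norm bounds the norm in mean square. -/
theorem eLpNorm_le_of_lintegral_sq {α : Type} [MeasurableSpace α] {μ : Measure α}
    {f : α → Space d} {a : ℝ} (ha : 0 ≤ a)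
    (h : ∫⁻ x, ENNReal.ofReal (‖f x‖ ^ 2) ∂μ ≤ ENNReal.ofReal (a ^ 2)) :
    eLpNorm f 2 μ ≤ ENNReal.ofReal a := by
  rw [eLpNorm_eq_lintegral_rpow_enorm_toReal two_ne_zero ENNReal.ofNat_ne_top]
  simp only [ENNReal.toReal_ofNat, ENNReal.rpow_two]
  have e : ∀ x, ‖f x‖ₑ ^ 2 = ENNReal.ofReal (‖f x‖ ^ 2) := fun x => by
    rw [← ofReal_norm, ENNReal.ofReal_pow (norm_nonneg _)]
  simp only [e]
  refine (ENNReal.rpow_le_rpow h (by norm_num)).trans (le_of_eq ?_)
  rw [ENNReal.ofReal_rpow_of_nonneg (sq_nonneg _) (by norm_num), ← Real.sqrt_eq_rpow,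
    Real.sqrt_sq ha]

/-- A bound for every centre passes to a random centre. -/
theorem lintegral_sq_prod_le {ν : Measure (Space d)} [IsProbabilityMeasure ν]
    {F : Space d × Space d → Space d} (hF : Measurable F) {a : ℝ}
    (h : ∀ z, ∫⁻ ξ, ENNReal.ofReal (‖F (z, ξ)‖ ^ 2) ∂stdGaussian (Space d)
      ≤ ENNReal.ofReal (a ^ 2)) :
    ∫⁻ x, ENNReal.ofReal (‖F x‖ ^ 2) ∂ν.prod (stdGaussian (Space d)) ≤ ENNReal.ofReal (a ^ 2) := by
  rw [lintegral_prod _ (by fun_prop)]
  exact (lintegral_mono h).trans_eq (by simp)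

/-- The value of `score` at the node `j` of the window, as a function of the point of the flow. -/
def windowGate (V : Space d → ℝ) (r l : ℝ) (M : ℕ) (j : Fin M) (z u : Space d) : Space d :=
  score V (r - windowTime l (node M j) ^ 2) (z + windowTime l (node M j) • u)

/-- The step of the iteration, up to the fraction `c` of the window. -/
def windowStep (V : Space d → ℝ) (r l : ℝ) (M : ℕ) (c : ℝ) (z ξ : Space d)
    (u : Fin M → Space d) : Space d :=
  ξ + ∑ j, windowWeight M l c j • windowGate V r l M j z (u j)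

section
variable {r l : ℝ} {W : Space d → ℝ → Space d → Space d}
variable {Ω : Type} [MeasurableSpace Ω] {μ : Measure Ω} {ν : Measure (Space d)}
variable {zz ξ : Ω → Space d}

theorem window_slab (hl : 0 < l) (hlr : l ≤ √r / 2) {q : ℝ} (hq : q ∈ Icc (-l) l) :
    0 < r ∧ q ^ 2 < r ∧ 3 / 4 * r ≤ r - q ^ 2 := by
  have hsr : 0 < √r := by linarith
  have hr : 0 < r := Real.sqrt_pos.1 hsr
  have h1 : l ^ 2 ≤ (√r / 2) ^ 2 := pow_le_pow_left₀ hl.le hlr 2
  rw [div_pow, Real.sq_sqrt hr.le] at h1
  have := sq_le_of_mem hq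
  exact ⟨hr, by linarith, by linarith⟩

theorem gate_flow (M : ℕ) (j : Fin M) (z x : Space d) :
    windowGate V r l M j z (W z (windowTime l (node M j)) x) =
      flowJet V r W (z, x) 0 (windowTime l (node M j)) := by
  simp only [windowGate, flowJet, iteratedDeriv_zero, flowScore]

/-- The bounds of `TimeSpec` along the window, for a random centre. -/
theorem eLpNorm_flowJet_le [IsProbabilityMeasure ν] (hV : Quarter.InClass V) (hreg : Regular V)
    (hW : ∀ z, IsFlow V z r (W z))
    (hlaw : MeasurePreserving (fun w => (zz w, ξ w)) μ (ν.prod (stdGaussian (Space d))))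
    (hl : 0 < l) (hlr : l ≤ √r / 2) (hr1 : r ≤ 1) {m : ℕ} {A : ℝ} (hA : 0 < A)
    (hspec : ∀ (d : ℕ) (V : Space d → ℝ), Quarter.InClass V → ∀ (y : Space d) (t : ℝ), 0 < t →
      t ≤ 1 → ∀ w, IsFlow V y t w → ∀ q, q ^ 2 < t →
        (∫⁻ ξ, ENNReal.ofReal (‖iteratedDeriv (m + 1)
            (fun q' => score V (t - q' ^ 2) (y + q' • w q' ξ)) q‖ ^ 2) ∂stdGaussian (Space d))
          ≤ ENNReal.ofReal ((A * √d * (√t / √(t - q ^ 2)) * (√t / (t - q ^ 2)) ^ m) ^ 2))
    {q : ℝ} (hq : q ∈ Icc (-l) l) :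
    eLpNorm (fun w => flowJet V r W (zz w, ξ w) (m + 1) q) 2 μ
      ≤ ENNReal.ofReal (2 ^ (m + 1) * A * √d / √r ^ m) := by
  obtain ⟨hr, hqr, h34⟩ := window_slab hl hlr hq
  have hm := hreg.measurable_flowJet hW (m + 1) q hqr
  rw [show (fun w => flowJet V r W (zz w, ξ w) (m + 1) q) =
    (fun x => flowJet V r W x (m + 1) q) ∘ fun w => (zz w, ξ w) from rfl,
    eLpNorm_comp_measurePreserving hm.aestronglyMeasurable hlaw]
  refine eLpNorm_le_of_lintegral_sq (by positivity) (lintegral_sq_prod_le hm fun z => ?_)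
  refine (hspec d V hV z r hr hr1 (W z) (hW z) q hqr).trans
    (ENNReal.ofReal_le_ofReal (pow_le_pow_left₀
      (mul_nonneg (by positivity) (pow_nonneg (div_nonneg (Real.sqrt_nonneg _) (by linarith)) _))
      ?_ 2))
  have hsr : 0 < √r := Real.sqrt_pos.2 hr
  have hpos : 0 < r - q ^ 2 := by linarith
  have h1 : √r / √(r - q ^ 2) ≤ 2 := by
    rw [div_le_iff₀ (Real.sqrt_pos.2 hpos)]
    calc √r ≤ √(4 * (r - q ^ 2)) := Real.sqrt_le_sqrt (by linarith)
      _ = 2 * √(r - q ^ 2) := by
        rw [Real.sqrt_mul (by norm_num), show √(4 : ℝ) = 2 by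
          rw [show (4 : ℝ) = 2 ^ 2 by norm_num, Real.sqrt_sq (by norm_num)]]
  have h2 : √r / (r - q ^ 2) ≤ 2 / √r := by
    rw [div_le_div_iff₀ hpos hsr, Real.mul_self_sqrt hr.le]
    linarith
  calc A * √d * (√r / √(r - q ^ 2)) * (√r / (r - q ^ 2)) ^ m
      ≤ A * √d * 2 * (2 / √r) ^ m :=
        mul_le_mul (mul_le_mul_of_nonneg_left h1 (by positivity))
          (pow_le_pow_left₀ (by positivity) h2 m) (by positivity) (by positivity)
    _ = _ := by rw [div_pow, pow_succ]; ring

/-- Quadrature of the flow on the window, at one start. -/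
theorem norm_window_quad_le (hreg : Regular V) (hW : ∀ z, IsFlow V z r (W z)) (hl : 0 < l)
    (hlr : l ≤ √r / 2) (n : ℕ) {c : ℝ} (hc : c ∈ Icc (0 : ℝ) 1) (z x : Space d) :
    ‖W z (windowTime l c) x - windowStep V r l (n + 1) c z x
        (fun j => W z (windowTime l (node (n + 1) j)) x)‖ ≤
      2 * (1 + basisSize (n + 1)) * (2 * l) ^ (n + 1) *
        ∫ s in (-l)..l, ‖flowJet V r W (z, x) (n + 1) s‖ := by
  set D := flowJet V r W (z, x)
  have hll : -l ≤ l := by linarith
  have hlr' : ∀ q ∈ Icc (-l) l, q ^ 2 < r := fun q hq => (window_slab hl hlr hq).2.1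
  have hjet : ∀ m, IsJet D m (-l) l := fun m =>
    hreg.isJet_flowJet hW _ m (hlr' _ ⟨le_rfl, hll⟩) (hlr' _ ⟨hll, le_rfl⟩)
  have hI : 0 ≤ ∫ s in (-l)..l, ‖D (n + 1) s‖ :=
    intervalIntegral.integral_nonneg hll fun _ _ => norm_nonneg _
  have h0mem : (0 : ℝ) ∈ Icc (-l) l := ⟨by linarith, hl.le⟩
  have hint : ∀ a ∈ Icc (-l) l, ∀ b ∈ Icc (-l) l, IntervalIntegrable (D 0) volume a b :=
    fun a ha b hb => ((hjet 0).cont.mono (uIcc_subset_Icc ha hb)).intervalIntegrable
  have hftc : ∫ s in (0 : ℝ)..windowTime l c, D 0 s = W z (windowTime l c) x - x := by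
    rw [intervalIntegral.integral_eq_sub_of_hasDerivAt (f := fun s => W z s x) ?_
      (hint 0 h0mem _ (windowTime_mem hl.le hc))]
    · simp only [(hW z).init]
    · intro s hs
      have := (hW z).deriv x s (hlr' s (uIcc_subset_Icc h0mem (windowTime_mem hl.le hc) hs))
      simpa only [D, flowJet, iteratedDeriv_zero, flowScore] using this
  have h1 := cell_quadrature_to hll hc n D (hjet _)
  have h2 := cell_quadrature_to hll (c := 1 / 2) ⟨by norm_num, by norm_num⟩ n D (hjet _)
  rw [show -l + (l - -l) * (1 / 2) = 0 by ring] at h2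
  have e : W z (windowTime l c) x - windowStep V r l (n + 1) c z x
        (fun j => W z (windowTime l (node (n + 1) j)) x) =
      ((∫ s in (-l)..-l + (l - -l) * c, D 0 s) - (l - -l) •
        ∑ i, ruleWeight (n + 1) (intTo c) i • D 0 (-l + (l - -l) * node (n + 1) i)) -
      ((∫ s in (-l)..0, D 0 s) - (l - -l) •
        ∑ i, ruleWeight (n + 1) (intTo (1 / 2)) i • D 0 (-l + (l - -l) * node (n + 1) i)) := by
    have hsum := intervalIntegral.integral_add_adjacent_intervals
      (hint (-l) ⟨le_rfl, hll⟩ 0 h0mem) (hint 0 h0mem _ (windowTime_mem hl.le hc))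
    rw [hftc] at hsum
    simp only [windowStep, gate_flow (W := W), windowWeight, mul_sub, sub_smul, mul_smul,
      Finset.sum_sub_distrib, ← Finset.smul_sum]
    simp only [windowTime, D] at hsum ⊢
    rw [← hsum]
    abel
  rw [e]
  refine (norm_sub_le _ _).trans ((add_le_add h1 h2).trans ?_)
  rw [show l - -l = 2 * l by ring]
  have hp : 0 ≤ (2 * l) ^ (n + 1) * ∫ s in (-l)..l, ‖D (n + 1) s‖ :=
    mul_nonneg (by positivity) hI
  have b1 := ruleSize_intTo_le_basisSize (n + 1) hc
  have b2 := ruleSize_intTo_le_basisSize (n + 1) (c := 1 / 2) ⟨by norm_num, by norm_num⟩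
  nlinarith [mul_le_mul_of_nonneg_right b1 hp, mul_le_mul_of_nonneg_right b2 hp]

/-- Quadrature of the flow on the window, in mean square. -/
theorem eLpNorm_window_quad_le [IsProbabilityMeasure μ] (hreg : Regular V)
    (hW : ∀ z, IsFlow V z r (W z)) (hξ : Measurable fun w => (zz w, ξ w)) (hl : 0 < l)
    (hlr : l ≤ √r / 2) (n : ℕ) {B : ℝ} (hB : 0 ≤ B)
    (hb : ∀ s ∈ Icc (-l) l,
      eLpNorm (fun w => flowJet V r W (zz w, ξ w) (n + 1) s) 2 μ ≤ ENNReal.ofReal B)
    {c : ℝ} (hc : c ∈ Icc (0 : ℝ) 1) :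
    eLpNorm (fun w => W (zz w) (windowTime l c) (ξ w) - windowStep V r l (n + 1) c (zz w) (ξ w)
        (fun j => W (zz w) (windowTime l (node (n + 1) j)) (ξ w))) 2 μ ≤
      ENNReal.ofReal (2 * (1 + basisSize (n + 1)) * (2 * l) ^ (n + 1) * ((l - -l) * B)) := by
  have hS0 : 0 ≤ 2 * (1 + basisSize (n + 1)) * (2 * l) ^ (n + 1) :=
    mul_nonneg (mul_nonneg (by norm_num) (add_nonneg zero_le_one ((ruleSize_nonneg _ _).trans
      (ruleSize_intTo_le_basisSize _ hc)))) (by positivity)
  have hI := eLpNorm_integral_norm_le (μ := μ) (a := -l) (b := l) (by linarith) hB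
    (f := fun w => flowJet V r W (zz w, ξ w) (n + 1))
    (fun w q hq => (hreg.hasDerivAt_flowJet hW _ (n + 1)
      (window_slab hl hlr hq).2.1).continuousAt.continuousWithinAt)
    (fun s hs => ((hreg.measurable_flowJet hW (n + 1) s
      (window_slab hl hlr hs).2.1).comp hξ).stronglyMeasurable) hb
  refine (eLpNorm_mono_real (g := (2 * (1 + basisSize (n + 1)) * (2 * l) ^ (n + 1)) •
      fun w => ∫ s in (-l)..l, ‖flowJet V r W (zz w, ξ w) (n + 1) s‖)
    fun w => norm_window_quad_le hreg hW hl hlr n hc (zz w) (ξ w)).trans ?_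
  rw [eLpNorm_const_smul, Real.enorm_eq_ofReal_abs, abs_of_nonneg hS0, ENNReal.ofReal_mul hS0]
  exact mul_le_mul' le_rfl hI

/-- The score at a node of the flow, in mean square. -/
theorem eLpNorm_gate_flow_le [IsProbabilityMeasure μ] [IsProbabilityMeasure ν] (hreg : Regular V)
    (hW : ∀ z, IsFlow V z r (W z))
    (hlaw : MeasurePreserving (fun w => (zz w, ξ w)) μ (ν.prod (stdGaussian (Space d))))
    (hl : 0 < l) (hlr : l ≤ √r / 2) (hr1 : r ≤ 1) {E B : ℝ} (hE : 0 ≤ E) (hB : 0 ≤ B)
    (hEs : eLpNorm (score V r) 2 ν ≤ ENNReal.ofReal E)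
    (hb : ∀ s ∈ Icc (-l) l,
      eLpNorm (fun w => flowJet V r W (zz w, ξ w) 1 s) 2 μ ≤ ENNReal.ofReal B)
    (M : ℕ) (j : Fin M) :
    eLpNorm (fun w => windowGate V r l M j (zz w) (W (zz w) (windowTime l (node M j)) (ξ w))) 2 μ
      ≤ ENNReal.ofReal (E + B) := by
  set t := windowTime l (node M j)
  have ht : t ∈ Icc (-l) l := windowTime_mem hl.le (Ioc_subset_Icc_self (node_mem _ _))
  have h0mem : (0 : ℝ) ∈ Icc (-l) l := ⟨by linarith, hl.le⟩
  have hll : -l ≤ l := by linarith
  have hr : 0 < r := (window_slab hl hlr h0mem).1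
  have hslab : ∀ q ∈ Icc (-l) l, q ^ 2 < r := fun q hq => (window_slab hl hlr hq).2.1
  have hjm : ∀ m, ∀ q ∈ Icc (-l) l, Measurable fun w => flowJet V r W (zz w, ξ w) m q :=
    fun m q hq => (hreg.measurable_flowJet hW m q (hslab q hq)).comp hlaw.measurable
  rw [show (fun w => windowGate V r l M j (zz w) (W (zz w) t (ξ w))) = fun w => flowJet V r W (zz w, ξ w) 0 t from funext fun w => gate_flow M j _ _]
  set g : Ω → Space d := fun w => flowJet V r W (zz w, ξ w) 0 0
  have hg : eLpNorm g 2 μ ≤ ENNReal.ofReal E := by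
    have e : g = (score V r ∘ Prod.fst) ∘ fun w => (zz w, ξ w) := by
      funext w
      simp [g, flowJet, flowScore]
    rw [e, eLpNorm_comp_measurePreserving
        (((hreg.lip r hr.le).continuous.comp continuous_fst).aestronglyMeasurable) hlaw,
      eLpNorm_comp_measurePreserving (hreg.lip r hr.le).continuous.aestronglyMeasurable
        measurePreserving_fst]
    exact hEs
  have hc1 : ∀ w, ContinuousOn (flowJet V r W (zz w, ξ w) 1) (Icc (-l) l) := fun w q hq =>
    (hreg.hasDerivAt_flowJet hW _ 1 (hslab q hq)).continuousAt.continuousWithinAt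
  have hI := eLpNorm_integral_norm_le (μ := μ) (a := -l) (b := l) hll hB hc1
    (fun s hs => (hjm 1 s hs).stronglyMeasurable) hb
  have hsub : eLpNorm (fun w => flowJet V r W (zz w, ξ w) 0 t - g w) 2 μ ≤ ENNReal.ofReal B := by
    refine ((eLpNorm_mono_real (g := fun w => ∫ s in (-l)..l, ‖flowJet V r W (zz w, ξ w) 1 s‖)
      fun w => ?_).trans hI).trans (ENNReal.ofReal_le_ofReal (mul_le_of_le_one_left hB ?_))
    · have hsub : uIcc 0 t ⊆ Icc (-l) l := uIcc_subset_Icc h0mem ht
      rw [← intervalIntegral.integral_eq_sub_of_hasDerivAt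
        (fun s hs => hreg.hasDerivAt_flowJet hW (zz w, ξ w) 0 (hslab s (hsub hs)))
        ((hc1 w).mono hsub).intervalIntegrable]
      exact intervalIntegral.norm_integral_le_abs_integral_norm.trans
        (abs_intervalIntegral_le hll hsub (fun s => norm_nonneg _) (hc1 w).norm)
    · linarith [Real.sqrt_le_one.2 hr1]
  have e : (fun w => flowJet V r W (zz w, ξ w) 0 t) =
      g + fun w => flowJet V r W (zz w, ξ w) 0 t - g w := by
    funext w; simp
  rw [e, ENNReal.ofReal_add hE hB]
  exact (eLpNorm_add_le (hjm 0 0 h0mem).aestronglyMeasurable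
    ((hjm 0 _ ht).sub (hjm 0 0 h0mem)).aestronglyMeasurable one_le_two).trans (add_le_add hg hsub)

theorem norm_windowGate_sub_le (hreg : Regular V) (hl : 0 < l) (hlr : l ≤ √r / 2) (M : ℕ)
    (j : Fin M) (z u v : Space d) :
    ‖windowGate V r l M j z u - windowGate V r l M j z v‖ ≤ 2 * l * ‖u - v‖ := by
  have ht := windowTime_mem hl.le (Ioc_subset_Icc_self (node_mem M j))
  refine ((hreg.lip _ (sub_nonneg.2 (window_slab hl hlr ht).2.1.le)).norm_sub_le _ _).trans ?_
  rw [add_sub_add_left_eq_sub, ← smul_sub, norm_smul, Real.norm_eq_abs, NNReal.coe_ofNat,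
    ← mul_assoc]
  gcongr
  exact abs_le.2 ht

theorem measurable_windowGate (hreg : Regular V) (hl : 0 < l) (hlr : l ≤ √r / 2) (M : ℕ)
    (j : Fin M) {a b : Ω → Space d} (ha : Measurable a) (hb : Measurable b) :
    Measurable fun w => windowGate V r l M j (a w) (b w) := by
  have ht := windowTime_mem hl.le (Ioc_subset_Icc_self (node_mem M j))
  exact (hreg.lip _ (sub_nonneg.2 (window_slab hl hlr ht).2.1.le)).continuous.measurable.comp
    (ha.add (hb.fun_const_smul (c := windowTime l (node M j))))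

theorem measurable_windowStep (hreg : Regular V) (hl : 0 < l) (hlr : l ≤ √r / 2) (M : ℕ) (c : ℝ)
    {a b : Ω → Space d} (ha : Measurable a) (hb : Measurable b) {u : Fin M → Ω → Space d}
    (hu : ∀ j, Measurable (u j)) :
    Measurable fun w => windowStep V r l M c (a w) (b w) (fun j => u j w) :=
  hb.add (Finset.measurable_fun_sum _ fun j _ =>
    (measurable_windowGate hreg hl hlr M j ha (hu j)).fun_const_smul (c := windowWeight M l c j))

theorem eLpNorm_windowStep_sub_le (hreg : Regular V) (hl : 0 < l) (hlr : l ≤ √r / 2) (M : ℕ)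
    {c : ℝ} (hc : c ∈ Icc (0 : ℝ) 1) {a b : Ω → Space d} (ha : Measurable a)
    {u v : Fin M → Ω → Space d} (hu : ∀ j, Measurable (u j)) (hv : ∀ j, Measurable (v j)) {Ek : ℝ}
    (hEk : 0 ≤ Ek) (h : ∀ j, eLpNorm (fun w => u j w - v j w) 2 μ ≤ ENNReal.ofReal Ek) :
    eLpNorm (fun w => windowStep V r l M c (a w) (b w) (fun j => u j w)
        - windowStep V r l M c (a w) (b w) (fun j => v j w)) 2 μ ≤
      ENNReal.ofReal (4 * l * basisSize M * (2 * l) * Ek) := by
  simp only [windowStep, add_sub_add_left_eq_sub, ← Finset.sum_sub_distrib, ← smul_sub]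
  refine (eLpNorm_weighted_sum_le _
    (fun j => ((measurable_windowGate hreg hl hlr M j ha (hu j)).sub
      (measurable_windowGate hreg hl hlr M j ha (hv j))).aestronglyMeasurable)
    (B := fun _ => 2 * l * Ek) (fun _ => by positivity) fun j => ?_).trans
    (ENNReal.ofReal_le_ofReal ?_)
  · refine (eLpNorm_le_mul_eLpNorm_of_ae_le_mul (Eventually.of_forall fun w =>
      norm_windowGate_sub_le hreg hl hlr M j (a w) (u j w) (v j w)) 2).trans ?_
    rw [ENNReal.ofReal_mul (by positivity : (0 : ℝ) ≤ 2 * l)]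
    exact mul_le_mul' le_rfl (h j)
  · rw [← Finset.sum_mul, mul_assoc _ (2 * l) Ek]
    exact mul_le_mul_of_nonneg_right (sum_abs_windowWeight_le _ hl.le hc) (by positivity)

/-- Iteration on the window against the flow, all bounds given. -/
theorem eLpNorm_window_iter_le [IsProbabilityMeasure μ] [IsProbabilityMeasure ν] (hreg : Regular V)
    (hW : ∀ z, IsFlow V z r (W z))
    (hlaw : MeasurePreserving (fun w => (zz w, ξ w)) μ (ν.prod (stdGaussian (Space d))))
    (hl : 0 < l) (hlr : l ≤ √r / 2) {M : ℕ} {G qe e η : ℝ} (hG : 0 ≤ G) (hq : 0 ≤ qe) (he : 0 ≤ e)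
    (hη : η ≤ 1 / 2) (hηge : 4 * l * basisSize M * (2 * l) ≤ η)
    (hgate : ∀ j, eLpNorm (fun w => windowGate V r l M j (zz w)
      (W (zz w) (windowTime l (node M j)) (ξ w))) 2 μ ≤ ENNReal.ofReal G)
    (hquad : ∀ c ∈ Icc (0 : ℝ) 1, eLpNorm (fun w => W (zz w) (windowTime l c) (ξ w)
      - windowStep V r l M c (zz w) (ξ w)
        (fun j => W (zz w) (windowTime l (node M j)) (ξ w))) 2 μ ≤ ENNReal.ofReal qe)
    {y : ℕ → Fin M → Ω → Space d} (hym : ∀ k i, Measurable (y k i)) (hy0 : ∀ i, y 0 i = ξ)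
    (hy : ∀ k i, eLpNorm (fun w => y (k + 1) i w
      - windowStep V r l M (node M i) (zz w) (ξ w) (fun j => y k j w)) 2 μ
      ≤ ENNReal.ofReal e)
    (k : ℕ) {c : ℝ} (hc : c ∈ Icc (0 : ℝ) 1) {o : Ω → Space d} (hom : Measurable o)
    (ho : eLpNorm (fun w => o w - windowStep V r l M c (zz w) (ξ w) (fun j => y k j w)) 2 μ
      ≤ ENNReal.ofReal e) :
    eLpNorm (fun w => o w - W (zz w) (windowTime l c) (ξ w)) 2 μ ≤
      ENNReal.ofReal (η ^ k * (qe + 4 * l * basisSize M * G) + 3 * qe + 3 * e) := by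
  have hB : 0 ≤ basisSize M :=
    (ruleSize_nonneg _ _).trans (ruleSize_intTo_le_basisSize M hc)
  have hη0 : 0 ≤ η := le_trans (by positivity) hηge
  have hξ : Measurable ξ := measurable_snd.comp hlaw.measurable
  have hzz : Measurable zz := measurable_fst.comp hlaw.measurable
  set X : ℝ → Ω → Space d := fun c w => W (zz w) (windowTime l c) (ξ w)
  have hXm : ∀ c ∈ Icc (0 : ℝ) 1, Measurable (X c) := fun c hc =>
    ((hreg.continuous_flow hW (window_slab hl hlr (windowTime_mem hl.le hc)).2.1).measurable).comp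
      hlaw.measurable
  have hmem : ∀ i, node M i ∈ Icc (0 : ℝ) 1 := fun i => Ioc_subset_Icc_self (node_mem _ _)
  have hgm : ∀ j, ∀ u : Ω → Space d, Measurable u →
      Measurable fun w => windowGate V r l M j (zz w) (u w) := fun j u hu =>
    measurable_windowGate hreg hl hlr M j hzz hu
  set E0 : ℝ := qe + 4 * l * basisSize M * G
  have hstart : ∀ i, eLpNorm (fun w => y 0 i w - X (node M i) w) 2 μ ≤ ENNReal.ofReal E0 := by
    intro i
    set v : Ω → Space d := fun w =>
      ∑ j, windowWeight M l (node M i) j • windowGate V r l M j (zz w) (X (node M j) w)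
    set u : Ω → Space d := fun w => X (node M i) w
      - windowStep V r l M (node M i) (zz w) (ξ w) (fun j => X (node M j) w)
    have hvm : Measurable v := Finset.measurable_fun_sum _ fun j _ =>
      (hgm j _ (hXm _ (hmem j))).fun_const_smul (c := windowWeight M l (node M i) j)
    have hum : Measurable u := (hXm _ (hmem i)).sub
      (measurable_windowStep hreg hl hlr M _ hzz hξ fun j => hXm _ (hmem j))
    have hv : eLpNorm v 2 μ ≤ ENNReal.ofReal (4 * l * basisSize M * G) := by
      refine (eLpNorm_weighted_sum_le _ (fun j => (hgm j _ (hXm _ (hmem j))).aestronglyMeasurable)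
        (fun _ => hG) hgate).trans (ENNReal.ofReal_le_ofReal ?_)
      rw [← Finset.sum_mul]
      exact mul_le_mul_of_nonneg_right (sum_abs_windowWeight_le _ hl.le (hmem i)) hG
    have e' : (fun w => y 0 i w - X (node M i) w) = -(u + v) := by
      funext w
      simp only [hy0, u, v, windowStep, Pi.neg_apply, Pi.add_apply]
      abel
    rw [e', eLpNorm_neg, ENNReal.ofReal_add hq (by positivity)]
    exact (eLpNorm_add_le hum.aestronglyMeasurable hvm.aestronglyMeasurable one_le_two).trans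
      (add_le_add (hquad _ (hmem i)) hv)
  have hP := eLpNorm_picard_le (μ := μ) (fun i j => windowWeight M l (node M i) j)
    (G := fun j w => windowGate V r l M j (zz w)) (L := fun _ => 2 * l) (fun _ => by positivity)
    (fun j w u v => norm_windowGate_sub_le hreg hl hlr M j _ u v)
    (x0 := ξ) (x := fun i => X (node M i)) (y := y)
    (fun i => (hXm _ (hmem i)).aestronglyMeasurable) (fun k i => (hym k i).aestronglyMeasurable)
    hξ.aestronglyMeasurable (fun j => (hgm j _ (hXm _ (hmem j))).aestronglyMeasurable)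
    (fun k j => (hgm j _ (hym k j)).aestronglyMeasurable)
    (q := qe) (e := e) (E0 := E0) (η := η) hq he (by positivity) hη0 hη
    (fun i => by
      rw [← Finset.sum_mul]
      exact (mul_le_mul_of_nonneg_right (sum_abs_windowWeight_le _ hl.le (hmem i))
        (by positivity)).trans hηge)
    (fun i => hquad _ (hmem i)) hy hstart k
  set Ek : ℝ := η ^ k * E0 + 2 * (qe + e)
  have hEk : 0 ≤ Ek := by positivity
  have hz := (eLpNorm_windowStep_sub_le (μ := μ) (b := ξ) hreg hl hlr M hc hzz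
    (fun j => hym k j) (fun j => hXm _ (hmem j)) hEk hP).trans
    (ENNReal.ofReal_le_ofReal (mul_le_mul_of_nonneg_right hηge hEk))
  set u : Ω → Space d := fun w => o w - windowStep V r l M c (zz w) (ξ w) (fun j => y k j w)
  set v : Ω → Space d := fun w =>
    X c w - windowStep V r l M c (zz w) (ξ w) (fun j => X (node M j) w)
  set z : Ω → Space d := fun w => windowStep V r l M c (zz w) (ξ w) (fun j => y k j w)
    - windowStep V r l M c (zz w) (ξ w) (fun j => X (node M j) w)
  have hsy := measurable_windowStep hreg hl hlr M c hzz hξ (fun j => hym k j)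
  have hsx := measurable_windowStep hreg hl hlr M c hzz hξ (fun j => hXm _ (hmem j))
  have hum : Measurable u := hom.sub hsy
  have hvm : Measurable v := (hXm c hc).sub hsx
  have hzm : Measurable z := hsy.sub hsx
  have ee : (fun w => o w - W (zz w) (windowTime l c) (ξ w)) = u + z - v := by
    funext w
    simp only [u, v, z, X, Pi.add_apply, Pi.sub_apply]
    abel
  rw [ee]
  refine (eLpNorm_sub_le (hum.add hzm).aestronglyMeasurable hvm.aestronglyMeasurable
    one_le_two).trans ?_
  refine (add_le_add ((eLpNorm_add_le hum.aestronglyMeasurable hzm.aestronglyMeasurable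
    one_le_two).trans (add_le_add ho hz)) (hquad c hc)).trans ?_
  rw [← ENNReal.ofReal_add he (by positivity), ← ENNReal.ofReal_add (by positivity) hq]
  refine ENNReal.ofReal_le_ofReal ?_
  have h1 : η * Ek ≤ η ^ k * E0 + (qe + e) := by
    have : 0 ≤ η ^ k * E0 := by positivity
    simp only [Ek]
    nlinarith [mul_le_mul_of_nonneg_right hη (show (0 : ℝ) ≤ 2 * (qe + e) by positivity)]
  linarith

end

/-- The window of the flow by Picard iteration at the nodes, in mean square. -/
theorem window_flow_error (hT : TimeSpec) (n : ℕ) :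
    ∃ C : ℝ, 0 < C ∧ ∀ (d : ℕ) (V : Space d → ℝ), Quarter.InClass V → Regular V →
      ∀ (r l : ℝ), r ≤ 1 → 0 < l → l ≤ √r / 2 → C * l ^ 2 ≤ 1 / 2 →
      ∀ W : Space d → ℝ → Space d → Space d, (∀ z, IsFlow V z r (W z)) →
      ∀ (Ω : Type) (_ : MeasurableSpace Ω) (μ : Measure Ω) (ν : Measure (Space d)),
        IsProbabilityMeasure μ → IsProbabilityMeasure ν →
      ∀ zz ξ : Ω → Space d,
        MeasurePreserving (fun w => (zz w, ξ w)) μ (ν.prod (stdGaussian (Space d))) →
      ∀ (E e : ℝ), 0 ≤ E → 0 ≤ e → eLpNorm (score V r) 2 ν ≤ ENNReal.ofReal E →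
      ∀ y : ℕ → Fin (n + 1) → Ω → Space d, (∀ k i, Measurable (y k i)) → (∀ i, y 0 i = ξ) →
        (∀ k i, eLpNorm (fun w => y (k + 1) i w - windowStep V r l (n + 1) (node (n + 1) i)
          (zz w) (ξ w) (fun j => y k j w)) 2 μ ≤ ENNReal.ofReal e) →
      ∀ (k : ℕ) (c : ℝ), c ∈ Icc (0 : ℝ) 1 → ∀ o : Ω → Space d, Measurable o →
        eLpNorm (fun w => o w - windowStep V r l (n + 1) c (zz w) (ξ w) (fun j => y k j w)) 2 μ
          ≤ ENNReal.ofReal e →
        eLpNorm (fun w => o w - W (zz w) (windowTime l c) (ξ w)) 2 μ ≤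
          ENNReal.ofReal (C * ((C * l ^ 2) ^ k * (√d + E) + (l / √r) ^ n * √d + e)) := by
  obtain ⟨C0, hC0, h0⟩ := hT 0
  obtain ⟨Cn, hCn, hn⟩ := hT n
  have hS0 : 0 ≤ basisSize (n + 1) := (ruleSize_nonneg (n + 1) (intTo 1)).trans
    (ruleSize_intTo_le_basisSize (n + 1) ⟨zero_le_one, le_rfl⟩)
  set S : ℝ := 1 + basisSize (n + 1) with hS
  have hS1 : 1 ≤ S := le_add_of_nonneg_right hS0
  set Q : ℝ := 2 * S * (2 ^ (n + 2) * (2 ^ (n + 1) * Cn))
  have hQ0 : 0 < Q := by positivity
  set A : ℝ := 4 * S * (1 + 2 * C0)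
  set C : ℝ := max (max (8 * S) A) (max (4 * Q) 3)
  have hC8 : 8 * S ≤ C := le_max_of_le_left (le_max_left _ _)
  have hCA : A ≤ C := le_max_of_le_left (le_max_right _ _)
  have hCQ : 4 * Q ≤ C := le_max_of_le_right (le_max_left _ _)
  have hC3 : 3 ≤ C := le_max_of_le_right (le_max_right _ _)
  refine ⟨C, by linarith, ?_⟩
  intro d V hV hreg r l hr1 hl hlr hCl W hW Ω mΩ μ ν _ _ zz ξ hlaw E e hE he hEs y hym hy0 hy
    k c hc o hom ho
  have hsr : 0 < √r := by linarith
  have hl1 : l ≤ 1 / 2 := by linarith [Real.sqrt_le_one.2 hr1]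
  have hgate := eLpNorm_gate_flow_le (μ := μ) hreg hW hlaw hl hlr hr1 hE
    (B := 2 ^ (0 + 1) * C0 * √d / √r ^ 0) (by positivity) hEs
    (fun s hs => eLpNorm_flowJet_le hV hreg hW hlaw hl hlr hr1 hC0 h0 hs) (n + 1)
  simp only [zero_add, pow_one, pow_zero, div_one] at hgate
  set qe : ℝ := 2 * S * (2 * l) ^ (n + 1) * ((l - -l) * (2 ^ (n + 1) * Cn * √d / √r ^ n))
  have hqe : qe = Q * ((l / √r) ^ n * √d) * l ^ 2 := by
    simp only [qe, Q, div_pow, mul_pow]
    ring
  set P : ℝ := (l / √r) ^ n * √d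
  have hP0 : 0 ≤ P := by positivity
  have hqe0 : 0 ≤ qe := by rw [hqe]; positivity
  have hqeQ : qe ≤ Q * P := by
    rw [hqe]; exact mul_le_of_le_one_right (by positivity) (by nlinarith)
  set η : ℝ := 8 * S * l ^ 2 with hη
  have hη2 : η ≤ 1 / 2 := le_trans (mul_le_mul_of_nonneg_right hC8 (sq_nonneg l)) hCl
  have hηge : 4 * l * basisSize (n + 1) * (2 * l) ≤ η := by
    rw [hη, hS]; nlinarith [sq_nonneg l]
  refine (eLpNorm_window_iter_le hreg hW hlaw hl hlr (by positivity) hqe0 he hη2 hηge hgate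
    (fun c hc => eLpNorm_window_quad_le hreg hW hlaw.measurable hl hlr n (by positivity)
      (fun s hs => eLpNorm_flowJet_le hV hreg hW hlaw hl hlr hr1 hCn hn hs) hc)
    hym hy0 hy k hc hom ho).trans (ENNReal.ofReal_le_ofReal ?_)
  have hη0 : 0 ≤ η := by positivity
  have hηk : η ^ k ≤ (C * l ^ 2) ^ k :=
    pow_le_pow_left₀ hη0 (mul_le_mul_of_nonneg_right hC8 (sq_nonneg l)) k
  have hηk1 : η ^ k * qe ≤ qe :=
    mul_le_of_le_one_left hqe0 (pow_le_one₀ hη0 (by linarith))
  have hG : η ^ k * (4 * l * basisSize (n + 1) * (E + 2 * C0 * √d)) ≤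
      A * ((C * l ^ 2) ^ k * (√d + E)) := by
    have h3 : E + 2 * C0 * √d ≤ (1 + 2 * C0) * (√d + E) := by
      nlinarith [mul_nonneg hC0.le hE, Real.sqrt_nonneg (d : ℝ)]
    have h4 : 4 * l * basisSize (n + 1) ≤ 4 * S := by rw [hS]; nlinarith
    calc η ^ k * (4 * l * basisSize (n + 1) * (E + 2 * C0 * √d))
        ≤ (C * l ^ 2) ^ k * (4 * S * ((1 + 2 * C0) * (√d + E))) :=
          mul_le_mul hηk (mul_le_mul h4 h3 (by positivity) (by positivity)) (by positivity)
            (by positivity)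
      _ = _ := by simp only [A]; ring
  have hk0 : 0 ≤ (C * l ^ 2) ^ k * (√d + E) := by positivity
  nlinarith [mul_le_mul_of_nonneg_right hCA hk0, mul_le_mul_of_nonneg_right hCQ hP0,
    mul_le_mul_of_nonneg_right hC3 he]

/-- The derivative of the score from the window, in mean square. -/
theorem window_tan_error (hT : TimeSpec) (hTan : TanSpec) (n : ℕ) :
    ∃ (N : ℕ) (a κ : Fin N → ℝ) (C : ℝ), 0 < C ∧ (∀ i, |κ i| ≤ 1) ∧
      ∀ (d : ℕ) (V : Space d → ℝ), Quarter.InClass V → Regular V →
      ∀ (r l : ℝ), r ≤ 1 → 0 < l → l ≤ √r / 2 → C * l ^ 2 ≤ 1 / 2 →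
      ∀ W : Space d → ℝ → Space d → Space d, (∀ z, IsFlow V z r (W z)) →
      ∀ (Ω : Type) (_ : MeasurableSpace Ω) (μ : Measure Ω) (ν : Measure (Space d)),
        IsProbabilityMeasure μ → IsProbabilityMeasure ν →
      ∀ zz ξ : Ω → Space d,
        MeasurePreserving (fun w => (zz w, ξ w)) μ (ν.prod (stdGaussian (Space d))) →
      ∀ (E e e' : ℝ), 0 ≤ E → 0 ≤ e → 0 ≤ e' → eLpNorm (score V r) 2 ν ≤ ENNReal.ofReal E →
      ∀ y : ℕ → Fin (n + 1) → Ω → Space d, (∀ k i, Measurable (y k i)) → (∀ i, y 0 i = ξ) →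
        (∀ k i, eLpNorm (fun w => y (k + 1) i w - windowStep V r l (n + 1) (node (n + 1) i)
          (zz w) (ξ w) (fun j => y k j w)) 2 μ ≤ ENNReal.ofReal e) →
      ∀ (k : ℕ) (o : Fin N → Ω → Space d), (∀ i, Measurable (o i)) →
        (∀ i, eLpNorm (fun w => o i w - windowStep V r l (n + 1) ((κ i + 1) / 2) (zz w) (ξ w)
          (fun j => y k j w)) 2 μ ≤ ENNReal.ofReal e) →
      ∀ T : Ω → Space d, Measurable T →
        eLpNorm (fun w => T w - l⁻¹ • ∑ i, a i •
          score V (r - (κ i * l) ^ 2) (zz w + (κ i * l) • o i w)) 2 μ ≤ ENNReal.ofReal e' →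
        eLpNorm (fun w => T w - scoreD V r (zz w) (ξ w)) 2 μ ≤
          ENNReal.ofReal (C * ((C * l ^ 2) ^ k * (√d + E) + (l / √r) ^ n * √d + e) + e') := by
  obtain ⟨N, a, κ, Ct, hCt, hκ, htan⟩ := hTan n
  obtain ⟨Cw, hCw, hwin⟩ := window_flow_error hT n
  set A : ℝ := 2 * ∑ i, |a i| with hAdef
  have hA : 0 ≤ A := by positivity
  set C : ℝ := max Cw (A * Cw + Ct)
  have hC1 : Cw ≤ C := le_max_left _ _
  have hC2 : A * Cw + Ct ≤ C := le_max_right _ _
  refine ⟨N, a, κ, C, lt_of_lt_of_le hCw hC1, hκ, ?_⟩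
  intro d V hV hreg r l hr1 hl hlr hCl W hW Ω mΩ μ ν _ _ zz ξ hlaw E e e' hE he he' hEs y hym hy0
    hy k o hom ho T hTm hT'
  have hr : 0 < r := (window_slab hl hlr (q := 0) ⟨by linarith, hl.le⟩).1
  have hzz : Measurable zz := measurable_fst.comp hlaw.measurable
  have hc : ∀ i, (κ i + 1) / 2 ∈ Icc (0 : ℝ) 1 := fun i =>
    ⟨by linarith [(abs_le.1 (hκ i)).1], by linarith [(abs_le.1 (hκ i)).2]⟩
  have htime : ∀ i, windowTime l ((κ i + 1) / 2) = κ i * l := fun i => by unfold windowTime; ring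
  have hmem : ∀ i, κ i * l ∈ Icc (-l) l := fun i => htime i ▸ windowTime_mem hl.le (hc i)
  have hslab : ∀ i, (κ i * l) ^ 2 < r := fun i => (window_slab hl hlr (hmem i)).2.1
  set B : ℝ := Cw * ((Cw * l ^ 2) ^ k * (√d + E) + (l / √r) ^ n * √d + e)
  have hB0 : 0 ≤ B := by positivity
  have hB : ∀ i, eLpNorm (fun w => o i w - W (zz w) (κ i * l) (ξ w)) 2 μ ≤ ENNReal.ofReal B := by
    intro i
    have := hwin d V hV hreg r l hr1 hl hlr (le_trans (by gcongr) hCl) W hW Ω mΩ μ ν inferInstance
      inferInstance zz ξ hlaw E e hE he hEs y hym hy0 hy k _ (hc i) (o i) (hom i) (ho i)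
    rwa [htime i] at this
  set F : Fin N → Ω → Space d → Space d := fun i w u =>
    score V (r - (κ i * l) ^ 2) (zz w + (κ i * l) • u)
  have hFm : ∀ i, ∀ u : Ω → Space d, Measurable u → Measurable fun w => F i w (u w) :=
    fun i u hu => (hreg.lip _ (sub_nonneg.2 (hslab i).le)).continuous.measurable.comp
      (hzz.add (hu.fun_const_smul (c := κ i * l)))
  have hXm : ∀ i, Measurable fun w => W (zz w) (κ i * l) (ξ w) := fun i =>
    ((hreg.continuous_flow hW (hslab i)).measurable).comp hlaw.measurable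
  set S : Space d × Space d → Space d := fun x =>
    scoreD V r x.1 x.2 - l⁻¹ • ∑ i, a i • flowScore V r W x (κ i * l) with hSdef
  have hSm : Measurable S := by
    have h1 : Continuous fun x : Space d × Space d => scoreD V r x.1 x.2 :=
      ((hreg.contDiffOn_scoreD.continuousOn).comp_continuous
        (continuous_const.prodMk continuous_fst)
        (fun _ => ⟨hr, mem_univ _⟩)).clm_apply continuous_snd
    refine h1.measurable.sub (Measurable.fun_const_smul
      (Finset.measurable_fun_sum _ fun i _ => Measurable.fun_const_smul ?_ (c := a i)) (c := l⁻¹))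
    exact (hreg.lip _ (sub_nonneg.2 (hslab i).le)).continuous.measurable.comp
      (measurable_fst.add ((hreg.continuous_flow hW (hslab i)).measurable.fun_const_smul
        (c := κ i * l)))
  have hS : eLpNorm (fun w => S (zz w, ξ w)) 2 μ ≤ ENNReal.ofReal (Ct * (l / √r) ^ n * √d) := by
    rw [show (fun w => S (zz w, ξ w)) = S ∘ fun w => (zz w, ξ w) from rfl,
      eLpNorm_comp_measurePreserving hSm.aestronglyMeasurable hlaw]
    exact eLpNorm_le_of_lintegral_sq (by positivity) (lintegral_sq_prod_le hSm fun z =>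
      htan d V hV z r l hr hr1 hl hlr (W z) (hW z))
  set v : Ω → Space d := fun w =>
    l⁻¹ • ∑ i, a i • (F i w (o i w) - F i w (W (zz w) (κ i * l) (ξ w)))
  have hv : eLpNorm v 2 μ ≤ ENNReal.ofReal (A * B) := by
    have e1 : v = fun w => ∑ i, (l⁻¹ * a i) • (F i w (o i w) - F i w (W (zz w) (κ i * l) (ξ w))) := by
      funext w
      simp only [v, Finset.smul_sum, smul_smul]
    rw [e1]
    refine (eLpNorm_weighted_sum_le _
      (fun i => ((hFm i _ (hom i)).sub (hFm i _ (hXm i))).aestronglyMeasurable)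
      (B := fun _ => 2 * l * B) (fun _ => by positivity) fun i => ?_).trans
      (ENNReal.ofReal_le_ofReal (le_of_eq ?_))
    · refine (eLpNorm_le_mul_eLpNorm_of_ae_le_mul (c := 2 * l)
        (g := fun w => o i w - W (zz w) (κ i * l) (ξ w))
        (Eventually.of_forall fun w => ?_) 2).trans ?_
      · refine ((hreg.lip _ (sub_nonneg.2 (hslab i).le)).norm_sub_le _ _).trans ?_
        rw [add_sub_add_left_eq_sub, ← smul_sub, norm_smul, Real.norm_eq_abs, NNReal.coe_ofNat,
          ← mul_assoc]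
        gcongr
        exact abs_le.2 (hmem i)
      · rw [ENNReal.ofReal_mul (by positivity : (0 : ℝ) ≤ 2 * l)]
        exact mul_le_mul' le_rfl (hB i)
    · simp only [abs_mul, abs_of_pos (inv_pos.2 hl), mul_assoc, ← Finset.mul_sum, ← Finset.sum_mul,
        hAdef]
      field_simp
  set u : Ω → Space d := fun w => T w - l⁻¹ • ∑ i, a i • F i w (o i w)
  have hum : Measurable u := hTm.sub (Measurable.fun_const_smul
    (Finset.measurable_fun_sum _ fun i _ => (hFm i _ (hom i)).fun_const_smul (c := a i)) (c := l⁻¹))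
  have hvm : Measurable v := Measurable.fun_const_smul (Finset.measurable_fun_sum _ fun i _ =>
    ((hFm i _ (hom i)).sub (hFm i _ (hXm i))).fun_const_smul (c := a i)) (c := l⁻¹)
  have ee : (fun w => T w - scoreD V r (zz w) (ξ w)) = u + v - fun w => S (zz w, ξ w) := by
    funext w
    simp only [u, v, F, hSdef, flowScore, Pi.add_apply, Pi.sub_apply, smul_sub,
      Finset.sum_sub_distrib]
    abel
  rw [ee]
  refine (eLpNorm_sub_le (hum.add hvm).aestronglyMeasurable
    (hSm.comp hlaw.measurable).aestronglyMeasurable one_le_two).trans ?_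
  refine (add_le_add ((eLpNorm_add_le hum.aestronglyMeasurable hvm.aestronglyMeasurable
    one_le_two).trans (add_le_add hT' hv)) hS).trans ?_
  rw [← ENNReal.ofReal_add he' (by positivity),
    ← ENNReal.ofReal_add (by positivity) (by positivity)]
  refine ENNReal.ofReal_le_ofReal ?_
  set P : ℝ := (l / √r) ^ n * √d
  set R : ℝ := (C * l ^ 2) ^ k * (√d + E) + P + e
  have hR : (Cw * l ^ 2) ^ k * (√d + E) + P + e ≤ R := by
    simp only [R]
    gcongr
  have hP : P ≤ R := le_add_of_le_of_nonneg (le_add_of_nonneg_left (by positivity)) he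
  have h1 : A * B ≤ A * Cw * R := by
    rw [mul_assoc A Cw R]
    exact mul_le_mul_of_nonneg_left (mul_le_mul_of_nonneg_left hR hCw.le) hA
  have h2 : Ct * (l / √r) ^ n * √d ≤ Ct * R := by
    rw [mul_assoc]; exact mul_le_mul_of_nonneg_left hP hCt.le
  have h3 : (A * Cw + Ct) * R ≤ C * R := mul_le_mul_of_nonneg_right hC2 (le_trans (by positivity) hP)
  linarith

end

end P347.Zero
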