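import Vale.Agent.P347.Zero.Base
import Vale.Agent.P347.Zero.Paths
import Vale.Agent.P347.Zero.Window

/-!
# P347: quadrature defects along the pair flow

`w` and `X = score + ρ • U` solve linear-in-velocity equations along the pair flow; on the
geometric grid the rules of `Picard` give their increments up to the fine end with an error which
is a high power of the relative cell size, in mean square under the law of the pair at the fine end.
-/

namespace P347.Zero

open MeasureTheory ProbabilityTheory Set Filter Topology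
open scoped ENNReal

noncomputable section

variable {d : ℕ} {V : Space d → ℝ} {y : Space d} {t ρ q₁ : ℝ}
variable {w U : ℝ → Space d × Space d → Space d}

attribute [local irreducible] score smooth scoreD

/-- The time derivatives of the node functions along the pair flow. -/
def pairJet (V : Space d → ℝ) (y : Space d) (t q₁ : ℝ) (w U : ℝ → Space d × Space d → Space d)
    (z : Space d × Space d) (j : Fin 3) (k : ℕ) (q : ℝ) : Space d :=
  iteratedDerivWithin k (nodeFn V y t w U z j) (Icc 0 q₁) q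

/-- The time derivatives of the velocity of `w`. -/
def velW (V : Space d → ℝ) (y : Space d) (t ρ q₁ : ℝ) (w U : ℝ → Space d × Space d → Space d)
    (z : Space d × Space d) (k : ℕ) (q : ℝ) : Space d :=
  pairJet V y t q₁ w U z 0 k q + ρ⁻¹ • pairJet V y t q₁ w U z 1 k q

/-- The time derivatives of the velocity of `X`. -/
def velX (V : Space d → ℝ) (y : Space d) (t ρ q₁ : ℝ) (w U : ℝ → Space d × Space d → Space d)
    (z : Space d × Space d) (k : ℕ) (q : ℝ) : Space d :=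
  ρ⁻¹ • (q • pairJet V y t q₁ w U z 2 k q + (k : ℝ) • pairJet V y t q₁ w U z 2 (k - 1) q)

theorem velW_zero (z : Space d × Space d) (q : ℝ) :
    velW V y t ρ q₁ w U z 0 q = score V (t - q ^ 2) (y + q • w q z) +
      ρ⁻¹ • scoreD V (t - q ^ 2) (y + q • w q z) (U q z) := by
  simp only [velW, pairJet, iteratedDerivWithin_zero, nodeFn]

theorem velX_zero (z : Space d × Space d) (q : ℝ) :
    velX V y t ρ q₁ w U z 0 q = (q / ρ) • scoreD V (t - q ^ 2) (y + q • w q z)
      (scoreD V (t - q ^ 2) (y + q • w q z) (U q z)) := by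
  simp only [velX, pairJet, iteratedDerivWithin_zero, nodeFn, Nat.cast_zero, zero_smul, add_zero,
    smul_smul, div_eq_inv_mul]

/-- The value `X` of the pair flow. -/
def pairX (V : Space d → ℝ) (y : Space d) (t ρ : ℝ) (w U : ℝ → Space d × Space d → Space d)
    (q : ℝ) (z : Space d × Space d) : Space d :=
  score V (t - q ^ 2) (y + q • w q z) + ρ • U q z

theorem hasDerivWithinAt_pairJet (hq₁ : 0 < q₁) {z : Space d × Space d} {j : Fin 3} {m k : ℕ}
    (h : ContDiffOn ℝ m (nodeFn V y t w U z j) (Icc 0 q₁)) (hk : k < m) {q : ℝ}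
    (hq : q ∈ Icc 0 q₁) :
    HasDerivWithinAt (pairJet V y t q₁ w U z j k) (pairJet V y t q₁ w U z j (k + 1) q)
      (Icc 0 q₁) q := by
  have hd := (h.differentiableOn_iteratedDerivWithin (by exact_mod_cast hk)
    (uniqueDiffOn_Icc hq₁)) q hq
  unfold pairJet
  rw [iteratedDerivWithin_succ]
  exact hd.hasDerivWithinAt

theorem isJet_velW (hq₁ : 0 < q₁) {z : Space d × Space d} {m n : ℕ}
    (h : ∀ j, ContDiffOn ℝ m (nodeFn V y t w U z j) (Icc 0 q₁)) (hn : n < m) :
    IsJet (velW V y t ρ q₁ w U z) n 0 q₁ := by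
  have hd : ∀ k < m, ∀ q ∈ Icc 0 q₁,
      HasDerivWithinAt (velW V y t ρ q₁ w U z k) (velW V y t ρ q₁ w U z (k + 1) q) (Icc 0 q₁) q :=
    fun k hk q hq => (hasDerivWithinAt_pairJet hq₁ (h 0) hk hq).add
      ((hasDerivWithinAt_pairJet hq₁ (h 1) hk hq).const_smul ρ⁻¹)
  exact ⟨fun k hk => hd k (hk.trans hn), fun q hq => (hd n hn q hq).continuousWithinAt⟩

theorem isJet_velX (hq₁ : 0 < q₁) {z : Space d × Space d} {m n : ℕ}
    (h : ContDiffOn ℝ m (nodeFn V y t w U z 2) (Icc 0 q₁)) (hn : n < m) :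
    IsJet (velX V y t ρ q₁ w U z) n 0 q₁ := by
  have hd : ∀ k < m, ∀ q ∈ Icc 0 q₁,
      HasDerivWithinAt (velX V y t ρ q₁ w U z k) (velX V y t ρ q₁ w U z (k + 1) q) (Icc 0 q₁) q := by
    intro k hk q hq
    have h1 : HasDerivWithinAt (fun s => s • pairJet V y t q₁ w U z 2 k s)
        (q • pairJet V y t q₁ w U z 2 (k + 1) q + (1 : ℝ) • pairJet V y t q₁ w U z 2 k q)
        (Icc 0 q₁) q := (hasDerivWithinAt_id q _).smul (hasDerivWithinAt_pairJet hq₁ h hk hq)
    have h2 : HasDerivWithinAt (fun s => (k : ℝ) • pairJet V y t q₁ w U z 2 (k - 1) s)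
        ((k : ℝ) • pairJet V y t q₁ w U z 2 k q) (Icc 0 q₁) q := by
      rcases k with _ | k
      · simpa using hasDerivWithinAt_const q (Icc 0 q₁) (0 : Space d)
      · simp only [Nat.add_sub_cancel]
        exact (hasDerivWithinAt_pairJet hq₁ h (Nat.lt_of_succ_lt hk) hq).const_smul
          ((k + 1 : ℕ) : ℝ)
    refine ((h1.add h2).const_smul ρ⁻¹).congr_deriv ?_
    simp only [velX, Nat.cast_succ, Nat.add_sub_cancel, add_smul, one_smul]
    module
  exact ⟨fun k hk => hd k (hk.trans hn), fun q hq => (hd n hn q hq).continuousWithinAt⟩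

theorem measurable_pairJet (hreg : Regular V) (hq₁ : 0 < q₁) (hq₁t : q₁ ^ 2 < t)
    (hwU : IsPair V y t ρ q₁ w U) {j : Fin 3} {m : ℕ}
    (h : ∀ z, ContDiffOn ℝ m (nodeFn V y t w U z j) (Icc 0 q₁)) :
    ∀ k, k ≤ m → ∀ q ∈ Icc 0 q₁, Measurable fun z => pairJet V y t q₁ w U z j k q := by
  intro k
  induction k with
  | zero =>
    intro _ q hq
    have hr : 0 < t - q ^ 2 := by linarith [pow_le_pow_left₀ hq.1 hq.2 2]
    obtain ⟨hwc, hUc⟩ := hwU.cont q hq
    have hz : Continuous fun z : Space d × Space d => y + q • w q z :=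
      continuous_const.add (hwc.const_smul q)
    have hD : Continuous fun z : Space d × Space d => scoreD V (t - q ^ 2) (y + q • w q z) :=
      (hreg.contDiffOn_scoreD.continuousOn).comp_continuous (continuous_const.prodMk hz)
        fun _ => ⟨hr, mem_univ _⟩
    simp only [pairJet, iteratedDerivWithin_zero]
    fin_cases j
    · simpa [nodeFn, Function.comp_def] using ((hreg.lip _ hr.le).continuous.comp hz).measurable
    · simpa [nodeFn] using (hD.clm_apply hUc).measurable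
    · simpa [nodeFn] using (hD.clm_apply (hD.clm_apply hUc)).measurable
  | succ k ih =>
    intro hk q hq
    -- difference quotients towards the inside of the interval
    obtain ⟨δ, hδ0, hδ⟩ : ∃ δ : ℝ, δ ≠ 0 ∧ ∀ a ∈ Ioc (0 : ℝ) 1, q + δ * a ∈ Icc 0 q₁ := by
      rcases lt_or_ge q q₁ with hlt | hge
      · refine ⟨q₁ - q, (sub_pos.2 hlt).ne', fun a ha => ⟨?_, ?_⟩⟩ <;> nlinarith [ha.1, ha.2, hq.1]
      · refine ⟨-q, by linarith, fun a ha => ⟨?_, ?_⟩⟩ <;> nlinarith [ha.1, ha.2, hq.1, hq.2]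
    have hsmall : Tendsto (fun i : ℕ => δ * (1 / ((i : ℝ) + 1))) atTop (𝓝 0) := by
      simpa using tendsto_one_div_add_atTop_nhds_zero_nat.const_mul δ
    have ha : ∀ i : ℕ, 1 / ((i : ℝ) + 1) ∈ Ioc (0 : ℝ) 1 := fun i =>
      ⟨by positivity, (div_le_one (by positivity)).2 (by linarith [(i.cast_nonneg : (0 : ℝ) ≤ i)])⟩
    refine measurable_of_tendsto_metrizable (f := fun (i : ℕ) z =>
      slope (pairJet V y t q₁ w U z j k) q (q + δ * (1 / ((i : ℝ) + 1)))) (fun i => ?_) ?_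
    · simp only [slope, vsub_eq_sub]
      exact ((ih (Nat.le_of_succ_le hk) _ (hδ _ (ha i))).sub
        (ih (Nat.le_of_succ_le hk) q hq)).fun_const_smul
          (c := (q + δ * (1 / ((i : ℝ) + 1)) - q)⁻¹)
    · rw [tendsto_pi_nhds]
      intro z
      refine (hasDerivWithinAt_iff_tendsto_slope.1
        (hasDerivWithinAt_pairJet hq₁ (h z) hk hq)).comp (tendsto_nhdsWithin_iff.2 ⟨?_, ?_⟩)
      · simpa using hsmall.const_add q
      · refine Eventually.of_forall fun i => ⟨hδ _ (ha i), ?_⟩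
        simp only [mem_singleton_iff, add_eq_left, mul_eq_zero, not_or]
        exact ⟨hδ0, (ha i).1.ne'⟩

/-- The square norm of the pair law is the integral over it. -/
theorem pairSq_eq_lintegral (hV : Quarter.InClass V) (q : ℝ)
    {F : Space d × Space d → Space d} (hF : Measurable F) :
    pairSq V y t q F = ∫⁻ z, ENNReal.ofReal (‖F z‖ ^ 2) ∂pairLaw V y t q := by
  have hG : Measurable fun z : Space d × Space d => ENNReal.ofReal (‖F z‖ ^ 2) := by fun_prop
  have hden : Measurable fun a : Space d =>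
      ENNReal.ofReal (smooth V (t - q ^ 2) (y + q • a) / smooth V t y) :=
    (((continuous_smooth hV).comp (by fun_prop : Continuous fun a : Space d =>
      (t - q ^ 2, y + q • a))).div_const _).measurable.ennreal_ofReal
  rw [pairLaw, lintegral_prod _ hG.aemeasurable,
    lintegral_withDensity_eq_lintegral_mul _ hden hG.lintegral_prod_right', pairSq]
  exact lintegral_congr fun a => by simp only [Pi.mul_apply, mul_comm]

theorem eLpNorm_pairJet_le (hV : Quarter.InClass V) (hreg : Regular V) (hq₁ : 0 < q₁)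
    (hq₁t : q₁ ^ 2 < t) (hwU : IsPair V y t ρ q₁ w U) {j : Fin 3} {m k : ℕ} (hk : k ≤ m)
    (h : ∀ z, ContDiffOn ℝ m (nodeFn V y t w U z j) (Icc 0 q₁)) {q : ℝ} (hq : q ∈ Icc 0 q₁)
    {B : ℝ} (hB : 0 ≤ B)
    (hb : pairSq V y t q₁ (fun z => iteratedDerivWithin k (nodeFn V y t w U z j) (Icc 0 q₁) q)
      ≤ ENNReal.ofReal (B ^ 2)) :
    eLpNorm (fun z => pairJet V y t q₁ w U z j k q) 2 (pairLaw V y t q₁) ≤ ENNReal.ofReal B := by
  have hm := measurable_pairJet hreg hq₁ hq₁t hwU h k hk q hq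
  exact eLpNorm_le_of_lintegral_sq hB ((pairSq_eq_lintegral hV q₁ hm).symm.trans_le hb)

/-- A scalar multiple, in mean square. -/
theorem eLpNorm_smul_le {α : Type} [MeasurableSpace α] {μ : Measure α} {f : α → Space d} {B : ℝ}
    (c : ℝ) (h : eLpNorm f 2 μ ≤ ENNReal.ofReal B) :
    eLpNorm (fun x => c • f x) 2 μ ≤ ENNReal.ofReal (|c| * B) := by
  rw [show (fun x => c • f x) = c • f from rfl, eLpNorm_const_smul, Real.enorm_eq_ofReal_abs,
    ENNReal.ofReal_mul (abs_nonneg c)]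
  exact mul_le_mul' le_rfl h

instance sFinite_pairLaw (q : ℝ) : SFinite (pairLaw V y t q) := by
  unfold pairLaw
  have := SigmaFinite.withDensity_of_ne_top (μ := stdGaussian (Space d))
    (f := fun a => ENNReal.ofReal (smooth V (t - q ^ 2) (y + q • a) / smooth V t y))
    (Eventually.of_forall fun _ => ENNReal.ofReal_ne_top)
  infer_instance

/-- Powers of the cell against the variance. -/
theorem cell_power_le {t a e hj : ℝ} (ht : 0 < t) (ha : 0 < a) (hj0 : 0 ≤ hj) (he : 0 ≤ e)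
    (hcell : hj ≤ 2 * e * (2 * a ^ 2) / √t) (hat : a ≤ √t) (m : ℕ) :
    hj * (√t / a) ≤ 4 * e * √t ∧ (hj * (√t / a ^ 2)) ^ m ≤ (4 * e) ^ m := by
  have hs := Real.sqrt_pos.2 ht
  rw [le_div_iff₀ hs] at hcell
  constructor
  · rw [← mul_div_assoc, div_le_iff₀ ha]
    nlinarith [mul_le_mul_of_nonneg_left hat (show (0 : ℝ) ≤ 4 * e * a by positivity)]
  · refine pow_le_pow_left₀ (by positivity) ?_ m
    rw [← mul_div_assoc, div_le_iff₀ (by positivity)]
    nlinarith

/-- The bounds of one cell: `w` and `X`. -/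
theorem cell_terms_le {t ρ a e hj N : ℝ} (ht : 0 < t) (ht1 : t ≤ 1) (hρ : √t ≤ ρ) (ha : 0 < a)
    (hat : a ≤ √t) (hj0 : 0 ≤ hj) (hjt : hj ≤ √t) (he : 0 ≤ e) (he1 : e ≤ 1) (hN : 0 ≤ N)
    (hcell : hj ≤ 2 * e * (2 * a ^ 2) / √t) (n : ℕ) :
    hj ^ (n + 2) * ((1 + ρ⁻¹) * (N * (√t / a) * (√t / a ^ 2) ^ (n + 1)))
        ≤ 2 * 4 ^ (n + 2) * N * e ^ (n + 1) ∧
      hj ^ (n + 2) * (ρ⁻¹ * (√t * (N * (√t / a) * (√t / a ^ 2) ^ (n + 1))
          + (n + 1) * (N * (√t / a) * (√t / a ^ 2) ^ n)))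
        ≤ (n + 2) * 4 ^ (n + 2) * N * e ^ (n + 1) * √t := by
  have hs := Real.sqrt_pos.2 ht
  have hs1 : √t ≤ 1 := Real.sqrt_le_one.2 ht1
  have hρ0 : 0 < ρ := hs.trans_le hρ
  have hρt : ρ⁻¹ * √t ≤ 1 := by rw [inv_mul_le_iff₀ hρ0]; linarith
  obtain ⟨h1, h2⟩ := cell_power_le ht ha hj0 he hcell hat (n + 1)
  obtain ⟨-, h3⟩ := cell_power_le ht ha hj0 he hcell hat n
  have hA : hj ^ (n + 2) * (N * (√t / a) * (√t / a ^ 2) ^ (n + 1)) ≤
      4 ^ (n + 2) * N * e ^ (n + 1) * √t := by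
    calc hj ^ (n + 2) * (N * (√t / a) * (√t / a ^ 2) ^ (n + 1))
        = N * (hj * (√t / a)) * (hj * (√t / a ^ 2)) ^ (n + 1) := by rw [mul_pow, pow_succ]; ring
      _ ≤ N * (4 * e * √t) * (4 * e) ^ (n + 1) :=
          mul_le_mul (mul_le_mul_of_nonneg_left h1 hN) h2 (by positivity) (by positivity)
      _ = 4 ^ (n + 2) * N * e ^ (n + 1) * √t * e := by rw [mul_pow, pow_succ (4 : ℝ) (n + 1)]; ring
      _ ≤ _ := mul_le_of_le_one_right (by positivity) he1
  have hB : hj ^ (n + 2) * (N * (√t / a) * (√t / a ^ 2) ^ n) ≤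
      4 ^ (n + 2) * N * e ^ (n + 1) * √t * √t := by
    calc hj ^ (n + 2) * (N * (√t / a) * (√t / a ^ 2) ^ n)
        = N * (hj * (√t / a)) * (hj * (√t / a ^ 2)) ^ n * hj := by
          rw [mul_pow, pow_add, pow_two]; ring
      _ ≤ N * (4 * e * √t) * (4 * e) ^ n * √t :=
          mul_le_mul (mul_le_mul (mul_le_mul_of_nonneg_left h1 hN) h3 (by positivity)
            (by positivity)) hjt hj0 (by positivity)
      _ = 4 ^ (n + 1) * N * e ^ (n + 1) * √t * √t := by
          rw [mul_pow, pow_succ (4 : ℝ), pow_succ e]; ring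
      _ ≤ _ := by
          rw [pow_succ (4 : ℝ) (n + 1)]
          have : 0 ≤ (4 : ℝ) ^ (n + 1) * (N * e ^ (n + 1) * √t * √t) := by positivity
          linarith
  constructor
  · calc hj ^ (n + 2) * ((1 + ρ⁻¹) * (N * (√t / a) * (√t / a ^ 2) ^ (n + 1)))
        = (1 + ρ⁻¹) * (hj ^ (n + 2) * (N * (√t / a) * (√t / a ^ 2) ^ (n + 1))) := by ring
      _ ≤ (1 + ρ⁻¹) * (4 ^ (n + 2) * N * e ^ (n + 1) * √t) :=
          mul_le_mul_of_nonneg_left hA (by positivity)
      _ = (√t + ρ⁻¹ * √t) * (4 ^ (n + 2) * N * e ^ (n + 1)) := by ring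
      _ ≤ 2 * (4 ^ (n + 2) * N * e ^ (n + 1)) :=
          mul_le_mul_of_nonneg_right (by linarith) (by positivity)
      _ = _ := by ring
  · calc hj ^ (n + 2) * (ρ⁻¹ * (√t * (N * (√t / a) * (√t / a ^ 2) ^ (n + 1))
          + (n + 1) * (N * (√t / a) * (√t / a ^ 2) ^ n)))
        = ρ⁻¹ * √t * (hj ^ (n + 2) * (N * (√t / a) * (√t / a ^ 2) ^ (n + 1)))
          + ρ⁻¹ * ((n + 1) * (hj ^ (n + 2) * (N * (√t / a) * (√t / a ^ 2) ^ n))) := by ring
      _ ≤ 1 * (4 ^ (n + 2) * N * e ^ (n + 1) * √t)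
          + ρ⁻¹ * ((n + 1) * (4 ^ (n + 2) * N * e ^ (n + 1) * √t * √t)) :=
          add_le_add (mul_le_mul hρt hA (by positivity) zero_le_one)
            (mul_le_mul_of_nonneg_left (mul_le_mul_of_nonneg_left hB (by positivity))
              (by positivity))
      _ = (1 + ρ⁻¹ * √t * (n + 1)) * (4 ^ (n + 2) * N * e ^ (n + 1) * √t) := by ring
      _ ≤ (n + 2) * (4 ^ (n + 2) * N * e ^ (n + 1) * √t) := by
          refine mul_le_mul_of_nonneg_right ?_ (by positivity)
          nlinarith [(n.cast_nonneg : (0 : ℝ) ≤ n)]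
      _ = _ := by ring

/-- Increments up to the fine end are given by the weights `upWeight`. -/
theorem eLpNorm_up_defect {Ω : Type} [MeasurableSpace Ω] {μ : Measure Ω} [SFinite μ] {g : ℕ → ℝ}
    (hg : Monotone g) {J n : ℕ} {D : Ω → ℕ → ℝ → Space d}
    (hD : ∀ w, IsJet (D w) (n + 1) (g 0) (g J))
    (hm : ∀ k, k = 0 ∨ k = n + 1 → ∀ s ∈ Icc (g 0) (g J), Measurable fun w => D w k s)
    {X : ℝ → Ω → Space d} (hXm : ∀ s ∈ Icc (g 0) (g J), Measurable (X s))
    (hX : ∀ w, ∀ s ∈ Icc (g 0) (g J),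
      HasDerivWithinAt (fun s => X s w) (D w 0 s) (Icc (g 0) (g J)) s)
    {B : Fin J → ℝ} (hB : ∀ j, 0 ≤ B j)
    (hb : ∀ j : Fin J, ∀ s ∈ Icc (g j) (g ((j : ℕ) + 1)),
      eLpNorm (fun w => D w (n + 1) s) 2 μ ≤ ENNReal.ofReal (B j)) :
    (∀ p : Fin J × Fin (n + 1),
      eLpNorm (fun w => X (g J) w - X (gridNode g p) w
          - ∑ q, upWeight g p q • D w 0 (gridNode g q)) 2 μ ≤
        ENNReal.ofReal (2 * (toSize (n + 1) *
          ∑ j : Fin J, (g ((j : ℕ) + 1) - g j) ^ (n + 2) * B j))) ∧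
      eLpNorm (fun w => X (g J) w - X (g 0) w
          - ∑ q : Fin J × Fin (n + 1), gridFull g q • D w 0 (gridNode g q)) 2 μ ≤
        ENNReal.ofReal (toSize (n + 1) *
          ∑ j : Fin J, (g ((j : ℕ) + 1) - g j) ^ (n + 2) * B j) := by
  have hms : ∀ s ∈ Icc (g 0) (g J), StronglyMeasurable fun w => D w (n + 1) s := fun s hs =>
    (hm _ (Or.inr rfl) s hs).stronglyMeasurable
  have hftc : ∀ w, ∀ b ∈ Icc (g 0) (g J), ∫ s in g 0..b, D w 0 s = X b w - X (g 0) w := by
    intro w b hb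
    have hsub : Icc (g 0) b ⊆ Icc (g 0) (g J) := Icc_subset_Icc_right hb.2
    exact intervalIntegral.integral_eq_sub_of_hasDerivAt_of_le hb.1
      (fun s hs => ((hX w s (hsub hs)).continuousWithinAt).mono hsub)
      (fun s hs => (hX w s (hsub (Ioo_subset_Icc_self hs))).hasDerivAt
        (Icc_mem_nhds hs.1 (hs.2.trans_le hb.2)))
      (((hD w).continuousOn (Nat.zero_le _)).mono hsub |>.intervalIntegrable_of_Icc hb.1)
  have hgJ : g J ∈ Icc (g 0) (g J) := ⟨hg (Nat.zero_le J), le_rfl⟩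
  have hg0 : g 0 ∈ Icc (g 0) (g J) := ⟨le_rfl, hg (Nat.zero_le J)⟩
  have hfull := eLpNorm_grid_quadrature_full hg hD hms hB hb
  simp only [fun w => hftc w _ hgJ] at hfull
  refine ⟨fun p => ?_, hfull⟩
  have hto := eLpNorm_grid_quadrature hg hD hms hB hb p
  simp only [fun w => hftc w _ (gridNode_mem hg p)] at hto
  set E : ℝ := toSize (n + 1) * ∑ j : Fin J, (g ((j : ℕ) + 1) - g j) ^ (n + 2) * B j
  have hE : 0 ≤ E := mul_nonneg (le_trans zero_le_one (one_le_toSize _))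
    (Finset.sum_nonneg fun j _ =>
      mul_nonneg (pow_nonneg (sub_nonneg.2 (hg (Nat.le_succ _))) _) (hB j))
  have hsum : ∀ W : Fin J × Fin (n + 1) → ℝ,
      Measurable fun w => ∑ q, W q • D w 0 (gridNode g q) := fun W =>
    Finset.measurable_fun_sum _ fun q _ =>
      (hm 0 (Or.inl rfl) _ (gridNode_mem hg q)).fun_const_smul (c := W q)
  have e : (fun w => X (g J) w - X (gridNode g p) w
      - ∑ q, upWeight g p q • D w 0 (gridNode g q)) =
      (fun w => X (g J) w - X (g 0) w -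
        ∑ q : Fin J × Fin (n + 1), gridFull g q • D w 0 (gridNode g q)) -
        fun w => X (gridNode g p) w - X (g 0) w - ∑ q, gridWeight g p q • D w 0 (gridNode g q) := by
    funext w
    simp only [upWeight, sub_smul, Finset.sum_sub_distrib, Pi.sub_apply]
    abel
  rw [e, two_mul, ENNReal.ofReal_add hE hE]
  exact (eLpNorm_sub_le
    (((hXm _ hgJ).sub (hXm _ hg0)).sub (hsum _)).aestronglyMeasurable
    (((hXm _ (gridNode_mem hg p)).sub (hXm _ hg0)).sub (hsum _)).aestronglyMeasurable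
    one_le_two).trans (add_le_add hfull hto)

/-- The defects of `w` and `X` on the geometric grid. -/
theorem pair_defect (hP : PairTimeSpec) (n : ℕ) :
    ∃ C : ℝ, 0 < C ∧ ∀ (d : ℕ) (V : Space d → ℝ), Quarter.InClass V → Regular V →
      ∀ (y : Space d) (t ρ s h : ℝ) (J : ℕ), 0 < t → t ≤ 1 → √t ≤ ρ → 0 < s → s < t → 0 ≤ h →
      h ≤ 1 / 2 → t * (1 - h) ^ J ≤ s →
      ∀ w U, IsPair V y t ρ √(t - s) w U →
      (∀ p : Fin J × Fin (n + 1),
        eLpNorm (fun z => w √(t - s) z - w (gridNode (pairGrid t s h) p) z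
            - ∑ q, upWeight (pairGrid t s h) p q •
              velW V y t ρ √(t - s) w U z 0 (gridNode (pairGrid t s h) q)) 2
            (pairLaw V y t √(t - s))
          ≤ ENNReal.ofReal (C * J * √h ^ (n + 1) * (√d + ‖score V t y‖)) ∧
        eLpNorm (fun z => pairX V y t ρ w U √(t - s) z
            - pairX V y t ρ w U (gridNode (pairGrid t s h) p) z
            - ∑ q, upWeight (pairGrid t s h) p q •
              velX V y t ρ √(t - s) w U z 0 (gridNode (pairGrid t s h) q)) 2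
            (pairLaw V y t √(t - s))
          ≤ ENNReal.ofReal (C * J * √h ^ (n + 1) * (√d + ‖score V t y‖) * √t)) ∧
        eLpNorm (fun z => pairX V y t ρ w U √(t - s) z - pairX V y t ρ w U 0 z
            - ∑ q : Fin J × Fin (n + 1), gridFull (pairGrid t s h) q •
              velX V y t ρ √(t - s) w U z 0 (gridNode (pairGrid t s h) q)) 2
            (pairLaw V y t √(t - s))
          ≤ ENNReal.ofReal (C * J * √h ^ (n + 1) * (√d + ‖score V t y‖) * √t) := by
  obtain ⟨C2, _, hT2⟩ := hP (n + 2)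
  obtain ⟨C1, hC1, hT1⟩ := hP (n + 1)
  obtain ⟨C0, hC0, hT0⟩ := hP n
  set A : ℝ := max C1 C0
  have hA : 0 < A := lt_max_of_lt_left hC1
  set T : ℝ := toSize (n + 1)
  have hT : 0 ≤ T := le_trans zero_le_one (one_le_toSize _)
  refine ⟨2 * T * ((n + 2) * 4 ^ (n + 2) * A) + 2 * T * (2 * 4 ^ (n + 2) * A) + 1, by positivity, ?_⟩
  set C : ℝ := 2 * T * ((n + 2) * 4 ^ (n + 2) * A) + 2 * T * (2 * 4 ^ (n + 2) * A) + 1
  intro d V hV hreg y t ρ s h J ht ht1 hρ hs hst h0 h1 hJ w U hwU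
  have hs' : 0 < t - s := sub_pos.2 hst
  have hq₁ : 0 < √(t - s) := Real.sqrt_pos.2 hs'
  have hq₁t : √(t - s) ^ 2 < t := by rw [Real.sq_sqrt hs'.le]; linarith
  have hρ0 : 0 < ρ := (Real.sqrt_pos.2 ht).trans_le hρ
  set g := pairGrid t s h
  have hg : Monotone g := pairGrid_monotone ht.le h0 (by linarith)
  have hgJ : g J = √(t - s) := pairGrid_last J hJ
  have hg0 : g 0 = 0 := pairGrid_zero hst.le
  have hc2 : ∀ z j, ContDiffOn ℝ (n + 2 : ℕ) (nodeFn V y t w U z j) (Icc 0 √(t - s)) := fun z j =>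
    (hT2 d V hV y t ρ √(t - s) ht ht1 hρ hq₁ hq₁t w U hwU j).1 z
  have hmj : ∀ j k, k ≤ n + 2 → ∀ q ∈ Icc (g 0) (g J),
      Measurable fun z => pairJet V y t √(t - s) w U z j k q := fun j k hk q hq =>
    measurable_pairJet hreg hq₁ hq₁t hwU (fun z => hc2 z j) k hk q (by rwa [hg0, hgJ] at hq)
  set N : ℝ := A * (√d + ‖score V t y‖) with hNdef
  have hN : 0 ≤ N := by positivity
  set a : Fin J → ℝ := fun j => √(geomR t s h j / 2)
  set hj : Fin J → ℝ := fun j => g ((j : ℕ) + 1) - g j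
  have hr : ∀ j : Fin J, 0 < geomR t s h j := fun j => hs.trans_le (le_geomR _)
  have ha0 : ∀ j, 0 < a j := fun j => Real.sqrt_pos.2 (half_pos (hr j))
  have ha2 : ∀ j, a j ^ 2 = geomR t s h j / 2 := fun j => Real.sq_sqrt (half_pos (hr j)).le
  have hat : ∀ j, a j ≤ √t := fun j => Real.sqrt_le_sqrt (by
    linarith [geomR_le ht.le hst.le h0 (by linarith) (j : ℕ), hr j])
  have hjt : ∀ j, hj j ≤ √t := fun j => by
    have h1' : g ((j : ℕ) + 1) ≤ √t := Real.sqrt_le_sqrt (by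
      linarith [hs.le.trans (le_geomR (t := t) (s := s) (h := h) ((j : ℕ) + 1))])
    have h2' : 0 ≤ g j := Real.sqrt_nonneg _
    linarith
  have hcell : ∀ j, hj j ≤ 2 * √h * (2 * a j ^ 2) / √t := fun j => by
    rw [ha2, mul_div_cancel₀ _ two_ne_zero]
    exact pairGrid_cell ht hs.le hst.le h0 (by linarith) j
  have hh1 : √h ≤ 1 := Real.sqrt_le_one.2 (by linarith)
  -- one derivative on one cell
  have hjet : ∀ k, k = n ∨ k = n + 1 → ∀ (i : Fin 3) (j : Fin J),
      ∀ q ∈ Icc (g j) (g ((j : ℕ) + 1)),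
        eLpNorm (fun z => pairJet V y t √(t - s) w U z i k q) 2 (pairLaw V y t √(t - s))
          ≤ ENNReal.ofReal (N * (√t / a j) * (√t / a j ^ 2) ^ k) := by
    intro k hk i j q hq
    have hqI : q ∈ Icc 0 √(t - s) := ⟨le_trans (Real.sqrt_nonneg _) hq.1,
      hq.2.trans (hgJ ▸ hg j.isLt)⟩
    have hr2 : a j ^ 2 ≤ t - q ^ 2 := by
      have h2 : q ^ 2 ≤ g ((j : ℕ) + 1) ^ 2 := pow_le_pow_left₀ hqI.1 hq.2 2
      rw [show g ((j : ℕ) + 1) ^ 2 = t - geomR t s h ((j : ℕ) + 1) from Real.sq_sqrt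
        (sub_nonneg.2 (geomR_le ht.le hst.le h0 (by linarith) _))] at h2
      have h3 := geomR_succ (t := t) hs.le h0 (by linarith) (j : ℕ)
      rw [ha2]
      nlinarith [hr j]
    have hpos : 0 < t - q ^ 2 := lt_of_lt_of_le (by nlinarith [ha0 j]) hr2
    have hCk : ∃ Ck, Ck ≤ A ∧ 0 < Ck ∧ pairSq V y t √(t - s)
        (fun z => iteratedDerivWithin k (nodeFn V y t w U z i) (Icc 0 √(t - s)) q)
        ≤ ENNReal.ofReal ((Ck * (√d + ‖score V t y‖) * (√t / √(t - q ^ 2))
          * (√t / (t - q ^ 2)) ^ k) ^ 2) := by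
      rcases hk with rfl | rfl
      · exact ⟨C0, le_max_right _ _, hC0,
          (hT0 d V hV y t ρ √(t - s) ht ht1 hρ hq₁ hq₁t w U hwU i).2 q hqI⟩
      · exact ⟨C1, le_max_left _ _, hC1,
          (hT1 d V hV y t ρ √(t - s) ht ht1 hρ hq₁ hq₁t w U hwU i).2 q hqI⟩
    obtain ⟨Ck, hCk, hCk0, hb⟩ := hCk
    refine (eLpNorm_pairJet_le hV hreg hq₁ hq₁t hwU (by omega) (fun z => hc2 z i) hqI
      (by positivity) hb).trans (ENNReal.ofReal_le_ofReal ?_)
    have h1 : √t / √(t - q ^ 2) ≤ √t / a j :=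
      div_le_div_of_nonneg_left (Real.sqrt_nonneg _) (ha0 j) (Real.le_sqrt_of_sq_le hr2)
    have h2 : √t / (t - q ^ 2) ≤ √t / a j ^ 2 :=
      div_le_div_of_nonneg_left (Real.sqrt_nonneg _) (pow_pos (ha0 j) 2) hr2
    simp only [N]
    gcongr
  set Bw : Fin J → ℝ := fun j => (1 + ρ⁻¹) * (N * (√t / a j) * (√t / a j ^ 2) ^ (n + 1))
  set Bx : Fin J → ℝ := fun j => ρ⁻¹ * (√t * (N * (√t / a j) * (√t / a j ^ 2) ^ (n + 1))
    + (n + 1) * (N * (√t / a j) * (√t / a j ^ 2) ^ n))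
  have hBw : ∀ j, 0 ≤ Bw j := fun j => by have := ha0 j; positivity
  have hBx : ∀ j, 0 ≤ Bx j := fun j => by have := ha0 j; positivity
  have hsub : ∀ j : Fin J, Icc (g j) (g ((j : ℕ) + 1)) ⊆ Icc (g 0) (g J) := fun j =>
    Icc_subset_Icc (hg (Nat.zero_le _)) (hg j.isLt)
  have hbw : ∀ j : Fin J, ∀ q ∈ Icc (g j) (g ((j : ℕ) + 1)),
      eLpNorm (fun z => velW V y t ρ √(t - s) w U z (n + 1) q) 2 (pairLaw V y t √(t - s))
        ≤ ENNReal.ofReal (Bw j) := by
    intro j q hq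
    have hN' : 0 ≤ N * (√t / a j) * (√t / a j ^ 2) ^ (n + 1) := by have := ha0 j; positivity
    refine (eLpNorm_add_le (hmj 0 _ (by omega) q (hsub j hq)).aestronglyMeasurable
      ((hmj 1 _ (by omega) q (hsub j hq)).fun_const_smul (c := ρ⁻¹)).aestronglyMeasurable
      one_le_two).trans ((add_le_add (hjet _ (Or.inr rfl) 0 j q hq)
        (eLpNorm_smul_le ρ⁻¹ (hjet _ (Or.inr rfl) 1 j q hq))).trans_eq ?_)
    rw [abs_of_nonneg (by positivity), ← ENNReal.ofReal_add hN' (by positivity)]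
    congr 1
    simp only [Bw]
    ring
  have hbx : ∀ j : Fin J, ∀ q ∈ Icc (g j) (g ((j : ℕ) + 1)),
      eLpNorm (fun z => velX V y t ρ √(t - s) w U z (n + 1) q) 2 (pairLaw V y t √(t - s))
        ≤ ENNReal.ofReal (Bx j) := by
    intro j q hq
    have hN1 : 0 ≤ N * (√t / a j) * (√t / a j ^ 2) ^ (n + 1) := by have := ha0 j; positivity
    have hN0 : 0 ≤ N * (√t / a j) * (√t / a j ^ 2) ^ n := by have := ha0 j; positivity
    have hqt : |q| ≤ √t := by
      rw [abs_of_nonneg (le_trans (Real.sqrt_nonneg _) hq.1)]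
      exact hq.2.trans ((hg j.isLt).trans (hgJ.le.trans (Real.sqrt_le_sqrt (by linarith))))
    have e : (fun z => velX V y t ρ √(t - s) w U z (n + 1) q) =
        ρ⁻¹ • (q • (fun z => pairJet V y t √(t - s) w U z 2 (n + 1) q) +
          ((n + 1 : ℕ) : ℝ) • fun z => pairJet V y t √(t - s) w U z 2 n q) := by
      funext z
      simp [velX]
    rw [e, eLpNorm_const_smul, Real.enorm_eq_ofReal (by positivity),
      ENNReal.ofReal_mul (by positivity)]
    refine mul_le_mul' le_rfl ((eLpNorm_add_le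
      ((hmj 2 _ (by omega) q (hsub j hq)).fun_const_smul (c := q)).aestronglyMeasurable
      ((hmj 2 _ (by omega) q (hsub j hq)).fun_const_smul
        (c := ((n + 1 : ℕ) : ℝ))).aestronglyMeasurable one_le_two).trans ?_)
    rw [ENNReal.ofReal_add (by positivity) (by positivity)]
    refine add_le_add ((eLpNorm_smul_le q (hjet _ (Or.inr rfl) 2 j q hq)).trans
      (ENNReal.ofReal_le_ofReal (mul_le_mul_of_nonneg_right hqt hN1)))
      ((eLpNorm_smul_le _ (hjet _ (Or.inl rfl) 2 j q hq)).trans_eq ?_)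
    rw [Nat.abs_cast]
    push_cast
    rfl
  have hmW : ∀ k, k = 0 ∨ k = n + 1 → ∀ q ∈ Icc (g 0) (g J),
      Measurable fun z => velW V y t ρ √(t - s) w U z k q := fun k hk q hq =>
    (hmj 0 k (by omega) q hq).add ((hmj 1 k (by omega) q hq).fun_const_smul (c := ρ⁻¹))
  have hmX : ∀ k, k = 0 ∨ k = n + 1 → ∀ q ∈ Icc (g 0) (g J),
      Measurable fun z => velX V y t ρ √(t - s) w U z k q := fun k hk q hq =>
    Measurable.fun_const_smul (c := ρ⁻¹) (((hmj 2 k (by omega) q hq).fun_const_smul (c := q)).add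
      ((hmj 2 (k - 1) (by omega) q hq).fun_const_smul (c := (k : ℝ))))
  have hdefW := eLpNorm_up_defect (μ := pairLaw V y t √(t - s)) hg (n := n) (J := J)
    (D := fun z => velW V y t ρ √(t - s) w U z)
    (fun z => by rw [hg0, hgJ]; exact isJet_velW hq₁ (fun j => hc2 z j) (by omega))
    hmW (X := w) (fun q hq => (hwU.cont q (by rwa [hg0, hgJ] at hq)).1.measurable)
    (fun z q hq => by
      rw [hg0, hgJ] at hq ⊢
      rw [velW_zero]
      exact hwU.derivW z q hq) hBw hbw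
  have hdefX := eLpNorm_up_defect (μ := pairLaw V y t √(t - s)) hg (n := n) (J := J)
    (D := fun z => velX V y t ρ √(t - s) w U z)
    (fun z => by rw [hg0, hgJ]; exact isJet_velX hq₁ (hc2 z 2) (by omega))
    hmX (X := pairX V y t ρ w U) (fun q hq => by
      rw [hg0, hgJ] at hq
      obtain ⟨hwc, hUc⟩ := hwU.cont q hq
      have hr' : 0 < t - q ^ 2 := by linarith [pow_le_pow_left₀ hq.1 hq.2 2]
      exact (((hreg.lip _ hr'.le).continuous.comp (continuous_const.add (hwc.const_smul q))).add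
        (hUc.const_smul ρ)).measurable)
    (fun z q hq => by
      rw [hg0, hgJ] at hq ⊢
      rw [velX_zero]
      exact hwU.derivX z q hq) hBx hbx
  have hct := fun j => cell_terms_le (n := n) ht ht1 hρ (ha0 j) (hat j)
    (sub_nonneg.2 (hg (Nat.le_succ _))) (hjt j) (Real.sqrt_nonneg h) hh1 hN (hcell j)
  set K : ℝ := J * √h ^ (n + 1) * (√d + ‖score V t y‖)
  have hK : 0 ≤ K := by positivity
  set a4 : ℝ := 4 ^ (n + 2) * A
  have hW2 : 2 * (T * ∑ j, hj j ^ (n + 2) * Bw j) ≤ C * J * √h ^ (n + 1) * (√d + ‖score V t y‖) := by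
    have h1 : T * ∑ j, hj j ^ (n + 2) * Bw j ≤ T * (J * (2 * 4 ^ (n + 2) * N * √h ^ (n + 1))) := by
      refine mul_le_mul_of_nonneg_left ((Finset.sum_le_sum fun j _ => (hct j).1).trans_eq ?_) hT
      simp
    calc 2 * (T * ∑ j, hj j ^ (n + 2) * Bw j)
        ≤ 2 * (T * (J * (2 * 4 ^ (n + 2) * N * √h ^ (n + 1)))) := by linarith
      _ = 2 * T * (2 * 4 ^ (n + 2) * A) * K := by simp only [K, N]; ring
      _ ≤ C * K := mul_le_mul_of_nonneg_right (by
          have : 0 ≤ 2 * T * ((n + 2) * 4 ^ (n + 2) * A) := by positivity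
          simp only [C]; linarith) hK
      _ = _ := by simp only [K]; ring
  have hX2 : 2 * (T * ∑ j, hj j ^ (n + 2) * Bx j) ≤
      C * J * √h ^ (n + 1) * (√d + ‖score V t y‖) * √t := by
    have h1 : T * ∑ j, hj j ^ (n + 2) * Bx j ≤
        T * (J * ((n + 2) * 4 ^ (n + 2) * N * √h ^ (n + 1) * √t)) := by
      refine mul_le_mul_of_nonneg_left ((Finset.sum_le_sum fun j _ => (hct j).2).trans_eq ?_) hT
      simp
    calc 2 * (T * ∑ j, hj j ^ (n + 2) * Bx j)
        ≤ 2 * (T * (J * ((n + 2) * 4 ^ (n + 2) * N * √h ^ (n + 1) * √t))) := by linarith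
      _ = 2 * T * ((n + 2) * 4 ^ (n + 2) * A) * (K * √t) := by simp only [K, N]; ring
      _ ≤ C * (K * √t) := mul_le_mul_of_nonneg_right (by
          have : 0 ≤ 2 * T * (2 * 4 ^ (n + 2) * A) := by positivity
          simp only [C]; linarith) (by positivity)
      _ = _ := by simp only [K]; ring
  have hS : 0 ≤ T * ∑ j, hj j ^ (n + 2) * Bx j := mul_nonneg hT (Finset.sum_nonneg fun j _ =>
    mul_nonneg (pow_nonneg (sub_nonneg.2 (hg (Nat.le_succ _))) _) (hBx j))
  refine ⟨fun p => ⟨?_, ?_⟩, ?_⟩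
  · rw [← hgJ] at hdefW ⊢
    exact (hdefW.1 p).trans (ENNReal.ofReal_le_ofReal hW2)
  · rw [← hgJ] at hdefX ⊢
    exact (hdefX.1 p).trans (ENNReal.ofReal_le_ofReal hX2)
  · have := hdefX.2
    rw [hg0, hgJ] at this
    exact this.trans (ENNReal.ofReal_le_ofReal (le_trans (by linarith) hX2))

end

end P347.Zero
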