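import Vale.Agent.P347.Zero.Norms

/-!
# P347: the adjoints of the derivatives on the Sobolev scale

The square of `dlW Y` integrates to the transposed pairing of `DW Y` plus a form in `Y` which is
bounded as the Hessian of `log smooth` is, so `dlW` costs one unit of length.
-/

namespace P347.Zero

open MeasureTheory ProbabilityTheory Filter Topology Finset P347.Quarter
open scoped RealInnerProductSpace

noncomputable section

variable {d : ℕ}

namespace Ctx

variable {X : Ctx d}

theorem kap_nonneg {q : ℝ} : 0 ≤ X.kap q := by unfold Ctx.kap; positivity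

theorem dW_beta (k l : Fin d) {q : ℝ} (hq : q ^ 2 < X.t) (w u : Space d) :
    dW k (X.beta l) q w u = -(if l = k then 1 else 0) + q ^ 2 * X.coef [k, l] q w u := by
  have h1 : HasFDerivAt (fun w : Space d => w l) (EuclideanSpace.proj l : Space d →L[ℝ] ℝ) w :=
    (EuclideanSpace.proj l : Space d →L[ℝ] ℝ).hasFDerivAt
  have h2 : HasFDerivAt (fun w' => X.coef [l] q w' u) _ w := hasFDerivAt_coef [l] hq w
  have h : HasFDerivAt (fun w' => X.beta l q w' u) _ w := h1.neg.add (h2.const_mul q)
  simp only [Ctx.dW]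
  rw [h.fderiv]
  simp only [_root_.add_apply, _root_.neg_apply, _root_.smul_apply, sum_proj_bv, smul_eq_mul,
    Ctx.coef]
  simp [bv, EuclideanSpace.basisFun_apply, sq, mul_assoc]

theorem dU_beta (k l : Fin d) (q : ℝ) (w u : Space d) : dU k (X.beta l) q w u = 0 := by
  simp [Ctx.dU, Ctx.beta, Ctx.coef]

theorem dU_coord (k l : Fin d) (q : ℝ) (w u : Space d) :
    dU k (fun _ _ u => u l) q w u = if l = k then 1 else 0 := by
  simp only [Ctx.dU]
  rw [show (fun u' : Space d => u' l) = ⇑(EuclideanSpace.proj l : Space d →L[ℝ] ℝ) from rfl,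
    ContinuousLinearMap.fderiv]
  simp [bv, EuclideanSpace.basisFun_apply]

theorem dW_coordU (k l : Fin d) (q : ℝ) (w u : Space d) :
    dW k (fun _ _ u => u l) q w u = 0 := by
  simp [Ctx.dW]

theorem sum_transpose_le (a : Fin d → Fin d → ℝ) :
    ∑ k, ∑ l, a l k * a k l ≤ ∑ k, ∑ l, a l k ^ 2 := by
  have h : ∑ k, ∑ l, a l k * a k l ≤ ∑ k, ∑ l, (a l k ^ 2 + a k l ^ 2) / 2 :=
    sum_le_sum fun k _ => sum_le_sum fun l _ => by nlinarith [sq_nonneg (a l k - a k l)]
  refine h.trans (le_of_eq ?_)
  simp only [add_div, sum_add_distrib]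
  rw [sum_comm (f := fun k l => a k l ^ 2 / 2)]
  simp only [← sum_add_distrib]
  exact sum_congr rfl fun k _ => sum_congr rfl fun l _ => by ring

/-- The adjoint in `w` is bounded in `L²` by one derivative. -/
theorem dlW_l2 {q : ℝ} (hq : q ^ 2 < X.t) {n : ℕ} {Y : Fld d} {M : ℝ} (_hM : 0 ≤ M)
    (hY : X.A (n + 1) Y) (h : X.Sob q 1 (n + 1) Y M) :
    X.L2 q n (X.dlW Y) (2 * X.kap q * M) := by
  set G : List (Fin d) → Fn d := fun L q w u =>
    ∑ k, ∑ l, dW l (Y (k :: L)) q w u * dW k (Y (l :: L)) q w u + ∑ k, Y (k :: L) q w u * Y (k :: L) q w u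
      + -(q * q * ∑ k, ∑ l, X.coef [k, l] q w u * (Y (k :: L) q w u * Y (l :: L) q w u)) with hG
  have hy : ∀ L, L.length = n → ∀ k, X.Alg (Y (k :: L)) := fun L hL k => hY _ (by simp [hL])
  have hφ : ∀ L, L.length = n → X.Alg (X.dlW Y L) := alg_dlW hY
  have hGA : ∀ L, L.length = n → X.Alg (G L) := fun L hL =>
    ((Alg.sum _ fun k => Alg.sum _ fun l => ((hy L hL k).dW l).mul ((hy L hL l).dW k)).add
      (Alg.sum _ fun k => (hy L hL k).mul (hy L hL k))).add
    ((Alg.time.mul Alg.time).mul (Alg.sum _ fun k => Alg.sum _ fun l =>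
      (Alg.coef [k, l] (by simp)).mul ((hy L hL k).mul (hy L hL l)))).neg
  have key : ∀ L, L.length = n →
      X.avg q (fun q w u => X.dlW Y L q w u * X.dlW Y L q w u) = X.avg q (G L) := by
    intro L hL
    set P : Fin d → Fn d := fun k q w u => Y (k :: L) q w u * X.dlW Y L q w u
    set R : Fin d → Fin d → Fn d := fun k l q w u => Y (k :: L) q w u * dW k (Y (l :: L)) q w u
    have hP : ∀ k, X.Alg (P k) := fun k => (hy L hL k).mul (hφ L hL)
    have hR : ∀ k l, X.Alg (R k l) := fun k l => (hy L hL k).mul ((hy L hL l).dW k)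
    have hP' := fun k => ((hP k).dW k).add ((X.alg_beta k).mul (hP k))
    have hR' := fun k l => ((hR k l).dW l).add ((X.alg_beta l).mul (hR k l))
    have hT1 := Alg.sum Finset.univ hP'
    have hT2 := Alg.sum Finset.univ fun k => Alg.sum Finset.univ (hR' k)
    have e : X.avg q (fun q w u => X.dlW Y L q w u * X.dlW Y L q w u)
        = X.avg q (fun q w u => G L q w u +
          (∑ k, (dW k (P k) q w u + X.beta k q w u * P k q w u)
          + (-1 : ℝ) * ∑ k, ∑ l, (dW l (R k l) q w u + X.beta l q w u * R k l q w u))) := by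
      refine avg_congr fun w u => ?_
      have hd : ∀ k, dW k (X.dlW Y L) q w u = ∑ l, (dW k (dW l (Y (l :: L))) q w u
          + ((-(if l = k then 1 else 0) + q ^ 2 * X.coef [k, l] q w u) * Y (l :: L) q w u
            + X.beta l q w u * dW k (Y (l :: L)) q w u)) := by
        intro k
        refine (dW_sum Finset.univ (f := fun l q w u => dW l (Y (l :: L)) q w u
          + X.beta l q w u * Y (l :: L) q w u) (fun l => ((hy L hL l).dW l).add
          ((X.alg_beta l).mul (hy L hL l))) k hq w u).trans (sum_congr rfl fun l _ => ?_)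
        rw [dW_add ((hy L hL l).dW l) ((X.alg_beta l).mul (hy L hL l)) k hq w u,
          dW_mul (X.alg_beta l) (hy L hL l) k hq w u, dW_beta k l hq w u]
      have c1 : ∀ k, dW k (P k) q w u = dW k (Y (k :: L)) q w u * X.dlW Y L q w u
          + Y (k :: L) q w u * dW k (X.dlW Y L) q w u := fun k =>
        dW_mul (hy L hL k) (hφ L hL) k hq w u
      have c2 : ∀ k l, dW l (R k l) q w u = dW l (Y (k :: L)) q w u * dW k (Y (l :: L)) q w u
          + Y (k :: L) q w u * dW k (dW l (Y (l :: L))) q w u := fun k l => by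
        rw [dW_mul (hy L hL k) ((hy L hL l).dW k) l hq w u, dW_comm (hy L hL l) l k hq w u]
      have h1 : ∑ k, (dW k (P k) q w u + X.beta k q w u * P k q w u)
          = X.dlW Y L q w u * X.dlW Y L q w u + ∑ k, Y (k :: L) q w u * dW k (X.dlW Y L) q w u := by
        have hx : X.dlW Y L q w u = ∑ k, (dW k (Y (k :: L)) q w u
          + X.beta k q w u * Y (k :: L) q w u) := rfl
        conv_rhs => arg 1; arg 1; rw [hx]
        rw [sum_mul, ← sum_add_distrib]
        simp only [c1]
        exact sum_congr rfl fun k _ => by simp only [P]; ring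
      simp only [h1, c2]
      simp only [hd, G, R]
      simp only [add_mul, neg_mul, mul_add, mul_neg, sum_add_distrib, sum_neg_distrib, mul_sum,
        ite_mul, one_mul, zero_mul, sum_ite_eq', mem_univ, if_true]
      simp only [mul_comm, mul_left_comm, mul_assoc]
      ring
    rw [e, avg_add (hGA L hL) (hT1.add ((Alg.const (-1)).mul hT2)) hq,
      avg_add hT1 ((Alg.const (-1)).mul hT2) hq, avg_mul_left, avg_sum _ hP' hq,
      avg_sum _ (fun k => Alg.sum Finset.univ (hR' k)) hq]
    rw [sum_congr rfl fun k _ => avg_sum _ (hR' k) hq]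
    simp [avg_ibp_w (hP _) _ hq, avg_ibp_w (hR _ _) _ hq]
  have hk := kap_one_le hq
  have h1 : X.L2 q (n + 2) (DW Y) (M * X.kap q) := h.2.1
  calc X.avg q (fun q w u => nsq n fun L => X.dlW Y L q w u)
      = X.avg q (fun q w u => tsum' n fun L => X.dlW Y L q w u * X.dlW Y L q w u) :=
        avg_congr fun w u => by simp [nsq, sq]
    _ = X.avg q (fun q w u => tsum' n fun L => G L q w u) := by
        rw [avg_tsum n (F := fun L q w u => X.dlW Y L q w u * X.dlW Y L q w u)
          (fun L hL => (hφ L hL).mul (hφ L hL)) hq, avg_tsum n hGA hq]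
        exact tsum'_congr key
    _ ≤ X.avg q (fun q w u => nsq (n + 2) (fun L => DW Y L q w u)
          + 3 * nsq (n + 1) fun L => Y L q w u) := by
        refine avg_mono (Alg.tsum n hGA) ((alg_sq (alg_DW hY)).add ((Alg.const 3).mul (alg_sq hY)))
          hq fun w u => ?_
        unfold nsq
        simp only [tsum', ← tsum'_sum, ← tsum'_mul, mul_sum]
        rw [← tsum'_add]
        refine tsum'_le fun L _ => ?_
        simp only [G, DW]
        have a1 := sum_transpose_le fun l k => dW l (Y (k :: L)) q w u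
        have a2 : -(q * q * ∑ k, ∑ l, X.coef [k, l] q w u * (Y (k :: L) q w u * Y (l :: L) q w u))
            ≤ 2 * ∑ k, Y (k :: L) q w u ^ 2 := by
          have hb := bilinear_ld_pair X.hV (r := X.t - q ^ 2) (by linarith) (X.lip _ (by linarith))
            (X.y + q • w) (fun k => Y (k :: L) q w u) (fun k => Y (k :: L) q w u)
          rw [mul_assoc, Real.mul_self_sqrt (sum_nonneg fun k _ => sq_nonneg _)] at hb
          have e : ∑ k, ∑ l, X.coef [k, l] q w u * (Y (k :: L) q w u * Y (l :: L) q w u)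
              = ∑ k, ∑ l, Y (k :: L) q w u * Y (l :: L) q w u *
                ld X.V [k, l] (X.t - q ^ 2, X.y + q • w) :=
            sum_congr rfl fun k _ => sum_congr rfl fun l _ => by simp only [Ctx.coef]; ring
          rw [e]
          have hq1 : q * q ≤ 1 := by nlinarith [X.ht1]
          have h0 : (0 : ℝ) ≤ 2 * ∑ k, Y (k :: L) q w u ^ 2 :=
            mul_nonneg two_pos.le (sum_nonneg fun k _ => sq_nonneg _)
          have := abs_le.1 hb
          nlinarith [mul_self_nonneg q]
        rw [show (∑ l, ∑ k, dW l (Y (k :: L)) q w u ^ 2) = ∑ k, ∑ l, dW l (Y (k :: L)) q w u ^ 2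
          from sum_comm]
        simp only [← mul_sum, ← sq]
        simp only [← sq] at a2
        linarith
    _ ≤ (2 * X.kap q * M) ^ 2 := by
        rw [avg_add (alg_sq (alg_DW hY)) ((Alg.const 3).mul (alg_sq hY)) hq, avg_mul_left]
        have h0 : X.L2 q (n + 1) Y M := h.1
        unfold L2 at h0 h1
        have : M ^ 2 * 1 ≤ M ^ 2 * X.kap q ^ 2 :=
          mul_le_mul_of_nonneg_left (one_le_pow₀ hk) (sq_nonneg M)
        nlinarith

/-- The adjoint in `U` is bounded in `L²` by one derivative. -/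
theorem dlU_l2 {q : ℝ} (hq : q ^ 2 < X.t) {n : ℕ} {Y : Fld d} {M : ℝ} (_hM : 0 ≤ M)
    (hY : X.A (n + 1) Y) (h : X.Sob q 1 (n + 1) Y M) :
    X.L2 q n (dlU Y) (2 * X.kap q * M) := by
  set G : List (Fin d) → Fn d := fun L q w u =>
    ∑ k, ∑ l, dU l (Y (k :: L)) q w u * dU k (Y (l :: L)) q w u + ∑ k, Y (k :: L) q w u * Y (k :: L) q w u
  have hy : ∀ L, L.length = n → ∀ k, X.Alg (Y (k :: L)) := fun L hL k => hY _ (by simp [hL])
  have hφ : ∀ L, L.length = n → X.Alg (dlU Y L) := alg_dlU hY
  have hGA : ∀ L, L.length = n → X.Alg (G L) := fun L hL =>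
    (Alg.sum _ fun k => Alg.sum _ fun l => ((hy L hL k).dU l).mul ((hy L hL l).dU k)).add
      (Alg.sum _ fun k => (hy L hL k).mul (hy L hL k))
  have key : ∀ L, L.length = n →
      X.avg q (fun q w u => dlU Y L q w u * dlU Y L q w u) = X.avg q (G L) := by
    intro L hL
    set P : Fin d → Fn d := fun k q w u => Y (k :: L) q w u * dlU Y L q w u
    set R : Fin d → Fin d → Fn d := fun k l q w u => Y (k :: L) q w u * dU k (Y (l :: L)) q w u
    have hP : ∀ k, X.Alg (P k) := fun k => (hy L hL k).mul (hφ L hL)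
    have hR : ∀ k l, X.Alg (R k l) := fun k l => (hy L hL k).mul ((hy L hL l).dU k)
    have hsub : ∀ {f : Fn d}, X.Alg f → ∀ k, X.Alg fun q w u => dU k f q w u - u k * f q w u :=
      fun hf k => .congr ((hf.dU k).add ((Alg.coordU k).mul hf).neg) fun q _ w u => by ring
    have hP' := fun k => hsub (hP k) k
    have hR' := fun k l => hsub (hR k l) l
    have hT1 := Alg.sum Finset.univ hP'
    have hT2 := Alg.sum Finset.univ fun k => Alg.sum Finset.univ (hR' k)
    have e : X.avg q (fun q w u => dlU Y L q w u * dlU Y L q w u)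
        = X.avg q (fun q w u => G L q w u +
          (∑ k, (dU k (P k) q w u - u k * P k q w u)
          + (-1 : ℝ) * ∑ k, ∑ l, (dU l (R k l) q w u - u l * R k l q w u))) := by
      refine avg_congr fun w u => ?_
      have hd : ∀ k, dU k (dlU Y L) q w u = ∑ l, (dU k (dU l (Y (l :: L))) q w u
          - ((if l = k then 1 else 0) * Y (l :: L) q w u + u l * dU k (Y (l :: L)) q w u)) := by
        intro k
        have hl : ∀ l, X.Alg fun q w u => dU l (Y (l :: L)) q w u - u l * Y (l :: L) q w u :=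
          fun l => hsub (hy L hL l) l
        refine (dU_sum Finset.univ hl k hq w u).trans (sum_congr rfl fun l _ => ?_)
        have e1 := dU_mul (Alg.coordU l) (hy L hL l) k hq w u
        rw [dU_coord k l q w u] at e1
        rw [← e1]
        show fderiv ℝ (fun u' => dU l (Y (l :: L)) q w u' - u' l * Y (l :: L) q w u') u (bv k) = _
        rw [fderiv_fun_sub (((hy L hL l).dU l).contDiff_u 1 hq w |>.differentiable one_ne_zero u)
          (((Alg.coordU l).mul (hy L hL l)).contDiff_u 1 hq w |>.differentiable one_ne_zero u)]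
        rfl
      have c1 : ∀ k, dU k (P k) q w u = dU k (Y (k :: L)) q w u * dlU Y L q w u
          + Y (k :: L) q w u * dU k (dlU Y L) q w u := fun k =>
        dU_mul (hy L hL k) (hφ L hL) k hq w u
      have c2 : ∀ k l, dU l (R k l) q w u = dU l (Y (k :: L)) q w u * dU k (Y (l :: L)) q w u
          + Y (k :: L) q w u * dU k (dU l (Y (l :: L))) q w u := fun k l => by
        rw [dU_mul (hy L hL k) ((hy L hL l).dU k) l hq w u, dU_comm (hy L hL l) l k hq w u]
      have h1 : ∑ k, (dU k (P k) q w u - u k * P k q w u)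
          = dlU Y L q w u * dlU Y L q w u + ∑ k, Y (k :: L) q w u * dU k (dlU Y L) q w u := by
        have hx : dlU Y L q w u = ∑ k, (dU k (Y (k :: L)) q w u - u k * Y (k :: L) q w u) := rfl
        conv_rhs => arg 1; arg 1; rw [hx]
        rw [sum_mul, ← sum_add_distrib]
        simp only [c1]
        exact sum_congr rfl fun k _ => by simp only [P]; ring
      simp only [h1, c2]
      simp only [hd, G, R]
      simp only [mul_sub, mul_add, sum_add_distrib, sum_sub_distrib, mul_sum, sub_mul,
        ite_mul, one_mul, zero_mul, sum_ite_eq', mem_univ, if_true]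
      simp only [mul_comm, mul_left_comm, mul_assoc]
      ring_nf
      simp only [sum_neg_distrib]
      ring
    rw [e, avg_add (hGA L hL) (hT1.add ((Alg.const (-1)).mul hT2)) hq,
      avg_add hT1 ((Alg.const (-1)).mul hT2) hq, avg_mul_left, avg_sum _ hP' hq,
      avg_sum _ (fun k => Alg.sum Finset.univ (hR' k)) hq]
    rw [sum_congr rfl fun k _ => avg_sum _ (hR' k) hq]
    simp [avg_ibp_u (hP _) _ hq, avg_ibp_u (hR _ _) _ hq]
  have hk := kap_one_le hq
  have h1 : X.L2 q (n + 2) (DU Y) (M * X.kap q) := h.2.2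
  calc X.avg q (fun q w u => nsq n fun L => dlU Y L q w u)
      = X.avg q (fun q w u => tsum' n fun L => dlU Y L q w u * dlU Y L q w u) :=
        avg_congr fun w u => by simp [nsq, sq]
    _ = X.avg q (fun q w u => tsum' n fun L => G L q w u) := by
        rw [avg_tsum n (F := fun L q w u => dlU Y L q w u * dlU Y L q w u)
          (fun L hL => (hφ L hL).mul (hφ L hL)) hq, avg_tsum n hGA hq]
        exact tsum'_congr key
    _ ≤ X.avg q (fun q w u => nsq (n + 2) (fun L => DU Y L q w u)
          + 1 * nsq (n + 1) fun L => Y L q w u) := by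
        refine avg_mono (Alg.tsum n hGA) ((alg_sq (alg_DU hY)).add ((Alg.const 1).mul (alg_sq hY)))
          hq fun w u => ?_
        unfold nsq
        simp only [tsum', ← tsum'_sum, ← tsum'_mul, mul_sum]
        rw [← tsum'_add]
        refine tsum'_le fun L _ => ?_
        simp only [G, DU]
        have a1 := sum_transpose_le fun l k => dU l (Y (k :: L)) q w u
        rw [show (∑ l, ∑ k, dU l (Y (k :: L)) q w u ^ 2) = ∑ k, ∑ l, dU l (Y (k :: L)) q w u ^ 2
          from sum_comm]
        simp only [one_mul, ← sq]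
        linarith
    _ ≤ (2 * X.kap q * M) ^ 2 := by
        rw [avg_add (alg_sq (alg_DU hY)) ((Alg.const 1).mul (alg_sq hY)) hq, avg_mul_left]
        have h0 : X.L2 q (n + 1) Y M := h.1
        unfold L2 at h0 h1
        have : M ^ 2 * 1 ≤ M ^ 2 * X.kap q ^ 2 :=
          mul_le_mul_of_nonneg_left (one_le_pow₀ hk) (sq_nonneg M)
        nlinarith

theorem DW_dlW {n : ℕ} {Y : Fld d} (hY : X.A (n + 1) Y) {q : ℝ} (hq : q ^ 2 < X.t)
    (L : List (Fin d)) (hL : L.length = n + 1) (w u : Space d) :
    DW (X.dlW Y) L q w u = X.dlW (fun L => DW Y (mv 1 L)) L q w u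
      + ((-1 : ℝ) * Y L q w u + q ^ 2 * X.Mul 1 1 Y L q w u) := by
  cases L with
  | nil => simp at hL
  | cons i L =>
    simp only [List.length_cons, Nat.add_right_cancel_iff] at hL
    have hy : ∀ l, X.Alg (Y (l :: L)) := fun l => hY _ (by simp [hL])
    show dW i (fun q w u => ∑ l, (dW l (Y (l :: L)) q w u + X.beta l q w u * Y (l :: L) q w u))
      q w u = _
    rw [dW_sum _ (fun l => ((hy l).dW l).add ((X.alg_beta l).mul (hy l))) i hq w u]
    have hl : ∀ l, dW i (fun q w u => dW l (Y (l :: L)) q w u + X.beta l q w u * Y (l :: L) q w u)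
        q w u = dW l (dW i (Y (l :: L))) q w u + X.beta l q w u * dW i (Y (l :: L)) q w u
          + (-(if l = i then 1 else 0) + q ^ 2 * X.coef [i, l] q w u) * Y (l :: L) q w u := fun l => by
      rw [dW_add ((hy l).dW l) ((X.alg_beta l).mul (hy l)) i hq w u,
        dW_mul (X.alg_beta l) (hy l) i hq w u, dW_beta i l hq w u, dW_comm (hy l) i l hq w u]
      ring
    simp only [hl, Ctx.dlW, Ctx.Mul, mv, List.take_succ_cons, List.take_zero, List.drop_succ_cons,
      List.drop_zero, List.cons_append, List.nil_append, tsum'_one, DW]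
    simp only [add_mul, neg_mul, sum_add_distrib, sum_neg_distrib, mul_sum, ite_mul, one_mul,
      zero_mul, sum_ite_eq', mem_univ, if_true, mul_assoc]

theorem DU_dlW {n : ℕ} {Y : Fld d} (hY : X.A (n + 1) Y) {q : ℝ} (hq : q ^ 2 < X.t)
    (L : List (Fin d)) (hL : L.length = n + 1) (w u : Space d) :
    DU (X.dlW Y) L q w u = X.dlW (fun L => DU Y (mv 1 L)) L q w u := by
  cases L with
  | nil => simp at hL
  | cons i L =>
    simp only [List.length_cons, Nat.add_right_cancel_iff] at hL
    have hy : ∀ l, X.Alg (Y (l :: L)) := fun l => hY _ (by simp [hL])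
    show dU i (fun q w u => ∑ l, (dW l (Y (l :: L)) q w u + X.beta l q w u * Y (l :: L) q w u))
      q w u = _
    rw [dU_sum _ (fun l => ((hy l).dW l).add ((X.alg_beta l).mul (hy l))) i hq w u]
    simp only [Ctx.dlW, mv, List.take_succ_cons, List.take_zero, List.drop_succ_cons,
      List.drop_zero, List.cons_append, List.nil_append, DU]
    refine sum_congr rfl fun l _ => ?_
    rw [dU_add ((hy l).dW l) ((X.alg_beta l).mul (hy l)) i hq w u,
      dU_mul (X.alg_beta l) (hy l) i hq w u, dU_beta i l q w u, ← dW_dU_comm (hy l) l i hq w u]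
    ring

theorem DW_dlU {n : ℕ} {Y : Fld d} (hY : X.A (n + 1) Y) {q : ℝ} (hq : q ^ 2 < X.t)
    (L : List (Fin d)) (hL : L.length = n + 1) (w u : Space d) :
    DW (dlU Y) L q w u = dlU (fun L => DW Y (mv 1 L)) L q w u := by
  cases L with
  | nil => simp at hL
  | cons i L =>
    simp only [List.length_cons, Nat.add_right_cancel_iff] at hL
    have hy : ∀ l, X.Alg (Y (l :: L)) := fun l => hY _ (by simp [hL])
    have hl : ∀ l, X.Alg fun q w u => dU l (Y (l :: L)) q w u - u l * Y (l :: L) q w u :=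
      fun l => .congr (((hy l).dU l).add ((Alg.coordU l).mul (hy l)).neg) fun q _ w u => by ring
    show dW i (fun q w u => ∑ l, (dU l (Y (l :: L)) q w u - u l * Y (l :: L) q w u)) q w u = _
    rw [dW_sum _ hl i hq w u]
    simp only [Ctx.dlU, mv, List.take_succ_cons, List.take_zero, List.drop_succ_cons,
      List.drop_zero, List.cons_append, List.nil_append, DW]
    refine sum_congr rfl fun l _ => ?_
    rw [← dW_dU_comm (hy l) i l hq w u]
    show fderiv ℝ (fun w' => dU l (Y (l :: L)) q w' u - u l * Y (l :: L) q w' u) w (bv i) = _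
    rw [fderiv_fun_sub (((hy l).dU l).contDiff_w 1 hq u |>.differentiable one_ne_zero w)
      (((hy l).contDiff_w 1 hq u |>.differentiable one_ne_zero w).const_mul (u l)),
      fderiv_const_mul ((hy l).contDiff_w 1 hq u |>.differentiable one_ne_zero w)]
    simp [Ctx.dW]

theorem DU_dlU {n : ℕ} {Y : Fld d} (hY : X.A (n + 1) Y) {q : ℝ} (hq : q ^ 2 < X.t)
    (L : List (Fin d)) (hL : L.length = n + 1) (w u : Space d) :
    DU (dlU Y) L q w u = dlU (fun L => DU Y (mv 1 L)) L q w u + (-1 : ℝ) * Y L q w u := by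
  cases L with
  | nil => simp at hL
  | cons i L =>
    simp only [List.length_cons, Nat.add_right_cancel_iff] at hL
    have hy : ∀ l, X.Alg (Y (l :: L)) := fun l => hY _ (by simp [hL])
    have hl : ∀ l, X.Alg fun q w u => dU l (Y (l :: L)) q w u - u l * Y (l :: L) q w u :=
      fun l => .congr (((hy l).dU l).add ((Alg.coordU l).mul (hy l)).neg) fun q _ w u => by ring
    show dU i (fun q w u => ∑ l, (dU l (Y (l :: L)) q w u - u l * Y (l :: L) q w u)) q w u = _
    rw [dU_sum _ hl i hq w u]
    have e : ∀ l, dU i (fun q w u => dU l (Y (l :: L)) q w u - u l * Y (l :: L) q w u) q w u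
        = dU l (dU i (Y (l :: L))) q w u - u l * dU i (Y (l :: L)) q w u
          - (if l = i then 1 else 0) * Y (l :: L) q w u := fun l => by
      have e1 := dU_mul (Alg.coordU l) (hy l) i hq w u
      rw [dU_coord i l q w u] at e1
      rw [← dU_comm (hy l) i l hq w u]
      rw [sub_sub, add_comm (u l * _) _, ← e1]
      show fderiv ℝ (fun u' => dU l (Y (l :: L)) q w u' - u' l * Y (l :: L) q w u') u (bv i) = _
      rw [fderiv_fun_sub (((hy l).dU l).contDiff_u 1 hq w |>.differentiable one_ne_zero u)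
        (((Alg.coordU l).mul (hy l)).contDiff_u 1 hq w |>.differentiable one_ne_zero u)]
      rfl
    simp only [e, Ctx.dlU, mv, List.take_succ_cons, List.take_zero, List.drop_succ_cons,
      List.drop_zero, List.cons_append, List.nil_append, DU]
    simp only [sum_sub_distrib, ite_mul, one_mul, zero_mul, sum_ite_eq', mem_univ, if_true]
    ring

/-- The adjoint in `w` costs one derivative and one unit of length. -/
theorem exists_dlW_sob : ∀ J : ℕ, ∃ C : ℝ, 0 ≤ C ∧ ∀ (d : ℕ) (X : Ctx d) (q : ℝ), q ^ 2 < X.t →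
    ∀ (n : ℕ) (Y : Fld d) (M : ℝ), 0 ≤ M → X.A (n + 1) Y → X.Sob q (J + 1) (n + 1) Y M →
      X.Sob q J n (X.dlW Y) (C * X.kap q * M)
  | 0 => ⟨2, two_pos.le, fun d X q hq n Y M hM hY h => dlW_l2 hq hM hY h⟩
  | J + 1 => by
    obtain ⟨C, hC, hb⟩ := exists_dlW_sob J
    obtain ⟨D, hD, hD'⟩ := exists_mul_sob J 1 1
    refine ⟨2 + 4 * (C + 1 + D), by positivity, fun d X q hq n Y M hM hY h => ?_⟩
    have hk := kap_one_le hq
    have hk0 : 0 ≤ X.kap q := kap_nonneg
    have hMk : 0 ≤ M * X.kap q := mul_nonneg hM hk0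
    have hrx : RX (d := d) (n + 2) (n + 2) (mv 1) := by
      rw [show n + 2 = 1 + n + 1 by omega]
      exact rx_mv 1 n
    refine ⟨(dlW_l2 hq hM hY (Sob.le (by omega) h)).mono (by positivity) (by gcongr; linarith),
      ?_, ?_⟩
    · have e1 := hb d X q hq (n + 1) (fun L => DW Y (mv 1 L)) (M * X.kap q) hMk
        (alg_rx hrx (alg_DW hY)) (Sob.rx hq hrx (alg_DW hY) h.2.1)
      have hS : X.Sob q J (n + 1) Y M := Sob.le (by omega) h
      have e2 : X.Sob q J (n + 1) (fun L q w u => (-1 : ℝ) * Y L q w u) (|(-1 : ℝ)| * M) :=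
        hS.scale hq (-1) hY fun L _ w u => rfl
      have e3 : X.Sob q J (1 + n) (X.Mul 1 1 Y) (D * X.rho q ^ (1 + 1 - 2) * M) :=
        hD' d X q hq le_rfl le_rfl n Y M hM (by rwa [add_comm]) (by rwa [add_comm])
      rw [add_comm 1 n] at e3
      have hA3 : X.A (n + 1) (X.Mul 1 1 Y) := fun L hL =>
        alg_Mul (s := 1) (m := n) le_rfl (by rwa [add_comm]) L (by omega)
      have e4 : X.Sob q J (n + 1) (fun L q w u => q ^ 2 * X.Mul 1 1 Y L q w u)
          (|q ^ 2| * (D * X.rho q ^ (1 + 1 - 2) * M)) :=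
        e3.scale hq _ hA3 fun L _ w u => rfl
      have hA2 : X.A (n + 1) fun L q w u => q ^ 2 * X.Mul 1 1 Y L q w u := fun L hL =>
        .congr ((Alg.time.mul Alg.time).mul (hA3 L hL)) fun q _ w u => by ring
      have e5 := Sob.add hq (alg_smul (-1) hY) hA2 e2 e4 (by positivity) (by simp; positivity)
      refine ((Sob.add hq (alg_dlW (alg_rx hrx (alg_DW hY))) (alg_add (alg_smul (-1) hY) hA2) e1 e5
        (by positivity) (by simp; positivity)).congr fun L hL w u =>
          DW_dlW hY hq L hL w u).mono (by simp; positivity) ?_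
      rw [show (1 + 1 - 2 : ℕ) = 0 from rfl, pow_zero, abs_neg, abs_one]
      have hq2 : |q ^ 2| ≤ 1 := by
        rw [abs_pow]; exact pow_le_one₀ (abs_nonneg q) (abs_q_le hq)
      have h3 : |q ^ 2| * (D * 1 * M) ≤ 1 * (D * 1 * M) :=
        mul_le_mul_of_nonneg_right hq2 (by positivity)
      have h4 : M * 1 ≤ M * (X.kap q * X.kap q) :=
        mul_le_mul_of_nonneg_left (one_le_mul_of_one_le_of_one_le hk hk) hM
      have h5 := mul_le_mul_of_nonneg_left h4 (show 0 ≤ 1 + D by positivity)
      have h6 : 0 ≤ M * (X.kap q * X.kap q) * (1 + C) := by positivity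
      nlinarith
    · have e1 := hb d X q hq (n + 1) (fun L => DU Y (mv 1 L)) (M * X.kap q) hMk
        (alg_rx hrx (alg_DU hY)) (Sob.rx hq hrx (alg_DU hY) h.2.2)
      refine (e1.congr fun L hL w u => DU_dlW hY hq L hL w u).mono (by positivity) ?_
      have h6 : 0 ≤ (2 + 3 * C + 4 + 4 * D) * X.kap q * (M * X.kap q) := by positivity
      nlinarith

/-- The adjoint in `U` costs one derivative and one unit of length. -/
theorem exists_dlU_sob : ∀ J : ℕ, ∃ C : ℝ, 0 ≤ C ∧ ∀ (d : ℕ) (X : Ctx d) (q : ℝ), q ^ 2 < X.t →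
    ∀ (n : ℕ) (Y : Fld d) (M : ℝ), 0 ≤ M → X.A (n + 1) Y → X.Sob q (J + 1) (n + 1) Y M →
      X.Sob q J n (dlU Y) (C * X.kap q * M)
  | 0 => ⟨2, two_pos.le, fun d X q hq n Y M hM hY h => dlU_l2 hq hM hY h⟩
  | J + 1 => by
    obtain ⟨C, hC, hb⟩ := exists_dlU_sob J
    refine ⟨2 + 4 * (C + 1), by positivity, fun d X q hq n Y M hM hY h => ?_⟩
    have hk := kap_one_le hq
    have hk0 : 0 ≤ X.kap q := kap_nonneg
    have hMk : 0 ≤ M * X.kap q := mul_nonneg hM hk0
    have hrx : RX (d := d) (n + 2) (n + 2) (mv 1) := by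
      rw [show n + 2 = 1 + n + 1 by omega]
      exact rx_mv 1 n
    refine ⟨(dlU_l2 hq hM hY (Sob.le (by omega) h)).mono (by positivity) (by gcongr; linarith),
      ?_, ?_⟩
    · have e1 := hb d X q hq (n + 1) (fun L => DW Y (mv 1 L)) (M * X.kap q) hMk
        (alg_rx hrx (alg_DW hY)) (Sob.rx hq hrx (alg_DW hY) h.2.1)
      refine (e1.congr fun L hL w u => DW_dlU hY hq L hL w u).mono (by positivity) ?_
      have h6 : 0 ≤ (2 + 3 * C + 4) * X.kap q * (M * X.kap q) := by positivity
      nlinarith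
    · have e1 := hb d X q hq (n + 1) (fun L => DU Y (mv 1 L)) (M * X.kap q) hMk
        (alg_rx hrx (alg_DU hY)) (Sob.rx hq hrx (alg_DU hY) h.2.2)
      have hS : X.Sob q J (n + 1) Y M := Sob.le (by omega) h
      have e2 : X.Sob q J (n + 1) (fun L q w u => (-1 : ℝ) * Y L q w u) (|(-1 : ℝ)| * M) :=
        hS.scale hq (-1) hY fun L _ w u => rfl
      refine ((Sob.add hq (alg_dlU (alg_rx hrx (alg_DU hY))) (alg_smul (-1) hY) e1 e2
        (by positivity) (by simp; positivity)).congr fun L hL w u =>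
          DU_dlU hY hq L hL w u).mono (by simp; positivity) ?_
      rw [abs_neg, abs_one]
      have h4 : M * 1 ≤ M * (X.kap q * X.kap q) :=
        mul_le_mul_of_nonneg_left (one_le_mul_of_one_le_of_one_le hk hk) hM
      have h6 : 0 ≤ M * (X.kap q * X.kap q) * (1 + C) := by positivity
      nlinarith

end Ctx

end

end P347.Zero
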