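import Vale.Agent.P347.Quarter.Gav

/-!
# P347: iterated partial derivatives and the regularity of Gaussian smoothing

`pd L f` is the iterated partial derivative along the list `L` (the head is taken last). A bounded
continuous function smoothed by a nondegenerate Gaussian is smooth with all derivatives bounded,
and derivatives commute with smoothing.
-/

namespace P347.Zero

open MeasureTheory ProbabilityTheory Filter Topology Finset P347.Quarter
open scoped RealInnerProductSpace

noncomputable section

variable {d : ℕ}

/-- A coordinate direction. -/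
def bv (i : Fin d) : Space d := EuclideanSpace.basisFun (Fin d) ℝ i

/-- An iterated partial derivative. -/
def pd : List (Fin d) → (Space d → ℝ) → Space d → ℝ
  | [], f => f
  | i :: L, f => fun x => fderiv ℝ (pd L f) x (bv i)

theorem pd_append : ∀ (A B : List (Fin d)) (f : Space d → ℝ), pd (A ++ B) f = pd A (pd B f)
  | [], _, _ => rfl
  | i :: A, B, f => by simp only [List.cons_append, pd, pd_append A B f]

@[simp] theorem norm_bv (i : Fin d) : ‖bv i‖ = 1 := by simp [bv]

theorem sum_coord_smul (x : Space d) : ∑ i, x i • bv i = x := by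
  conv_rhs => rw [← (EuclideanSpace.basisFun (Fin d) ℝ).sum_repr x]
  exact sum_congr rfl fun i _ => by simp [bv]

/-- A functional is the sum of its values on the coordinates. -/
theorem clm_eq_sum_coord (A : Space d →L[ℝ] ℝ) :
    A = ∑ i, A (bv i) • (EuclideanSpace.proj i : Space d →L[ℝ] ℝ) := by
  ext w
  conv_lhs => rw [← sum_coord_smul w]
  simp only [map_sum, map_smul, _root_.sum_apply, _root_.smul_apply, smul_eq_mul]
  exact sum_congr rfl fun i _ => by simp [mul_comm]

theorem fderiv_eq_sum_pd (L : List (Fin d)) (f : Space d → ℝ) :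
    fderiv ℝ (pd L f) =
      fun x => ∑ i, pd (i :: L) f x • (EuclideanSpace.proj i : Space d →L[ℝ] ℝ) :=
  funext fun x => clm_eq_sum_coord _

theorem norm_fderiv_pd_le (L : List (Fin d)) (f : Space d → ℝ) (x : Space d) :
    ‖fderiv ℝ (pd L f) x‖ ≤ ∑ i, |pd (i :: L) f x| := by
  refine ContinuousLinearMap.opNorm_le_bound _ (sum_nonneg fun i _ => abs_nonneg _) fun w => ?_
  rw [fderiv_eq_sum_pd]
  simp only [_root_.sum_apply, _root_.smul_apply, smul_eq_mul]
  rw [sum_mul]
  refine (norm_sum_le _ _).trans (sum_le_sum fun i _ => ?_)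
  rw [norm_mul, Real.norm_eq_abs]
  exact mul_le_mul_of_nonneg_left (by simpa using PiLp.norm_apply_le w i) (abs_nonneg _)

/-- All partial derivatives are bounded and continuously differentiable. -/
structure Reg (f : Space d → ℝ) : Prop where
  bdd : ∀ L, ∃ B, Bdd (pd L f) B
  one : ∀ L, ContDiff ℝ 1 (pd L f)

theorem Reg.tail {f : Space d → ℝ} (h : Reg f) (L : List (Fin d)) : Reg (pd L f) :=
  ⟨fun A => by rw [← pd_append]; exact h.bdd _, fun A => by rw [← pd_append]; exact h.one _⟩

theorem Reg.contDiff {f : Space d → ℝ} (h : Reg f) : ∀ (n : ℕ) (L : List (Fin d)),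
    ContDiff ℝ n (pd L f)
  | 0, L => contDiff_zero.2 (h.one L).continuous
  | n + 1, L => by
    rw [Nat.cast_succ, contDiff_succ_iff_fderiv]
    refine ⟨(h.one L).differentiable one_ne_zero, by simp, ?_⟩
    rw [fderiv_eq_sum_pd]
    exact ContDiff.sum fun i _ => (h.contDiff n (i :: L)).smul contDiff_const

theorem Reg.lip1 {f : Space d → ℝ} (h : Reg f) (L : List (Fin d)) : ∃ C, Lip1 (pd L f) C := by
  choose B hB using fun i => h.bdd (i :: L)
  exact ⟨∑ i, B i, h.one L, fun x => (norm_fderiv_pd_le L f x).trans
    (sum_le_sum fun i _ => (hB i).bound x)⟩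

/-- Derivatives commute with smoothing. -/
theorem Reg.pd_gav {f : Space d → ℝ} (h : Reg f) (σ : ℝ) : ∀ L : List (Fin d),
    pd L (gav σ f) = gav σ (pd L f)
  | [] => rfl
  | i :: L => by
    obtain ⟨C, hC⟩ := h.lip1 L
    funext x
    simp only [pd]
    rw [h.pd_gav σ L, (hC.hasFDerivAt_gav σ x).fderiv]
    have hb : Bdd (fderiv ℝ (pd L f)) C :=
      ⟨hC.smooth.continuous_fderiv one_ne_zero, hC.bound⟩
    simp only [Quarter.gav]
    rw [ContinuousLinearMap.integral_apply ((hb.shift σ x).integrable _)]

theorem abs_fderiv_gav_le_bound {f : Space d → ℝ} {B : ℝ} (h : Bdd f B) {σ : ℝ} (hσ : 0 < σ)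
    (x w : Space d) : |fderiv ℝ (gav σ f) x w| ≤ σ⁻¹ * B * ‖w‖ := by
  refine (h.abs_fderiv_gav_le hσ 0 x w).trans ?_
  gcongr
  rw [Real.sqrt_le_left h.nonneg]
  refine (integral_mono_of_nonneg (Eventually.of_forall fun _ => sq_nonneg _)
    (integrable_const (B ^ 2)) (Eventually.of_forall fun z => ?_)).trans (le_of_eq (by simp))
  simp only [sub_zero]
  exact sq_le_sq' (abs_le.1 (h.bound _)).1 (abs_le.1 (h.bound _)).2

/-- Smoothing with a nondegenerate Gaussian regularises. -/
theorem reg_gav {f : Space d → ℝ} {B : ℝ} (h : Bdd f B) {σ : ℝ} (hσ : 0 < σ) :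
    Reg (gav σ f) := by
  have key : ∀ n : ℕ, ∀ σ : ℝ, 0 < σ → ∀ L : List (Fin d), L.length = n →
      (∃ B', Bdd (pd L (gav σ f)) B') ∧ ContDiff ℝ 1 (pd L (gav σ f)) := by
    intro n
    induction n using Nat.strong_induction_on with
    | _ n ih =>
      intro σ hσ L hL
      cases L with
      | nil => exact ⟨⟨B, h.gav σ⟩, h.contDiff hσ.ne'⟩
      | cons i L =>
        simp only [List.length_cons] at hL
        set τ := σ * (√2 / 2) with hτ
        have hτ0 : 0 < τ := by positivity
        -- the derivative along `L` moves inside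
        have comm : ∀ M : List (Fin d), M.length ≤ L.length →
            pd M (gav σ f) = gav τ (pd M (gav τ f)) := by
          intro M
          induction M with
          | nil => intro _; exact gav_eq_gav_gav h σ
          | cons j M ihM =>
            intro hM
            simp only [List.length_cons] at hM
            obtain ⟨-, h1⟩ := ih M.length (by omega) τ hτ0 M rfl
            choose B' hB' using fun k : Fin d => (ih (M.length + 1) (by omega) τ hτ0 (k :: M) rfl).1
            have hC : Lip1 (pd M (gav τ f)) (∑ k, B' k) :=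
              ⟨h1, fun x => (norm_fderiv_pd_le M _ x).trans
                (sum_le_sum fun k _ => (hB' k).bound x)⟩
            funext x
            simp only [pd]
            rw [ihM (by omega), (hC.hasFDerivAt_gav τ x).fderiv]
            have hb : Bdd (fderiv ℝ (pd M (gav τ f))) (∑ k, B' k) :=
              ⟨hC.smooth.continuous_fderiv one_ne_zero, hC.bound⟩
            simp only [Quarter.gav]
            rw [ContinuousLinearMap.integral_apply ((hb.shift τ x).integrable _)]
        obtain ⟨⟨B1, hB1⟩, -⟩ := ih L.length (by omega) τ hτ0 L rfl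
        have e : pd (i :: L) (gav σ f) = fun x => fderiv ℝ (gav τ (pd L (gav τ f))) x (bv i) := by
          funext x
          simp only [pd, comm L le_rfl]
        -- boundedness
        have hbd : ∀ x, |fderiv ℝ (gav τ (pd L (gav τ f))) x (bv i)| ≤ τ⁻¹ * B1 * 1 := by
          intro x
          have := abs_fderiv_gav_le_bound hB1 hτ0 x (bv i)
          simpa using this
        refine ⟨⟨τ⁻¹ * B1 * 1, ?_, fun x => by rw [e]; exact hbd x⟩, ?_⟩
        · rw [e]
          exact ((hB1.contDiff hτ0.ne').continuous_fderiv one_ne_zero).clm_apply continuous_const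
        · -- one more smoothing for the derivative
          set τ' := τ * (√2 / 2) with hτ'
          have hτ'0 : 0 < τ' := by positivity
          set g := pd L (gav τ f)
          have hg : gav τ g = gav τ' (gav τ' g) := gav_eq_gav_gav hB1 τ
          have hb2 : Bdd (fderiv ℝ (gav τ' g)) (τ'⁻¹ * B1) := by
            refine ⟨(hB1.contDiff hτ'0.ne').continuous_fderiv one_ne_zero, fun x => ?_⟩
            refine ContinuousLinearMap.opNorm_le_bound _ ?_ fun w => ?_
            · have := hB1.nonneg; positivity
            · rw [Real.norm_eq_abs]; exact abs_fderiv_gav_le_bound hB1 hτ'0 x w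
          have hl : Lip1 (gav τ' g) (τ'⁻¹ * B1) := ⟨hB1.contDiff hτ'0.ne', hb2.bound⟩
          rw [e, show (fun x => fderiv ℝ (gav τ g) x (bv i))
              = gav τ' (fun x => fderiv ℝ (gav τ' g) x (bv i)) from ?_]
          · have hb3 : Bdd (fun x => fderiv ℝ (gav τ' g) x (bv i)) (τ'⁻¹ * B1) := by
              refine ⟨hb2.cont.clm_apply continuous_const, fun x => ?_⟩
              refine ((fderiv ℝ (gav τ' g) x).le_opNorm _).trans ?_
              simpa using hb2.bound x
            exact hb3.contDiff hτ'0.ne'
          · funext x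
            rw [hg, (hl.hasFDerivAt_gav τ' x).fderiv]
            simp only [Quarter.gav]
            rw [ContinuousLinearMap.integral_apply ((hb2.shift τ' x).integrable _)]
  exact ⟨fun L => (key _ σ hσ L rfl).1, fun L => (key _ σ hσ L rfl).2⟩

/-- Partial derivatives can be taken in any order. -/
theorem Reg.pd_perm {f : Space d → ℝ} (h : Reg f) {A B : List (Fin d)} (hp : A.Perm B) :
    pd A f = pd B f := by
  induction hp with
  | nil => rfl
  | cons i _ ih => simp only [pd, ih]
  | swap i j L =>
    funext x
    have h2 : ContDiff ℝ 2 (pd L f) := h.contDiff 2 L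
    have hd : Differentiable ℝ (fderiv ℝ (pd L f)) :=
      (h2.fderiv_right (m := 1) (by norm_num)).differentiable one_ne_zero
    simp only [pd]
    rw [fderiv_clm_apply (hd x) (differentiableAt_const _),
      fderiv_clm_apply (hd x) (differentiableAt_const _)]
    simp only [fderiv_fun_const, Pi.zero_apply, ContinuousLinearMap.comp_zero, zero_add,
      ContinuousLinearMap.flip_apply]
    exact (h2.contDiffAt.isSymmSndFDerivAt (by simp)).eq _ _
  | trans _ _ ih1 ih2 => exact ih1.trans ih2

end

end P347.Zero
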