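import Vale.Agent.P347.Local.Model
import Mathlib.LinearAlgebra.Matrix.Charpoly.Coeff

/-!
# P347, gamma* = 0: the determinant along a segment through the identity
-/

namespace P347.Zero

open scoped RealInnerProductSpace

noncomputable section

set_option linter.unusedSectionVars false

variable {E : Type} [NormedAddCommGroup E] [InnerProductSpace ℝ E] [FiniteDimensional ℝ E]

/-- The trace of an operator. -/
def dtr (A : E →L[ℝ] E) : ℝ := LinearMap.trace ℝ E A.toLinearMap

/-- The trace is the sum of the diagonal entries in any orthonormal basis. -/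
theorem dtr_eq_sum {ι : Type} [Fintype ι] (b : OrthonormalBasis ι ℝ E) (A : E →L[ℝ] E) :
    dtr A = ∑ i, ⟪b i, A (b i)⟫ := by
  classical
  rw [dtr, LinearMap.trace_eq_matrix_trace ℝ b.toBasis]
  simp [Matrix.trace, LinearMap.toMatrix_apply, OrthonormalBasis.repr_apply_apply]

variable (E) in
/-- The matrix of an operator, as a linear map. -/
def matLin :
    (E →L[ℝ] E) →ₗ[ℝ] Matrix (Fin (Module.finrank ℝ E)) (Fin (Module.finrank ℝ E)) ℝ :=
  ((LinearMap.toMatrix (stdOrthonormalBasis ℝ E).toBasis
    (stdOrthonormalBasis ℝ E).toBasis).toLinearMap).comp (ContinuousLinearMap.coeLM ℝ)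

theorem det_matLin (A : E →L[ℝ] E) : (matLin E A).det = A.det :=
  LinearMap.det_toMatrix _ _

theorem matLin_one : matLin E 1 = 1 := LinearMap.toMatrix_one _

theorem trace_matLin (A : E →L[ℝ] E) : (matLin E A).trace = dtr A :=
  (LinearMap.trace_eq_matrix_trace ℝ _ _).symm

theorem contDiff_det : ContDiff ℝ 1 fun A : E →L[ℝ] E => A.det := by
  simp_rw [← det_matLin, Matrix.det_apply]
  refine ContDiff.sum fun σ _ => ?_
  refine ContDiff.const_smul _ (contDiff_prod fun i _ => ?_)
  exact ((((LinearMap.proj (R := ℝ) i).comp (LinearMap.proj (R := ℝ) (σ i))).comp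
    (matLin E)).toContinuousLinearMap).contDiff

/-- The derivative of `τ ↦ det (1 + τ A)`. -/
@[irreducible]
def detD (A : E →L[ℝ] E) (τ : ℝ) : ℝ :=
  fderiv ℝ (fun B : E →L[ℝ] E => B.det) (1 + τ • A) A

theorem hasDerivAt_det (A : E →L[ℝ] E) (τ : ℝ) :
    HasDerivAt (fun s : ℝ => (1 + s • A).det) (detD A τ) τ := by
  have h1 : HasDerivAt (fun s : ℝ => 1 + s • A) A τ := by
    simpa using ((hasDerivAt_id τ).smul_const A).const_add (1 : E →L[ℝ] E)
  unfold detD
  exact (contDiff_det.differentiable one_ne_zero (1 + τ • A)).hasFDerivAt.comp_hasDerivAt τ h1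

theorem continuous_detD :
    Continuous fun q : (E →L[ℝ] E) × ℝ => detD q.1 q.2 := by
  unfold detD
  exact ((contDiff_det.continuous_fderiv one_ne_zero).comp (by fun_prop)).clm_apply continuous_fst

theorem continuousOn_detD {α : Type} [TopologicalSpace α] {A : α → E →L[ℝ] E}
    {τ : α → ℝ} {s : Set α} (hA : ContinuousOn A s) (hτ : ContinuousOn τ s) :
    ContinuousOn (fun z => detD (A z) (τ z)) s := by
  have h1 := hA.prodMk hτ
  have h2 := (continuous_detD (E := E)).comp_continuousOn (f := fun z => (A z, τ z)) h1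
  exact h2.congr fun z _ => rfl

theorem detD_zero (A : E →L[ℝ] E) : detD A 0 = dtr A := by
  obtain ⟨g, hg, hge⟩ : ∃ g : Polynomial ℝ, g.derivative.eval 0 = dtr A ∧
      ∀ s : ℝ, g.eval s = (1 + s • A).det := by
    refine ⟨Matrix.det (1 + (Polynomial.X : Polynomial ℝ) • (matLin E A).map Polynomial.C),
      (Matrix.derivative_det_one_add_X_smul _).trans (trace_matLin A), fun s => ?_⟩
    rw [← det_matLin, map_add, map_smul, matLin_one, ← Polynomial.coe_evalRingHom,
      RingHom.map_det]
    congr 1
    ext i j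
    rcases eq_or_ne i j with rfl | hij
    · simpa using mul_comm _ _
    · simpa [Matrix.one_apply_ne hij] using mul_comm _ _
  have h1 : HasDerivAt (fun s : ℝ => (1 + s • A).det) (g.derivative.eval 0) 0 := by
    simp_rw [← hge]
    exact g.hasDerivAt 0
  rw [← hg]
  exact (hasDerivAt_det A 0).unique h1

end

end P347.Zero
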