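import Vale.Agent.P347.Zero.Specs

/-!
# P347: the steps of the induction on oracles

All sizes are powers of `d`. `t₀ = d ^ (-ε)` is the coarsest variance served, `α` is the exponent
of the tolerated blur, `β` of the output noise, `D` of the accuracy, `ℓ` of a Lipschitz constant
and `q` of the number of queries. Every step may lose `η` in every exponent; the number of cells
and nodes is chosen inside a step from its parameters and `η`.
-/

namespace P347.Zero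

open MeasureTheory ProbabilityTheory

noncomputable section

variable {d : ℕ}

/-- Exponents of an oracle. -/
structure Expo where
  α : ℝ
  β : ℝ
  D : ℝ
  ℓ : ℝ
  q : ℝ

/-- A sampler of the point at variance `s` given the point at variance `r`, which is seen blurred
at size `τ`. -/
structure ValidPost {Ω : Type} [MeasurableSpace Ω] (P : Measure Ω)
    (A : Alg d (Ω × Space d) (Space d)) (V : Space d → ℝ) (r s τ δ L : ℝ) : Prop where
  law : ∃ Z : Space d → Space d × Ω → Space d, Measurable (Function.uncurry Z) ∧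
    (∀ c (f : Space d → ℝ), Test f →
      ∫ N, f (Z c N) ∂(stdGaussian (Space d)).prod P = condMean V r s f c) ∧
    ∀ c, (∫⁻ N, ∫⁻ ω, ENNReal.ofReal (‖A.eval (oracle V) (ω, c + τ • N) - Z c (N, ω)‖ ^ 2)
        ∂P ∂stdGaussian (Space d))
      ≤ ENNReal.ofReal ((δ * (√d + ‖c‖)) ^ 2)
  lip : ∀ ω c c', ‖A.eval (oracle V) (ω, c) - A.eval (oracle V) (ω, c')‖ ≤ L * ‖c - c'‖

/-- Score oracles at every variance up to `d ^ (-ε)`. -/
def HasVal (d : ℕ) (ε : ℝ) (x : Expo) : Prop :=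
  ∀ r : ℝ, 0 < r → r ≤ (d : ℝ) ^ (-ε) →
    ∃ (Ω : Type) (_ : MeasurableSpace Ω) (P : Measure Ω) (A : Alg d (Ω × Space d) (Space d)),
      StandardBorelSpace Ω ∧ IsProbabilityMeasure P ∧ A.Meas ∧ (A.size : ℝ) ≤ (d : ℝ) ^ x.q ∧
      ∀ V : Space d → ℝ, Quarter.InClass V →
        Valid P A V r (√r * (d : ℝ) ^ (-x.α)) (√r * (d : ℝ) ^ x.β) ((d : ℝ) ^ (-x.D))
          ((d : ℝ) ^ x.ℓ)

/-- Samplers from every variance in `[d ^ (-K), d ^ (-ε)]` to those in it of at most half the size. -/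
def HasPost (d : ℕ) (ε K : ℝ) (x : Expo) : Prop :=
  ∀ r s : ℝ, (d : ℝ) ^ (-K) ≤ s → 2 * s ≤ r → r ≤ (d : ℝ) ^ (-ε) →
    ∃ (Ω : Type) (_ : MeasurableSpace Ω) (P : Measure Ω) (A : Alg d (Ω × Space d) (Space d)),
      StandardBorelSpace Ω ∧ IsProbabilityMeasure P ∧ A.Meas ∧ (A.size : ℝ) ≤ (d : ℝ) ^ x.q ∧
      ∀ V : Space d → ℝ, Quarter.InClass V →
        ValidPost P A V r s (√r * (d : ℝ) ^ (-x.α)) (r * (d : ℝ) ^ (-x.D)) ((d : ℝ) ^ x.ℓ)

/-- The facts from analysis. -/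
structure Analysis : Prop where
  score : ScoreSpec
  flow : FlowSpec
  time : TimeSpec
  tan : TanSpec
  pair : PairSpec
  pairTime : PairTimeSpec

/-- Score zero: no query, the error is the size of the score. -/
def StartSpec : Prop :=
  ∀ ε α β : ℝ, 0 < ε → ∃ d₀ : ℕ, ∀ d, d₀ ≤ d → HasVal d ε ⟨α, β, -1, 0, 0⟩

/-- A sampler by halving the variance along the flow. -/
def DownSpec : Prop :=
  ∀ (ε η K : ℝ) (x : Expo), 0 < η → 0 < K → 0 ≤ x.α → 0 ≤ x.β → 0 ≤ x.ℓ → 0 ≤ x.q → x.D ≤ K →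
    x.α + x.β + η ≤ ε → x.ℓ + η ≤ ε → ∃ d₀ : ℕ, ∀ d, d₀ ≤ d → HasVal d ε x →
      HasPost d ε K ⟨x.α + η, 0, x.D - η, η, x.q + η⟩

/-- A score oracle from the upward pass along the pair field: the sampler `p`, the inner score
oracle `x` (for the drift, the first derivative and the rows of the rotation by `d ^ (-κ)`) and the
outer score oracle `y` (for the derivative of the last row, read back with `d ^ κ`). -/
def PassSpec : Prop :=
  ∀ (ε η K α β κ : ℝ) (p x y : Expo), 0 < η → 0 ≤ p.α → 0 ≤ x.α → 0 ≤ y.α →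
    p.α ≤ α → x.α ≤ α → y.α ≤ α → 0 ≤ x.β → 0 ≤ y.β → 0 ≤ p.ℓ → 0 ≤ x.ℓ → 0 ≤ y.ℓ →
    0 ≤ p.q → 0 ≤ x.q → 0 ≤ y.q → p.D ≤ K → x.D ≤ K → y.D ≤ K →
    β + α + η ≤ ε → x.β + α + η ≤ κ → p.ℓ + η ≤ κ → x.ℓ + η ≤ κ → y.ℓ + η ≤ κ →
    κ + p.ℓ + x.ℓ + y.ℓ + η ≤ β → y.β + κ + α + η ≤ 2 * β → y.β ≤ β →
    ∃ d₀ : ℕ, ∀ d, d₀ ≤ d → HasPost d ε (2 * K + 20) p → HasVal d ε x → HasVal d ε y →
      HasVal d ε ⟨α + η, β, min K (min (min p.D (x.D - x.ℓ - y.ℓ)) (y.D - κ) + β) - η, p.ℓ + η,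
        max p.q (max x.q y.q) + η⟩

/-- From accurate samplers to moves in total variation. -/
def MoveSpec : Prop :=
  ∀ (ε : ℝ) (x : Expo), 0 < ε → 0 ≤ x.α → 0 ≤ x.q → x.ℓ ≤ 1 → 40 ≤ x.D →
    ∃ d₀ : ℕ, ∀ d, d₀ ≤ d → HasPost d ε 40 x →
      ∀ t s : ℝ, (d : ℝ) ^ (-(20 : ℝ)) ≤ s → t ≤ (d : ℝ) ^ (-ε) → s < t →
        ∃ (Ω : Type) (_ : MeasurableSpace Ω) (P : Measure Ω)
          (A : Alg d (Ω × Space d) (Space d)),
          StandardBorelSpace Ω ∧ IsProbabilityMeasure P ∧ A.Meas ∧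
          (A.size : ℝ) ≤ (d : ℝ) ^ x.q ∧
          ∀ V : Space d → ℝ, Quarter.InClass V → ∀ v : Space d, ‖v‖ ≤ (d : ℝ) ^ 2 →
          ∀ f : Space d → ℝ, Test f →
            |(∫ ω, f (A.eval (oracle V) (ω, v)) ∂P) - condMean V t s f v| ≤ (d : ℝ) ^ (-(4 : ℝ))

/-- The programs, given the analysis. -/
structure Programs : Prop where
  start : StartSpec
  down : DownSpec
  pass : PassSpec
  move : MoveSpec

end

end P347.Zero
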