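import Vale.Agent.P347.Zero.Cond
import Vale.Agent.P347.Zero.Steps

/-!
# P347: from a sampler to a move in total variation

The sampler goes to half the variance wanted; the bridge back to the wanted variance is an exact
Gaussian, so a small displacement costs little in total variation.
-/

namespace P347.Zero

open MeasureTheory ProbabilityTheory
open scoped RealInnerProductSpace

noncomputable section

variable {d : ℕ}

/-- Gaussian averages of measurable functions with values in `[0, 1]` are Lipschitz. -/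
theorem lip_gav_one {f : Space d → ℝ} (hf : Test f) (x y : Space d) :
    |Quarter.gav 1 f x - Quarter.gav 1 f y| ≤ perturbConst * d * ‖x - y‖ := by
  have e : ∀ u, Quarter.gav 1 f u = ∫ ξ, f (u + ξ) ∂noise d := fun u => by
    simp [Quarter.gav, noise_eq_stdGaussian]
  simp only [e, noise_pi]
  have hT : Test fun p : Fin d → ℝ => f (WithLp.toLp 2 p) :=
    ⟨hf.meas.comp (PiLp.continuous_toLp 2 _).measurable, fun _ => hf.nonneg _,
      fun _ => hf.le_one _⟩
  have hsl : ∀ w : Space d, ∀ i, Slope fun t => t - w i := fun w i =>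
    ⟨by fun_prop, fun z a _ => by linarith, fun z a ha => by linarith⟩
  refine (site_perturb (hsl x) (hsl y) (c := fun _ => ‖x - y‖) (fun i t => ?_) hT).trans
    (le_of_eq (by simp; ring))
  have := PiLp.norm_apply_le (x - y) i
  rw [Real.norm_eq_abs, WithLp.ofLp_sub, Pi.sub_apply] at this
  rwa [sub_sub_sub_cancel_left, abs_sub_comm]

theorem lip_gav {f : Space d → ℝ} (hf : Test f) {σ : ℝ} (hσ : 0 < σ) (x y : Space d) :
    |Quarter.gav σ f x - Quarter.gav σ f y| ≤ perturbConst * d / σ * ‖x - y‖ := by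
  have hg : Test fun z : Space d => f (σ • z) :=
    ⟨hf.meas.comp (measurable_const_smul σ), fun _ => hf.nonneg _, fun _ => hf.le_one _⟩
  rw [Quarter.gav_comp_smul σ hσ.ne' f x, Quarter.gav_comp_smul σ hσ.ne' f y]
  refine (lip_gav_one hg _ _).trans (le_of_eq ?_)
  rw [← smul_sub, norm_smul, Real.norm_eq_abs, abs_of_pos (inv_pos.2 hσ)]
  ring

/-- A rotation of two independent standard Gaussians. -/
theorem integral_rot {F : Space d × Space d → ℝ} (hF : Test F) {c s : ℝ}
    (h : c ^ 2 + s ^ 2 = 1) (hc : 0 ≤ c) (hs : 0 ≤ s) :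
    ∫ z, F z ∂(stdGaussian (Space d)).prod (stdGaussian (Space d))
      = ∫ z, F (c • z.1 + s • z.2, -(s • z.1) + c • z.2)
          ∂(stdGaussian (Space d)).prod (stdGaussian (Space d)) := by
  set μ := stdGaussian (Space d)
  have hcos : Real.cos (Real.arccos c) = c := Real.cos_arccos (by linarith) (by nlinarith)
  have hsin : Real.sin (Real.arccos c) = s := by
    rw [Real.sin_arccos, show 1 - c ^ 2 = s ^ 2 by linarith, Real.sqrt_sq hs]
  have hrot := IsGaussian.map_rotation_eq_self (μ := μ) (by simp [μ]) (Real.arccos c)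
  conv_lhs => rw [← hrot]
  rw [integral_map (by fun_prop) hF.meas.aestronglyMeasurable]
  refine integral_congr_ae (Filter.Eventually.of_forall fun z => ?_)
  simp [ContinuousLinearMap.rotation_apply, hcos, hsin]

/-- The bridge: the point at variance `s` from the one at a finer variance `u` and the centre. -/
theorem condMean_bridge {V : Space d → ℝ} (hV : Quarter.InClass V) {t s u : ℝ} (hu : 0 ≤ u)
    (hus : u < s) (hst : s < t) {f : Space d → ℝ} (hf : Test f) (v : Space d) :
    condMean V t u (fun z => Quarter.gav √((s - u) * (t - s) / (t - u)) f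
        (((t - s) / (t - u)) • z + ((s - u) / (t - u)) • v)) v
      = condMean V t s f v := by
  set Q := √(t - u)
  set q₁ := √(t - s)
  set q₂ := √(s - u)
  have htu : 0 < t - u := by linarith
  have hQ : 0 < Q := Real.sqrt_pos.2 htu
  have hQ2 : Q ^ 2 = t - u := Real.sq_sqrt htu.le
  have h1 : q₁ ^ 2 = t - s := Real.sq_sqrt (by linarith)
  have h2 : q₂ ^ 2 = s - u := Real.sq_sqrt (by linarith)
  have hσ : √((s - u) * (t - s) / (t - u)) = q₁ * q₂ / Q := by
    rw [← hQ2, ← h1, ← h2, Real.sqrt_div (by positivity), Real.sqrt_mul (by positivity),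
      Real.sqrt_sq (by positivity), Real.sqrt_sq (by positivity), Real.sqrt_sq hQ.le, mul_comm q₂]
  let F : Space d × Space d → ℝ := fun z =>
    f (v + ((t - s) / Q) • z.1 - (q₁ * q₂ / Q) • z.2) * smooth V u (v + Q • z.1)
  have hS := test_smooth hV u
  have hF : Test F := ⟨(hf.meas.comp (by fun_prop)).mul (hS.meas.comp (by fun_prop)),
    fun z => mul_nonneg (hf.nonneg _) (hS.nonneg _),
    fun z => mul_le_one₀ (hf.le_one _) (hS.nonneg _) (hS.le_one _)⟩
  have hrot := integral_rot hF (c := q₁ / Q) (s := q₂ / Q)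
    (by rw [div_pow, div_pow, ← add_div, h1, h2, hQ2, show t - s + (s - u) = t - u by ring,
      div_self htu.ne']) (by positivity) (by positivity)
  simp only [condMean]
  refine congrArg (· / smooth V t v) ?_
  have eL : ∀ z w : Space d, F (z, -w) = f (((t - s) / (t - u)) • (v + Q • z)
      + ((s - u) / (t - u)) • v + √((s - u) * (t - s) / (t - u)) • w) * smooth V u (v + Q • z) := by
    intro z w
    simp only [F, hσ]
    congr 2
    rw [smul_add, smul_smul]
    have e1 : (t - s) / (t - u) * Q = (t - s) / Q := by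
      rw [← hQ2]; field_simp
    have e2 : (t - s) / (t - u) + (s - u) / (t - u) = 1 := by
      rw [← add_div, div_eq_one_iff_eq htu.ne']; ring
    rw [e1, smul_neg, sub_neg_eq_add]
    rw [show ((t - s) / (t - u)) • v + ((t - s) / Q) • z + ((s - u) / (t - u)) • v
      = ((t - s) / (t - u) + (s - u) / (t - u)) • v + ((t - s) / Q) • z by rw [add_smul]; abel,
      e2, one_smul]
  have eR : ∀ a b : Space d, F ((q₁ / Q) • a + (q₂ / Q) • b, -((q₂ / Q) • a) + (q₁ / Q) • b)
      = f (v + q₁ • a) * smooth V u (v + q₁ • a + q₂ • b) := by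
    intro a b
    simp only [F]
    congr 1
    · congr 1
      simp only [smul_add, smul_neg, smul_smul]
      have e1 : (t - s) / Q * (q₁ / Q) + q₁ * q₂ / Q * (q₂ / Q) = q₁ := by
        rw [← h1]
        field_simp
        linear_combination q₁ * (h1 + h2 - hQ2)
      have e2 : (t - s) / Q * (q₂ / Q) = q₁ * q₂ / Q * (q₁ / Q) := by
        rw [← h1]; ring
      rw [e2]
      linear_combination (norm := module) congrArg (fun r : ℝ => r • a) e1
    · congr 1
      simp only [smul_add, smul_smul]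
      rw [mul_div_cancel₀ _ hQ.ne', mul_div_cancel₀ _ hQ.ne', add_assoc]
  have hσf := test_gav' hf √((s - u) * (t - s) / (t - u))
  calc (∫ w, Quarter.gav √((s - u) * (t - s) / (t - u)) f
          (((t - s) / (t - u)) • (v + √(t - u) • w) + ((s - u) / (t - u)) • v)
          * smooth V u (v + √(t - u) • w) ∂stdGaussian (Space d))
      = ∫ z, F z ∂(stdGaussian (Space d)).prod (stdGaussian (Space d)) := by
        rw [integral_prod _ (hF.integrable _)]
        refine integral_congr_ae (Filter.Eventually.of_forall fun z => ?_)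
        have hneg : MeasurePreserving (fun w : Space d => -w) (stdGaussian (Space d))
            (stdGaussian (Space d)) :=
          ⟨measurable_neg, by simpa using stdGaussian_map (LinearIsometryEquiv.neg ℝ (E := Space d))⟩
        show _ = ∫ w, F (z, w) ∂stdGaussian (Space d)
        rw [← hneg.integral_comp (Homeomorph.neg _).measurableEmbedding (fun w => F (z, w))]
        simp only [Quarter.gav, ← integral_mul_const, eL, add_assoc]
        rfl
    _ = _ := by
        rw [hrot]
        have hF' : Test fun z : Space d × Space d =>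
            F ((q₁ / Q) • z.1 + (q₂ / Q) • z.2, -((q₂ / Q) • z.1) + (q₁ / Q) • z.2) :=
          ⟨hF.meas.comp (by fun_prop), fun _ => hF.nonneg _, fun _ => hF.le_one _⟩
        rw [integral_prod _ (hF'.integrable _)]
        refine integral_congr_ae (Filter.Eventually.of_forall fun a => ?_)
        simp only [eR, integral_const_mul]
        congr 1
        rw [← smooth_comp hV hu hus.le (v + q₁ • a)]
        rfl

theorem move : MoveSpec := by
  intro ε x hε hα hq hl hD
  obtain ⟨d₀, hd₀⟩ : ∃ d₀ : ℕ, ∀ d, d₀ ≤ d →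
      4 * perturbConst ≤ (d : ℝ) ^ (7 : ℕ) ∧ 4 ≤ d := by
    obtain ⟨n, hn⟩ := exists_nat_ge (4 * perturbConst)
    refine ⟨max n 4, fun d hd => ⟨hn.trans ?_, le_of_max_le_right hd⟩⟩
    have : n ≤ d ^ 7 := (le_of_max_le_left hd).trans (Nat.le_self_pow (by norm_num) d)
    exact_mod_cast this
  refine ⟨d₀, fun d hd hP t s hs ht hst => ?_⟩
  obtain ⟨hbig, hd4⟩ := hd₀ d hd
  have hd4' : (4 : ℝ) ≤ d := by exact_mod_cast hd4
  have hd0 : (0 : ℝ) < d := by linarith
  have hd1 : (1 : ℝ) ≤ d := by linarith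
  have hs0 : 0 < s := lt_of_lt_of_le (Real.rpow_pos_of_pos hd0 _) hs
  have ht1 : t ≤ 1 := ht.trans (Real.rpow_le_one_of_one_le_of_nonpos hd1 (by linarith))
  set u := s / 2 with hu
  have hu40 : (d : ℝ) ^ (-(40 : ℝ)) ≤ u := by
    have h1 : (d : ℝ) ^ (-(40 : ℝ)) = (d : ℝ) ^ (-(20 : ℝ)) * (d : ℝ) ^ (-(20 : ℝ)) := by
      rw [← Real.rpow_add hd0]; norm_num
    have h2 : (d : ℝ) ^ (-(20 : ℝ)) ≤ 1 / 2 := by
      refine (Real.rpow_le_rpow_of_exponent_le hd1 (by norm_num : -(20 : ℝ) ≤ -1)).trans ?_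
      rw [Real.rpow_neg_one, inv_le_comm₀ hd0 (by norm_num)]
      linarith
    rw [h1, hu]
    have h3 := mul_le_mul hs h2 (Real.rpow_nonneg hd0.le _) hs0.le
    linarith
  obtain ⟨Ω, mΩ, P, A, hΩ, hP1, hA, hsize, hV⟩ := hP t u hu40 (by linarith) ht
  set a := (t - s) / (t - u)
  set b := (s - u) / (t - u)
  set σ := √((s - u) * (t - s) / (t - u))
  set τ := √t * (d : ℝ) ^ (-x.α)
  let A' : Alg d (((Space d × Ω) × Space d) × Space d) (Space d) :=
    (A.comap fun z => (z.1.1.2, z.2 + τ • z.1.1.1)).seq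
      (Alg.pure d fun z => a • z.2 + b • z.1.2 + σ • z.1.1.2)
  refine ⟨(Space d × Ω) × Space d, inferInstance,
    ((stdGaussian (Space d)).prod P).prod (stdGaussian (Space d)), A', inferInstance, inferInstance,
    Alg.seq_meas (Alg.comap_meas hA (by fun_prop)) (Alg.pure_meas (by fun_prop)),
    by simpa [A', Alg.seq, Alg.comap, Alg.pure] using hsize, fun V hVc v hv f hf => ?_⟩
  obtain ⟨Z, hZm, hZlaw, hZerr⟩ := (hV V hVc).law
  have hev : Measurable fun z : Ω × Space d => A.eval (oracle V) z :=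
    hA.eval (O := fun _ => oracle V)
      ((Quarter.measurable_oracle hVc.smooth).comp measurable_snd) measurable_id
  set E : Space d × Ω → Space d := fun z => A.eval (oracle V) (z.2, v + τ • z.1)
  have hEm : Measurable E := hev.comp (by fun_prop)
  have hZm' : Measurable (Z v) := hZm.comp (measurable_const.prodMk measurable_id)
  set φ : Space d → ℝ := fun z => Quarter.gav σ f (a • z + b • v)
  have hφ : Test φ := ⟨(test_gav' hf σ).meas.comp (by fun_prop), fun _ => (test_gav' hf σ).nonneg _,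
    fun _ => (test_gav' hf σ).le_one _⟩
  have htu : 0 < t - u := by linarith
  have hsu : 0 < s - u := by linarith
  have hts : 0 < t - s := by linarith
  have hσ : 0 < σ := Real.sqrt_pos.2 (by positivity)
  have hTA : Test fun w : (Space d × Ω) × Space d => f (A'.eval (oracle V) (w, v)) := by
    refine ⟨hf.meas.comp ?_, fun _ => hf.nonneg _, fun _ => hf.le_one _⟩
    simp only [A', Alg.seq_eval, Alg.pure_eval, Alg.comap_eval]
    fun_prop
  rw [integral_prod _ (hTA.integrable _),
    ← condMean_bridge hVc (u := u) (by linarith) (by linarith) hst hf v, ← hZlaw v φ hφ]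
  have hl : ∀ z : Space d × Ω, (∫ ξ, f (A'.eval (oracle V) ((z, ξ), v)) ∂stdGaussian (Space d))
      = φ (E z) := fun z => by
    simp only [φ, Quarter.gav, E, A', Alg.seq_eval, Alg.pure_eval, Alg.comap_eval]
  simp only [hl]
  set μ := (stdGaussian (Space d)).prod P
  have i1 : Integrable (fun z => φ (E z)) μ :=
    (Test.integrable ⟨hφ.meas.comp hEm, fun _ => hφ.nonneg _, fun _ => hφ.le_one _⟩ _)
  have i2 : Integrable (fun z => φ (Z v z)) μ :=
    (Test.integrable ⟨hφ.meas.comp hZm', fun _ => hφ.nonneg _, fun _ => hφ.le_one _⟩ _)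
  set c₀ := perturbConst * d / σ * a
  have hc0 : 0 ≤ c₀ := by
    have : 0 ≤ perturbConst := by unfold perturbConst; positivity
    positivity
  have hpt : ∀ z, |φ (E z) - φ (Z v z)| ≤ c₀ * ‖E z - Z v z‖ := fun z => by
    refine (lip_gav hf hσ _ _).trans (le_of_eq ?_)
    rw [add_sub_add_right_eq_sub, ← smul_sub, norm_smul, Real.norm_eq_abs,
      abs_of_nonneg (by positivity)]
    ring
  set δ := t * (d : ℝ) ^ (-x.D) * (√d + ‖v‖)
  have hδ : 0 ≤ δ := by have : 0 < t := by linarith
                        positivity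
  have hL2 : ∫⁻ z, ENNReal.ofReal (‖E z - Z v z‖ ^ 2) ∂μ ≤ ENNReal.ofReal (δ ^ 2) := by
    rw [lintegral_prod _ (by fun_prop)]
    exact hZerr v
  have hdm : Measurable fun z => ‖E z - Z v z‖ := (hEm.sub hZm').norm
  have hint : Integrable (fun z => ‖E z - Z v z‖) μ ∧ ∫ z, ‖E z - Z v z‖ ∂μ ≤ δ := by
    have hm : MemLp (fun z => ‖E z - Z v z‖) 2 μ := by
      rw [memLp_two_iff_integrable_sq hdm.aestronglyMeasurable]
      refine ⟨(hdm.pow_const 2).aestronglyMeasurable, ?_⟩
      rw [hasFiniteIntegral_iff_ofReal (Filter.Eventually.of_forall fun z => by positivity)]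
      exact hL2.trans_lt ENNReal.ofReal_lt_top
    have hi := hm.integrable one_le_two
    refine ⟨hi, ?_⟩
    have h2 : ∫ z, ‖E z - Z v z‖ ^ 2 ∂μ ≤ δ ^ 2 := by
      rw [integral_eq_lintegral_of_nonneg_ae (Filter.Eventually.of_forall fun z => by positivity)
        (hdm.pow_const 2).aestronglyMeasurable]
      exact ENNReal.toReal_le_of_le_ofReal (by positivity) hL2
    have h3 := variance_eq_sub hm
    have h4 := variance_nonneg (fun z => ‖E z - Z v z‖) μ
    simp only [Pi.pow_apply] at h3
    exact le_of_pow_le_pow_left₀ two_ne_zero hδ (by linarith)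
  rw [← integral_sub i1 i2]
  refine (abs_integral_le_integral_abs.trans (integral_mono (i1.sub i2).abs
    (hint.1.const_mul c₀) hpt)).trans ?_
  rw [integral_const_mul]
  refine (mul_le_mul_of_nonneg_left hint.2 hc0).trans ?_
  have hσa : a / σ ≤ 2 * (d : ℝ) ^ (10 : ℝ) := by
    have h1 : (a / σ) ^ 2 ≤ 1 / (s - u) := by
      rw [div_pow, div_pow, Real.sq_sqrt (by positivity), div_le_div_iff₀ (by positivity) hsu]
      field_simp
      nlinarith
    have h2 : 1 / (s - u) ≤ (2 * (d : ℝ) ^ (10 : ℝ)) ^ 2 := by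
      rw [div_le_iff₀ hsu, mul_pow, ← Real.rpow_natCast ((d : ℝ) ^ (10 : ℝ)),
        ← Real.rpow_mul hd0.le, show s - u = s / 2 by rw [hu]; ring]
      have h := mul_le_mul_of_nonneg_left hs (Real.rpow_nonneg hd0.le (20 : ℝ))
      rw [← Real.rpow_add hd0, add_neg_cancel, Real.rpow_zero] at h
      rw [show (10 : ℝ) * ((2 : ℕ) : ℝ) = 20 by norm_num]
      linarith
    exact le_of_pow_le_pow_left₀ two_ne_zero (by positivity) (h1.trans h2)
  have hδ' : δ ≤ 1 * (d : ℝ) ^ (-(40 : ℝ)) * (2 * (d : ℝ) ^ 2) := by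
    refine mul_le_mul (mul_le_mul ht1 ?_ (Real.rpow_nonneg hd0.le _) zero_le_one) ?_
      (by positivity) (by positivity)
    · exact Real.rpow_le_rpow_of_exponent_le hd1 (by linarith)
    · have : √(d : ℝ) ≤ d := (Real.sqrt_le_left hd0.le).2 (le_self_pow₀ hd1 two_ne_zero)
      nlinarith
  have hpc : 0 ≤ perturbConst := by unfold perturbConst; positivity
  calc c₀ * δ = perturbConst * d * (a / σ) * δ := by simp only [c₀]; ring
    _ ≤ perturbConst * d * (2 * (d : ℝ) ^ (10 : ℝ)) * (1 * (d : ℝ) ^ (-(40 : ℝ)) * (2 * (d : ℝ) ^ 2)) :=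
        mul_le_mul (mul_le_mul_of_nonneg_left hσa (by positivity)) hδ' hδ (by positivity)
    _ = 4 * perturbConst * ((d : ℝ) ^ (1 : ℕ) * (d : ℝ) ^ (10 : ℝ) * (d : ℝ) ^ (-(40 : ℝ))
          * (d : ℝ) ^ 2) := by ring
    _ ≤ (d : ℝ) ^ (7 : ℕ) * ((d : ℝ) ^ (1 : ℕ) * (d : ℝ) ^ (10 : ℝ) * (d : ℝ) ^ (-(40 : ℝ))
          * (d : ℝ) ^ 2) := mul_le_mul_of_nonneg_right hbig (by positivity)
    _ = (d : ℝ) ^ (-(20 : ℝ)) := by
        simp only [← Real.rpow_natCast, ← Real.rpow_add hd0]
        norm_num
    _ ≤ (d : ℝ) ^ (-(4 : ℝ)) := Real.rpow_le_rpow_of_exponent_le hd1 (by norm_num)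

end

end P347.Zero
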