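import Vale.Agent.P347.Zero.DownChain
import Vale.Agent.P347.Zero.Move
import Vale.Agent.P347.Zero.Steps

/-!
# P347: samplers from score oracles

The stages run down to a variance far below the wanted one; the Gaussian bridge between the centre
and the point found there gives the wanted point, and absorbs both blurs.
-/

namespace P347.Zero

open MeasureTheory ProbabilityTheory Set Filter
open scoped ENNReal

noncomputable section

variable {d : ℕ}

attribute [local irreducible] score smooth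

/-! ## The bridge -/

theorem mp_rot :
    MeasurePreserving (fun p : Space d × Space d =>
        ((√2)⁻¹ • (p.1 - p.2), (√2)⁻¹ • (p.1 + p.2)))
      ((stdGaussian (Space d)).prod (stdGaussian (Space d)))
      ((stdGaussian (Space d)).prod (stdGaussian (Space d))) := by
  set γ := stdGaussian (Space d)
  have hr : MeasurePreserving (ContinuousLinearMap.rotation (E := Space d) (Real.pi / 4))
      (γ.prod γ) (γ.prod γ) :=
    ⟨by fun_prop, IsGaussian.map_rotation_eq_self (μ := γ) (by simp [γ]) _⟩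
  have hsw : MeasurePreserving (Prod.swap : Space d × Space d → Space d × Space d)
      (γ.prod γ) (γ.prod γ) := Measure.measurePreserving_swap
  have e : (fun p : Space d × Space d => ((√2)⁻¹ • (p.1 - p.2), (√2)⁻¹ • (p.1 + p.2))) =
      Prod.swap ∘ (ContinuousLinearMap.rotation (E := Space d) (Real.pi / 4)) ∘ Prod.swap := by
    have h : √2 / 2 = (√2)⁻¹ := by
      rw [div_eq_iff two_ne_zero, inv_mul_eq_div, Real.div_sqrt]
    funext p
    simp only [Function.comp_apply, ContinuousLinearMap.rotation_apply, Real.cos_pi_div_four,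
      Real.sin_pi_div_four, h, Prod.swap_prod_mk, Prod.fst_swap, Prod.snd_swap]
    ext1 <;> simp only [smul_add, smul_sub, neg_smul] <;> abel
  rw [e]
  exact hsw.comp (hr.comp hsw)

variable {Ω : Type} [MeasurableSpace Ω] {P : Measure Ω} [IsProbabilityMeasure P]

/-- The seeds of the bridge: a splitting noise, a pad, and the seeds of the stages. -/
abbrev BridgeSeed (d : ℕ) (Ω : Type) : Type := (Space d × Space d) × Ω

/-- The ideal output of the bridge. -/
def bridgeZ (X G : Space d → Space d × Ω → Space d) (a b τ σ ν : ℝ) (c : Space d)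
    (w : Space d × BridgeSeed d Ω) : Space d :=
  (a • X c ((√2)⁻¹ • (w.1 - w.2.1.1), w.2.2) + b • c
    + (a * σ) • G c ((√2)⁻¹ • (w.1 - w.2.1.1), w.2.2))
    + (b * (√2 * τ)) • ((√2)⁻¹ • (w.1 + w.2.1.1)) + ν • w.2.1.2

/-- The change of variables of the bridge. -/
def bridgeMap (w : Space d × BridgeSeed d Ω) : (Space d × Ω) × (Space d × Space d) :=
  ((((√2)⁻¹ • (w.1 - w.2.1.1)), w.2.2), (((√2)⁻¹ • (w.1 + w.2.1.1)), w.2.1.2))

/-- The program of the bridge. -/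
def bridgeAlg (A : Alg d (Ω × Space d) (Space d)) (a b τ ν : ℝ) :
    Alg d (BridgeSeed d Ω × Space d) (Space d) :=
  (A.comap fun z => (z.1.2, z.2 - τ • z.1.1.1)).seq
    (Alg.pure d fun z => a • z.2 + b • (z.1.2 + τ • z.1.1.1.1) + ν • z.1.1.1.2)

omit [MeasurableSpace Ω] in
theorem bridgeAlg_eval (A : Alg d (Ω × Space d) (Space d)) (a b τ ν : ℝ) (V : Space d → ℝ)
    (ω : BridgeSeed d Ω) (x : Space d) :
    (bridgeAlg A a b τ ν).eval (oracle V) (ω, x)
      = a • A.eval (oracle V) (ω.2, x - τ • ω.1.1) + b • (x + τ • ω.1.1) + ν • ω.1.2 := by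
  simp [bridgeAlg, Alg.seq_eval, Alg.comap_eval, Alg.pure_eval]

theorem bridgeAlg_meas {A : Alg d (Ω × Space d) (Space d)} (hA : A.Meas) (a b τ ν : ℝ) :
    (bridgeAlg A a b τ ν).Meas :=
  Alg.seq_meas (Alg.comap_meas hA (by fun_prop)) (Alg.pure_meas (by fun_prop))

theorem mp_bridgeMap :
    MeasurePreserving (bridgeMap (d := d) (Ω := Ω))
      ((stdGaussian (Space d)).prod (((stdGaussian (Space d)).prod (stdGaussian (Space d))).prod P))
      (((stdGaussian (Space d)).prod P).prod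
        ((stdGaussian (Space d)).prod (stdGaussian (Space d)))) := by
  set γ := stdGaussian (Space d)
  have e0 : MeasurePreserving (fun w : Space d × BridgeSeed d Ω =>
      ((w.1, w.2.1.1), (w.2.1.2, w.2.2))) (γ.prod ((γ.prod γ).prod P))
      ((γ.prod γ).prod (γ.prod P)) :=
    ((measurePreserving_prodAssoc γ γ (γ.prod P)).symm MeasurableEquiv.prodAssoc).comp
      ((MeasurePreserving.id γ).prod (measurePreserving_prodAssoc γ γ P))
  have e1 : MeasurePreserving (fun z : (Space d × Space d) × (Space d × Ω) =>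
      ((z.1.1, z.2.2), (z.1.2, z.2.1))) ((γ.prod γ).prod (γ.prod P))
      ((γ.prod P).prod (γ.prod γ)) := by
    have h1 : MeasurePreserving (fun z : (Space d × Space d) × (Space d × Ω) =>
        (z.1.1, (z.1.2, (z.2.1, z.2.2)))) ((γ.prod γ).prod (γ.prod P))
        (γ.prod (γ.prod (γ.prod P))) := measurePreserving_prodAssoc γ γ (γ.prod P)
    have h2 : MeasurePreserving (fun z : Space d × (Space d × (Space d × Ω)) =>
        (z.1, (z.2.2.2, (z.2.1, z.2.2.1)))) (γ.prod (γ.prod (γ.prod P)))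
        (γ.prod (P.prod (γ.prod γ))) :=
      (MeasurePreserving.id γ).prod ((Measure.measurePreserving_swap (μ := γ.prod γ) (ν := P)).comp
        ((measurePreserving_prodAssoc γ γ P).symm MeasurableEquiv.prodAssoc))
    exact (((measurePreserving_prodAssoc γ P (γ.prod γ)).symm MeasurableEquiv.prodAssoc).comp
      (h2.comp h1) :)
  exact (e1.comp (((mp_rot (d := d)).prod (MeasurePreserving.id (γ.prod P))).comp e0) :)

theorem bridge_law {V : Space d → ℝ} (hV : Quarter.InClass V) {r u s τ σ ν a b : ℝ}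
    {X G : Space d → Space d × Ω → Space d} (hX : Measurable (Function.uncurry X))
    (hG : Measurable (Function.uncurry G))
    (hl : ∀ c (F : Space d × Space d → ℝ), Test F →
      ∫ w, F (X c w, G c w) ∂(stdGaussian (Space d)).prod P
        = condMean V r u (fun x => ∫ g, F (x, g) ∂stdGaussian (Space d)) c)
    (hu : 0 ≤ u) (hus : u < s) (hsr : s < r) (hτ : 0 ≤ τ) (hν0 : 0 ≤ ν) (hσ : 0 ≤ a * σ)
    (hb0 : 0 ≤ b) (ha : a = (r - s) / (r - u)) (hb : b = (s - u) / (r - u))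
    (hν : (a * σ) ^ 2 + 2 * (b * τ) ^ 2 + ν ^ 2 = (s - u) * (r - s) / (r - u))
    (c : Space d) {f : Space d → ℝ} (hf : Test f) :
    ∫ w, f (bridgeZ X G a b τ σ ν c w) ∂(stdGaussian (Space d)).prod
        (((stdGaussian (Space d)).prod (stdGaussian (Space d))).prod P)
      = condMean V r s f c := by
  set γ := stdGaussian (Space d)
  have hπ := mp_bridgeMap (d := d) (P := P)
  set σb := √((s - u) * (r - s) / (r - u))
  have hXc : Measurable (X c) := hX.comp (measurable_const.prodMk measurable_id)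
  have hGc : Measurable (G c) := hG.comp (measurable_const.prodMk measurable_id)
  set Y : Space d × Ω → Space d := fun v => a • X c v + b • c + (a * σ) • G c v
  have hY : Measurable Y := ((hXc.const_smul a).add measurable_const).add (hGc.const_smul (a * σ))
  set H : (Space d × Ω) × (Space d × Space d) → ℝ := fun z =>
    f (Y z.1 + (b * (√2 * τ)) • z.2.1 + ν • z.2.2)
  have hH : Test H := ⟨hf.meas.comp (((hY.comp measurable_fst).add (by fun_prop)).add
    (by fun_prop)), fun _ => hf.nonneg _, fun _ => hf.le_one _⟩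
  set ρ := √((b * (√2 * τ)) ^ 2 + ν ^ 2)
  have hinner : ∀ y : Space d, ∫ z : Space d × Space d,
      f (y + (b * (√2 * τ)) • z.1 + ν • z.2) ∂γ.prod γ = Quarter.gav ρ f y := by
    intro y
    rw [← gav_gav hf (a := b * (√2 * τ)) (b := ν) (c := ρ) (by positivity) hν0
      (Real.sqrt_nonneg _) (by rw [Real.sq_sqrt (by positivity)]) y]
    have hT : Test fun z : Space d × Space d => f (y + (b * (√2 * τ)) • z.1 + ν • z.2) :=
      ⟨hf.meas.comp (by fun_prop), fun _ => hf.nonneg _, fun _ => hf.le_one _⟩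
    rw [integral_prod _ (hT.integrable _)]
    rfl
  set Φ : Space d × Space d → ℝ := fun p => Quarter.gav ρ f (a • p.1 + b • c + (a * σ) • p.2)
  have hΦ : Test Φ := ⟨(test_gav' hf ρ).meas.comp (by fun_prop),
    fun _ => (test_gav' hf ρ).nonneg _, fun _ => (test_gav' hf ρ).le_one _⟩
  have hout : (fun x => ∫ g, Φ (x, g) ∂γ)
      = fun x => Quarter.gav σb f (a • x + b • c) := by
    funext x
    have hsq : (a * σ) ^ 2 + ρ ^ 2 = σb ^ 2 := by
      rw [Real.sq_sqrt (by positivity), Real.sq_sqrt (hν ▸ by positivity), mul_pow b,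
        mul_pow √2, Real.sq_sqrt (by norm_num), ← hν]
      ring
    rw [← gav_gav hf hσ (Real.sqrt_nonneg _) (Real.sqrt_nonneg _) hsq]
    rfl
  calc ∫ w, f (bridgeZ X G a b τ σ ν c w) ∂γ.prod ((γ.prod γ).prod P)
      = ∫ z, H z ∂(γ.prod P).prod (γ.prod γ) := by
        rw [← hπ.map_eq]
        exact (integral_map hπ.measurable.aemeasurable hH.meas.aestronglyMeasurable).symm
    _ = ∫ v, Φ (X c v, G c v) ∂γ.prod P := by
        rw [integral_prod _ (hH.integrable _)]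
        exact integral_congr_ae (Eventually.of_forall fun v => hinner (Y v))
    _ = condMean V r u (fun x => ∫ g, Φ (x, g) ∂γ) c := hl c Φ hΦ
    _ = condMean V r s f c := by
        rw [hout, ha, hb]
        exact condMean_bridge hV hu hus hsr hf c

theorem bridge_err {V : Space d → ℝ} (hV : Quarter.InClass V)
    {A : Alg d (Ω × Space d) (Space d)} (hA : A.Meas) {τ σ δ ν a b : ℝ} (ha0 : 0 ≤ a)
    {X G : Space d → Space d × Ω → Space d} (hX : Measurable (Function.uncurry X))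
    (hG : Measurable (Function.uncurry G)) (c : Space d)
    (he : eLpNorm (fun w => A.eval (oracle V) (w.2, c + (√2 * τ) • w.1) - (X c w + σ • G c w)) 2
      ((stdGaussian (Space d)).prod P) ≤ ENNReal.ofReal (δ * (√(d : ℝ) + ‖c‖))) :
    eLpNorm (fun w : Space d × BridgeSeed d Ω =>
        (bridgeAlg A a b τ ν).eval (oracle V) (w.2, c + τ • w.1) - bridgeZ X G a b τ σ ν c w) 2
      ((stdGaussian (Space d)).prod
        (((stdGaussian (Space d)).prod (stdGaussian (Space d))).prod P))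
      ≤ ENNReal.ofReal (a * δ * (√(d : ℝ) + ‖c‖)) := by
  set γ := stdGaussian (Space d)
  have hπ := mp_bridgeMap (d := d) (P := P)
  have h2 : (0 : ℝ) < √2 := by positivity
  set Δ : Space d × Ω → Space d := fun v =>
    A.eval (oracle V) (v.2, c + (√2 * τ) • v.1) - (X c v + σ • G c v)
  have hO := Quarter.measurable_oracle hV.smooth
  have hev : Measurable fun z : Ω × Space d => A.eval (oracle V) z :=
    hA.eval (O := fun _ => oracle V) (hO.comp measurable_snd) measurable_id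
  have hΔ : Measurable Δ := (hev.comp (by fun_prop)).sub
    ((hX.comp (measurable_const.prodMk measurable_id)).add
      ((hG.comp (measurable_const.prodMk measurable_id)).const_smul σ))
  have e : (fun w : Space d × BridgeSeed d Ω =>
      (bridgeAlg A a b τ ν).eval (oracle V) (w.2, c + τ • w.1) - bridgeZ X G a b τ σ ν c w)
      = a • ((Δ ∘ Prod.fst) ∘ bridgeMap) := by
    funext w
    simp only [Pi.smul_apply, Function.comp_apply, bridgeAlg_eval, bridgeZ, bridgeMap, Δ]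
    have e1 : c + (√2 * τ) • ((√2)⁻¹ • (w.1 - w.2.1.1)) = c + τ • w.1 - τ • w.2.1.1 := by
      rw [smul_smul, mul_comm √2, mul_assoc, mul_inv_cancel₀ h2.ne', mul_one, smul_sub,
        add_sub_assoc]
    rw [e1]
    simp only [smul_sub, smul_add, smul_smul]
    rw [show b * (√2 * τ) * (√2)⁻¹ = b * τ by field_simp]
    module
  rw [e, eLpNorm_const_smul, eLpNorm_comp_measurePreserving
      (hΔ.comp measurable_fst).aestronglyMeasurable hπ,
    eLpNorm_comp_measurePreserving hΔ.aestronglyMeasurable measurePreserving_fst,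
    Real.enorm_eq_ofReal ha0, mul_assoc a, ENNReal.ofReal_mul ha0]
  exact mul_le_mul' le_rfl he

theorem lintegral_sq_le {E F : Type} [MeasurableSpace E] [MeasurableSpace F] {μ : Measure E}
    {ν : Measure F} [SFinite ν] {f : E × F → Space d} (hf : Measurable f) {x : ℝ}
    (h : eLpNorm f 2 (μ.prod ν) ≤ ENNReal.ofReal x) :
    ∫⁻ N, ∫⁻ ω, ENNReal.ofReal (‖f (N, ω)‖ ^ 2) ∂ν ∂μ ≤ ENNReal.ofReal (x ^ 2) := by
  rw [← lintegral_prod (fun w => ENNReal.ofReal (‖f w‖ ^ 2))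
    (hf.norm.pow_const 2).ennreal_ofReal.aemeasurable, ← eLpNorm_two_sq]
  refine (pow_le_pow_left₀ zero_le h 2).trans ?_
  rw [← sq_abs x, ENNReal.ofReal_pow (abs_nonneg _)]
  exact pow_le_pow_left₀ zero_le (ENNReal.ofReal_le_ofReal (le_abs_self _)) 2

/-- The bridge from a point below to the wanted variance. -/
theorem validPost_bridge {V : Space d → ℝ} (hV : Quarter.InClass V)
    {A : Alg d (Ω × Space d) (Space d)} (hA : A.Meas) {r u s τ σ δ L Γ a b : ℝ}
    (hP : BlurPost P A V r u (√2 * τ) σ δ L Γ) (hu : 0 ≤ u) (hus : u < s) (hsr : s < r)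
    (hτ : 0 ≤ τ) (hσ : 0 ≤ σ) (ha : a = (r - s) / (r - u)) (hb : b = (s - u) / (r - u))
    (hnoise : (a * σ) ^ 2 + 2 * (b * τ) ^ 2 ≤ (s - u) * (r - s) / (r - u)) :
    ValidPost (((stdGaussian (Space d)).prod (stdGaussian (Space d))).prod P)
      (bridgeAlg A a b τ √((s - u) * (r - s) / (r - u) - (a * σ) ^ 2 - 2 * (b * τ) ^ 2))
      V r s τ (a * δ) (a * L + b) := by
  have hru : 0 < r - u := by linarith
  have hrs : 0 < r - s := by linarith
  have hsu : 0 < s - u := by linarith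
  have ha0 : 0 ≤ a := ha ▸ by positivity
  have hb0 : 0 ≤ b := hb ▸ by positivity
  set ν := √((s - u) * (r - s) / (r - u) - (a * σ) ^ 2 - 2 * (b * τ) ^ 2)
  obtain ⟨⟨X, G, hX, hG, hl, he⟩, hlip⟩ := hP
  set γ := stdGaussian (Space d)
  have hν2 : (a * σ) ^ 2 + 2 * (b * τ) ^ 2 + ν ^ 2 = (s - u) * (r - s) / (r - u) := by
    rw [Real.sq_sqrt (by linarith)]; ring
  have hZ : Measurable (Function.uncurry (bridgeZ X G a b τ σ ν)) := by
    have hp : Measurable fun z : Space d × (Space d × BridgeSeed d Ω) =>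
        (z.1, ((√2)⁻¹ • (z.2.1 - z.2.2.1.1), z.2.2.2)) := by fun_prop
    have h1 := hX.comp hp
    have h2 := hG.comp hp
    exact ((((h1.const_smul a).add (by fun_prop)).add (h2.const_smul (a * σ))).add
      (by fun_prop)).add (by fun_prop)
  refine ⟨⟨bridgeZ X G a b τ σ ν, hZ, fun c f hf => bridge_law hV hX hG hl hu hus hsr hτ
    (Real.sqrt_nonneg _) (mul_nonneg ha0 hσ) hb0 ha hb hν2 c hf, fun c => ?_⟩, fun ω x x' => ?_⟩
  · have hO := Quarter.measurable_oracle hV.smooth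
    have hev : Measurable fun w : Space d × BridgeSeed d Ω =>
        (bridgeAlg A a b τ ν).eval (oracle V) (w.2, c + τ • w.1) :=
      (bridgeAlg_meas hA a b τ ν).eval (O := fun _ => oracle V) (hO.comp measurable_snd)
        (b := fun w : Space d × BridgeSeed d Ω => (w.2, c + τ • w.1)) (by fun_prop)
    exact lintegral_sq_le (hev.sub (hZ.comp (measurable_const.prodMk measurable_id)))
      (bridge_err hV hA ha0 hX hG c (he c).1)
  · simp only [bridgeAlg_eval]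
    have e : a • A.eval (oracle V) (ω.2, x - τ • ω.1.1) + b • (x + τ • ω.1.1) + ν • ω.1.2
        - (a • A.eval (oracle V) (ω.2, x' - τ • ω.1.1) + b • (x' + τ • ω.1.1) + ν • ω.1.2)
        = a • (A.eval (oracle V) (ω.2, x - τ • ω.1.1) - A.eval (oracle V) (ω.2, x' - τ • ω.1.1))
          + b • (x - x') := by
      simp only [smul_sub, smul_add]; abel
    rw [e]
    refine (norm_add_le _ _).trans ?_
    rw [norm_smul, norm_smul, Real.norm_eq_abs, Real.norm_eq_abs, abs_of_nonneg ha0,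
      abs_of_nonneg hb0, add_mul, mul_assoc]
    refine add_le_add (mul_le_mul_of_nonneg_left ((hlip _ _ _).trans_eq ?_) ha0) le_rfl
    rw [sub_sub_sub_cancel_right]

/-! ## The parameters -/

theorem exists_big_rpow (c C : ℝ) (hc : 0 < c) : ∃ d₀ : ℕ, ∀ d : ℕ, d₀ ≤ d → C ≤ (d : ℝ) ^ c :=
  eventually_atTop.1 (((tendsto_rpow_atTop hc).comp tendsto_natCast_atTop_atTop).eventually_ge_atTop C)

theorem rpow_le_neg {x a b : ℝ} (hx : 1 ≤ x) (h : b ≤ a) : x ^ (-a) ≤ x ^ (-b) :=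
  Real.rpow_le_rpow_of_exponent_le hx (neg_le_neg h)

/-- A constant times a negative power is at most one once the positive power is at least it. -/
theorem const_mul_rpow_le_one {x C a e : ℝ} (hx : 1 ≤ x) (hea : e ≤ a) (hC : C ≤ x ^ e) :
    C * x ^ (-a) ≤ 1 := by
  have h0 : 0 < x ^ a := Real.rpow_pos_of_pos (by linarith) _
  rw [Real.rpow_neg (by linarith), ← div_eq_mul_inv, div_le_one h0]
  exact hC.trans (Real.rpow_le_rpow_of_exponent_le hx hea)

theorem sum_geom_h (h : ℝ) (N : ℕ) :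
    ∑ j ∈ Finset.range N, h * (1 - h) ^ j = 1 - (1 - h) ^ N := by
  induction N with
  | zero => simp
  | succ N ih => rw [Finset.sum_range_succ, ih, pow_succ]; ring

/-- The lengths of the stages have a bounded sum. -/
theorem sum_sqrt_stage {r h : ℝ} (h0 : 0 < h) (h1 : h ≤ 1) (hrh : r ≤ h) (N : ℕ) :
    ∑ j ∈ Finset.range N, √(h * (r * (1 - h) ^ j)) ≤ 2 := by
  have hj : ∀ j : ℕ, √(h * (r * (1 - h) ^ j)) ≤ h * (1 - h / 2) ^ j := fun j => by
    refine (Real.sqrt_le_left (mul_nonneg h0.le (pow_nonneg (by linarith) _))).2 ?_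
    rw [mul_pow, ← pow_mul, mul_comm j 2, pow_mul, sq h, mul_assoc h h]
    exact mul_le_mul_of_nonneg_left (mul_le_mul hrh
      (pow_le_pow_left₀ (by linarith) (by nlinarith) j) (pow_nonneg (by linarith) _) h0.le) h0.le
  refine (Finset.sum_le_sum fun j _ => hj j).trans ?_
  have e := sum_geom_h (h / 2) N
  have e2 : ∑ j ∈ Finset.range N, h * (1 - h / 2) ^ j
      = 2 * ∑ j ∈ Finset.range N, h / 2 * (1 - h / 2) ^ j := by
    rw [Finset.mul_sum]
    exact Finset.sum_congr rfl fun j _ => by ring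
  rw [e2, e]
  linarith [pow_nonneg (show (0 : ℝ) ≤ 1 - h / 2 by linarith) N]

theorem two_rpow_split {x a b : ℝ} (hx : 0 < x) : x ^ (-(a + b)) = x ^ (-b) * x ^ (-a) := by
  rw [← Real.rpow_add hx]; ring_nf

theorem seeds_standard (C : Circuit d) (m : ℕ) : StandardBorelSpace (C.Seeds m) := by
  have h1 : StandardBorelSpace (Fin C.T → Space d) := StandardBorelSpace.pi_countable
  have h2 : ∀ g : Fin m, StandardBorelSpace (C.Cell g) := fun g => inferInstance
  have h3 : StandardBorelSpace (∀ g : Fin m, C.Cell g) := StandardBorelSpace.pi_countable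
  exact StandardBorelSpace.prod

theorem stage_first {r η e Q α : ℝ} (hd : 1 ≤ (d : ℝ)) (hα : 0 ≤ α) (hQ0 : 0 ≤ Q)
    (hh1 : (d : ℝ) ^ (-e) ≤ 1) (hsm : 2 * Q * (d : ℝ) ^ (-(η - e)) ≤ 1) :
    Q * (√r * (√2 * (d : ℝ) ^ (-(α + η)))) ≤ √((d : ℝ) ^ (-e) * r) := by
  have hd0 : (0 : ℝ) < d := by linarith
  set h := (d : ℝ) ^ (-e)
  set a₀ := √2 * (d : ℝ) ^ (-(α + η))
  have hh0 : 0 < h := Real.rpow_pos_of_pos hd0 _
  have ha0 : 0 ≤ a₀ := by positivity
  have h2le : √2 ≤ 2 := (Real.sqrt_le_left zero_le_two).2 (by norm_num)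
  rw [Real.sqrt_mul hh0.le, mul_left_comm, mul_comm √h]
  refine mul_le_mul_of_nonneg_left ?_ (Real.sqrt_nonneg _)
  refine Real.le_sqrt_of_sq_le ?_
  have h1 : a₀ ≤ 2 * (d : ℝ) ^ (-η) := mul_le_mul h2le
    (rpow_le_neg hd (by linarith)) (Real.rpow_nonneg hd0.le _) zero_le_two
  have h3 : Q * a₀ ≤ h := by
    refine (mul_le_mul_of_nonneg_left h1 hQ0).trans ?_
    have e5 : (d : ℝ) ^ (-η) = (d : ℝ) ^ (-(η - e)) * h := by
      simp only [h]; rw [← Real.rpow_add hd0]; ring_nf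
    rw [e5, ← mul_assoc, ← mul_assoc, mul_comm Q 2]
    exact mul_le_of_le_one_left hh0.le hsm
  exact (pow_le_pow_left₀ (mul_nonneg hQ0 ha0) h3 2).trans (by nlinarith)

theorem stage_mid {r r' η α β T Q h : ℝ} (hd : 1 ≤ (d : ℝ)) (hr : 0 < r) (hr' : r / 2 ≤ r') (hh0 : 0 ≤ h) (hh1 : h ≤ 1)
    (hT : 0 ≤ T) (hQ : 0 ≤ Q) (hrβ : r * (d : ℝ) ^ β ≤ (d : ℝ) ^ (-(α + η)))
    (hsm : 2 * Q * (2 + T) * (d : ℝ) ^ (-η) ≤ 1) :
    Q * (√r * (√2 * (d : ℝ) ^ (-(α + η))) + h * r * T * (√r * (d : ℝ) ^ β))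
      ≤ √r' * (d : ℝ) ^ (-α) := by
  have hd0 : (0 : ℝ) < d := by linarith
  have h1 : √r / 2 ≤ √r' := Real.le_sqrt_of_sq_le (by rw [div_pow, Real.sq_sqrt hr.le]; linarith)
  refine le_trans ?_ (mul_le_mul_of_nonneg_right h1 (Real.rpow_nonneg hd0.le _))
  have h2le : √2 ≤ 2 := (Real.sqrt_le_left zero_le_two).2 (by norm_num)
  have e6 := two_rpow_split (a := α) (b := η) hd0
  have hP : 0 ≤ (d : ℝ) ^ (-(α + η)) := Real.rpow_nonneg hd0.le _
  have h2 : h * r * T * (d : ℝ) ^ β ≤ T * (d : ℝ) ^ (-(α + η)) := by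
    have h7 := mul_le_mul_of_nonneg_left hrβ (mul_nonneg hh0 hT)
    have h8 := mul_le_mul_of_nonneg_right (mul_le_of_le_one_left hT hh1) hP
    linarith
  have hPη : 0 ≤ (d : ℝ) ^ (-η) := Real.rpow_nonneg hd0.le _
  have h9 : Q * (√2 + T) * (d : ℝ) ^ (-η) ≤ 1 / 2 := by
    have := mul_le_mul_of_nonneg_right
      (mul_le_mul_of_nonneg_left (add_le_add_left h2le T) hQ) hPη
    linarith
  calc Q * (√r * (√2 * (d : ℝ) ^ (-(α + η))) + h * r * T * (√r * (d : ℝ) ^ β))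
      = √r * (Q * (√2 * (d : ℝ) ^ (-(α + η)) + h * r * T * (d : ℝ) ^ β)) := by ring
    _ ≤ √r * (Q * (√2 * (d : ℝ) ^ (-(α + η)) + T * (d : ℝ) ^ (-(α + η)))) := by gcongr
    _ = √r * (Q * (√2 + T) * (d : ℝ) ^ (-η) * (d : ℝ) ^ (-α)) := by rw [e6]; ring
    _ ≤ √r * (1 / 2 * (d : ℝ) ^ (-α)) := by gcongr
    _ = _ := by ring

theorem stage_final {r η α β T Q h : ℝ} (hd : 1 ≤ (d : ℝ)) (hr : 0 < r) (hh2 : h ≤ 1 / 2)
    (hrβ : r * (d : ℝ) ^ β ≤ (d : ℝ) ^ (-(α + η)))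
    (hsm : Q * T * h ≤ 1) :
    Q * (h * r * T * (√r * (d : ℝ) ^ β)) ≤ √(r * (1 - h)) * (√2 * (d : ℝ) ^ (-(α + η))) := by
  have hd0 : (0 : ℝ) < d := by linarith
  rw [Real.sqrt_mul hr.le]
  have h1 : 1 ≤ √(1 - h) * √2 := by
    rw [← Real.sqrt_mul (by linarith)]; exact Real.one_le_sqrt.2 (by linarith)
  calc Q * (h * r * T * (√r * (d : ℝ) ^ β))
      = √r * (Q * T * h * (r * (d : ℝ) ^ β)) := by ring
    _ ≤ √r * (1 * (d : ℝ) ^ (-(α + η))) := by gcongr
    _ ≤ √r * (√(1 - h) * √2 * (d : ℝ) ^ (-(α + η))) := by gcongr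
    _ = _ := by ring

theorem stage_err {n k : ℕ} {r e T C K D : ℝ} (hd : 1 ≤ (d : ℝ)) (hr : 0 < r) (hr1 : r ≤ 1)
    (hh1 : (d : ℝ) ^ (-e) ≤ 1) (hT : 0 ≤ T) (hC0 : 0 ≤ C) (hD : D ≤ K)
    (hk : K ≤ (k + 1 : ℕ) * e) (hn : 2 * K ≤ (n : ℕ) * e) :
    18 * T * ((d : ℝ) ^ (-e) * r) * (d : ℝ) ^ (-D)
      + (48 * T * ((d : ℝ) ^ (-e) * r) * (2 * T * ((d : ℝ) ^ (-e) * r)) ^ (k + 1)
        + C * T * 2 ^ (n + 2) * √((d : ℝ) ^ (-e) * r) ^ 3
          * (√((d : ℝ) ^ (-e) * r) / √r) ^ n)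
    ≤ (d : ℝ) ^ (-e) * r * ((18 * T + (48 * T * (2 * T) ^ (k + 1) + C * T * 2 ^ (n + 2)))
        * (d : ℝ) ^ (-D)) := by
  have hd0 : (0 : ℝ) < d := by linarith
  set h := (d : ℝ) ^ (-e) with hh
  have hh0 : 0 < h := Real.rpow_pos_of_pos hd0 _
  have hpow : ∀ m : ℕ, K ≤ (m : ℕ) * e → h ^ m ≤ (d : ℝ) ^ (-D) := fun m hm => by
    rw [hh, ← Real.rpow_natCast, ← Real.rpow_mul hd0.le, neg_mul]
    exact rpow_le_neg hd (by linarith)
  have h1 : (2 * T * (h * r)) ^ (k + 1) ≤ (2 * T) ^ (k + 1) * (d : ℝ) ^ (-D) := by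
    rw [mul_pow]
    refine mul_le_mul_of_nonneg_left ?_ (by positivity)
    exact (pow_le_pow_left₀ (by positivity) (mul_le_of_le_one_right hh0.le hr1) _).trans
      (hpow _ hk)
  have h2 : (√(h * r) / √r) ^ n ≤ (d : ℝ) ^ (-D) := by
    have e1 : √(h * r) / √r = (d : ℝ) ^ (-(e / 2)) := by
      rw [Real.sqrt_mul hh0.le, mul_div_cancel_right₀ _ (Real.sqrt_pos.2 hr).ne',
        Real.sqrt_eq_rpow, hh, ← Real.rpow_mul hd0.le]
      ring_nf
    rw [e1, ← Real.rpow_natCast, ← Real.rpow_mul hd0.le, neg_mul]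
    exact rpow_le_neg hd (by linarith)
  have h3 : √(h * r) ^ 3 ≤ h * r := by
    refine (pow_le_pow_of_le_one (Real.sqrt_nonneg _) (Real.sqrt_le_one.2
      (mul_le_one₀ hh1 hr.le hr1)) (by norm_num : 2 ≤ 3)).trans (le_of_eq ?_)
    exact Real.sq_sqrt (by positivity)
  have a1 := mul_le_mul_of_nonneg_left h1 (by positivity : 0 ≤ 48 * T * (h * r))
  have a2 := mul_le_mul (mul_le_mul_of_nonneg_left h3 (by positivity : 0 ≤ C * T * 2 ^ (n + 2)))
    h2 (by positivity) (by positivity)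
  linarith

/-- All that is asked of a stage. -/
theorem stage_exists {n k : ℕ} {C : ℝ} (hC : TimeAt n C) {ε e η K : ℝ} {x : Expo} (he : 0 < e)
    (heη : 4 * e ≤ η) (hη : η ≤ ε) (hα : 0 ≤ x.α) (hD : x.D ≤ K)
    (hab : x.α + x.β + η ≤ ε) (hl : x.ℓ + η ≤ ε) (hk : K ≤ (k + 1 : ℕ) * e)
    (hn : 2 * K ≤ (n : ℕ) * e) {T : ℝ} (hT : T = cellSize n) {Q : ℝ}
    (hQ : Q = √(((k + 1) * (n + 1) + 1 + 1 : ℕ) : ℝ))
    (hd : 1 ≤ (d : ℝ)) (hbig : 8 * (T + 2) * (Q + 1) ≤ (d : ℝ) ^ e) (hval : HasVal d ε x)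
    {r : ℝ} (hr : 0 < r) (hr1 : r ≤ (d : ℝ) ^ (-ε)) :
    ∃ (Ω : Type) (_ : MeasurableSpace Ω) (P : Measure Ω) (A : Alg d (Ω × Space d) (Space d)),
      StandardBorelSpace Ω ∧ IsProbabilityMeasure P ∧ A.Meas ∧
      (A.size : ℝ) ≤ ((k + 1) * (n + 1) + 1 + 1 : ℕ) * (d : ℝ) ^ x.q ∧
      ∀ V : Space d → ℝ, Quarter.InClass V →
        BlurPost P A V r (r * (1 - (d : ℝ) ^ (-e)))
          (√r * (√2 * (d : ℝ) ^ (-(x.α + η))))
          (√(r * (1 - (d : ℝ) ^ (-e))) * (√2 * (d : ℝ) ^ (-(x.α + η))))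
          ((d : ℝ) ^ (-e) * r * ((18 * T + (48 * T * (2 * T) ^ (k + 1) + C * T * 2 ^ (n + 2)))
            * (d : ℝ) ^ (-x.D)))
          (1 + 2 * T * (d : ℝ) ^ x.ℓ * ((d : ℝ) ^ (-e) * r))
          (1 + 50 * √((d : ℝ) ^ (-e) * r)) := by
  set h := (d : ℝ) ^ (-e) with hh
  have hd0 : (0 : ℝ) < d := by linarith
  have hT1 : 1 ≤ T := hT ▸ one_le_cellSize n
  have hQ0 : 0 ≤ Q := hQ ▸ Real.sqrt_nonneg _
  have hh0 : 0 < h := Real.rpow_pos_of_pos hd0 _
  have hsmall : ∀ C' a : ℝ, e ≤ a → C' ≤ 8 * (T + 2) * (Q + 1) → C' * (d : ℝ) ^ (-a) ≤ 1 :=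
    fun C' a ha hC' => const_mul_rpow_le_one hd ha (hC'.trans hbig)
  have hTQ : 0 ≤ T * Q := by positivity
  have hh2 : h ≤ 1 / 2 := by linarith [hsmall 2 e le_rfl (by nlinarith)]
  have hTh : 4 * T * h ≤ 1 := hsmall _ e le_rfl (by nlinarith)
  have hrε : r ≤ 1 := hr1.trans (Real.rpow_le_one_of_one_le_of_nonpos hd (by linarith))
  set l := √(h * r)
  have hl2 : l ^ 2 = h * r := Real.sq_sqrt (by positivity)
  have hr' : ∀ i : Fin (n + 1), r / 2 ≤ r - (l * node (n + 1) i) ^ 2 ∧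
      r - (l * node (n + 1) i) ^ 2 ≤ (d : ℝ) ^ (-ε) := fun i => by
    have hm := node_mem (n + 1) i
    have h1 : (l * node (n + 1) i) ^ 2 ≤ l ^ 2 :=
      pow_le_pow_left₀ (mul_nonneg (Real.sqrt_nonneg _) hm.1.le)
        (mul_le_of_le_one_right (Real.sqrt_nonneg _) hm.2) 2
    constructor
    · nlinarith
    · linarith [sq_nonneg (l * node (n + 1) i)]
  choose ΩO mO PO AO sO pO mA zA vA using fun i =>
    hval (r - (l * node (n + 1) i) ^ 2) (by linarith [(hr' i).1]) (hr' i).2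
  set a₀ := √2 * (d : ℝ) ^ (-(x.α + η))
  let S : Stage d n :=
    { r := r, l := l, σin := √r * a₀, σout := √(r * (1 - h)) * a₀, k := k
      tg := fun i => √(r - (l * node (n + 1) i) ^ 2) * (d : ℝ) ^ (-x.α)
      ρ := fun i => √(r - (l * node (n + 1) i) ^ 2) * (d : ℝ) ^ x.β
      O := fun i => ⟨ΩO i, mO i, PO i, pO i, sO i, AO i, mA i⟩ }
  have hQ' : √((S.last + 1 : ℕ) : ℝ) = Q := by rw [hQ]; rfl
  have hlast : S.last + 1 = (k + 1) * (n + 1) + 1 + 1 := rfl
  have := seeds_standard S.circ S.circ.T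
  refine ⟨_, inferInstance, S.circ.seedLaw S.circ.T, S.alg, inferInstance, inferInstance,
    S.alg_meas, hlast ▸ S.alg_size zA, fun V hV => ?_⟩
  have ha0 : 0 ≤ a₀ := by positivity
  have hrβ : r * (d : ℝ) ^ x.β ≤ (d : ℝ) ^ (-(x.α + η)) := by
    refine (mul_le_mul_of_nonneg_right hr1 (Real.rpow_nonneg hd0.le _)).trans ?_
    rw [← Real.rpow_add hd0]
    exact Real.rpow_le_rpow_of_exponent_le hd (by linarith)
  have hrℓ : r * (d : ℝ) ^ x.ℓ ≤ 1 := by
    refine (mul_le_mul_of_nonneg_right hr1 (Real.rpow_nonneg hd0.le _)).trans ?_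
    rw [← Real.rpow_add hd0]
    exact Real.rpow_le_one_of_one_le_of_nonpos hd (by linarith)
  have h2le : √2 ≤ 2 := (Real.sqrt_le_left zero_le_two).2 (by norm_num)
  have hOK : S.OK (√r * (d : ℝ) ^ x.β) ((d : ℝ) ^ (-x.D)) ((d : ℝ) ^ x.ℓ) := by
    refine ⟨⟨Real.sqrt_pos.2 (by positivity), hrε, hr, ?_, ?_⟩, by positivity, ?_,
      by positivity, by positivity, by positivity, fun i => ?_, fun i => ?_, ?_, fun i => ?_, ?_, ?_⟩
    · show l ^ 2 ≤ r / 2
      nlinarith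
    · show 4 * cellSize n * l ^ 2 ≤ 1
      rw [← hT, hl2, ← mul_assoc]
      exact mul_le_one₀ hTh hr.le hrε
    · show 0 < √(r * (1 - h)) * a₀
      exact mul_pos (Real.sqrt_pos.2 (mul_pos hr (by linarith))) (by positivity)
    · exact mul_pos (Real.sqrt_pos.2 (by linarith [(hr' i).1])) (Real.rpow_pos_of_pos hd0 _)
    · show |√(r - (l * node (n + 1) i) ^ 2) * (d : ℝ) ^ x.β| ≤ _
      rw [abs_of_nonneg (by positivity)]
      exact mul_le_mul_of_nonneg_right (Real.sqrt_le_sqrt (by linarith [sq_nonneg (l * node (n + 1) i)]))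
        (Real.rpow_nonneg hd0.le _)
    · rw [hQ']
      exact stage_first hd hα hQ0 (by linarith)
        (hsmall _ _ (by linarith) (by nlinarith))
    · rw [hQ']
      show Q * (√r * a₀ + l ^ 2 * cellSize n * (√r * (d : ℝ) ^ x.β))
        ≤ √(r - (l * node (n + 1) i) ^ 2) * (d : ℝ) ^ (-x.α)
      rw [← hT, hl2]
      exact stage_mid hd hr (hr' i).1 hh0.le (by linarith) (by linarith) hQ0 hrβ
        (hsmall _ _ (by linarith) (by nlinarith))
    · rw [hQ']
      show Q * (l ^ 2 * cellSize n * (√r * (d : ℝ) ^ x.β)) ≤ √(r * (1 - h)) * a₀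
      rw [← hT, hl2]
      exact stage_final hd hr hh2 hrβ
        (hsmall _ e le_rfl (by nlinarith))
    · show 2 * cellSize n * (d : ℝ) ^ x.ℓ * l ^ 2 ≤ 1
      rw [← hT, hl2]
      calc 2 * T * (d : ℝ) ^ x.ℓ * (h * r) = 2 * T * h * (r * (d : ℝ) ^ x.ℓ) := by ring
        _ ≤ 1 := mul_le_one₀ (by linarith [mul_nonneg (zero_le_one.trans hT1) hh0.le])
          (by positivity) hrℓ
  have hb := S.blurPost (V := V) hC hV hOK fun i => vA i V hV
  have hsq : r - S.l ^ 2 = r * (1 - h) := by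
    show r - l ^ 2 = _; rw [hl2]; ring
  rw [hsq] at hb
  refine hb.mono ?_ (le_of_eq ?_) le_rfl
  · show 18 * cellSize n * l ^ 2 * (d : ℝ) ^ (-x.D)
      + (48 * cellSize n * l ^ 2 * (2 * cellSize n * l ^ 2) ^ (k + 1)
        + C * cellSize n * 2 ^ (n + 2) * l ^ 3 * (l / √r) ^ n) ≤ _
    rw [← hT, hl2]
    exact stage_err hd hr hrε (by linarith) (by linarith) hC.1.le hD hk hn
  · show 1 + 2 * cellSize n * (d : ℝ) ^ x.ℓ * l ^ 2 = _
    rw [← hT, hl2]

theorem down_noise {r s u α η e : ℝ} (hd : 1 ≤ (d : ℝ)) (hu : 0 < u) (hs : 0 < s)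
    (hus : 8 * u ≤ s) (hsr : 2 * s ≤ r) (hr : 0 ≤ r) (he : e ≤ α + η)
    (hbig : (16 : ℝ) ≤ (d : ℝ) ^ e) :
    ((r - s) / (r - u) * (√u * (√2 * (d : ℝ) ^ (-(α + η))))) ^ 2
      + 2 * ((s - u) / (r - u) * (√r * (d : ℝ) ^ (-(α + η)))) ^ 2
      ≤ (s - u) * (r - s) / (r - u) := by
  have hd0 : (0 : ℝ) < d := by linarith
  have hru : 0 < r - u := by linarith
  set a := (r - s) / (r - u)
  set b := (s - u) / (r - u)
  set P := (d : ℝ) ^ (-(α + η))
  have hP : 0 ≤ P := Real.rpow_nonneg hd0.le _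
  have h16 : 16 * P ≤ 1 := const_mul_rpow_le_one hd he hbig
  have ha : 0 ≤ a := div_nonneg (by linarith) hru.le
  have hb : 0 ≤ b := div_nonneg (by linarith) hru.le
  have ha1 : a ≤ 1 := (div_le_one hru).2 (by linarith)
  have hb1 : b ≤ 1 := (div_le_one hru).2 (by linarith)
  have e1 : (s - u) * (r - s) / (r - u) = a * (s - u) := by simp only [a]; ring
  have e2 : (s - u) * (r - s) / (r - u) = b * (r - s) := by simp only [b]; ring
  have hP2 : P ^ 2 ≤ 1 / 32 := by nlinarith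
  have f1 : (a * (√u * (√2 * P))) ^ 2 ≤ a * (s - u) / 2 := by
    rw [mul_pow a, mul_pow √u, mul_pow √2, Real.sq_sqrt hu.le, Real.sq_sqrt zero_le_two]
    have : a ^ 2 * (u * (2 * P ^ 2)) ≤ a * (u * 1) :=
      mul_le_mul (by nlinarith) (mul_le_mul_of_nonneg_left (by linarith) hu.le)
        (by positivity) ha
    nlinarith
  have f2 : 2 * (b * (√r * P)) ^ 2 ≤ b * (r - s) / 2 := by
    rw [mul_pow b, mul_pow √r, Real.sq_sqrt hr]
    have : b ^ 2 * (r * P ^ 2) ≤ b * (r * (1 / 32)) :=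
      mul_le_mul (by nlinarith) (mul_le_mul_of_nonneg_left hP2 hr) (by positivity) hb
    nlinarith
  linarith

theorem down_size {K e q η Tt : ℝ} (hd : 1 ≤ (d : ℝ)) (he : 0 < e) (hK : 0 ≤ K)
    (hq : 3 * e ≤ η) (hTt : 0 ≤ Tt) (hbig : ((K + 1) / e + 1) * Tt ≤ (d : ℝ) ^ e) :
    (⌈(K + 1) * Real.log d / (d : ℝ) ^ (-e)⌉₊ : ℝ) * (Tt * (d : ℝ) ^ q) ≤ (d : ℝ) ^ (q + η) := by
  have hd0 : (0 : ℝ) < d := by linarith
  have hlog : 0 ≤ Real.log d := Real.log_nonneg hd
  set P := (d : ℝ) ^ e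
  have hP : 1 ≤ P := Real.one_le_rpow hd he.le
  have hinv : (K + 1) * Real.log d / (d : ℝ) ^ (-e) = (K + 1) * Real.log d * P := by
    rw [Real.rpow_neg hd0.le, div_inv_eq_mul]
  have hN : (⌈(K + 1) * Real.log d / (d : ℝ) ^ (-e)⌉₊ : ℝ) ≤ ((K + 1) / e + 1) * (P * P) := by
    refine (Nat.ceil_lt_add_one (by positivity)).le.trans ?_
    have h1 : (K + 1) * Real.log d * P ≤ (K + 1) * (P / e) * P := by
      gcongr
      exact Real.log_le_rpow_div hd0.le he
    rw [hinv, add_mul _ (1 : ℝ) (P * P), one_mul]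
    refine (add_le_add h1 (one_le_mul_of_one_le_of_one_le hP hP)).trans (le_of_eq ?_)
    ring
  calc _ ≤ ((K + 1) / e + 1) * (P * P) * (Tt * (d : ℝ) ^ q) :=
        mul_le_mul_of_nonneg_right hN (by positivity)
    _ = ((K + 1) / e + 1) * Tt * (P * P * (d : ℝ) ^ q) := by ring
    _ ≤ P * (P * P * (d : ℝ) ^ q) := mul_le_mul_of_nonneg_right hbig (by positivity)
    _ ≤ (d : ℝ) ^ (q + η) := by
        simp only [P, ← Real.rpow_add hd0]
        exact Real.rpow_le_rpow_of_exponent_le hd (by linarith)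

theorem down_factors {r h T ℓ ε η : ℝ} (hd : 1 ≤ (d : ℝ)) (hr : 0 < r) (hrε : r ≤ (d : ℝ) ^ (-ε))
    (hh0 : 0 < h) (hh1 : h ≤ 1) (hrh : r ≤ h) (hT : 0 ≤ T) (hl : ℓ + η ≤ ε)
    (hsm : 2 * T * (d : ℝ) ^ (-η) ≤ 1) (N : ℕ) :
    (∏ j ∈ Finset.range N, (1 + 2 * T * (d : ℝ) ^ ℓ * (h * (r * (1 - h) ^ j))) ≤ Real.exp 1) ∧
    (∏ j ∈ Finset.range N, (1 + 50 * √(h * (r * (1 - h) ^ j))) ≤ Real.exp 100) ∧
    ∑ j ∈ Finset.range N, h * (r * (1 - h) ^ j) ≤ r := by
  have hd0 : (0 : ℝ) < d := by linarith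
  have hpow : ∀ j : ℕ, 0 ≤ (1 - h) ^ j := fun j => pow_nonneg (by linarith) j
  have hsumR : ∑ j ∈ Finset.range N, h * (r * (1 - h) ^ j) ≤ r := by
    rw [Finset.sum_congr rfl fun j _ => show h * (r * (1 - h) ^ j) = r * (h * (1 - h) ^ j) by ring,
      ← Finset.mul_sum, sum_geom_h h N]
    exact mul_le_of_le_one_right hr.le (by linarith [hpow N])
  refine ⟨?_, ?_, hsumR⟩
  · refine (Finset.prod_le_prod (fun j _ => by have := hpow j; positivity)
      (fun j _ => (add_comm _ _).trans_le (Real.add_one_le_exp _))).trans ?_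
    rw [← Real.exp_sum, ← Finset.mul_sum]
    refine Real.exp_le_exp.2 ((mul_le_mul_of_nonneg_left hsumR (by positivity)).trans ?_)
    have h1 : (d : ℝ) ^ ℓ * r ≤ (d : ℝ) ^ (-η) := by
      refine (mul_le_mul_of_nonneg_left hrε (Real.rpow_nonneg hd0.le _)).trans ?_
      rw [← Real.rpow_add hd0]
      exact Real.rpow_le_rpow_of_exponent_le hd (by linarith)
    have := mul_le_mul_of_nonneg_left h1 (by positivity : 0 ≤ 2 * T)
    linarith
  · refine (Finset.prod_le_prod (fun j _ => by positivity)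
      (fun j _ => (add_comm _ _).trans_le (Real.add_one_le_exp _))).trans ?_
    rw [← Real.exp_sum, ← Finset.mul_sum]
    refine Real.exp_le_exp.2 ?_
    linarith [sum_sqrt_stage hh0 hh1 hrh N]

/-- The stages, all together. -/
theorem descend {n k : ℕ} {C : ℝ} (hC : TimeAt n C) {ε e η K : ℝ} {x : Expo} (he : 0 < e)
    (heη : 4 * e ≤ η) (hη : η ≤ ε) (hα : 0 ≤ x.α) (hD : x.D ≤ K)
    (hab : x.α + x.β + η ≤ ε) (hl : x.ℓ + η ≤ ε) (hk : K ≤ (k + 1 : ℕ) * e)
    (hn : 2 * K ≤ (n : ℕ) * e) (hd : 1 ≤ (d : ℝ))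
    (hbig : 8 * (cellSize n + 2) * (√(((k + 1) * (n + 1) + 1 + 1 : ℕ) : ℝ) + 1) ≤ (d : ℝ) ^ e)
    (hval : HasVal d ε x) {r : ℝ} (hr0 : 0 < r) (hr : r ≤ (d : ℝ) ^ (-ε)) (N : ℕ) :
    ∃ (Ω : Type) (_ : MeasurableSpace Ω) (P : Measure Ω) (A : Alg d (Ω × Space d) (Space d)),
      StandardBorelSpace Ω ∧ IsProbabilityMeasure P ∧ A.Meas ∧
      (A.size : ℝ) ≤ N * ((((k + 1) * (n + 1) + 1 + 1 : ℕ) : ℝ) * (d : ℝ) ^ x.q) ∧
      ∀ V : Space d → ℝ, Quarter.InClass V →
        BlurPost P A V r (r * (1 - (d : ℝ) ^ (-e)) ^ N)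
          (√2 * (√r * (d : ℝ) ^ (-(x.α + η))))
          (√(r * (1 - (d : ℝ) ^ (-e)) ^ N) * (√2 * (d : ℝ) ^ (-(x.α + η))))
          (Real.exp 1 * Real.exp 100 * (r * ((18 * cellSize n + (48 * cellSize n
            * (2 * cellSize n) ^ (k + 1) + C * cellSize n * 2 ^ (n + 2))) * (d : ℝ) ^ (-x.D))))
          (Real.exp 1) (Real.exp 100) := by
  have hd0 : (0 : ℝ) < d := by linarith
  have hT1 := one_le_cellSize n
  set T := cellSize n with hT
  set Q := √(((k + 1) * (n + 1) + 1 + 1 : ℕ) : ℝ) with hQ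
  set K₀ := 18 * T + (48 * T * (2 * T) ^ (k + 1) + C * T * 2 ^ (n + 2))
  have hK0 : 0 ≤ K₀ := by have := hC.1; positivity
  have hTQ : 0 ≤ T * Q := by positivity
  have hQ0 : 0 ≤ Q := Real.sqrt_nonneg _
  set h := (d : ℝ) ^ (-e) with hh
  have hh0 : 0 < h := Real.rpow_pos_of_pos hd0 _
  have hh2 : h ≤ 1 / 2 := by
    linarith [const_mul_rpow_le_one hd le_rfl (show (2 : ℝ) ≤ (d : ℝ) ^ e by nlinarith)]
  have hr1 : r ≤ 1 := hr.trans (Real.rpow_le_one_of_one_le_of_nonpos hd (by linarith))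
  have hp : ∀ j : ℕ, 0 < (1 - h) ^ j := fun j => pow_pos (by linarith) j
  have hR0 : ∀ j : ℕ, 0 < r * (1 - h) ^ j := fun j => mul_pos hr0 (hp j)
  have hRr : ∀ j : ℕ, r * (1 - h) ^ j ≤ r := fun j =>
    mul_le_of_le_one_right hr0.le (pow_le_one₀ (by linarith) (by linarith))
  have hsucc : ∀ j : ℕ, r * (1 - h) ^ (j + 1) = r * (1 - h) ^ j * (1 - h) := fun j => by
    rw [pow_succ, mul_assoc]
  obtain ⟨Ω, mΩ, P, A, h1, h2, h3, h4, -, hV⟩ := chain (d := d) (n := N)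
    (fun j => r * (1 - h) ^ j) (fun j => √(r * (1 - h) ^ j) * (√2 * (d : ℝ) ^ (-(x.α + η))))
    (fun j => h * (r * (1 - h) ^ j) * (K₀ * (d : ℝ) ^ (-x.D)))
    (fun j => 1 + 2 * T * (d : ℝ) ^ x.ℓ * (h * (r * (1 - h) ^ j)))
    (fun j => 1 + 50 * √(h * (r * (1 - h) ^ j)))
    (B := (((k + 1) * (n + 1) + 1 + 1 : ℕ) : ℝ) * (d : ℝ) ^ x.q) (by simpa using hr1)
    (fun j _ => (hsucc j).trans_le (mul_le_of_le_one_right (hR0 j).le (by linarith)))
    (fun j _ => mul_nonneg (mul_nonneg hh0.le (hR0 j).le) (by positivity))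
    (fun j _ => le_add_of_nonneg_right (by have := hR0 j; positivity))
    (fun j _ => le_add_of_nonneg_right (by positivity))
    fun j _ => by
      simp only [hsucc]
      exact stage_exists hC he heη hη hα hD hab hl hk hn hT hQ hd hbig hval (hR0 j)
        ((hRr j).trans hr)
  obtain ⟨hPL, hPΓ, hsumR⟩ := down_factors (T := T) (ℓ := x.ℓ) hd hr0 hr hh0 (by linarith)
    (hr.trans (rpow_le_neg hd (by linarith))) (by linarith) hl
    (const_mul_rpow_le_one hd (show e ≤ η by linarith) (by nlinarith)) N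
  refine ⟨Ω, mΩ, P, A, h1, h2, h3, h4, fun V hVc => ?_⟩
  have hb := hV V hVc
  simp only [pow_zero, mul_one] at hb
  rw [show √2 * (√r * (d : ℝ) ^ (-(x.α + η))) = √r * (√2 * (d : ℝ) ^ (-(x.α + η))) by ring]
  refine hb.mono ?_ hPL hPΓ
  rw [← Finset.sum_mul]
  have hΓ0 : 0 ≤ ∏ j ∈ Finset.range N, (1 + 50 * √(h * (r * (1 - h) ^ j))) :=
    Finset.prod_nonneg fun j _ => by positivity
  have hs0 : 0 ≤ ∑ j ∈ Finset.range N, h * (r * (1 - h) ^ j) :=
    Finset.sum_nonneg fun j _ => mul_nonneg hh0.le (hR0 j).le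
  exact mul_le_mul (mul_le_mul hPL hPΓ hΓ0 (Real.exp_pos _).le)
    (mul_le_mul_of_nonneg_right hsumR (by positivity)) (mul_nonneg hs0 (by positivity))
    (by positivity)

theorem down_fine {r s h K : ℝ} (hd : 8 ≤ (d : ℝ)) (hr1 : r ≤ 1) (hh0 : 0 < h)
    (hh1 : h ≤ 1) (hs : (d : ℝ) ^ (-K) ≤ s) :
    8 * (r * (1 - h) ^ ⌈(K + 1) * Real.log d / h⌉₊) ≤ s := by
  have hd0 : (0 : ℝ) < d := by linarith
  set N := ⌈(K + 1) * Real.log d / h⌉₊
  have hN : (K + 1) * Real.log d ≤ N * h := (div_le_iff₀ hh0).1 (Nat.le_ceil _)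
  have hu : (1 - h) ^ N ≤ (d : ℝ) ^ (-K) / d := by
    calc (1 - h) ^ N ≤ Real.exp (-h) ^ N :=
          pow_le_pow_left₀ (by linarith) (by linarith [Real.add_one_le_exp (-h)]) N
      _ = Real.exp (-(N * h)) := by rw [← Real.exp_nat_mul]; ring_nf
      _ ≤ Real.exp (-((K + 1) * Real.log d)) := Real.exp_le_exp.2 (by linarith)
      _ = (d : ℝ) ^ (-(K + 1)) := by rw [Real.rpow_def_of_pos hd0]; ring_nf
      _ = _ := by rw [neg_add, Real.rpow_add hd0, Real.rpow_neg_one, div_eq_mul_inv]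
  have hp : 0 ≤ (1 - h) ^ N := pow_nonneg (by linarith) _
  rw [le_div_iff₀ hd0] at hu
  have h3 := mul_le_mul_of_nonneg_left hd hp
  have h4 := mul_le_of_le_one_left hp hr1
  linarith

/-- **The descent.** -/
theorem down (hTime : TimeSpec) : DownSpec := by
  intro ε η K x hη hK hα hβ hℓ hq hD hab hl
  set e := η / 4 with he
  have he0 : 0 < e := by positivity
  set n := ⌈2 * K / e⌉₊
  set k := ⌈K / e⌉₊
  have hn : 2 * K ≤ (n : ℕ) * e := (div_le_iff₀ he0).1 (Nat.le_ceil _)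
  have hk : K ≤ (k + 1 : ℕ) * e := by
    have := (div_le_iff₀ he0).1 (Nat.le_ceil (K / e))
    push_cast
    linarith
  obtain ⟨C, hC⟩ : ∃ C, TimeAt n C := by
    obtain ⟨C, h1, h2⟩ := hTime n
    exact ⟨C, h1, h2⟩
  set T := cellSize n
  set Tt : ℝ := (((k + 1) * (n + 1) + 1 + 1 : ℕ) : ℝ)
  set K₀ := 18 * T + (48 * T * (2 * T) ^ (k + 1) + C * T * 2 ^ (n + 2))
  have hT0 : 0 ≤ T := zero_le_one.trans (one_le_cellSize n)
  have hK0 : 0 ≤ K₀ := by have := hC.1; positivity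
  obtain ⟨d₁, hd₁⟩ := exists_big_rpow e (8 * (T + 2) * (√Tt + 1) + Real.exp 1 * Real.exp 100 * K₀
    + ((K + 1) / e + 1) * Tt + 16) he0
  refine ⟨max d₁ 8, fun d hd hval r s hs hsr hr => ?_⟩
  have hd8 : (8 : ℝ) ≤ d := by exact_mod_cast le_of_max_le_right hd
  have hde := hd₁ d (le_of_max_le_left hd)
  have hd1 : (1 : ℝ) ≤ d := by linarith
  have hd0 : (0 : ℝ) < d := by linarith
  have hpe : 0 ≤ Real.exp 1 * Real.exp 100 * K₀ := by positivity
  have hpT : 0 ≤ ((K + 1) / e + 1) * Tt := by positivity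
  have hpQ : 0 ≤ 8 * (T + 2) * (√Tt + 1) := by positivity
  have hh0 : 0 < (d : ℝ) ^ (-e) := Real.rpow_pos_of_pos hd0 _
  have hh1 : (d : ℝ) ^ (-e) ≤ 1 / 2 := by
    linarith [const_mul_rpow_le_one hd1 le_rfl (show (2 : ℝ) ≤ (d : ℝ) ^ e by linarith)]
  have hs0 : 0 < s := lt_of_lt_of_le (Real.rpow_pos_of_pos hd0 _) hs
  have hr0 : 0 < r := by linarith
  have hr1 : r ≤ 1 := hr.trans (Real.rpow_le_one_of_one_le_of_nonpos hd1 (by linarith))
  set N := ⌈(K + 1) * Real.log d / (d : ℝ) ^ (-e)⌉₊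
  obtain ⟨Ω, mΩ, P, A, hΩ, hPp, hA, hsize, hV⟩ := descend hC he0 (by linarith) (by linarith) hα
    hD hab hl hk hn hd1 (show _ ≤ (d : ℝ) ^ e by linarith) hval hr0 hr N
  set u := r * (1 - (d : ℝ) ^ (-e)) ^ N
  have hus8 : 8 * u ≤ s := down_fine hd8 hr1 hh0 (by linarith) hs
  have hu0 : 0 < u := mul_pos hr0 (pow_pos (by linarith) _)
  have hru : 0 < r - u := by linarith
  have ha : 0 ≤ (r - s) / (r - u) := div_nonneg (by linarith) hru.le
  have ha1 : (r - s) / (r - u) ≤ 1 := (div_le_one hru).2 (by linarith)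
  have hb1 : (s - u) / (r - u) ≤ 1 := (div_le_one hru).2 (by linarith)
  have hnoise := down_noise hd1 hu0 hs0 hus8 hsr hr0.le (show e ≤ x.α + η by linarith)
    (show (16 : ℝ) ≤ (d : ℝ) ^ e by linarith) (α := x.α) (η := η)
  refine ⟨BridgeSeed d Ω, inferInstance,
    ((stdGaussian (Space d)).prod (stdGaussian (Space d))).prod P,
    bridgeAlg A ((r - s) / (r - u)) ((s - u) / (r - u)) (√r * (d : ℝ) ^ (-(x.α + η)))
      √((s - u) * (r - s) / (r - u)
        - ((r - s) / (r - u) * (√u * (√2 * (d : ℝ) ^ (-(x.α + η))))) ^ 2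
        - 2 * ((s - u) / (r - u) * (√r * (d : ℝ) ^ (-(x.α + η)))) ^ 2),
    inferInstance, inferInstance, bridgeAlg_meas hA _ _ _ _, ?_, fun V hVc => ?_⟩
  rotate_left
  · have hvp := validPost_bridge hVc hA (hV V hVc) hu0.le (by linarith : u < s)
      (by linarith : s < r) (by positivity) (by positivity) rfl rfl hnoise
    refine ⟨?_, fun ω c c' => (hvp.lip ω c c').trans
      (mul_le_mul_of_nonneg_right ?_ (norm_nonneg _))⟩
    · obtain ⟨Z, z1, z2, z3⟩ := hvp.law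
      refine ⟨Z, z1, z2, fun c => (z3 c).trans (ENNReal.ofReal_le_ofReal ?_)⟩
      refine pow_le_pow_left₀ (mul_nonneg (mul_nonneg ha (by positivity)) (by positivity))
        (mul_le_mul_of_nonneg_right ((mul_le_of_le_one_left (by positivity) ha1).trans ?_)
          (by positivity)) 2
      have h5 := const_mul_rpow_le_one hd1 (show e ≤ η by linarith)
        (show Real.exp 1 * Real.exp 100 * K₀ ≤ (d : ℝ) ^ e by linarith)
      rw [show -x.D = -η + -(x.D - η) by ring, Real.rpow_add hd0]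
      refine le_of_eq_of_le ?_ (mul_le_mul_of_nonneg_left
        (mul_le_of_le_one_left (Real.rpow_nonneg hd0.le (-(x.D - η))) h5) hr0.le)
      ring
    · have h1 : (16 : ℝ) ≤ (d : ℝ) ^ η :=
        le_trans (by linarith) (Real.rpow_le_rpow_of_exponent_le hd1 (show e ≤ η by linarith))
      have h2 := mul_le_of_le_one_left (Real.exp_pos 1).le ha1
      linarith [Real.exp_one_lt_d9]
  · have e1 : ∀ a b τ ν : ℝ, (bridgeAlg A a b τ ν).size = A.size := fun a b τ ν => by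
      simp [bridgeAlg, Alg.seq, Alg.comap, Alg.pure]
    rw [e1]
    exact hsize.trans (down_size hd1 he0 hK.le (by linarith) (by positivity) (by linarith))

end

end P347.Zero
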