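import Vale.Agent.P347.Zero.DownStage

/-!
# P347: composition of the stages of the descent

The blur which a stage hands over is independent of its point, so it is the blur of the centre of
the next stage; the laws compose by the semigroup property of the conditional means.
-/

namespace P347.Zero

open MeasureTheory ProbabilityTheory Set Filter
open scoped ENNReal

noncomputable section

variable {d : ℕ}

attribute [local irreducible] score smooth

theorem condMean_smul (V : Space d → ℝ) (t s a : ℝ) (f : Space d → ℝ) (y : Space d) :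
    condMean V t s (fun x => a * f x) y = a * condMean V t s f y := by
  simp only [condMean, mul_assoc, integral_const_mul, mul_div_assoc]

/-- A bound for each value of an independent parameter passes to the pair. -/
theorem eLpNorm_prod_le {R E : Type} [MeasurableSpace R] [MeasurableSpace E] {ν : Measure R}
    {μ : Measure E} [SFinite μ] {H : R × E → Space d} (hH : Measurable H) {b : R → ℝ}
    (hb : ∀ x, 0 ≤ b x) (h : ∀ x, eLpNorm (fun e => H (x, e)) 2 μ ≤ ENNReal.ofReal (b x)) :
    eLpNorm H 2 (ν.prod μ) ≤ eLpNorm b 2 ν := by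
  rw [eLpNorm_eq_lintegral_rpow_enorm_toReal two_ne_zero ENNReal.ofNat_ne_top,
    eLpNorm_eq_lintegral_rpow_enorm_toReal two_ne_zero ENNReal.ofNat_ne_top]
  refine ENNReal.rpow_le_rpow ?_ (by norm_num)
  simp only [ENNReal.toReal_ofNat, ENNReal.rpow_two]
  rw [lintegral_prod _ (hH.enorm.pow_const 2).aemeasurable]
  refine lintegral_mono fun x => ?_
  have h2 := h x
  rw [eLpNorm_eq_lintegral_rpow_enorm_toReal two_ne_zero ENNReal.ofNat_ne_top,
    ENNReal.toReal_ofNat, one_div, ENNReal.rpow_inv_le_iff (by norm_num : (0 : ℝ) < 2)] at h2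
  simp only [ENNReal.rpow_two] at h2
  rw [Real.enorm_eq_ofReal (hb x)]
  exact h2

/-- An affine function of the norm, in mean square. -/
theorem eLpNorm_affine_le_chain {α : Type} [MeasurableSpace α] {μ : Measure α} [IsProbabilityMeasure μ]
    {g : α → Space d} (hg : Measurable g) {a b : ℝ} (ha : 0 ≤ a) (hb : 0 ≤ b) :
    eLpNorm (fun x => a + b * ‖g x‖) 2 μ ≤ ENNReal.ofReal a + ENNReal.ofReal b * eLpNorm g 2 μ := by
  refine (eLpNorm_add_le (f := fun _ : α => a) (g := b • fun x => ‖g x‖)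
    aestronglyMeasurable_const (hg.norm.aestronglyMeasurable.const_smul b) one_le_two).trans ?_
  rw [eLpNorm_const _ two_ne_zero (NeZero.ne μ), eLpNorm_const_smul, measure_univ,
    ENNReal.one_rpow, mul_one, Real.enorm_eq_ofReal ha, Real.enorm_eq_ofReal hb, eLpNorm_norm g]

variable {Ω : Type} [MeasurableSpace Ω] {P : Measure Ω} [IsProbabilityMeasure P]
variable {V : Space d → ℝ}

/-- The blur handed over is independent of the point. -/
theorem indep_of_law {X G : Space d × Ω → Space d} (hX : Measurable X) (hG : Measurable G)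
    {r s : ℝ} {c : Space d}
    (h : ∀ F : Space d × Space d → ℝ, Test F →
      ∫ w, F (X w, G w) ∂(stdGaussian (Space d)).prod P
        = condMean V r s (fun x => ∫ g, F (x, g) ∂stdGaussian (Space d)) c) :
    MeasurePreserving (fun w => (X w, G w)) ((stdGaussian (Space d)).prod P)
      ((((stdGaussian (Space d)).prod P).map X).prod (stdGaussian (Space d))) := by
  set μ := (stdGaussian (Space d)).prod P
  set γ := stdGaussian (Space d)
  refine ⟨hX.prodMk hG, (Measure.prod_eq fun A B hA hB => ?_).symm⟩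
  rw [Measure.map_apply (hX.prodMk hG) (hA.prod hB), Measure.map_apply hX hA]
  have test : ∀ S : Set (Space d × Space d), MeasurableSet S →
      Test (S.indicator fun _ => (1 : ℝ)) := fun S hS =>
    ⟨measurable_const.indicator hS, fun z => Set.indicator_nonneg (fun _ _ => zero_le_one) z,
      fun z => Set.indicator_le_self' (fun _ _ => zero_le_one) z⟩
  have key : ∀ B : Set (Space d), MeasurableSet B →
      μ.real ((fun w => (X w, G w)) ⁻¹' (A ×ˢ B))
        = γ.real B * condMean V r s (A.indicator fun _ => (1 : ℝ)) c := by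
    intro B hB
    have hl := h _ (test _ (hA.prod hB))
    rw [show (fun w => (A ×ˢ B).indicator (fun _ => (1 : ℝ)) (X w, G w))
        = ((fun w => (X w, G w)) ⁻¹' (A ×ˢ B)).indicator fun _ => (1 : ℝ) from rfl,
      integral_indicator_const _ ((hX.prodMk hG) (hA.prod hB)), smul_eq_mul, mul_one] at hl
    rw [hl, ← condMean_smul]
    congr 1
    funext x
    by_cases hx : x ∈ A
    · rw [Set.indicator_of_mem hx, mul_one, ← integral_indicator_one hB]
      refine integral_congr_ae (Filter.Eventually.of_forall fun g => ?_)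
      by_cases hg : g ∈ B <;> simp [hx, hg]
    · simp [hx]
  have huniv := key univ MeasurableSet.univ
  have hpre : (fun w => (X w, G w)) ⁻¹' (A ×ˢ univ) = X ⁻¹' A := by ext w; simp
  rw [hpre, probReal_univ, one_mul] at huniv
  have hB' := key B hB
  rw [← huniv, mul_comm] at hB'
  rw [← ofReal_measureReal (μ := μ), hB', ENNReal.ofReal_mul measureReal_nonneg,
    ofReal_measureReal, ofReal_measureReal]

omit [IsProbabilityMeasure P] in
theorem BlurPost.mono {A : Alg d (Ω × Space d) (Space d)} {r s τ σ δ δ' L L' Γ Γ' : ℝ}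
    (h : BlurPost P A V r s τ σ δ L Γ) (hδ : δ ≤ δ') (hL : L ≤ L') (hΓ : Γ ≤ Γ') :
    BlurPost P A V r s τ σ δ' L' Γ' := by
  obtain ⟨⟨X, G, hX, hG, hl, he⟩, hlip⟩ := h
  refine ⟨⟨X, G, hX, hG, hl, fun c => ⟨(he c).1.trans (ENNReal.ofReal_le_ofReal ?_),
    (he c).2.trans (ENNReal.ofReal_le_ofReal ?_)⟩⟩, fun ω c c' => (hlip ω c c').trans ?_⟩
  · exact mul_le_mul_of_nonneg_right hδ (by positivity)
  · exact mul_le_mul_of_nonneg_right hΓ (by positivity)
  · exact mul_le_mul_of_nonneg_right hL (norm_nonneg _)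

/-- No stage. -/
theorem blurPost_refl (hV : Quarter.InClass V) {r σ : ℝ} (hr : r ≤ 1) :
    BlurPost (Measure.dirac ()) (Alg.pure d fun z : Unit × Space d => z.2) V r r σ σ 0 1 1 := by
  refine ⟨⟨fun c _ => c, fun _ w => w.1, measurable_fst, measurable_fst.comp measurable_snd,
    fun c F hF => ?_, fun c => ⟨by simp [Alg.pure_eval], ?_⟩⟩, fun ω c c' => by simp [Alg.pure_eval]⟩
  · have hT : Test fun g => F (c, g) := ⟨hF.meas.comp (measurable_const.prodMk measurable_id),
      fun _ => hF.nonneg _, fun _ => hF.le_one _⟩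
    rw [condMean_self hV hr]
    conv_rhs => rw [← (measurePreserving_fst (μ := stdGaussian (Space d))
      (ν := Measure.dirac ())).map_eq]
    exact (integral_map measurable_fst.aemeasurable hT.meas.aestronglyMeasurable).symm
  · rw [eLpNorm_const _ two_ne_zero (NeZero.ne _), measure_univ, ENNReal.one_rpow, mul_one, one_mul,
      ← ofReal_norm, ← ENNReal.ofReal_add (Real.sqrt_nonneg _) (norm_nonneg _)]

variable {Ω₂ : Type} [MeasurableSpace Ω₂] {P₂ : Measure Ω₂} [IsProbabilityMeasure P₂]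

/-- The program of two stages. -/
def thenAlg (A : Alg d (Ω × Space d) (Space d)) (B : Alg d (Ω₂ × Space d) (Space d)) :
    Alg d ((Ω × Ω₂) × Space d) (Space d) :=
  (A.comap fun z => (z.1.1, z.2)).seq (B.comap fun z => (z.1.1.2, z.2))

omit [MeasurableSpace Ω] [MeasurableSpace Ω₂] in
theorem thenAlg_eval (A : Alg d (Ω × Space d) (Space d)) (B : Alg d (Ω₂ × Space d) (Space d))
    (V : Space d → ℝ) (ω : Ω × Ω₂) (c : Space d) :
    (thenAlg A B).eval (oracle V) (ω, c)
      = B.eval (oracle V) (ω.2, A.eval (oracle V) (ω.1, c)) := by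
  simp [thenAlg, Alg.seq_eval, Alg.comap_eval]

theorem thenAlg_meas {A : Alg d (Ω × Space d) (Space d)} {B : Alg d (Ω₂ × Space d) (Space d)}
    (hA : A.Meas) (hB : B.Meas) : (thenAlg A B).Meas :=
  Alg.seq_meas (Alg.comap_meas hA (by fun_prop)) (Alg.comap_meas hB (by fun_prop))

/-- Two stages. -/
theorem BlurPost.trans (hV : Quarter.InClass V) {A : Alg d (Ω × Space d) (Space d)}
    {B : Alg d (Ω₂ × Space d) (Space d)} (hA : A.Meas) (hB : B.Meas)
    {r u s τ σ σ' δ₁ δ₂ L₁ L₂ Γ₁ Γ₂ : ℝ} (h₁ : BlurPost P A V r u τ σ δ₁ L₁ Γ₁)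
    (h₂ : BlurPost P₂ B V u s σ σ' δ₂ L₂ Γ₂) (hsu : s ≤ u) (hur : u ≤ r) (hr : r ≤ 1)
    (hδ₁ : 0 ≤ δ₁) (hδ₂ : 0 ≤ δ₂) (hL₂ : 0 ≤ L₂) (hΓ₁ : 0 ≤ Γ₁) (hΓ₂ : 1 ≤ Γ₂) :
    BlurPost (P.prod P₂) (thenAlg A B) V r s τ σ' (L₂ * δ₁ + δ₂ * Γ₁) (L₂ * L₁) (Γ₂ * Γ₁) := by
  obtain ⟨⟨X₁, G₁, hX₁, hG₁, hl₁, he₁⟩, hlip₁⟩ := h₁
  obtain ⟨⟨X₂, G₂, hX₂, hG₂, hl₂, he₂⟩, hlip₂⟩ := h₂
  set γ := stdGaussian (Space d)
  have hO := Quarter.measurable_oracle hV.smooth
  have hevA : Measurable fun z : Ω × Space d => A.eval (oracle V) z :=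
    hA.eval (O := fun _ => oracle V) (hO.comp measurable_snd) measurable_id
  have hevB : Measurable fun z : Ω₂ × Space d => B.eval (oracle V) z :=
    hB.eval (O := fun _ => oracle V) (hO.comp measurable_snd) measurable_id
  have hassoc : MeasurePreserving
      (fun w : Space d × (Ω × Ω₂) => ((w.1, w.2.1), w.2.2))
      (γ.prod (P.prod P₂)) ((γ.prod P).prod P₂) :=
    (measurePreserving_prodAssoc γ P P₂).symm MeasurableEquiv.prodAssoc
  let q : Space d → Space d × (Ω × Ω₂) → Space d × (Space d × Ω₂) :=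
    fun c w => (X₁ c (w.1, w.2.1), (G₁ c (w.1, w.2.1), w.2.2))
  have hq : Measurable (Function.uncurry q) := by
    have hp : Measurable fun z : Space d × (Space d × (Ω × Ω₂)) =>
        (z.1, (z.2.1, z.2.2.1)) := by fun_prop
    exact (hX₁.comp hp).prodMk ((hG₁.comp hp).prodMk (by fun_prop))
  let X : Space d → Space d × (Ω × Ω₂) → Space d := fun c w => X₂ (q c w).1 (q c w).2
  let G : Space d → Space d × (Ω × Ω₂) → Space d := fun c w => G₂ (q c w).1 (q c w).2
  have hXm : Measurable (Function.uncurry X) :=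
    hX₂.comp hq
  have hGm : Measurable (Function.uncurry G) :=
    hG₂.comp hq
  have hmp : ∀ c, MeasurePreserving (q c) (γ.prod (P.prod P₂))
      (((γ.prod P).map (X₁ c)).prod (γ.prod P₂)) := fun c => by
    have hX : Measurable (X₁ c) := hX₁.comp (measurable_const.prodMk measurable_id)
    have hG : Measurable (G₁ c) := hG₁.comp (measurable_const.prodMk measurable_id)
    exact (measurePreserving_prodAssoc ((γ.prod P).map (X₁ c)) γ P₂).comp
      (((indep_of_law hX hG (hl₁ c)).prod (MeasurePreserving.id P₂)).comp hassoc)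
  refine ⟨⟨X, G, hXm, hGm, fun c F hF => ?_, fun c => ⟨?_, ?_⟩⟩, fun ω c c' => ?_⟩
  · set Φ : Space d × Space d → ℝ := fun p =>
      ∫ ω₂, F (X₂ p.1 (p.2, ω₂), G₂ p.1 (p.2, ω₂)) ∂P₂
    have hFm : Test fun z : (Space d × Space d) × Ω₂ =>
        F (X₂ z.1.1 (z.1.2, z.2), G₂ z.1.1 (z.1.2, z.2)) := by
      refine ⟨hF.meas.comp ?_, fun _ => hF.nonneg _, fun _ => hF.le_one _⟩
      have hp : Measurable fun z : (Space d × Space d) × Ω₂ => (z.1.1, (z.1.2, z.2)) := by fun_prop
      exact (hX₂.comp hp).prodMk (hG₂.comp hp)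
    have hΦ : Test Φ := test_integral (μ := P₂) hFm
    have hT : Test fun w : (Space d × Ω) × Ω₂ =>
        F (X₂ (X₁ c w.1) (G₁ c w.1, w.2), G₂ (X₁ c w.1) (G₁ c w.1, w.2)) := by
      refine ⟨hFm.meas.comp (Measurable.prodMk (Measurable.prodMk ?_ ?_) measurable_snd),
        fun _ => hF.nonneg _, fun _ => hF.le_one _⟩
      · exact hX₁.comp (measurable_const.prodMk measurable_fst)
      · exact hG₁.comp (measurable_const.prodMk measurable_fst)
    have e : (fun x => ∫ g, Φ (x, g) ∂γ)
        = condMean V u s fun x => ∫ g, F (x, g) ∂γ := by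
      funext x
      rw [← hl₂ x F hF]
      have hT2 : Test fun w : Space d × Ω₂ => F (X₂ x w, G₂ x w) :=
        ⟨hF.meas.comp ((hX₂.comp (measurable_const.prodMk measurable_id)).prodMk
          (hG₂.comp (measurable_const.prodMk measurable_id))), fun _ => hF.nonneg _,
          fun _ => hF.le_one _⟩
      rw [integral_prod _ (hT2.integrable _)]
    calc ∫ w, F (X c w, G c w) ∂γ.prod (P.prod P₂)
        = ∫ w, F (X₂ (X₁ c w.1) (G₁ c w.1, w.2), G₂ (X₁ c w.1) (G₁ c w.1, w.2))
            ∂(γ.prod P).prod P₂ := by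
          rw [← hassoc.map_eq]
          exact (integral_map hassoc.measurable.aemeasurable hT.meas.aestronglyMeasurable).symm
      _ = ∫ w, Φ (X₁ c w, G₁ c w) ∂γ.prod P := integral_prod _ (hT.integrable _)
      _ = condMean V r u (fun x => ∫ g, Φ (x, g) ∂γ) c := hl₁ c Φ hΦ
      _ = _ := by rw [e, condMean_comp hV hsu hur hr (test_integral (μ := γ) hF)]
  · set Δ : Space d × Ω → Space d := fun w =>
      A.eval (oracle V) (w.2, c + τ • w.1) - (X₁ c w + σ • G₁ c w)
    set H : Space d × (Space d × Ω₂) → Space d := fun z =>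
      B.eval (oracle V) (z.2.2, z.1 + σ • z.2.1) - (X₂ z.1 z.2 + σ' • G₂ z.1 z.2)
    have hX : Measurable (X₁ c) := hX₁.comp (measurable_const.prodMk measurable_id)
    have hG : Measurable (G₁ c) := hG₁.comp (measurable_const.prodMk measurable_id)
    have hH : Measurable H :=
      (hevB.comp (by fun_prop)).sub (hX₂.add (hG₂.const_smul σ'))
    have hΔ : Measurable Δ :=
      (hevA.comp (by fun_prop)).sub (hX.add (hG.const_smul σ))
    have hp : MeasurePreserving (fun w : Space d × (Ω × Ω₂) => (w.1, w.2.1))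
        (γ.prod (P.prod P₂)) (γ.prod P) := measurePreserving_fst.comp hassoc
    set F₁ : Space d × (Ω × Ω₂) → Space d := fun w =>
      B.eval (oracle V) (w.2.2, A.eval (oracle V) (w.2.1, c + τ • w.1))
        - B.eval (oracle V) (w.2.2, (q c w).1 + σ • (q c w).2.1)
    have hqc : Measurable (q c) := (hmp c).measurable
    have hF₁ : Measurable F₁ :=
      (hevB.comp ((measurable_snd.comp measurable_snd).prodMk (hevA.comp (by fun_prop)))).sub
        (hevB.comp ((measurable_snd.comp measurable_snd).prodMk (by fun_prop)))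
    have e : (fun w : Space d × (Ω × Ω₂) => (thenAlg A B).eval (oracle V) (w.2, c + τ • w.1)
        - (X c w + σ' • G c w)) = F₁ + H ∘ q c := by
      funext w
      simp only [thenAlg_eval, Pi.add_apply, Function.comp_apply, F₁, H, X, G, q]
      abel
    rw [e]
    refine (eLpNorm_add_le hF₁.aestronglyMeasurable (hH.comp hqc).aestronglyMeasurable
      one_le_two).trans ?_
    rw [eLpNorm_comp_measurePreserving hH.aestronglyMeasurable (hmp c), add_mul,
      ENNReal.ofReal_add (by positivity) (by positivity)]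
    refine add_le_add ?_ ?_
    · refine (eLpNorm_le_mul_eLpNorm_of_ae_le_mul
        (g := Δ ∘ fun w : Space d × (Ω × Ω₂) => (w.1, w.2.1)) (c := L₂)
        (Eventually.of_forall fun w => hlip₂ _ _ _) 2).trans ?_
      rw [eLpNorm_comp_measurePreserving hΔ.aestronglyMeasurable hp, mul_assoc L₂,
        ENNReal.ofReal_mul hL₂]
      exact mul_le_mul' le_rfl (he₁ c).1
    · have : IsProbabilityMeasure ((γ.prod P).map (X₁ c)) :=
        Measure.isProbabilityMeasure_map hX.aemeasurable
      refine (eLpNorm_prod_le hH (b := fun x => δ₂ * √(d : ℝ) + δ₂ * ‖x‖) (fun x => by positivity)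
        fun x => ((he₂ x).1.trans (le_of_eq (by rw [mul_add])) :)).trans ?_
      refine (eLpNorm_affine_le_chain measurable_id (by positivity) hδ₂).trans ?_
      rw [eLpNorm_map_measure aestronglyMeasurable_id hX.aemeasurable, ENNReal.ofReal_mul hδ₂,
        ← mul_add, mul_assoc δ₂, ENNReal.ofReal_mul hδ₂]
      exact mul_le_mul' le_rfl (he₁ c).2
  · have hX : Measurable (X₁ c) := hX₁.comp (measurable_const.prodMk measurable_id)
    have : IsProbabilityMeasure ((γ.prod P).map (X₁ c)) :=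
      Measure.isProbabilityMeasure_map hX.aemeasurable
    have hH : Measurable fun z : Space d × (Space d × Ω₂) => X₂ z.1 z.2 := hX₂
    rw [show X c = (fun z : Space d × (Space d × Ω₂) => X₂ z.1 z.2) ∘ q c from rfl,
      eLpNorm_comp_measurePreserving hH.aestronglyMeasurable (hmp c)]
    have hb : ∀ x : Space d, 0 ≤ (Γ₂ - 1) * √(d : ℝ) + Γ₂ * ‖x‖ := fun x =>
      add_nonneg (mul_nonneg (by linarith) (Real.sqrt_nonneg _))
        (mul_nonneg (by linarith) (norm_nonneg _))
    have h2 : ∀ x, eLpNorm (fun e => X₂ x e) 2 (γ.prod P₂)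
        ≤ ENNReal.ofReal ((Γ₂ - 1) * √(d : ℝ) + Γ₂ * ‖x‖) := fun x => by
      have := ENNReal.le_sub_of_add_le_left ENNReal.ofReal_ne_top (he₂ x).2
      rw [← ENNReal.ofReal_sub _ (Real.sqrt_nonneg _)] at this
      exact this.trans (le_of_eq (by ring_nf))
    refine (add_le_add le_rfl ((eLpNorm_prod_le hH hb h2).trans
      (eLpNorm_affine_le_chain measurable_id (mul_nonneg (by linarith) (Real.sqrt_nonneg _))
        (by linarith)))).trans ?_
    rw [eLpNorm_map_measure aestronglyMeasurable_id hX.aemeasurable, ← add_assoc,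
      ← ENNReal.ofReal_add (Real.sqrt_nonneg _) (mul_nonneg (by linarith) (Real.sqrt_nonneg _)),
      show √(d : ℝ) + (Γ₂ - 1) * √(d : ℝ) = Γ₂ * √(d : ℝ) by ring,
      ENNReal.ofReal_mul (by linarith : (0 : ℝ) ≤ Γ₂), ← mul_add, mul_assoc Γ₂,
      ENNReal.ofReal_mul (by linarith : (0 : ℝ) ≤ Γ₂)]
    exact mul_le_mul' le_rfl (he₁ c).2
  · simp only [thenAlg_eval]
    refine (hlip₂ _ _ _).trans ?_
    rw [mul_assoc]
    exact mul_le_mul_of_nonneg_left (hlip₁ _ _ _) hL₂

/-- A chain of stages. -/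
theorem chain {n : ℕ} (r σ δ L Γ : ℕ → ℝ) {B : ℝ} (hr0 : r 0 ≤ 1)
    (hanti : ∀ j < n, r (j + 1) ≤ r j) (hδ : ∀ j < n, 0 ≤ δ j) (hL : ∀ j < n, 1 ≤ L j)
    (hΓ : ∀ j < n, 1 ≤ Γ j)
    (h : ∀ j < n, ∃ (Ω : Type) (_ : MeasurableSpace Ω) (P : Measure Ω)
      (A : Alg d (Ω × Space d) (Space d)), StandardBorelSpace Ω ∧ IsProbabilityMeasure P ∧
      A.Meas ∧ (A.size : ℝ) ≤ B ∧ ∀ V : Space d → ℝ, Quarter.InClass V →
        BlurPost P A V (r j) (r (j + 1)) (σ j) (σ (j + 1)) (δ j) (L j) (Γ j)) :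
    ∃ (Ω : Type) (_ : MeasurableSpace Ω) (P : Measure Ω)
      (A : Alg d (Ω × Space d) (Space d)), StandardBorelSpace Ω ∧ IsProbabilityMeasure P ∧
      A.Meas ∧ (A.size : ℝ) ≤ n * B ∧ r n ≤ r 0 ∧ ∀ V : Space d → ℝ, Quarter.InClass V →
        BlurPost P A V (r 0) (r n) (σ 0) (σ n)
          ((∏ j ∈ Finset.range n, L j) * (∏ j ∈ Finset.range n, Γ j) * ∑ j ∈ Finset.range n, δ j)
          (∏ j ∈ Finset.range n, L j) (∏ j ∈ Finset.range n, Γ j) := by
  induction n with
  | zero =>
    refine ⟨Unit, inferInstance, Measure.dirac (), Alg.pure d fun z => z.2, inferInstance,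
      inferInstance, Alg.pure_meas measurable_snd, by simp [Alg.pure], le_rfl, fun V hV => ?_⟩
    exact (blurPost_refl hV hr0).mono (by simp) (by simp) (by simp)
  | succ n ih =>
    obtain ⟨Ω₁, m₁, P₁, A₁, s₁, p₁, hA₁, hz₁, hr, h₁⟩ := ih (fun j hj => hanti j (hj.trans n.lt_succ_self))
      (fun j hj => hδ j (hj.trans n.lt_succ_self)) (fun j hj => hL j (hj.trans n.lt_succ_self))
      (fun j hj => hΓ j (hj.trans n.lt_succ_self)) fun j hj => h j (hj.trans n.lt_succ_self)
    obtain ⟨Ω₂, m₂, P₂, A₂, s₂, p₂, hA₂, hz₂, h₂⟩ := h n n.lt_succ_self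
    have hrn := hanti n n.lt_succ_self
    refine ⟨Ω₁ × Ω₂, inferInstance, P₁.prod P₂, thenAlg A₁ A₂, inferInstance, inferInstance,
      thenAlg_meas hA₁ hA₂, ?_, hrn.trans hr, fun V hV => ?_⟩
    · simp only [thenAlg, Alg.seq, Alg.comap, Nat.cast_add]
      push_cast
      linarith
    have hPL : 1 ≤ ∏ j ∈ Finset.range n, L j := Finset.one_le_prod fun j hj =>
      hL j ((Finset.mem_range.1 hj).trans n.lt_succ_self)
    have hPΓ : 1 ≤ ∏ j ∈ Finset.range n, Γ j := Finset.one_le_prod fun j hj =>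
      hΓ j ((Finset.mem_range.1 hj).trans n.lt_succ_self)
    have hS : 0 ≤ ∑ j ∈ Finset.range n, δ j := Finset.sum_nonneg fun j hj =>
      hδ j ((Finset.mem_range.1 hj).trans n.lt_succ_self)
    refine ((h₁ V hV).trans hV hA₁ hA₂ (h₂ V hV) hrn hr hr0 (by positivity) (hδ n n.lt_succ_self)
      (zero_le_one.trans (hL n n.lt_succ_self)) (by linarith) (hΓ n n.lt_succ_self)).mono ?_ ?_ ?_
    · rw [Finset.prod_range_succ, Finset.prod_range_succ, Finset.sum_range_succ]
      set PL := ∏ j ∈ Finset.range n, L j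
      set PG := ∏ j ∈ Finset.range n, Γ j
      set S := ∑ j ∈ Finset.range n, δ j
      have hLn := hL n n.lt_succ_self
      have hΓn := hΓ n n.lt_succ_self
      have hδn := hδ n n.lt_succ_self
      have a1 : L n * (PL * PG * S) ≤ PL * L n * (PG * Γ n) * S := by
        have h0 : 0 ≤ L n * PL * PG * S := by positivity
        nlinarith
      have a2 : δ n * PG ≤ PL * L n * (PG * Γ n) * δ n := by
        have e1 : 1 ≤ PL * L n := one_le_mul_of_one_le_of_one_le hPL hLn
        have e2 : PG ≤ PL * L n * (PG * Γ n) :=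
          (le_mul_of_one_le_right (by linarith) hΓn).trans
            (le_mul_of_one_le_left (by positivity) e1)
        calc δ n * PG = PG * δ n := mul_comm _ _
          _ ≤ _ := mul_le_mul_of_nonneg_right e2 hδn
      linarith [mul_add (PL * L n * (PG * Γ n)) S (δ n)]
    · rw [Finset.prod_range_succ, mul_comm]
    · rw [Finset.prod_range_succ, mul_comm]

end

end P347.Zero
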