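import Vale.Agent.P347.Zero.Window
import Vale.Agent.P347.Zero.Flow
import Vale.Agent.P347.Zero.Cond
import Vale.Agent.P347.Quarter.QuadMain

/-!
# P347: one cell of the flow towards finer variances

Picard iteration on the nodes of one cell `[0, l]`: the iterates are compared with the flow, at
every start pointwise and over a Gaussian start in mean square.
-/

namespace P347.Zero

open MeasureTheory ProbabilityTheory Set Filter Topology
open scoped ENNReal

noncomputable section

variable {d : ℕ} {V : Space d → ℝ} {r l : ℝ} {n : ℕ}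

attribute [local irreducible] score smooth

/-- The Picard iterates of the score at the nodes. -/
def cellIt (V : Space d → ℝ) (r l : ℝ) (n : ℕ) : ℕ → Space d → Space d → Fin (n + 1) → Space d
  | 0, _, _, _ => 0
  | k + 1, z, x, i => score V (r - (l * node (n + 1) i) ^ 2) (z + (l * node (n + 1) i) •
      (x + l • ∑ j, ruleWeight (n + 1) (intTo (node (n + 1) i)) j • cellIt V r l n k z x j))

/-- The end of the cell from the iterates. -/
def cellEnd (V : Space d → ℝ) (r l : ℝ) (n k : ℕ) (z x : Space d) : Space d :=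
  z + l • (x + l • ∑ j, ruleWeight (n + 1) (intTo 1) j • cellIt V r l n k z x j)

/-- The end of the cell along the flow. -/
def flowEnd (W : Space d → ℝ → Space d → Space d) (l : ℝ) (z x : Space d) : Space d :=
  z + l • W z l x

/-- The size of the weights of a cell. -/
def cellSize (n : ℕ) : ℝ := 1 + basisSize (n + 1)

/-- The size of a start. -/
def startSize (z x : Space d) : ℝ := √(d : ℝ) + ‖z‖ + ‖x‖

theorem one_le_cellSize (n : ℕ) : 1 ≤ cellSize n := by
  have := (ruleSize_nonneg (n + 1) (intTo 1)).trans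
    (ruleSize_intTo_le_basisSize (n + 1) (c := 1) ⟨zero_le_one, le_rfl⟩)
  simp only [cellSize]; linarith

theorem startSize_nonneg (z x : Space d) : 0 ≤ startSize z x := by unfold startSize; positivity

theorem norm_smul_rule_le {c : ℝ} (hc : c ∈ Icc (0 : ℝ) 1) (v : Fin (n + 1) → Space d) {e : ℝ}
    (he : 0 ≤ e) (hv : ∀ i, ‖v i‖ ≤ e) :
    ‖∑ i, ruleWeight (n + 1) (intTo c) i • v i‖ ≤ cellSize n * e := by
  refine (norm_rule_le (intTo c) v hv).trans (mul_le_mul_of_nonneg_right ?_ he)
  linarith [ruleSize_intTo_le_basisSize (n + 1) hc, show cellSize n = 1 + basisSize (n + 1) from rfl]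

section slab

theorem cell_time (hl : 0 ≤ l) (i : Fin (n + 1)) : l * node (n + 1) i ∈ Icc 0 l :=
  ⟨mul_nonneg hl (node_mem _ i).1.le, mul_le_of_le_one_right hl (node_mem _ i).2⟩

theorem cell_slab (hlr : l ^ 2 ≤ r / 2) (hr : 0 < r) {q : ℝ} (hq : q ∈ Icc 0 l) :
    q ^ 2 < r ∧ r / 2 ≤ r - q ^ 2 := by
  have := pow_le_pow_left₀ hq.1 hq.2 2
  constructor <;> linarith

end slab

/-- The hypotheses on a cell. -/
structure CellOK (r l : ℝ) (n : ℕ) : Prop where
  pos : 0 < l
  le_one : r ≤ 1
  rpos : 0 < r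
  short : l ^ 2 ≤ r / 2
  small : 4 * cellSize n * l ^ 2 ≤ 1

theorem CellOK.sq_le (h : CellOK r l n) : l ^ 2 ≤ 1 / 4 := by
  have := one_le_cellSize n
  nlinarith [h.small, sq_nonneg l]

theorem CellOK.le_half (h : CellOK r l n) : l ≤ 1 / 2 := by nlinarith [h.sq_le, h.pos]

theorem norm_score_slab (hV : Quarter.InClass V) (h : CellOK r l n) {q : ℝ} (hq : q ∈ Icc 0 l)
    (y : Space d) : ‖score V (r - q ^ 2) y‖ ≤ 4 * √(d : ℝ) + 2 * ‖y‖ := by
  obtain ⟨h1, -⟩ := cell_slab h.short h.rpos hq
  have := norm_score_le hV (sub_pos.2 h1).le y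
  have hs : √((d : ℝ) * (r - q ^ 2)) ≤ √(d : ℝ) :=
    Real.sqrt_le_sqrt (mul_le_of_le_one_right (Nat.cast_nonneg d)
      (by linarith [h.le_one, sq_nonneg q]))
  linarith

theorem norm_point_le {p : ℝ} (hp : p ∈ Icc 0 l) (z u : Space d) :
    ‖z + p • u‖ ≤ ‖z‖ + l * ‖u‖ := by
  refine (norm_add_le _ _).trans (add_le_add le_rfl ?_)
  rw [norm_smul, Real.norm_eq_abs, abs_of_nonneg hp.1]
  exact mul_le_mul_of_nonneg_right hp.2 (norm_nonneg _)

/-- The iterates and their arguments grow at most linearly. -/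
theorem norm_cellIt_le (hV : Quarter.InClass V) (h : CellOK r l n) (k : ℕ) (z x : Space d) :
    ∀ i, ‖cellIt V r l n k z x i‖ ≤ 12 * startSize z x := by
  induction k with
  | zero => intro i; simp [cellIt, startSize_nonneg]
  | succ k ih =>
    intro i
    have hB := startSize_nonneg z x
    rw [cellIt]
    refine (norm_score_slab hV h (cell_time h.pos.le i) _).trans ?_
    have h2 := norm_smul_rule_le (Ioc_subset_Icc_self (node_mem (n + 1) i)) _ (by positivity) ih
    set S := ∑ j, ruleWeight (n + 1) (intTo (node (n + 1) i)) j • cellIt V r l n k z x j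
    have h1 := norm_point_le (cell_time h.pos.le i) z (x + l • S)
    have h3 : ‖x + l • S‖ ≤ ‖x‖ + l * (cellSize n * (12 * startSize z x)) := by
      refine (norm_add_le _ _).trans (add_le_add le_rfl ?_)
      rw [norm_smul, Real.norm_eq_abs, abs_of_pos h.pos]
      exact mul_le_mul_of_nonneg_left h2 h.pos.le
    have h4 := mul_le_mul_of_nonneg_left h3 h.pos.le
    have h5 := mul_le_mul_of_nonneg_right h.small hB
    have h6 : l * ‖x‖ ≤ ‖x‖ := mul_le_of_le_one_left (norm_nonneg _) (by linarith [h.le_half])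
    unfold startSize at *
    linarith [norm_nonneg x, norm_nonneg z, Real.sqrt_nonneg (d : ℝ)]

theorem norm_cellArg_le (hV : Quarter.InClass V) (h : CellOK r l n) (k : ℕ) (z x : Space d) {p c : ℝ}
    (hp : p ∈ Icc 0 l) (hc : c ∈ Icc (0 : ℝ) 1) :
    ‖z + p • (x + l • ∑ j, ruleWeight (n + 1) (intTo c) j • cellIt V r l n k z x j)‖
      ≤ 4 * startSize z x := by
  have hB := startSize_nonneg z x
  have h2 := norm_smul_rule_le hc _ (by positivity) (norm_cellIt_le hV h k z x)
  set S := ∑ j, ruleWeight (n + 1) (intTo c) j • cellIt V r l n k z x j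
  have h1 := norm_point_le hp z (x + l • S)
  have h3 : ‖x + l • S‖ ≤ ‖x‖ + l * (cellSize n * (12 * startSize z x)) := by
    refine (norm_add_le _ _).trans (add_le_add le_rfl ?_)
    rw [norm_smul, Real.norm_eq_abs, abs_of_pos h.pos]
    exact mul_le_mul_of_nonneg_left h2 h.pos.le
  have h4 := mul_le_mul_of_nonneg_left h3 h.pos.le
  have h5 := mul_le_mul_of_nonneg_right h.small hB
  have h6 : l * ‖x‖ ≤ ‖x‖ := mul_le_of_le_one_left (norm_nonneg _) (by linarith [h.le_half])
  unfold startSize at *
  linarith [norm_nonneg x, norm_nonneg z, Real.sqrt_nonneg (d : ℝ)]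

variable {W : Space d → ℝ → Space d → Space d}

/-- The flow grows at most linearly on a cell. -/
theorem norm_flow_le (hV : Quarter.InClass V) (h : CellOK r l n) (hW : ∀ z, IsFlow V z r (W z))
    (z x : Space d) {q : ℝ} (hq : q ∈ Icc 0 l) :
    ‖W z q x‖ ≤ 10 * startSize z x ∧
      ‖score V (r - q ^ 2) (z + q • W z q x)‖ ≤ 24 * startSize z x := by
  have hslab : ∀ s ∈ Icc 0 l, s ^ 2 < r := fun s hs => (cell_slab h.short h.rpos hs).1
  have hcont : ContinuousOn (fun s => W z s x) (Icc 0 l) := fun s hs =>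
    ((hW z).deriv x s (hslab s hs)).continuousAt.continuousWithinAt
  obtain ⟨s0, hs0, hmax⟩ := isCompact_Icc.exists_isMaxOn (nonempty_Icc.2 h.pos.le) hcont.norm
  set Mx := ‖W z s0 x‖
  have hMx : ∀ s ∈ Icc 0 l, ‖W z s x‖ ≤ Mx := fun s hs => hmax hs
  have hS : ∀ s ∈ Icc 0 l, ‖score V (r - s ^ 2) (z + s • W z s x)‖
      ≤ 4 * √(d : ℝ) + 2 * (‖z‖ + l * Mx) := by
    intro s hs
    refine (norm_score_slab hV h hs _).trans ?_
    have := (norm_point_le hs z (W z s x)).trans
      (add_le_add le_rfl (mul_le_mul_of_nonneg_left (hMx s hs) h.pos.le))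
    linarith
  have hmv := norm_image_sub_le_of_norm_deriv_le_segment' (f := fun s => W z s x)
    (fun s hs => ((hW z).deriv x s (hslab s hs)).hasDerivWithinAt)
    (fun s hs => hS s (Ico_subset_Icc_self hs)) s0 hs0
  have hw0 : W z 0 x = x := (hW z).init x
  simp only [hw0, sub_zero] at hmv
  have hM0 : 0 ≤ Mx := norm_nonneg _
  have hC : 0 ≤ 4 * √(d : ℝ) + 2 * (‖z‖ + l * Mx) := by
    have := h.pos; positivity
  have h1 : Mx ≤ ‖x‖ + (4 * √(d : ℝ) + 2 * (‖z‖ + l * Mx)) * l := by
    have := norm_sub_norm_le (W z s0 x) x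
    linarith [hmv.trans (mul_le_mul_of_nonneg_left hs0.2 hC)]
  have h2 : Mx ≤ 10 * startSize z x := by
    have e := h.le_half
    have := mul_le_mul_of_nonneg_right h.sq_le hM0
    unfold startSize
    nlinarith [norm_nonneg z, norm_nonneg x, Real.sqrt_nonneg (d : ℝ), h.pos]
  refine ⟨(hMx q hq).trans h2, (hS q hq).trans ?_⟩
  have h3 : l * Mx ≤ 1 / 2 * (10 * startSize z x) := mul_le_mul h.le_half h2 hM0 (by norm_num)
  unfold startSize at *
  linarith [norm_nonneg x, norm_nonneg z, Real.sqrt_nonneg (d : ℝ)]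

/-- Quadrature of the flow on a cell, at one start. -/
theorem norm_cell_quad_le (hreg : Regular V) (h : CellOK r l n) (hW : ∀ z, IsFlow V z r (W z))
    (z x : Space d) {c : ℝ} (hc : c ∈ Icc (0 : ℝ) 1) :
    ‖W z (l * c) x - x - l • ∑ j, ruleWeight (n + 1) (intTo c) j •
        score V (r - (l * node (n + 1) j) ^ 2)
          (z + (l * node (n + 1) j) • W z (l * node (n + 1) j) x)‖
      ≤ cellSize n * l ^ (n + 1) * ∫ s in (0 : ℝ)..l, ‖flowJet V r W (z, x) (n + 1) s‖ := by
  have hslab : ∀ s ∈ Icc 0 l, s ^ 2 < r := fun s hs => (cell_slab h.short h.rpos hs).1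
  have hmem : l * c ∈ Icc 0 l := ⟨mul_nonneg h.pos.le hc.1, mul_le_of_le_one_right h.pos.le hc.2⟩
  have hjet : ∀ m, IsJet (flowJet V r W (z, x)) m 0 l := fun m =>
    hreg.isJet_flowJet hW _ m (hslab 0 ⟨le_rfl, h.pos.le⟩) (hslab l ⟨h.pos.le, le_rfl⟩)
  have hI : 0 ≤ ∫ s in (0 : ℝ)..l, ‖flowJet V r W (z, x) (n + 1) s‖ :=
    intervalIntegral.integral_nonneg h.pos.le fun _ _ => norm_nonneg _
  have hftc : ∫ s in (0 : ℝ)..l * c, flowJet V r W (z, x) 0 s = W z (l * c) x - x := by
    rw [intervalIntegral.integral_eq_sub_of_hasDerivAt (f := fun s => W z s x) ?_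
      (((hjet 0).cont.mono (uIcc_subset_Icc ⟨le_rfl, h.pos.le⟩ hmem)).intervalIntegrable)]
    · simp only [(hW z).init]
    · intro s hs
      have := (hW z).deriv x s (hslab s (uIcc_subset_Icc ⟨le_rfl, h.pos.le⟩ hmem hs))
      simpa only [flowJet, iteratedDeriv_zero, flowScore] using this
  have h1 := cell_quadrature_to h.pos.le hc n _ (hjet _)
  simp only [sub_zero, zero_add] at h1
  rw [hftc] at h1
  simp only [flowJet, iteratedDeriv_zero, flowScore] at h1 ⊢
  refine h1.trans ?_
  have b := ruleSize_intTo_le_basisSize (n + 1) hc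
  refine mul_le_mul_of_nonneg_right (mul_le_mul_of_nonneg_right ?_ (by have := h.pos; positivity)) hI
  simp only [cellSize]; linarith

/-- The iterates approach the flow, at one start. -/
theorem norm_flowEnd_sub_le (hV : Quarter.InClass V) (hreg : Regular V) (h : CellOK r l n)
    (hW : ∀ z, IsFlow V z r (W z)) (k : ℕ) (z x : Space d) :
    ‖flowEnd W l z x - cellEnd V r l n k z x‖
      ≤ 24 * cellSize n * l ^ 2 * (2 * cellSize n * l ^ 2) ^ k * startSize z x
        + 2 * cellSize n * l ^ (n + 2) *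
          ∫ s in (0 : ℝ)..l, ‖flowJet V r W (z, x) (n + 1) s‖ := by
  set T := cellSize n
  set B := startSize z x
  set I := ∫ s in (0 : ℝ)..l, ‖flowJet V r W (z, x) (n + 1) s‖
  set Q := T * l ^ (n + 1) * I
  set κ := 2 * T * l ^ 2
  have hl := h.pos
  have hT : 0 ≤ T := zero_le_one.trans (one_le_cellSize n)
  have hI : 0 ≤ I := intervalIntegral.integral_nonneg hl.le fun _ _ => norm_nonneg _
  have hQ : 0 ≤ Q := by positivity
  have hB : 0 ≤ B := startSize_nonneg z x
  set S : Fin (n + 1) → Space d := fun j => score V (r - (l * node (n + 1) j) ^ 2)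
    (z + (l * node (n + 1) j) • W z (l * node (n + 1) j) x)
  have hquad : ∀ c ∈ Icc (0 : ℝ) 1, ∀ (u : Fin (n + 1) → Space d) (e : ℝ), 0 ≤ e →
      (∀ j, ‖S j - u j‖ ≤ e) →
      ‖W z (l * c) x - (x + l • ∑ j, ruleWeight (n + 1) (intTo c) j • u j)‖
        ≤ Q + l * (T * e) := by
    intro c hc u e he hu
    have h2 := norm_smul_rule_le hc (fun j => S j - u j) he hu
    have e1 : W z (l * c) x - (x + l • ∑ j, ruleWeight (n + 1) (intTo c) j • u j) =
        (W z (l * c) x - x - l • ∑ j, ruleWeight (n + 1) (intTo c) j • S j)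
          + l • ∑ j, ruleWeight (n + 1) (intTo c) j • (S j - u j) := by
      simp only [smul_sub, Finset.sum_sub_distrib]
      abel
    rw [e1]
    refine (norm_add_le _ _).trans (add_le_add (norm_cell_quad_le hreg h hW z x hc) ?_)
    rw [norm_smul, Real.norm_eq_abs, abs_of_pos hl]
    exact mul_le_mul_of_nonneg_left h2 hl.le
  have hit : ∀ k i, ‖S i - cellIt V r l n k z x i‖ ≤ 24 * κ ^ k * B + 4 * l * Q := by
    intro k
    induction k with
    | zero =>
      intro i
      simp only [cellIt, sub_zero, pow_zero, mul_one, S]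
      refine ((norm_flow_le hV h hW z x (cell_time hl.le i)).2).trans ?_
      have : 0 ≤ 4 * l * Q := by positivity
      linarith
    | succ k ih =>
      intro i
      have he : 0 ≤ 24 * κ ^ k * B + 4 * l * Q := by positivity
      have hc := Ioc_subset_Icc_self (node_mem (n + 1) i)
      have h3 := hquad _ hc _ _ he ih
      have hp := cell_time hl.le i
      have hlip := (hreg.lip (r - (l * node (n + 1) i) ^ 2)
        (sub_pos.2 (cell_slab h.short h.rpos hp).1).le).norm_sub_le
      rw [cellIt]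
      refine (hlip _ _).trans ?_
      rw [add_sub_add_left_eq_sub, ← smul_sub, norm_smul, Real.norm_eq_abs, abs_of_nonneg hp.1,
        NNReal.coe_ofNat]
      refine (mul_le_mul_of_nonneg_left (mul_le_mul hp.2 h3 (norm_nonneg _) hl.le)
        zero_le_two).trans ?_
      have h4 : 2 * T * l ^ 2 * (4 * l * Q) ≤ 2 * l * Q := by
        have := mul_le_mul_of_nonneg_right h.small (show 0 ≤ 2 * l * Q by positivity)
        linarith
      rw [pow_succ]
      simp only [κ] at *
      linarith
  have h5 := hquad 1 ⟨zero_le_one, le_rfl⟩ _ _ (by positivity) (hit k)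
  rw [mul_one] at h5
  rw [flowEnd, cellEnd, add_sub_add_left_eq_sub, ← smul_sub, norm_smul, Real.norm_eq_abs,
    abs_of_pos hl]
  refine (mul_le_mul_of_nonneg_left h5 hl.le).trans ?_
  have h6 : l * (l * (T * (4 * l * Q))) ≤ l * Q := by
    have := mul_le_mul_of_nonneg_right h.small (show 0 ≤ l * Q by positivity)
    linarith
  have e : 2 * T * l ^ (n + 2) * I = 2 * (l * Q) := by simp only [Q]; ring
  rw [e]
  linarith

theorem norm_flowEnd_le (hV : Quarter.InClass V) (h : CellOK r l n)
    (hW : ∀ z, IsFlow V z r (W z)) (z x : Space d) :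
    ‖flowEnd W l z x‖ ≤ ‖z‖ + l * ‖x‖ + 24 * l ^ 2 * startSize z x := by
  have hl := h.pos
  have hmv := norm_image_sub_le_of_norm_deriv_le_segment' (f := fun s => W z s x)
    (fun s hs => ((hW z).deriv x s (cell_slab h.short h.rpos hs).1).hasDerivWithinAt)
    (fun s hs => (norm_flow_le hV h hW z x (Ico_subset_Icc_self hs)).2) l ⟨hl.le, le_rfl⟩
  have hw0 : W z 0 x = x := (hW z).init x
  simp only [hw0, sub_zero] at hmv
  refine (norm_add_le _ _).trans ?_
  rw [norm_smul, Real.norm_eq_abs, abs_of_pos hl]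
  have := norm_sub_norm_le (W z l x) x
  nlinarith

/-! ## Mean squares -/

theorem eLpNorm_gauss_le :
    eLpNorm (fun x : Space d => x) 2 (stdGaussian (Space d)) ≤ ENNReal.ofReal √(d : ℝ) := by
  refine eLpNorm_le_of_lintegral_sq (Real.sqrt_nonneg _) ?_
  have hi : Integrable (fun x : Space d => ‖x‖ ^ 2) (stdGaussian (Space d)) :=
    ((IsGaussian.memLp_id (stdGaussian (Space d)) 2 (by simp)).norm).integrable_sq
  rw [← ofReal_integral_eq_lintegral_ofReal hi (Eventually.of_forall fun x => sq_nonneg _),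
    Quarter.integral_norm_sq_gauss, Real.sq_sqrt (Nat.cast_nonneg d)]

/-- An affine function of the norm of a Gaussian, in mean square. -/
theorem eLpNorm_affine_gauss_le {a b : ℝ} (ha : 0 ≤ a) (hb : 0 ≤ b) :
    eLpNorm (fun x : Space d => a + b * ‖x‖) 2 (stdGaussian (Space d))
      ≤ ENNReal.ofReal (a + b * √(d : ℝ)) := by
  refine (eLpNorm_add_le (f := fun _ : Space d => a) (g := b • fun x : Space d => ‖x‖)
    aestronglyMeasurable_const (continuous_norm.const_smul b).aestronglyMeasurable
    one_le_two).trans ?_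
  rw [eLpNorm_const _ two_ne_zero (NeZero.ne _), eLpNorm_const_smul, measure_univ,
    ENNReal.one_rpow, mul_one, Real.enorm_eq_ofReal ha, Real.enorm_eq_ofReal hb,
    ENNReal.ofReal_add ha (by positivity), ENNReal.ofReal_mul hb]
  refine add_le_add le_rfl (mul_le_mul' le_rfl ?_)
  exact (eLpNorm_norm (fun x : Space d => x)).trans_le eLpNorm_gauss_le

theorem measurable_cell_integral {α : Type} [MeasurableSpace α] (hl : 0 ≤ l)
    {f : α → ℝ → Space d} (hc : ∀ w, ContinuousOn (f w) (Icc 0 l))
    (hm : ∀ s ∈ Icc 0 l, Measurable fun w => f w s) :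
    Measurable fun w => ∫ s in (0 : ℝ)..l, ‖f w s‖ := by
  have h : StronglyMeasurable
      (Function.uncurry fun s w => ‖f w (projIcc 0 l hl s)‖) :=
    stronglyMeasurable_uncurry_of_continuous_of_stronglyMeasurable
      (fun w => ((hc w).norm).comp_continuous (continuous_subtype_val.comp continuous_projIcc)
        fun s => (projIcc 0 l hl s).2)
      fun s => ((hm _ (projIcc 0 l hl s).2).norm).stronglyMeasurable
  have h2 : StronglyMeasurable fun w => ∫ s in Ioc 0 l, ‖f w (projIcc 0 l hl s)‖ :=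
    h.integral_prod_left
  refine (congrArg Measurable (funext fun w => ?_)).mp h2.measurable
  rw [intervalIntegral.integral_of_le hl]
  exact setIntegral_congr_fun measurableSet_Ioc fun s hs => by
    simp only [projIcc_of_mem hl (Ioc_subset_Icc_self hs)]

/-- The bound of `TimeSpec` at one number of derivatives. -/
def TimeAt (n : ℕ) (C : ℝ) : Prop :=
  0 < C ∧ ∀ (d : ℕ) (V : Space d → ℝ), Quarter.InClass V → ∀ (y : Space d) (t : ℝ), 0 < t →
    t ≤ 1 → ∀ w, IsFlow V y t w → ∀ q, q ^ 2 < t →
      (∫⁻ ξ, ENNReal.ofReal (‖iteratedDeriv (n + 1)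
          (fun q' => score V (t - q' ^ 2) (y + q' • w q' ξ)) q‖ ^ 2) ∂stdGaussian (Space d))
        ≤ ENNReal.ofReal ((C * √d * (√t / √(t - q ^ 2)) * (√t / (t - q ^ 2)) ^ n) ^ 2)

/-- The iterates approach the flow in mean square. -/
theorem eLpNorm_flowEnd_sub_le (hV : Quarter.InClass V) (hreg : Regular V) (h : CellOK r l n)
    (hW : ∀ z, IsFlow V z r (W z)) {C : ℝ} (hC : TimeAt n C) (k : ℕ) (z : Space d) :
    eLpNorm (fun x => flowEnd W l z x - cellEnd V r l n k z x) 2 (stdGaussian (Space d))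
      ≤ ENNReal.ofReal ((48 * cellSize n * l ^ 2 * (2 * cellSize n * l ^ 2) ^ k
          + C * cellSize n * 2 ^ (n + 2) * l ^ 3 * (l / √r) ^ n) * (√(d : ℝ) + ‖z‖)) := by
  have hl := h.pos
  have hT : 0 ≤ cellSize n := zero_le_one.trans (one_le_cellSize n)
  have hC0 := hC.1.le
  set a := 24 * cellSize n * l ^ 2 * (2 * cellSize n * l ^ 2) ^ k
  set b := 2 * cellSize n * l ^ (n + 2)
  set B := C * √(d : ℝ) * 2 ^ (n + 1) / √r ^ n
  have ha : 0 ≤ a := by positivity
  have hb : 0 ≤ b := by positivity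
  have hB : 0 ≤ B := by positivity
  have hm : ∀ s ∈ Icc 0 l, Measurable fun x => flowJet V r W (z, x) (n + 1) s := fun s hs =>
    (hreg.measurable_flowJet hW (n + 1) s (cell_slab h.short h.rpos hs).1).comp
      (measurable_const.prodMk measurable_id)
  have hI := eLpNorm_integral_norm_le (μ := stdGaussian (Space d)) (a := 0) (b := l) hl.le hB
    (f := fun x => flowJet V r W (z, x) (n + 1))
    (fun x s hs => (hreg.hasDerivAt_flowJet hW _ (n + 1)
      (cell_slab h.short h.rpos hs).1).continuousAt.continuousWithinAt)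
    (fun s hs => (hm s hs).stronglyMeasurable) fun s hs => by
      obtain ⟨hs1, hs2⟩ := cell_slab h.short h.rpos hs
      refine eLpNorm_le_of_lintegral_sq hB ?_
      simp only [flowJet]
      refine (hC.2 d V hV z r h.rpos h.le_one (W z) (hW z) s hs1).trans
        (ENNReal.ofReal_le_ofReal ?_)
      have hpos : 0 < r - s ^ 2 := sub_pos.2 hs1
      have hsr : 0 < √r := Real.sqrt_pos.2 h.rpos
      have h1 : √r / √(r - s ^ 2) ≤ 2 := by
        rw [div_le_iff₀ (Real.sqrt_pos.2 hpos)]
        refine (Real.sqrt_le_left (by positivity)).2 ?_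
        rw [mul_pow, Real.sq_sqrt hpos.le]
        linarith
      have h2 : √r / (r - s ^ 2) ≤ 2 / √r := by
        rw [div_le_div_iff₀ hpos hsr, Real.mul_self_sqrt h.rpos.le]
        linarith
      refine pow_le_pow_left₀ (mul_nonneg (by positivity) (pow_nonneg (div_nonneg
        (Real.sqrt_nonneg _) hpos.le) _)) ?_ 2
      calc C * √d * (√r / √(r - s ^ 2)) * (√r / (r - s ^ 2)) ^ n
          ≤ C * √d * 2 * (2 / √r) ^ n :=
            mul_le_mul (mul_le_mul_of_nonneg_left h1 (by positivity))
              (pow_le_pow_left₀ (by positivity) h2 n) (by positivity) (by positivity)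
        _ = B := by simp only [B]; rw [div_pow, pow_succ]; ring
  refine (eLpNorm_mono_real (g := (fun x => a * (√(d : ℝ) + ‖z‖) + a * ‖x‖) +
    b • fun x => ∫ s in (0 : ℝ)..l, ‖flowJet V r W (z, x) (n + 1) s‖) fun x => ?_).trans ?_
  · have := norm_flowEnd_sub_le hV hreg h hW k z x
    simp only [Pi.add_apply, Pi.smul_apply, smul_eq_mul, a, b, startSize] at this ⊢
    linarith
  have hIm : AEStronglyMeasurable
      (fun x => ∫ s in (0 : ℝ)..l, ‖flowJet V r W (z, x) (n + 1) s‖) (stdGaussian (Space d)) :=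
    (measurable_cell_integral hl.le (fun x s hs => (hreg.hasDerivAt_flowJet hW _ (n + 1)
      (cell_slab h.short h.rpos hs).1).continuousAt.continuousWithinAt) hm).aestronglyMeasurable
  refine (eLpNorm_add_le (by fun_prop) (hIm.const_smul b) one_le_two).trans ?_
  rw [eLpNorm_const_smul, Real.enorm_eq_ofReal hb]
  refine (add_le_add (eLpNorm_affine_gauss_le (by positivity) ha) (mul_le_mul' le_rfl hI)).trans ?_
  rw [← ENNReal.ofReal_mul hb, ← ENNReal.ofReal_add (by positivity) (by positivity)]
  refine ENNReal.ofReal_le_ofReal ?_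
  rw [sub_zero]
  have e : b * (l * B) = C * cellSize n * 2 ^ (n + 2) * l ^ 3 * (l / √r) ^ n * √(d : ℝ) := by
    simp only [b, B, div_pow]; ring
  rw [e]
  have h7 : 0 ≤ C * cellSize n * 2 ^ (n + 2) * l ^ 3 * (l / √r) ^ n := by positivity
  have h8 := mul_le_mul_of_nonneg_left
    (show √(d : ℝ) ≤ √(d : ℝ) + ‖z‖ by linarith [norm_nonneg z]) h7
  have h9 := mul_nonneg ha (norm_nonneg z)
  simp only [a] at *
  linarith

/-- The end of the cell in mean square. -/
theorem eLpNorm_flowEnd_le (hV : Quarter.InClass V) (h : CellOK r l n)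
    (hW : ∀ z, IsFlow V z r (W z)) (z : Space d) :
    ENNReal.ofReal √(d : ℝ) + eLpNorm (fun x => flowEnd W l z x) 2 (stdGaussian (Space d))
      ≤ ENNReal.ofReal ((1 + 50 * l) * (√(d : ℝ) + ‖z‖)) := by
  have hl := h.pos
  refine (add_le_add le_rfl ((eLpNorm_mono_real
    (g := fun x => (‖z‖ + 24 * l ^ 2 * (√(d : ℝ) + ‖z‖)) + (l + 24 * l ^ 2) * ‖x‖)
    fun x => ?_).trans (eLpNorm_affine_gauss_le (by positivity) (by positivity)))).trans ?_
  · have := norm_flowEnd_le hV h hW z x
    simp only [startSize] at this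
    linarith
  rw [← ENNReal.ofReal_add (Real.sqrt_nonneg _) (by positivity)]
  refine ENNReal.ofReal_le_ofReal ?_
  have h2 : l ^ 2 ≤ l / 2 := by nlinarith [h.le_half]
  have h3 := mul_le_mul_of_nonneg_right h2 (Real.sqrt_nonneg (d : ℝ))
  have h4 := mul_le_mul_of_nonneg_right h2 (norm_nonneg z)
  nlinarith [mul_nonneg hl.le (Real.sqrt_nonneg (d : ℝ)), mul_nonneg hl.le (norm_nonneg z)]

theorem continuous_cellIt (hV : Quarter.InClass V) (k : ℕ) :
    ∀ i, Continuous fun p : Space d × Space d => cellIt V r l n k p.1 p.2 i := by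
  induction k with
  | zero => intro i; simp only [cellIt]; exact continuous_const
  | succ k ih =>
    intro i
    simp only [cellIt]
    have h := continuous_score hV
    exact h.comp₂ continuous_const (by fun_prop)

theorem continuous_cellEnd (hV : Quarter.InClass V) (k : ℕ) :
    Continuous fun p : Space d × Space d => cellEnd V r l n k p.1 p.2 := by
  have := fun j => continuous_cellIt (r := r) (l := l) (n := n) hV k j
  unfold cellEnd
  fun_prop

/-- The end of the cell has the conditional law at the finer variance. -/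
theorem integral_flowEnd (hV : Quarter.InClass V) (h : CellOK r l n)
    (hW : ∀ z, IsFlow V z r (W z)) (z : Space d) {f : Space d → ℝ} (hf : Test f) :
    ∫ x, f (flowEnd W l z x) ∂stdGaussian (Space d) = condMean V r (r - l ^ 2) f z := by
  have hq : l ^ 2 < r := (cell_slab h.short h.rpos ⟨h.pos.le, le_rfl⟩).1
  have hwc : Continuous (W z l) := (hW z).cont l hq
  have hg : Measurable fun x : Space d => f (z + l • x) := hf.meas.comp (by fun_prop)
  have hcs : Continuous fun x : Space d => smooth V (r - l ^ 2) (z + l • x) / smooth V r z :=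
    (continuous_smooth_comp hV continuous_const (by fun_prop)).div_const _
  have hpos : ∀ x : Space d, 0 ≤ smooth V (r - l ^ 2) (z + l • x) / smooth V r z := fun x =>
    div_nonneg (smooth_pos' hV _ _).le (smooth_pos' hV _ _).le
  simp only [flowEnd]
  rw [← integral_map (μ := stdGaussian (Space d)) (φ := W z l) hwc.aemeasurable
      (f := fun x => f (z + l • x)) hg.aestronglyMeasurable,
    (hW z).map_eq hV h.le_one h.pos.le hq,
    integral_withDensity_eq_integral_toReal_smul hcs.measurable.ennreal_ofReal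
      (Eventually.of_forall fun _ => ENNReal.ofReal_lt_top), condMean, sub_sub_cancel,
    Real.sqrt_sq h.pos.le, ← integral_div]
  refine integral_congr_ae (Eventually.of_forall fun x => ?_)
  simp only [ENNReal.toReal_ofReal (hpos x), smul_eq_mul]
  ring

/-- The end of the cell is jointly continuous. -/
theorem continuous_flowEnd (hreg : Regular V) (h : CellOK r l n)
    (hW : ∀ z, IsFlow V z r (W z)) :
    Continuous fun p : Space d × Space d => flowEnd W l p.1 p.2 := by
  unfold flowEnd
  exact continuous_fst.add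
    ((hreg.continuous_flow hW (cell_slab h.short h.rpos ⟨h.pos.le, le_rfl⟩).1).const_smul l)

end

end P347.Zero
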