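import Vale.Agent.P347.Zero.DownFlow
import Vale.Agent.P347.Zero.Circuit

/-!
# P347: one stage of the descent, as a circuit

A reset gate turns the blurred centre into the start of the flow, score gates run the Picard
iteration of one cell, and a last reset gate turns the blur of the end point into a fresh blur.
-/

namespace P347.Zero

open MeasureTheory ProbabilityTheory Set Filter
open scoped ENNReal

noncomputable section

variable {d : ℕ}

attribute [local irreducible] score smooth

/-- A sampler of the point at variance `s` given the point at variance `r`, from a centre blurred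
at size `τ` to a point blurred at size `σ`; the new blur is independent of the point. -/
structure BlurPost {Ω : Type} [MeasurableSpace Ω] (P : Measure Ω)
    (A : Alg d (Ω × Space d) (Space d)) (V : Space d → ℝ) (r s τ σ δ L Γ : ℝ) : Prop where
  law : ∃ X G : Space d → Space d × Ω → Space d,
    Measurable (Function.uncurry X) ∧ Measurable (Function.uncurry G) ∧
    (∀ c (F : Space d × Space d → ℝ), Test F →
      ∫ w, F (X c w, G c w) ∂(stdGaussian (Space d)).prod P
        = condMean V r s (fun x => ∫ g, F (x, g) ∂stdGaussian (Space d)) c) ∧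
    ∀ c, eLpNorm (fun w => A.eval (oracle V) (w.2, c + τ • w.1) - (X c w + σ • G c w)) 2
        ((stdGaussian (Space d)).prod P) ≤ ENNReal.ofReal (δ * (√(d : ℝ) + ‖c‖)) ∧
      ENNReal.ofReal √(d : ℝ) + eLpNorm (X c) 2 ((stdGaussian (Space d)).prod P)
        ≤ ENNReal.ofReal (Γ * (√(d : ℝ) + ‖c‖))
  lip : ∀ ω c c', ‖A.eval (oracle V) (ω, c) - A.eval (oracle V) (ω, c')‖ ≤ L * ‖c - c'‖

theorem test_integral {E : Type} [MeasurableSpace E] {μ : Measure E} [IsProbabilityMeasure μ]
    {X : Type} [MeasurableSpace X] {F : X × E → ℝ} (hF : Test F) :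
    Test fun x => ∫ g, F (x, g) ∂μ := by
  have hsec : ∀ x, Test fun g => F (x, g) := fun x =>
    ⟨hF.meas.comp (measurable_const.prodMk measurable_id), fun _ => hF.nonneg _,
      fun _ => hF.le_one _⟩
  refine ⟨hF.meas.stronglyMeasurable.integral_prod_right'.measurable,
    fun x => integral_nonneg fun g => hF.nonneg _, fun x => ?_⟩
  have := integral_mono ((hsec x).integrable μ) (integrable_const 1) (fun g => hF.le_one _)
  simpa using this

/-- Coefficients on gate `0` and on the gates of one level. -/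
def coefs (M lev : ℕ) (a : ℝ) (b : Fin M → ℝ) (q : ℕ) : ℝ :=
  (if q = 0 then a else 0) + ∑ j : Fin M, if q = 1 + lev * M + (j : ℕ) then b j else 0

theorem sum_coefs {M lev g : ℕ} {E : Type} [AddCommGroup E] [Module ℝ E] (a : ℝ) (b : Fin M → ℝ)
    (hg : 0 < g) (hb : ∀ j : Fin M, b j ≠ 0 → 1 + lev * M + (j : ℕ) < g) (f : ℕ → E) :
    ∑ i : Fin g, coefs M lev a b i • f i = a • f 0 + ∑ j, b j • f (1 + lev * M + (j : ℕ)) := by
  rw [Fin.sum_univ_eq_sum_range (fun i => coefs M lev a b i • f i)]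
  simp only [coefs, add_smul, ite_smul, zero_smul, Finset.sum_smul, Finset.sum_add_distrib]
  rw [Finset.sum_ite_eq' (Finset.range g) 0, if_pos (Finset.mem_range.2 hg), Finset.sum_comm]
  congr 1
  refine Finset.sum_congr rfl fun j _ => ?_
  rw [Finset.sum_ite_eq']
  by_cases h : b j = 0
  · simp [h]
  · rw [if_pos (Finset.mem_range.2 (hb j h))]

theorem abs_coefs_le (M lev : ℕ) (a : ℝ) (b : Fin M → ℝ) (q : ℕ) :
    |coefs M lev a b q| ≤ coefs M lev |a| (fun j => |b j|) q := by
  refine (abs_add_le _ _).trans (add_le_add (le_of_eq ?_) ?_)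
  · split_ifs <;> simp
  · refine (Finset.abs_sum_le_sum_abs _ _).trans (le_of_eq (Finset.sum_congr rfl fun j _ => ?_))
    split_ifs <;> simp

theorem sum_abs_coefs_le {M lev g : ℕ} (a : ℝ) (b : Fin M → ℝ) (hg : 0 < g)
    (hb : ∀ j : Fin M, b j ≠ 0 → 1 + lev * M + (j : ℕ) < g) (F : ℕ → ℝ) (hF : ∀ i, 0 ≤ F i) :
    ∑ i : Fin g, |coefs M lev a b i| * F i ≤ |a| * F 0 + ∑ j, |b j| * F (1 + lev * M + (j : ℕ)) := by
  have e := sum_coefs |a| (fun j => |b j|) hg (fun j h => hb j (abs_ne_zero.1 h)) F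
  simp only [smul_eq_mul] at e
  rw [← e]
  exact Finset.sum_le_sum fun i _ => mul_le_mul_of_nonneg_right (abs_coefs_le M lev a b i) (hF i)

/-- The parameters of a stage. -/
structure Stage (d n : ℕ) where
  /-- The variance. -/
  r : ℝ
  /-- The length of the cell. -/
  l : ℝ
  /-- The blur of the centre. -/
  σin : ℝ
  /-- The blur of the end point. -/
  σout : ℝ
  /-- One less than the number of iterations. -/
  k : ℕ
  /-- The blurs of the arguments of the oracles. -/
  tg : Fin (n + 1) → ℝ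
  /-- The noises of the oracles. -/
  ρ : Fin (n + 1) → ℝ
  /-- The oracles at the nodes. -/
  O : Fin (n + 1) → Orc d

namespace Stage

variable {n : ℕ} (S : Stage d n)

/-- The node of a score gate. -/
def nodeOf (_S : Stage d n) (g : ℕ) : Fin (n + 1) :=
  ⟨(g - 1) % (n + 1), Nat.mod_lt _ n.succ_pos⟩

/-- The iteration of a score gate. -/
def levOf (_S : Stage d n) (g : ℕ) : ℕ := (g - 1) / (n + 1)

/-- The time of a node. -/
def time (i : Fin (n + 1)) : ℝ := S.l * node (n + 1) i

/-- The index of the last gate. -/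
def last : ℕ := (S.k + 1) * (n + 1) + 1

/-- The gates. -/
def gates (g : ℕ) : Gate :=
  if g = 0 then ⟨1, 0, fun _ => 0, S.l, none⟩
  else if g < S.last then
    ⟨1 - node (n + 1) (S.nodeOf g), 0,
      coefs (n + 1) (S.levOf g - 1) (node (n + 1) (S.nodeOf g)) (fun j =>
        if S.levOf g = 0 then 0 else
          S.time (S.nodeOf g) * S.l * ruleWeight (n + 1) (intTo (node (n + 1) (S.nodeOf g))) j),
      S.tg (S.nodeOf g), some (S.r - S.time (S.nodeOf g) ^ 2)⟩
  else ⟨0, 0, coefs (n + 1) S.k 1 (fun j => S.l * S.l * ruleWeight (n + 1) (intTo 1) j), S.σout, none⟩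

/-- The circuit. -/
def circ : Circuit d where
  T := S.last + 1
  gate := S.gates
  orc g := S.O (S.nodeOf g)
  rho g := S.ρ (S.nodeOf g)
  tau := S.σin

/-- The program. -/
def alg : Alg d (S.circ.Seeds S.circ.T × Space d) (Space d) :=
  ((S.circ.prog S.circ.T).comap fun z : S.circ.Seeds S.circ.T × Space d => (z.1, (z.2, 0))).seq
    (Alg.pure d fun z => z.2 S.last)

theorem alg_eval (V : Space d → ℝ) (ω : S.circ.Seeds S.circ.T) (c : Space d) :
    S.alg.eval (oracle V) (ω, c) = S.circ.raw V S.circ.T ω (c, 0) S.last := by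
  rw [alg, Alg.seq_eval, Alg.pure_eval, Alg.comap_eval]; rfl

theorem alg_meas : S.alg.Meas :=
  Alg.seq_meas (Alg.comap_meas (S.circ.prog_meas _) (by fun_prop))
    (Alg.pure_meas ((measurable_pi_apply _).comp measurable_snd))

theorem alg_size {B : ℝ} (hB : ∀ i, ((S.O i).A.size : ℝ) ≤ B) :
    (S.alg.size : ℝ) ≤ (S.last + 1 : ℕ) * B := by
  have h0 : 0 ≤ B := (Nat.cast_nonneg _).trans (hB 0)
  have e : S.alg.size = S.circ.cost := by
    simp [alg, Alg.seq, Alg.comap, Alg.pure, S.circ.prog_size_cost]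
  rw [e, Circuit.cost, Nat.cast_sum]
  refine (Finset.sum_le_card_nsmul _ _ B fun g _ => ?_).trans (le_of_eq ?_)
  · cases h : (S.circ.gate g).kind with
    | none => simpa using h0
    | some r => exact hB (S.nodeOf g)
  · simp [circ, nsmul_eq_mul]

/-- The index of node `j` at iteration `lev`. -/
def idx (_S : Stage d n) (lev : ℕ) (j : Fin (n + 1)) : ℕ := 1 + lev * (n + 1) + (j : ℕ)

theorem levOf_idx (lev : ℕ) (j : Fin (n + 1)) : S.levOf (S.idx lev j) = lev := by
  have e : S.idx lev j - 1 = (n + 1) * lev + (j : ℕ) := by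
    rw [idx, mul_comm lev]; omega
  rw [levOf, e, Nat.mul_add_div n.succ_pos, Nat.div_eq_of_lt j.isLt, add_zero]

theorem nodeOf_idx (lev : ℕ) (j : Fin (n + 1)) : S.nodeOf (S.idx lev j) = j := by
  refine Fin.ext ?_
  have e : S.idx lev j - 1 = (j : ℕ) + (n + 1) * lev := by
    rw [idx, mul_comm lev]; omega
  simp only [nodeOf, e, Nat.add_mul_mod_self_left, Nat.mod_eq_of_lt j.isLt]

theorem idx_lt_last {lev : ℕ} (h : lev ≤ S.k) (j : Fin (n + 1)) : S.idx lev j < S.last := by
  have h1 : (lev + 1) * (n + 1) ≤ (S.k + 1) * (n + 1) := Nat.mul_le_mul_right _ (by omega)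
  have := j.isLt
  rw [Nat.add_mul lev, one_mul] at h1
  unfold idx last
  omega

theorem gate_zero : S.circ.gate 0 = ⟨1, 0, fun _ => 0, S.l, none⟩ := by simp [circ, gates]

theorem gate_last : S.circ.gate S.last =
    ⟨0, 0, coefs (n + 1) S.k 1 (fun j => S.l * S.l * ruleWeight (n + 1) (intTo 1) j), S.σout, none⟩ := by
  simp [circ, gates, last]

theorem gate_mid {g : ℕ} (h0 : g ≠ 0) (hg : g < S.last) : S.circ.gate g =
    ⟨1 - node (n + 1) (S.nodeOf g), 0,
      coefs (n + 1) (S.levOf g - 1) (node (n + 1) (S.nodeOf g)) (fun j =>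
        if S.levOf g = 0 then 0 else
          S.time (S.nodeOf g) * S.l * ruleWeight (n + 1) (intTo (node (n + 1) (S.nodeOf g))) j),
      S.tg (S.nodeOf g), some (S.r - S.time (S.nodeOf g) ^ 2)⟩ := by
  simp [circ, gates, h0, hg]

/-- An index below `last` is a score gate of the iterations. -/
theorem exists_idx {g : ℕ} (h0 : g ≠ 0) (hg : g < S.last) :
    ∃ lev ≤ S.k, ∃ j, g = S.idx lev j := by
  refine ⟨S.levOf g, ?_, S.nodeOf g, ?_⟩
  · unfold levOf last at *
    exact Nat.le_of_lt_succ ((Nat.div_lt_iff_lt_mul n.succ_pos).2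
      (show g - 1 < (S.k + 1) * (n + 1) by omega))
  · have := Nat.div_add_mod (g - 1) (n + 1)
    simp only [idx, levOf, nodeOf]
    rw [mul_comm ((g - 1) / (n + 1))]
    omega

theorem coef_idx_lt (lev : ℕ) (i : Fin (n + 1)) (b : Fin (n + 1) → ℝ) (j : Fin (n + 1))
    (h : (if lev = 0 then (0 : ℝ) else b j) ≠ 0) :
    1 + (lev - 1) * (n + 1) + (j : ℕ) < S.idx lev i := by
  rcases Nat.eq_zero_or_pos lev with h0 | h0
  · simp [h0] at h
  · obtain ⟨m, rfl⟩ := Nat.exists_eq_succ_of_ne_zero h0.ne'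
    have := j.isLt
    simp only [idx, Nat.succ_sub_one, Nat.succ_mul]
    omega

theorem coef_last_lt (j : Fin (n + 1)) : 1 + S.k * (n + 1) + (j : ℕ) < S.last :=
  S.idx_lt_last le_rfl j

section val

variable (V : Space d → ℝ) (c : Space d) (ξ : ℕ → Space d)

theorem val_zero : S.circ.val V (c, 0) ξ 0 = c + S.l • ξ 0 := by
  rw [Circuit.val_none _ (by rw [S.gate_zero]), Circuit.argVal, S.gate_zero]
  simp

theorem argVal_idx {lev : ℕ} (hk : lev ≤ S.k) (i : Fin (n + 1))
    (ih : 0 < lev → ∀ j, S.circ.val V (c, 0) ξ (S.idx (lev - 1) j)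
      = cellIt V S.r S.l n lev c (ξ 0) j) :
    S.circ.argVal V (c, 0) ξ (S.idx lev i) = c + S.time i • (ξ 0 + S.l •
      ∑ j, ruleWeight (n + 1) (intTo (node (n + 1) i)) j • cellIt V S.r S.l n lev c (ξ 0) j) := by
  have h0 : S.idx lev i ≠ 0 := by unfold idx; omega
  rw [Circuit.argVal, S.gate_mid h0 (S.idx_lt_last hk i)]
  simp only [levOf_idx, nodeOf_idx, Pi.zero_apply, zero_smul, Finset.sum_const_zero, add_zero]
  rw [sum_coefs (node (n + 1) i)
    (fun j => if lev = 0 then 0 else S.time i * S.l * ruleWeight (n + 1) (intTo (node (n + 1) i)) j)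
    (Nat.pos_of_ne_zero h0) (S.coef_idx_lt lev i _) (S.circ.val V (c, 0) ξ), S.val_zero]
  rcases Nat.eq_zero_or_pos lev with hl | hl
  · subst hl
    simp only [if_true, zero_smul, Finset.sum_const_zero, cellIt, smul_zero,
      add_zero, time]
    module
  · simp only [if_neg hl.ne']
    simp only [idx] at ih
    simp only [ih hl]
    simp only [mul_smul, ← Finset.smul_sum, time]
    module

theorem val_idx : ∀ lev, lev ≤ S.k → ∀ i,
    S.circ.val V (c, 0) ξ (S.idx lev i) = cellIt V S.r S.l n (lev + 1) c (ξ 0) i := by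
  intro lev
  induction lev with
  | zero =>
    intro hk i
    have h0 : S.idx 0 i ≠ 0 := by unfold idx; omega
    rw [Circuit.val_some _ (r := S.r - S.time i ^ 2) (by
        rw [S.gate_mid h0 (S.idx_lt_last hk i)]; simp only [nodeOf_idx]),
      S.argVal_idx V c ξ hk i fun h => absurd h (lt_irrefl 0), cellIt]
    rfl
  | succ lev ih =>
    intro hk i
    have h0 : S.idx (lev + 1) i ≠ 0 := by unfold idx; omega
    rw [Circuit.val_some _ (r := S.r - S.time i ^ 2) (by
        rw [S.gate_mid h0 (S.idx_lt_last hk i)]; simp only [nodeOf_idx]),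
      S.argVal_idx V c ξ hk i fun _ j => ih (by omega) j, cellIt]
    rfl

theorem val_last : S.circ.val V (c, 0) ξ S.last =
    cellEnd V S.r S.l n (S.k + 1) c (ξ 0) + S.σout • ξ S.last := by
  rw [Circuit.val_none _ (by rw [S.gate_last]), Circuit.argVal, S.gate_last]
  simp only [zero_smul, zero_add, Pi.zero_apply, Finset.sum_const_zero]
  rw [sum_coefs 1 _ (by simp [last]) (fun j _ => S.coef_last_lt j) (S.circ.val V (c, 0) ξ), S.val_zero,
    cellEnd]
  have hv := S.val_idx V c ξ S.k le_rfl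
  simp only [idx] at hv
  simp only [hv]
  simp only [mul_smul, ← Finset.smul_sum]
  module

end val

/-- The gate kinds at the start, in the middle and at the end. -/
theorem cases_gate {g : ℕ} (hg : g < S.circ.T) :
    g = 0 ∨ g = S.last ∨ ∃ lev ≤ S.k, ∃ i, g = S.idx lev i := by
  simp only [circ] at hg
  rcases eq_or_ne g 0 with h | h
  · exact Or.inl h
  rcases (Nat.lt_succ_iff.1 hg).eq_or_lt with h' | h'
  · exact Or.inr (Or.inl h')
  · exact Or.inr (Or.inr (S.exists_idx h h'))

theorem kind_idx {lev : ℕ} (hk : lev ≤ S.k) (i : Fin (n + 1)) :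
    (S.circ.gate (S.idx lev i)).kind = some (S.r - S.time i ^ 2) := by
  rw [S.gate_mid (by unfold idx; omega) (S.idx_lt_last hk i)]
  simp only [nodeOf_idx]

variable {V : Space d → ℝ}

theorem sum_abs_rule_le {c : ℝ} (hc : c ∈ Icc (0 : ℝ) 1) :
    ∑ j, |ruleWeight (n + 1) (intTo c) j| ≤ cellSize n :=
  (ruleSize_intTo_le_basisSize (n + 1) hc).trans (by simp [cellSize])

/-- Absolute coefficient sums of the score gates and of the last gate. -/
theorem sum_coef_idx_le {lev : ℕ} (hk : lev ≤ S.k) (i : Fin (n + 1)) (hl : 0 ≤ S.l) {F : ℕ → ℝ}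
    (hF : ∀ q, 0 ≤ F q) {R : ℝ} (hR : 0 ≤ R) (hFR : ∀ m ≤ S.k, ∀ j, F (S.idx m j) ≤ R) :
    ∑ q : Fin (S.idx lev i), |(S.circ.gate (S.idx lev i)).coef q| * F q
      ≤ node (n + 1) i * F 0 + S.l ^ 2 * cellSize n * R := by
  have hn := node_mem (n + 1) i
  have h0 : S.idx lev i ≠ 0 := by unfold idx; omega
  rw [S.gate_mid h0 (S.idx_lt_last hk i)]
  simp only [levOf_idx, nodeOf_idx]
  refine (sum_abs_coefs_le (node (n + 1) i)
    (fun j => if lev = 0 then 0 else S.time i * S.l * ruleWeight (n + 1) (intTo (node (n + 1) i)) j)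
    (Nat.pos_of_ne_zero h0) (S.coef_idx_lt lev i _) F hF).trans ?_
  rw [abs_of_pos hn.1]
  refine add_le_add le_rfl ?_
  have ht : S.time i * S.l ≤ S.l ^ 2 := by
    rw [time, sq]; exact mul_le_mul_of_nonneg_right (mul_le_of_le_one_right hl hn.2) hl
  calc _ ≤ ∑ j, S.l ^ 2 * |ruleWeight (n + 1) (intTo (node (n + 1) i)) j| * R :=
        Finset.sum_le_sum fun j _ => by
          rcases Nat.eq_zero_or_pos lev with h | h
          · simp only [h, if_true, abs_zero, zero_mul]; positivity
          · rw [if_neg h.ne', abs_mul,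
              abs_of_nonneg (show 0 ≤ S.time i * S.l from mul_nonneg (mul_nonneg hl hn.1.le) hl)]
            exact mul_le_mul (mul_le_mul_of_nonneg_right ht (abs_nonneg _))
              (hFR _ (by omega) j) (hF _) (by positivity)
    _ = S.l ^ 2 * (∑ j, |ruleWeight (n + 1) (intTo (node (n + 1) i)) j|) * R := by
        rw [← Finset.sum_mul, ← Finset.mul_sum]
    _ ≤ _ := mul_le_mul_of_nonneg_right (mul_le_mul_of_nonneg_left
        (sum_abs_rule_le (Ioc_subset_Icc_self hn)) (sq_nonneg _)) hR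

theorem sum_coef_last_le {F : ℕ → ℝ}
    (hF : ∀ q, 0 ≤ F q) {R : ℝ} (hR : 0 ≤ R) (hFR : ∀ j, F (S.idx S.k j) ≤ R) :
    ∑ q : Fin S.last, |(S.circ.gate S.last).coef q| * F q
      ≤ F 0 + S.l ^ 2 * cellSize n * R := by
  rw [S.gate_last]
  refine (sum_abs_coefs_le _ _ (by simp [last]) (fun j _ => S.coef_last_lt j) F hF).trans ?_
  rw [abs_one, one_mul]
  refine add_le_add le_rfl ?_
  calc _ ≤ ∑ j, S.l ^ 2 * |ruleWeight (n + 1) (intTo 1) j| * R :=
        Finset.sum_le_sum fun j _ => by
          rw [abs_mul, ← sq, abs_of_nonneg (sq_nonneg S.l)]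
          exact mul_le_mul_of_nonneg_left (hFR j) (by positivity)
    _ = S.l ^ 2 * (∑ j, |ruleWeight (n + 1) (intTo 1) j|) * R := by
        rw [← Finset.sum_mul, ← Finset.mul_sum]
    _ ≤ _ := mul_le_mul_of_nonneg_right (mul_le_mul_of_nonneg_left
        (sum_abs_rule_le ⟨zero_le_one, le_rfl⟩) (sq_nonneg _)) hR

/-- The constant of a stage. -/
def err (S : Stage d n) (C δ : ℝ) : ℝ :=
  18 * cellSize n * S.l ^ 2 * δ
    + (48 * cellSize n * S.l ^ 2 * (2 * cellSize n * S.l ^ 2) ^ (S.k + 1)
      + C * cellSize n * 2 ^ (n + 2) * S.l ^ 3 * (S.l / √S.r) ^ n)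

/-- The requirements on the blurs and oracles of a stage. -/
structure OK (S : Stage d n) (R δ L : ℝ) : Prop where
  cell : CellOK S.r S.l n
  σin_nonneg : 0 ≤ S.σin
  σout_pos : 0 < S.σout
  R_nonneg : 0 ≤ R
  δ_nonneg : 0 ≤ δ
  L_nonneg : 0 ≤ L
  tg_pos : ∀ i, 0 < S.tg i
  ρ_le : ∀ i, |S.ρ i| ≤ R
  first : √((S.last + 1 : ℕ) : ℝ) * S.σin ≤ S.l
  mid : ∀ i, √((S.last + 1 : ℕ) : ℝ) * (S.σin + S.l ^ 2 * cellSize n * R) ≤ S.tg i
  final : √((S.last + 1 : ℕ) : ℝ) * (S.l ^ 2 * cellSize n * R) ≤ S.σout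
  lip : 2 * cellSize n * L * S.l ^ 2 ≤ 1

theorem OK.blur {R δ L : ℝ} (h : S.OK R δ L) (g : ℕ) (hg : g < S.circ.T) :
    √(S.circ.T : ℝ) * (|(S.circ.gate g).cen| * S.circ.tau
      + ∑ i : Fin g, |(S.circ.gate g).coef i| * |S.circ.sig i|) ≤ (S.circ.gate g).tgt := by
  have hsig0 : S.circ.sig 0 = 0 := by simp [Circuit.sig, S.gate_zero]
  have hsig : ∀ m ≤ S.k, ∀ j, |S.circ.sig (S.idx m j)| ≤ R := fun m hm j => by
    simp only [Circuit.sig, S.kind_idx hm j]
    simpa [circ, nodeOf_idx] using h.ρ_le j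
  have hT : (S.circ.T : ℝ) = ((S.last + 1 : ℕ) : ℝ) := rfl
  rw [hT]
  rcases S.cases_gate hg with rfl | rfl | ⟨lev, hk, i, rfl⟩
  · rw [S.gate_zero]; simpa [circ] using h.first
  · refine le_trans ?_ (le_trans h.final (le_of_eq (by rw [S.gate_last])))
    refine mul_le_mul_of_nonneg_left ?_ (Real.sqrt_nonneg _)
    have := S.sum_coef_last_le (fun q => abs_nonneg (S.circ.sig q)) h.R_nonneg (hsig S.k le_rfl)
    rw [hsig0, abs_zero, zero_add] at this
    have e : (S.circ.gate S.last).cen = 0 := by rw [S.gate_last]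
    rw [e, abs_zero, zero_mul, zero_add]
    exact this
  · refine le_trans ?_ (le_trans (h.mid i) (le_of_eq (by
      rw [S.gate_mid (by unfold idx; omega) (S.idx_lt_last hk i)]; simp only [nodeOf_idx])))
    refine mul_le_mul_of_nonneg_left (add_le_add ?_ ?_) (Real.sqrt_nonneg _)
    · have e : (S.circ.gate (S.idx lev i)).cen = 1 - node (n + 1) i := by
        rw [S.gate_mid (by unfold idx; omega) (S.idx_lt_last hk i)]; simp only [nodeOf_idx]
      have hn := node_mem (n + 1) i
      rw [e, abs_of_nonneg (by linarith [hn.2])]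
      exact mul_le_of_le_one_left h.σin_nonneg (by linarith [hn.1])
    · have := S.sum_coef_idx_le hk i h.cell.pos.le (fun q => abs_nonneg (S.circ.sig q))
        h.R_nonneg hsig
      rw [hsig0, abs_zero, mul_zero, zero_add] at this
      exact this

theorem OK.tgt_pos {R δ L : ℝ} (h : S.OK R δ L) (g : ℕ) (hg : g < S.circ.T) :
    0 < (S.circ.gate g).tgt := by
  rcases S.cases_gate hg with rfl | rfl | ⟨lev, hk, i, rfl⟩
  · rw [S.gate_zero]; exact h.cell.pos
  · rw [S.gate_last]; exact h.σout_pos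
  · rw [S.gate_mid (by unfold idx; omega) (S.idx_lt_last hk i)]; exact h.tg_pos _

/-- The Lipschitz constants of the gates. -/
def lipC (S : Stage d n) (L : ℝ) (g : ℕ) : ℝ :=
  if g = 0 then 1 else if g < S.last then 2 * L else 1 + 2 * cellSize n * L * S.l ^ 2

theorem lipC_idx (L : ℝ) {lev : ℕ} (hk : lev ≤ S.k) (i : Fin (n + 1)) :
    S.lipC L (S.idx lev i) = 2 * L := by
  have h0 : S.idx lev i ≠ 0 := by unfold idx; omega
  rw [lipC, if_neg h0, if_pos (S.idx_lt_last hk i)]

theorem valid_idx {R δ L : ℝ} (h : S.OK R δ L)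
    (hO : ∀ i, Valid (S.O i).P (S.O i).A V (S.r - S.time i ^ 2) (S.tg i) (S.ρ i) δ L)
    (g : ℕ) (r : ℝ) (hg : g < S.circ.T) (hk : (S.circ.gate g).kind = some r) :
    0 ≤ δ ∧ Valid (S.circ.orc g).P (S.circ.orc g).A V r (S.circ.gate g).tgt (S.circ.rho g) δ L := by
  refine ⟨h.δ_nonneg, ?_⟩
  rcases S.cases_gate hg with rfl | rfl | ⟨lev, hl, i, rfl⟩
  · simp [S.gate_zero] at hk
  · simp [S.gate_last] at hk
  · rw [S.kind_idx hl i, Option.some.injEq] at hk
    subst hk
    have e : (S.circ.gate (S.idx lev i)).tgt = S.tg i := by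
      rw [S.gate_mid (by unfold idx; omega) (S.idx_lt_last hl i)]; simp only [nodeOf_idx]
    rw [e]
    have key : ∀ j, j = i → Valid (S.O j).P (S.O j).A V (S.r - S.time i ^ 2) (S.tg i) (S.ρ j) δ L :=
      fun j hj => by subst hj; exact hO _
    exact key _ (S.nodeOf_idx lev i)

theorem pair_law (hT0 : 0 < S.circ.T) (hlT : S.last < S.circ.T) :
    MeasurePreserving (fun f : Fin S.circ.T → Space d => (f ⟨0, hT0⟩, f ⟨S.last, hlT⟩))
      (famLaw d (Fin S.circ.T)) ((stdGaussian (Space d)).prod (stdGaussian (Space d))) := by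
  have he : Function.Injective ![(⟨0, hT0⟩ : Fin S.circ.T), ⟨S.last, hlT⟩] := by
    intro a b hab
    fin_cases a <;> fin_cases b <;> simp_all [last]
  exact ((measurePreserving_piFinTwo fun _ : Fin 2 => stdGaussian (Space d)).comp
    (famLaw_reindex he) :)

/-- The error of a stage against the flow. -/
theorem err_le {C R δ L : ℝ} (hC : TimeAt n C) (hV : Quarter.InClass V) (h : S.OK R δ L)
    {W : Space d → ℝ → Space d → Space d} (hW : ∀ z, IsFlow V z S.r (W z))
    (hT0 : 0 < S.circ.T) (hlT : S.last < S.circ.T)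
    (Ξ : Inp d → Space d × S.circ.Seeds S.circ.T → Fin S.circ.T → Space d)
    (hΞl : ∀ c, MeasurePreserving (Ξ c) (S.circ.startLaw S.circ.T) (famLaw d (Fin S.circ.T)))
    (hΞe : ∀ {X : Type} [MeasurableSpace X] (μ : Measure X) [IsProbabilityMeasure μ]
        (cx : X → Inp d) (ox : X → Fin 2 → Space d), Measurable cx → Measurable ox →
        ∀ (E : ℕ → ℝ≥0∞),
        (∀ g r, g < S.circ.T → (S.circ.gate g).kind = some r →
          ENNReal.ofReal δ * (ENNReal.ofReal √d
              + eLpNorm (fun x => S.circ.argVal V (cx x.1) (extFun x.2) g) 2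
                  (μ.prod (famLaw d (Fin S.circ.T))))
            + ENNReal.ofReal L * (∑ k, ENNReal.ofReal |(S.circ.gate g).ext k|
                * eLpNorm (fun x => ox x k - (cx x).2 k) 2 μ
              + ∑ i : Fin g, ENNReal.ofReal |(S.circ.gate g).coef i| * E i) ≤ E g) →
        (∀ g, g < S.circ.T → (S.circ.gate g).kind = none →
          ∑ k, ENNReal.ofReal |(S.circ.gate g).ext k| * eLpNorm (fun x => ox x k - (cx x).2 k) 2 μ
            + ∑ i : Fin g, ENNReal.ofReal |(S.circ.gate g).coef i| * E i ≤ E g) →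
        ∀ g, g < S.circ.T → (S.circ.gate g).kind = none →
          eLpNorm (fun p => S.circ.raw V S.circ.T p.2.2 (S.circ.inp cx ox p.1 p.2.1) g
            - S.circ.val V (cx p.1) (extFun (Ξ (cx p.1) p.2)) g) 2
              (μ.prod (S.circ.startLaw S.circ.T)) ≤ E g)
    (c : Space d) :
    eLpNorm (fun w => S.alg.eval (oracle V) (w.2, c + S.σin • w.1)
        - (flowEnd W S.l c (Ξ (c, 0) w ⟨0, hT0⟩) + S.σout • Ξ (c, 0) w ⟨S.last, hlT⟩)) 2
      (S.circ.startLaw S.circ.T) ≤ ENNReal.ofReal (S.err C δ * (√(d : ℝ) + ‖c‖)) := by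
  have hreg : Regular V := regular score_spec hV
  have hs : ∀ r, Measurable (score V r) := fun r =>
    ((continuous_score hV).comp (continuous_const.prodMk continuous_id)).measurable
  have hpair := S.pair_law hT0 hlT
  have hce := continuous_flowEnd hreg h.cell hW
  set μ := S.circ.startLaw S.circ.T
  set X := √(d : ℝ) + ‖c‖
  have hX0 : 0 ≤ X := by positivity
  set A := 18 * δ * X
  have hA : 0 ≤ A := by have := h.δ_nonneg; positivity
  set E : ℕ → ℝ := fun g =>
    if g = 0 then 0 else if g < S.last then A else S.l ^ 2 * cellSize n * A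
  have hE0 : ∀ g, 0 ≤ E g := fun g => by
    have := zero_le_one.trans (one_le_cellSize n)
    simp only [E]; split_ifs <;> positivity
  have hEidx : ∀ m ≤ S.k, ∀ j, E (S.idx m j) = A := fun m hm j => by
    simp only [E]
    rw [if_neg (by unfold idx; omega), if_pos (S.idx_lt_last hm j)]
  have hsum : ∀ g : ℕ, ∑ i : Fin g, ENNReal.ofReal |(S.circ.gate g).coef i| *
      ENNReal.ofReal (E i) = ENNReal.ofReal (∑ i : Fin g, |(S.circ.gate g).coef i| * E i) :=
    fun g => by
      rw [ENNReal.ofReal_sum_of_nonneg fun i _ => mul_nonneg (abs_nonneg _) (hE0 _)]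
      exact Finset.sum_congr rfl fun i _ => (ENNReal.ofReal_mul (abs_nonneg _)).symm
  have hlast := hΞe (Measure.dirac ()) (fun _ => (c, 0)) (fun _ => 0) measurable_const
    measurable_const (fun g => ENNReal.ofReal (E g)) (fun g r hg hk => ?_) (fun g hg hk => ?_)
    S.last hlT (by rw [S.gate_last])
  rotate_left
  · rcases S.cases_gate hg with rfl | rfl | ⟨lev, hl, i, rfl⟩
    · simp [S.gate_zero] at hk
    · simp [S.gate_last] at hk
    have harg : eLpNorm (fun x : Unit × (Fin S.circ.T → Space d) =>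
        S.circ.argVal V (c, 0) (extFun x.2) (S.idx lev i)) 2
        ((Measure.dirac ()).prod (famLaw d (Fin S.circ.T)))
        ≤ ENNReal.ofReal (4 * X + 4 * √(d : ℝ)) := by
      refine (eLpNorm_mono_real (g := (fun x : Space d => 4 * X + 4 * ‖x‖) ∘
        Function.eval (⟨0, hT0⟩ : Fin S.circ.T) ∘ Prod.snd) fun x => ?_).trans ?_
      · rw [S.argVal_idx V c _ hl i fun h0 j => by
          rw [S.val_idx V c _ (lev - 1) (by omega) j, Nat.sub_add_cancel h0]]
        refine (norm_cellArg_le hV h.cell lev c _ (cell_time h.cell.pos.le i)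
          (Ioc_subset_Icc_self (node_mem _ i))).trans (le_of_eq ?_)
        simp only [startSize, X, extFun, hT0, dite_true, Function.comp_apply, Function.eval]
        ring
      · exact ((eLpNorm_comp_measurePreserving (g := fun x : Space d => 4 * X + 4 * ‖x‖)
          (by fun_prop) ((measurePreserving_eval (fun _ : Fin S.circ.T => stdGaussian (Space d))
            ⟨0, hT0⟩).comp (measurePreserving_snd (μ := Measure.dirac ())))).trans_le (eLpNorm_affine_gauss_le (by positivity) (by norm_num)) :)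
    simp only [Pi.zero_apply, sub_zero, eLpNorm_zero', mul_zero, Finset.sum_const_zero, zero_add]
    rw [hsum, hEidx lev hl i, ← ENNReal.ofReal_mul h.L_nonneg]
    refine (add_le_add (mul_le_mul' le_rfl (add_le_add le_rfl harg)) le_rfl).trans ?_
    rw [← ENNReal.ofReal_add (Real.sqrt_nonneg _) (by positivity),
      ← ENNReal.ofReal_mul h.δ_nonneg, ← ENNReal.ofReal_add
        (mul_nonneg h.δ_nonneg (by positivity))
        (mul_nonneg h.L_nonneg (Finset.sum_nonneg fun q _ => mul_nonneg (abs_nonneg _) (hE0 _)))]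
    refine ENNReal.ofReal_le_ofReal ?_
    have h1 := S.sum_coef_idx_le hl i h.cell.pos.le hE0 hA fun m hm j => (hEidx m hm j).le
    simp only [show E 0 = 0 from if_pos rfl, mul_zero, zero_add] at h1
    have h2 := mul_le_mul_of_nonneg_left h1 h.L_nonneg
    have h3 := mul_le_mul_of_nonneg_right h.lip hA
    have h4 : δ * (√(d : ℝ) + (4 * X + 4 * √(d : ℝ))) ≤ 9 * δ * X := by
      have := h.δ_nonneg
      have hd : √(d : ℝ) ≤ X := by simp [X]
      nlinarith
    simp only [A] at *
    linarith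
  · simp only [Pi.zero_apply, sub_zero, eLpNorm_zero', mul_zero, Finset.sum_const_zero, zero_add]
    rw [hsum]
    refine ENNReal.ofReal_le_ofReal ?_
    rcases S.cases_gate hg with rfl | rfl | ⟨lev, hl, i, rfl⟩
    · simp [E]
    · have h1 := S.sum_coef_last_le hE0 hA fun j => (hEidx S.k le_rfl j).le
      simp only [show E 0 = 0 from if_pos rfl, zero_add] at h1
      refine h1.trans (le_of_eq ?_)
      simp [E, last]
    · simp [S.kind_idx hl i] at hk
  have hm0 : MeasurePreserving (fun w => Ξ (c, 0) w ⟨0, hT0⟩) μ (stdGaussian (Space d)) :=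
    measurePreserving_fst.comp (hpair.comp (hΞl (c, 0)))
  have hflow := eLpNorm_flowEnd_sub_le hV hreg h.cell hW hC (S.k + 1) c
  have e : (fun w : Space d × S.circ.Seeds S.circ.T =>
      S.alg.eval (oracle V) (w.2, c + S.σin • w.1)
        - (flowEnd W S.l c (Ξ (c, 0) w ⟨0, hT0⟩) + S.σout • Ξ (c, 0) w ⟨S.last, hlT⟩))
      = (fun w => S.circ.raw V S.circ.T w.2 (c + S.circ.tau • w.1, 0) S.last
          - S.circ.val V (c, 0) (extFun (Ξ (c, 0) w)) S.last)
        - (fun x => flowEnd W S.l c x - cellEnd V S.r S.l n (S.k + 1) c x) ∘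
            fun w => Ξ (c, 0) w ⟨0, hT0⟩ := by
    funext w
    simp only [Pi.sub_apply, Function.comp_apply, S.alg_eval, S.val_last, extFun, hT0, hlT,
      dite_true]
    simp only [circ]
    abel
  rw [e]
  have hce0 : Measurable fun x => flowEnd W S.l c x - cellEnd V S.r S.l n (S.k + 1) c x :=
    (hce.comp (continuous_const.prodMk continuous_id)).measurable.sub
      ((continuous_cellEnd hV (S.k + 1)).comp (continuous_const.prodMk continuous_id)).measurable
  have hg : Measurable fun w : Space d × S.circ.Seeds S.circ.T =>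
      S.circ.raw V S.circ.T w.2 (c + S.circ.tau • w.1, 0) S.last
        - S.circ.val V (c, 0) (extFun (Ξ (c, 0) w)) S.last :=
    (Circuit.measurable_raw hV S.circ.T measurable_snd
      (((measurable_fst.const_smul S.circ.tau).const_add c).prodMk measurable_const)).eval.sub
      ((S.circ.measurable_val V (fun _ r _ => hs r) S.last).comp
        (measurable_const.prodMk (measurable_extFun.comp (hΞl (c, 0)).measurable)))
  have hsnd : MeasurePreserving (Prod.snd : Unit × (Space d × S.circ.Seeds S.circ.T) → _)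
      ((Measure.dirac ()).prod μ) μ := measurePreserving_snd
  refine (eLpNorm_sub_le hg.aestronglyMeasurable
    (hce0.comp hm0.measurable).aestronglyMeasurable one_le_two).trans ?_
  rw [← eLpNorm_comp_measurePreserving hg.aestronglyMeasurable hsnd]
  rw [eLpNorm_comp_measurePreserving hce0.aestronglyMeasurable hm0]
  refine (add_le_add hlast hflow).trans ?_
  have hX0' : 0 ≤ (48 * cellSize n * S.l ^ 2 * (2 * cellSize n * S.l ^ 2) ^ (S.k + 1)
      + C * cellSize n * 2 ^ (n + 2) * S.l ^ 3 * (S.l / √S.r) ^ n) * X := by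
    have := zero_le_one.trans (one_le_cellSize n)
    have := hC.1
    have := h.cell.pos
    positivity
  rw [← ENNReal.ofReal_add (hE0 _) hX0']
  refine ENNReal.ofReal_le_ofReal (le_of_eq ?_)
  simp only [E, A, err, X, if_neg (show S.last ≠ 0 by simp [last]), lt_irrefl, if_false]
  ring

/-- The program of a stage is Lipschitz. -/
theorem lip_alg {R δ L : ℝ} (h : S.OK R δ L)
    (hO : ∀ i, Valid (S.O i).P (S.O i).A V (S.r - S.time i ^ 2) (S.tg i) (S.ρ i) δ L) :
    ∀ ω x x', ‖S.alg.eval (oracle V) (ω, x) - S.alg.eval (oracle V) (ω, x')‖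
      ≤ (1 + 2 * cellSize n * L * S.l ^ 2) * ‖x - x'‖ := by
  have hlT : S.last < S.circ.T := Nat.lt_succ_self _
  intro ω x x'
  rw [S.alg_eval, S.alg_eval]
  have hcs := zero_le_one.trans (one_le_cellSize n)
  have hL := h.L_nonneg
  have hLp : ∀ g, 0 ≤ S.lipC L g := fun g => by
    simp only [lipC]; split_ifs <;> positivity
  have hidx : ∀ m ≤ S.k, ∀ j, S.lipC L (S.idx m j) ≤ 2 * L := fun m hm j =>
    (S.lipC_idx L hm j).le
  have := S.circ.lip_raw (V := V) (L := fun _ => L) (Lp := S.lipC L) (u0 := 1) (u := 0)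
    (fun g r hg hk => ⟨hL, (S.valid_idx h hO g r hg hk).2.lip⟩)
    (fun g r hg hk => ?_) (fun g hg hk => ?_) (Y := (x, 0)) (Y' := (x', 0))
    (norm_nonneg (x - x')) (one_mul _).ge (fun k => by simp) S.circ.T le_rfl ω S.last hlT
  · refine this.trans (le_of_eq ?_)
    simp [lipC, last]
  · rcases S.cases_gate hg with rfl | rfl | ⟨lev, hl, i, rfl⟩
    · simp [S.gate_zero] at hk
    · simp [S.gate_last] at hk
    have h1 := S.sum_coef_idx_le hl i h.cell.pos.le hLp (by positivity : 0 ≤ 2 * L) hidx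
    have e : (S.circ.gate (S.idx lev i)).cen = 1 - node (n + 1) i := by
      rw [S.gate_mid (by unfold idx; omega) (S.idx_lt_last hl i)]; simp only [nodeOf_idx]
    have hn := node_mem (n + 1) i
    simp only [Pi.zero_apply, mul_zero, Finset.sum_const_zero, add_zero, mul_one]
    rw [e, abs_of_nonneg (by linarith [hn.2]), S.lipC_idx L hl i]
    rw [show S.lipC L 0 = 1 from if_pos rfl] at h1
    have h2 := mul_le_mul_of_nonneg_left h1 hL
    have h3 := mul_le_mul_of_nonneg_right h.lip hL
    linarith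
  · rcases S.cases_gate hg with rfl | rfl | ⟨lev, hl, i, rfl⟩
    · simp [S.gate_zero, lipC]
    · have h1 := S.sum_coef_last_le hLp (by positivity : 0 ≤ 2 * L) fun j => hidx S.k le_rfl j
      rw [show S.lipC L 0 = 1 from if_pos rfl] at h1
      have e : (S.circ.gate S.last).cen = 0 := by rw [S.gate_last]
      have e2 : S.lipC L S.last = 1 + 2 * cellSize n * L * S.l ^ 2 := by simp [lipC, last]
      simp only [Pi.zero_apply, mul_zero, Finset.sum_const_zero, add_zero, mul_one]
      rw [e, abs_zero, zero_add, e2]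
      linarith
    · simp [S.kind_idx hl i] at hk

/-- A stage samples the end of its cell and keeps the blur. -/
theorem blurPost {C R δ L : ℝ} (hC : TimeAt n C) (hV : Quarter.InClass V) (h : S.OK R δ L)
    (hO : ∀ i, Valid (S.O i).P (S.O i).A V (S.r - S.time i ^ 2) (S.tg i) (S.ρ i) δ L) :
    BlurPost (S.circ.seedLaw S.circ.T) S.alg V S.r (S.r - S.l ^ 2) S.σin S.σout (S.err C δ)
      (1 + 2 * cellSize n * L * S.l ^ 2) (1 + 50 * S.l) := by
  have hreg : Regular V := regular score_spec hV
  have hs : ∀ r, Measurable (score V r) := fun r =>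
    ((continuous_score hV).comp (continuous_const.prodMk continuous_id)).measurable
  choose W hW using fun z : Space d => exists_flow hV z h.cell.rpos h.cell.le_one
  have hT0 : 0 < S.circ.T := Nat.succ_pos _
  obtain ⟨Ξ, hΞm, hΞl, hΞe⟩ := S.circ.compile hV hs hT0 h.σin_nonneg (h.tgt_pos S) (h.blur S)
    (δ := fun _ => δ) (L := fun _ => L) (V := V) (S.valid_idx h hO)
  have hlT : S.last < S.circ.T := Nat.lt_succ_self _
  have hpair := S.pair_law hT0 hlT
  have hce := continuous_flowEnd hreg h.cell hW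
  have hΞ0 : ∀ i, Measurable (Function.uncurry fun (c : Space d)
      (w : Space d × S.circ.Seeds S.circ.T) => Ξ (c, 0) w i) := fun i =>
    ((measurable_pi_apply i).comp hΞm).comp
      ((measurable_fst.prodMk measurable_const).prodMk measurable_snd)
  have hX : Measurable (Function.uncurry fun c (w : Space d × S.circ.Seeds S.circ.T) =>
      flowEnd W S.l c (Ξ (c, 0) w ⟨0, hT0⟩)) :=
    hce.measurable.comp (measurable_fst.prodMk (hΞ0 _))
  set μ := S.circ.startLaw S.circ.T
  refine ⟨⟨fun c w => flowEnd W S.l c (Ξ (c, 0) w ⟨0, hT0⟩), fun c w => Ξ (c, 0) w ⟨S.last, hlT⟩, hX,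
    hΞ0 _, fun c F hF => ?_, fun c => ⟨?_, ?_⟩⟩, ?_⟩
  · have hm := hpair.comp (hΞl (c, 0))
    set H : Space d × Space d → ℝ := fun p => F (flowEnd W S.l c p.1, p.2)
    have hH : Test H := ⟨hF.meas.comp (((hce.comp (continuous_const.prodMk
      continuous_id)).measurable.comp measurable_fst).prodMk measurable_snd),
      fun _ => hF.nonneg _, fun _ => hF.le_one _⟩
    show ∫ w, H (Ξ (c, 0) w ⟨0, hT0⟩, Ξ (c, 0) w ⟨S.last, hlT⟩) ∂μ = _
    refine (integral_map hm.measurable.aemeasurable hH.meas.aestronglyMeasurable).symm.trans ?_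
    rw [hm.map_eq, integral_prod _ (hH.integrable _)]
    exact integral_flowEnd hV h.cell hW c
      (test_integral (μ := stdGaussian (Space d)) hF)
  · exact S.err_le hC hV h hW hT0 hlT Ξ hΞl hΞe c
  · have hm0 : MeasurePreserving (fun w => Ξ (c, 0) w ⟨0, hT0⟩) μ (stdGaussian (Space d)) :=
      measurePreserving_fst.comp (hpair.comp (hΞl (c, 0)))
    have e := eLpNorm_comp_measurePreserving (p := 2) (g := fun x => flowEnd W S.l c x)
      (hce.comp (continuous_const.prodMk continuous_id)).measurable.aestronglyMeasurable hm0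
    exact ((congrArg (ENNReal.ofReal √(d : ℝ) + ·) e).trans_le
      (eLpNorm_flowEnd_le hV h.cell hW c) :)
  · exact S.lip_alg h hO

end Stage

end

end P347.Zero
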