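import Vale.Agent.P347.Zero.Cum
import Vale.Agent.P347.Zero.Posterior

/-!
# P347: fields along the flow, as functions of time and of the pair `(w, U)`

`Ctx.Alg` is the algebra generated by the derivatives of `log smooth` at `(t - q ^ 2, y + q • w)`,
the coordinates of `w` and `U`, the time and the constants. It is closed under the space
derivatives and under the derivative along the flow, and its members grow at most polynomially.
-/

namespace P347.Zero

open MeasureTheory ProbabilityTheory Filter Topology Finset P347.Quarter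
open scoped RealInnerProductSpace

noncomputable section

variable {d : ℕ}

/-- A target, a point and a variance. -/
structure Ctx (d : ℕ) where
  V : Space d → ℝ
  y : Space d
  t : ℝ
  hV : InClass V
  ht0 : 0 < t
  ht1 : t ≤ 1

/-- A scalar field. -/
abbrev Fn (d : ℕ) : Type := ℝ → Space d → Space d → ℝ

theorem Ctx.lip (X : Ctx d) (r : ℝ) (hr : 0 < r) : LipschitzWith 2 (score X.V r) :=
  lipschitz_score X.hV hr.le

namespace Ctx

variable (X : Ctx d)

/-- A derivative of the logarithm, at the moving point. -/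
def coef (L : List (Fin d)) : Fn d := fun q w _ => ld X.V L (X.t - q ^ 2, X.y + q • w)

/-- The score of the law of `w`. -/
def beta (l : Fin d) : Fn d := fun q w u => -w l + q * X.coef [l] q w u

/-- The derivative in `w`. -/
def dW (i : Fin d) (f : Fn d) : Fn d := fun q w u => fderiv ℝ (fun w' => f q w' u) w (bv i)

/-- The derivative in `U`. -/
def dU (i : Fin d) (f : Fn d) : Fn d := fun q w u => fderiv ℝ (fun u' => f q w u') u (bv i)

/-- The derivative along the flow. -/
def dT (f : Fn d) : Fn d := fun q w u =>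
  deriv (fun q' => f q' w u) q + ∑ l, X.coef [l] q w u * dW l f q w u

/-- The algebra of fields. -/
inductive Alg : Fn d → Prop
  | coef (L : List (Fin d)) : 1 ≤ L.length → Alg (X.coef L)
  | coordW (i : Fin d) : Alg fun _ w _ => w i
  | coordU (i : Fin d) : Alg fun _ _ u => u i
  | const (c : ℝ) : Alg fun _ _ _ => c
  | time : Alg fun q _ _ => q
  | add {f g : Fn d} : Alg f → Alg g → Alg fun q w u => f q w u + g q w u
  | mul {f g : Fn d} : Alg f → Alg g → Alg fun q w u => f q w u * g q w u
  | congr {f g : Fn d} : Alg f → (∀ q, q ^ 2 < X.t → ∀ w u, g q w u = f q w u) → Alg g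

theorem Alg.neg {X : Ctx d} {f : Fn d} (hf : X.Alg f) : X.Alg fun q w u => -f q w u :=
  .congr ((Alg.const (-1)).mul hf) fun q _ w u => by ring

theorem Alg.sum {X : Ctx d} {κ : Type} (s : Finset κ) {f : κ → Fn d} (h : ∀ k, X.Alg (f k)) :
    X.Alg fun q w u => ∑ k ∈ s, f k q w u := by
  classical
  induction s using Finset.induction with
  | empty => exact .congr (.const 0) fun q _ w u => by simp
  | @insert a s ha ih => exact .congr ((h a).add ih) fun q _ w u => by simp [Finset.sum_insert ha]

theorem alg_beta (l : Fin d) : X.Alg (X.beta l) :=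
  (Alg.coordW l).neg.add ((Alg.time).mul (Alg.coef [l] (by simp)))

theorem alg_contract (π : List Bool) (L : List (Fin d)) :
    X.Alg fun q w u => contract (fun A => X.coef A q w u) (fun A => X.coef A q w u) π L :=
  Alg.sum Finset.univ fun l =>
    (Alg.coef (l :: pickT π L) (by simp)).mul (Alg.coef (l :: pickF π L) (by simp))

theorem alg_proper (L : List (Fin d)) (hL : 1 ≤ L.length) :
    X.Alg fun q w _ => proper X.V L (X.t - q ^ 2, X.y + q • w) := by
  obtain ⟨mid, hm, -⟩ := pats_split L.length hL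
  have key : ∀ R : List (List Bool), X.Alg fun q w u =>
      (R.map fun π => contract (fun A => X.coef A q w u) (fun A => X.coef A q w u) π L).sum := by
    intro R
    induction R with
    | nil => exact .congr (.const 0) fun q _ w u => by simp
    | cons π R ih => exact .congr ((X.alg_contract π L).add ih) fun q _ w u => by simp
  exact .congr (key mid) fun q _ w u => proper_eq L hm _

/-- The set of times, with the pairs. -/
def dom : Set (ℝ × Space d × Space d) := {p | p.1 ^ 2 < X.t}

theorem isOpen_dom : IsOpen X.dom :=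
  isOpen_lt (continuous_fst.pow 2) continuous_const

theorem contDiffAt_coef (L : List (Fin d)) (n : ℕ) {p : ℝ × Space d × Space d} (hp : p.1 ^ 2 < X.t) :
    ContDiffAt ℝ n (fun p : ℝ × Space d × Space d => X.coef L p.1 p.2.1 p.2.2) p :=
  (contDiffAt_ld X.hV L n (p := (X.t - p.1 ^ 2, X.y + p.1 • p.2.1)) (by simp; linarith)).comp p
    (f := fun p : ℝ × Space d × Space d => (X.t - p.1 ^ 2, X.y + p.1 • p.2.1))
    (((contDiffAt_const.sub (contDiffAt_fst.pow 2))).prodMk
      (contDiffAt_const.add (contDiffAt_fst.smul contDiffAt_snd.fst)))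

variable {X}

theorem Alg.contDiffOn {f : Fn d} (hf : X.Alg f) (n : ℕ) :
    ContDiffOn ℝ n (fun p : ℝ × Space d × Space d => f p.1 p.2.1 p.2.2) X.dom := by
  induction hf with
  | coef L _ => exact fun p hp => (X.contDiffAt_coef L n hp).contDiffWithinAt
  | coordW i =>
    exact ((EuclideanSpace.proj i : Space d →L[ℝ] ℝ).contDiff.comp
      contDiff_snd.fst).contDiffOn
  | coordU i =>
    exact ((EuclideanSpace.proj i : Space d →L[ℝ] ℝ).contDiff.comp
      contDiff_snd.snd).contDiffOn
  | const c => exact contDiffOn_const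
  | time => exact contDiff_fst.contDiffOn
  | add _ _ ihf ihg => exact ihf.add ihg
  | mul _ _ ihf ihg => exact ihf.mul ihg
  | congr _ h ih => exact ih.congr fun p hp => h p.1 hp p.2.1 p.2.2

theorem Alg.contDiffAt {f : Fn d} (hf : X.Alg f) (n : ℕ) {q : ℝ} (hq : q ^ 2 < X.t) (w u : Space d) :
    ContDiffAt ℝ n (fun p : ℝ × Space d × Space d => f p.1 p.2.1 p.2.2) (q, w, u) :=
  (hf.contDiffOn n).contDiffAt (X.isOpen_dom.mem_nhds hq)

theorem Alg.contDiff_pair {f : Fn d} (hf : X.Alg f) (n : ℕ) {q : ℝ} (hq : q ^ 2 < X.t) :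
    ContDiff ℝ n fun z : Space d × Space d => f q z.1 z.2 :=
  contDiff_iff_contDiffAt.2 fun z =>
    (hf.contDiffAt n hq z.1 z.2).comp z (f := fun z : Space d × Space d => (q, z.1, z.2))
      (contDiffAt_const.prodMk (contDiffAt_fst.prodMk contDiffAt_snd))

theorem Alg.contDiff_w {f : Fn d} (hf : X.Alg f) (n : ℕ) {q : ℝ} (hq : q ^ 2 < X.t) (u : Space d) :
    ContDiff ℝ n fun w => f q w u :=
  (hf.contDiff_pair n hq).comp (contDiff_id.prodMk contDiff_const)

theorem Alg.contDiff_u {f : Fn d} (hf : X.Alg f) (n : ℕ) {q : ℝ} (hq : q ^ 2 < X.t) (w : Space d) :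
    ContDiff ℝ n fun u => f q w u :=
  (hf.contDiff_pair n hq).comp (contDiff_const.prodMk contDiff_id)

theorem Alg.differentiableAt_q {f : Fn d} (hf : X.Alg f) {q : ℝ} (hq : q ^ 2 < X.t)
    (w u : Space d) : DifferentiableAt ℝ (fun q' => f q' w u) q :=
  ((hf.contDiffAt 1 hq w u).differentiableAt one_ne_zero).comp q
    (f := fun q' : ℝ => (q', w, u)) (differentiableAt_id.prodMk (differentiableAt_const _))

theorem dW_congr {f g : Fn d} (h : ∀ q, q ^ 2 < X.t → ∀ w u, g q w u = f q w u) (i : Fin d) :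
    ∀ q, q ^ 2 < X.t → ∀ w u, dW i g q w u = dW i f q w u := by
  intro q hq w u
  have : (fun w' => g q w' u) = fun w' => f q w' u := funext fun w' => h q hq w' u
  simp [dW, this]

theorem dU_congr {f g : Fn d} (h : ∀ q, q ^ 2 < X.t → ∀ w u, g q w u = f q w u) (i : Fin d) :
    ∀ q, q ^ 2 < X.t → ∀ w u, dU i g q w u = dU i f q w u := by
  intro q hq w u
  have : (fun u' => g q w u') = fun u' => f q w u' := funext fun u' => h q hq w u'
  simp [dU, this]

theorem dT_congr {f g : Fn d} (h : ∀ q, q ^ 2 < X.t → ∀ w u, g q w u = f q w u) :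
    ∀ q, q ^ 2 < X.t → ∀ w u, X.dT g q w u = X.dT f q w u := by
  intro q hq w u
  have : (fun q' => g q' w u) =ᶠ[𝓝 q] fun q' => f q' w u := by
    filter_upwards [((continuous_pow 2).tendsto q).eventually (Iio_mem_nhds hq)] with q' hq'
    exact h q' hq' w u
  simp [dT, this.deriv_eq, dW_congr h _ q hq w u]

theorem hasFDerivAt_coef (L : List (Fin d)) {q : ℝ} (hq : q ^ 2 < X.t) (w : Space d) :
    HasFDerivAt (fun w' => ld X.V L (X.t - q ^ 2, X.y + q • w'))
      (q • ∑ j, ld X.V (j :: L) (X.t - q ^ 2, X.y + q • w) •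
        (EuclideanSpace.proj j : Space d →L[ℝ] ℝ)) w := by
  refine (((hasDerivAt_ld_space X.hV L (r := X.t - q ^ 2) (by linarith) (X.y + q • w)).2).comp w
    (((hasFDerivAt_id w).const_smul q).const_add X.y)).congr_fderiv ?_
  ext z
  simp

theorem dW_coef (L : List (Fin d)) (i : Fin d) {q : ℝ} (hq : q ^ 2 < X.t) (w u : Space d) :
    dW i (X.coef L) q w u = q * X.coef (i :: L) q w u := by
  simp only [dW, Ctx.coef, (hasFDerivAt_coef L hq w).fderiv, _root_.smul_apply, sum_proj_bv,
    smul_eq_mul]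

theorem dU_coef (L : List (Fin d)) (i : Fin d) (q : ℝ) (w u : Space d) :
    dU i (X.coef L) q w u = 0 := by
  simp [dU, Ctx.coef]

theorem dW_mul {f g : Fn d} (hf : X.Alg f) (hg : X.Alg g) (i : Fin d) {q : ℝ} (hq : q ^ 2 < X.t)
    (w u : Space d) : dW i (fun q w u => f q w u * g q w u) q w u
      = dW i f q w u * g q w u + f q w u * dW i g q w u := by
  simp only [dW]
  rw [fderiv_fun_mul ((hf.contDiff_w 1 hq u).differentiable one_ne_zero w)
    ((hg.contDiff_w 1 hq u).differentiable one_ne_zero w)]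
  simp only [_root_.add_apply, _root_.smul_apply, smul_eq_mul]
  ring

theorem dU_mul {f g : Fn d} (hf : X.Alg f) (hg : X.Alg g) (i : Fin d) {q : ℝ} (hq : q ^ 2 < X.t)
    (w u : Space d) : dU i (fun q w u => f q w u * g q w u) q w u
      = dU i f q w u * g q w u + f q w u * dU i g q w u := by
  simp only [dU]
  rw [fderiv_fun_mul ((hf.contDiff_u 1 hq w).differentiable one_ne_zero u)
    ((hg.contDiff_u 1 hq w).differentiable one_ne_zero u)]
  simp only [_root_.add_apply, _root_.smul_apply, smul_eq_mul]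
  ring

theorem dW_add {f g : Fn d} (hf : X.Alg f) (hg : X.Alg g) (i : Fin d) {q : ℝ} (hq : q ^ 2 < X.t)
    (w u : Space d) : dW i (fun q w u => f q w u + g q w u) q w u
      = dW i f q w u + dW i g q w u := by
  simp only [dW]
  rw [fderiv_fun_add ((hf.contDiff_w 1 hq u).differentiable one_ne_zero w)
    ((hg.contDiff_w 1 hq u).differentiable one_ne_zero w), _root_.add_apply]

theorem dU_add {f g : Fn d} (hf : X.Alg f) (hg : X.Alg g) (i : Fin d) {q : ℝ} (hq : q ^ 2 < X.t)
    (w u : Space d) : dU i (fun q w u => f q w u + g q w u) q w u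
      = dU i f q w u + dU i g q w u := by
  simp only [dU]
  rw [fderiv_fun_add ((hf.contDiff_u 1 hq w).differentiable one_ne_zero u)
    ((hg.contDiff_u 1 hq w).differentiable one_ne_zero u), _root_.add_apply]

theorem dT_add {f g : Fn d} (hf : X.Alg f) (hg : X.Alg g) {q : ℝ} (hq : q ^ 2 < X.t)
    (w u : Space d) : X.dT (fun q w u => f q w u + g q w u) q w u
      = X.dT f q w u + X.dT g q w u := by
  simp only [dT, dW_add hf hg _ hq w u]
  rw [deriv_fun_add (hf.differentiableAt_q hq w u) (hg.differentiableAt_q hq w u)]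
  simp only [mul_add, sum_add_distrib]
  ring

theorem dT_mul {f g : Fn d} (hf : X.Alg f) (hg : X.Alg g) {q : ℝ} (hq : q ^ 2 < X.t)
    (w u : Space d) : X.dT (fun q w u => f q w u * g q w u) q w u
      = X.dT f q w u * g q w u + f q w u * X.dT g q w u := by
  simp only [dT, dW_mul hf hg _ hq w u]
  rw [deriv_fun_mul (hf.differentiableAt_q hq w u) (hg.differentiableAt_q hq w u)]
  simp only [mul_add, add_mul, mul_sum, sum_mul, ← mul_assoc, sum_add_distrib]
  rw [sum_congr rfl fun l _ => show X.coef [l] q w u * f q w u * dW l g q w u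
    = f q w u * X.coef [l] q w u * dW l g q w u by ring]
  ring

/-- A coefficient moves along the flow by `δ` of the next one and the lower contractions. -/
theorem dT_coef (L : List (Fin d)) {q : ℝ} (hq : q ^ 2 < X.t) (w u : Space d) :
    X.dT (X.coef L) q w u = -(∑ l, (q * X.coef (l :: l :: L) q w u
        + X.beta l q w u * X.coef (l :: L) q w u))
      - q * proper X.V L (X.t - q ^ 2, X.y + q • w) := by
  set p : ℝ × Space d := (X.t - q ^ 2, X.y + q • w) with hp
  have hr : 0 < p.1 := by simp [hp]; linarith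
  have hD := ((contDiffAt_ld X.hV L 1 hr).differentiableAt one_ne_zero).hasFDerivAt
  have hγ : HasDerivAt (fun q : ℝ => (X.t - q ^ 2, X.y + q • w)) (-(2 * q), w) q := by
    refine HasDerivAt.prodMk ?_ ?_
    · simpa using (hasDerivAt_pow 2 q).const_sub X.t
    · simpa using ((hasDerivAt_id q).smul_const w).const_add X.y
  have e1 : fderiv ℝ (ld X.V L) p ((1 : ℝ), (0 : Space d))
      = 1 / 2 * (∑ i, ld X.V (i :: i :: L) p + quadSum X.V L p) := by
    have g0 : HasDerivAt (fun r' : ℝ => (r', p.2)) ((1 : ℝ), (0 : Space d)) p.1 :=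
      (hasDerivAt_id' p.1).prodMk (hasDerivAt_const p.1 p.2)
    exact (HasFDerivAt.comp_hasDerivAt (l := ld X.V L) (f := fun r' : ℝ => (r', p.2)) p.1 hD
      g0).unique (hasDerivAt_ld X.hV L hr p.2)
  have e2 : fderiv ℝ (ld X.V L) p ((0 : ℝ), w) = ∑ i, w i * ld X.V (i :: L) p := by
    have g : HasFDerivAt (fun z => ld X.V L (p.1, z))
        ((fderiv ℝ (ld X.V L) p).comp (ContinuousLinearMap.inr ℝ ℝ (Space d))) p.2 :=
      hD.comp p.2 (f := fun z => (p.1, z)) (hasFDerivAt_prodMk_right (𝕜 := ℝ) p.1 p.2)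
    have h := g.unique (hasDerivAt_ld_space X.hV L hr p.2).2
    have := congrArg (fun A : Space d →L[ℝ] ℝ => A w) h
    simp [_root_.sum_apply, mul_comm] at this
    exact this
  have h := hD.comp_hasDerivAt (f := fun q : ℝ => (X.t - q ^ 2, X.y + q • w)) q hγ
  rw [show (-(2 * q), w) = (-(2 * q)) • ((1 : ℝ), (0 : Space d)) + ((0 : ℝ), w) by simp,
    map_add, map_smul, e1, e2, smul_eq_mul] at h
  have hd : deriv (fun q' => X.coef L q' w u) q = _ := h.deriv
  simp only [dT, dW_coef L _ hq w u, hd]
  simp only [Ctx.coef, Ctx.beta, proper, ← hp, sum_add_distrib, add_mul, neg_mul,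
    sum_neg_distrib]
  have e3 : ∀ A B : Fin d → ℝ, ∑ l, A l * (q * B l) = q * ∑ l, A l * B l := fun A B => by
    rw [mul_sum]; exact sum_congr rfl fun l _ => by ring
  simp only [mul_assoc, ← mul_sum, e3]
  ring

theorem Alg.dW {f : Fn d} (hf : X.Alg f) (i : Fin d) : X.Alg (dW i f) := by
  induction hf with
  | coef L hL =>
    exact .congr (Alg.time.mul (Alg.coef (i :: L) (by simp))) fun q hq w u => dW_coef L i hq w u
  | coordW j =>
    refine .congr (Alg.const ((bv i) j)) fun q _ w u => ?_
    simp only [Ctx.dW]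
    rw [show (fun w' : Space d => w' j) = ⇑(EuclideanSpace.proj j : Space d →L[ℝ] ℝ) from rfl,
      ContinuousLinearMap.fderiv]
    rfl
  | coordU j => exact .congr (Alg.const 0) fun q _ w u => by simp [Ctx.dW]
  | const c => exact .congr (Alg.const 0) fun q _ w u => by simp [Ctx.dW]
  | time => exact .congr (Alg.const 0) fun q _ w u => by simp [Ctx.dW]
  | add hf hg ihf ihg => exact .congr (ihf.add ihg) fun q hq w u => dW_add hf hg i hq w u
  | mul hf hg ihf ihg =>
    exact .congr ((ihf.mul hg).add (hf.mul ihg)) fun q hq w u => dW_mul hf hg i hq w u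
  | congr _ h ih => exact .congr ih (dW_congr h i)

theorem Alg.dU {f : Fn d} (hf : X.Alg f) (i : Fin d) : X.Alg (dU i f) := by
  induction hf with
  | coef L hL => exact .congr (Alg.const 0) fun q _ w u => dU_coef L i q w u
  | coordW j => exact .congr (Alg.const 0) fun q _ w u => by simp [Ctx.dU]
  | coordU j =>
    refine .congr (Alg.const ((bv i) j)) fun q _ w u => ?_
    simp only [Ctx.dU]
    rw [show (fun u' : Space d => u' j) = ⇑(EuclideanSpace.proj j : Space d →L[ℝ] ℝ) from rfl,
      ContinuousLinearMap.fderiv]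
    rfl
  | const c => exact .congr (Alg.const 0) fun q _ w u => by simp [Ctx.dU]
  | time => exact .congr (Alg.const 0) fun q _ w u => by simp [Ctx.dU]
  | add hf hg ihf ihg => exact .congr (ihf.add ihg) fun q hq w u => dU_add hf hg i hq w u
  | mul hf hg ihf ihg =>
    exact .congr ((ihf.mul hg).add (hf.mul ihg)) fun q hq w u => dU_mul hf hg i hq w u
  | congr _ h ih => exact .congr ih (dU_congr h i)

theorem Alg.dT {f : Fn d} (hf : X.Alg f) : X.Alg (X.dT f) := by
  induction hf with
  | coef L hL =>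
    refine .congr ((Alg.sum Finset.univ fun l => (Alg.time.mul (Alg.coef (l :: l :: L) (by simp))).add
      ((X.alg_beta l).mul (Alg.coef (l :: L) (by simp)))).neg.add
        (Alg.time.mul (X.alg_proper L hL)).neg) fun q hq w u => ?_
    rw [dT_coef L hq w u]
    ring
  | coordW j =>
    refine .congr (Alg.coef [j] (by simp)) fun q _ w u => ?_
    have h : ∀ l, Ctx.dW l (fun _ w _ => w j : Fn d) q w u = bv l j := fun l => by
      simp only [Ctx.dW]
      rw [show (fun w' : Space d => w' j) = ⇑(EuclideanSpace.proj j : Space d →L[ℝ] ℝ) from rfl,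
        ContinuousLinearMap.fderiv]
      rfl
    simp [Ctx.dT, h, bv, EuclideanSpace.basisFun_apply]
  | coordU j => exact .congr (Alg.const 0) fun q _ w u => by simp [Ctx.dT, Ctx.dW]
  | const c => exact .congr (Alg.const 0) fun q _ w u => by simp [Ctx.dT, Ctx.dW]
  | time => exact .congr (Alg.const 1) fun q _ w u => by simp [Ctx.dT, Ctx.dW]
  | add hf hg ihf ihg => exact .congr (ihf.add ihg) fun q hq w u => dT_add hf hg hq w u
  | mul hf hg ihf ihg =>
    exact .congr ((ihf.mul hg).add (hf.mul ihg)) fun q hq w u => dT_mul hf hg hq w u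
  | congr _ h ih => exact .congr ih (dT_congr h)

/-- Polynomial growth in the pair. -/
theorem Alg.growth {f : Fn d} (hf : X.Alg f) {q : ℝ} (hq : q ^ 2 < X.t) :
    ∃ (C : ℝ) (n : ℕ), 0 ≤ C ∧ ∀ w u, |f q w u| ≤ C * (1 + ‖w‖ + ‖u‖) ^ n := by
  have hr : 0 < X.t - q ^ 2 := by linarith
  have hr1 : X.t - q ^ 2 ≤ 1 := by linarith [X.ht1, sq_nonneg q]
  induction hf with
  | coef L hL =>
    rcases Nat.lt_or_ge L.length 2 with h | h
    · obtain ⟨i, rfl⟩ : ∃ i, L = [i] := List.length_eq_one_iff.1 (by omega)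
      choose K hK hKb using fun j : Fin d => exists_ld_bound X.hV hr [j, i] (by simp)
      set r := X.t - q ^ 2 with hr'
      set M := ∑ j, K j with hM
      have hM0 : 0 ≤ M := sum_nonneg fun j _ => hK j
      refine ⟨|ld X.V [i] (r, X.y)| + M * |q|, 1, by positivity, fun w u => ?_⟩
      have hlin := Convex.norm_image_sub_le_of_norm_fderiv_le (𝕜 := ℝ) (s := Set.univ)
        (f := fun z => ld X.V [i] (r, z)) (C := M)
        (fun z _ => (hasDerivAt_ld_space X.hV [i] hr z).2.differentiableAt)
        (fun z _ => (norm_fderiv_pd_le [i] (fun z => Real.log (smooth X.V r z)) z).trans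
          (sum_le_sum fun j _ => hKb j r le_rfl hr1 z))
        convex_univ (Set.mem_univ X.y) (Set.mem_univ (X.y + q • w))
      rw [add_sub_cancel_left, norm_smul, Real.norm_eq_abs, Real.norm_eq_abs] at hlin
      have := abs_sub_abs_le_abs_sub (ld X.V [i] (r, X.y + q • w)) (ld X.V [i] (r, X.y))
      simp only [Ctx.coef, ← hr', pow_one]
      nlinarith [norm_nonneg w, norm_nonneg u, abs_nonneg q,
        mul_nonneg (abs_nonneg (ld X.V [i] (r, X.y))) (add_nonneg (norm_nonneg w) (norm_nonneg u)),
        mul_nonneg (mul_nonneg hM0 (abs_nonneg q)) (norm_nonneg u)]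
    · obtain ⟨K, hK, hKb⟩ := exists_ld_bound X.hV hr L h
      exact ⟨K, 0, hK, fun w u => by simpa [Ctx.coef] using hKb _ le_rfl hr1 _⟩
  | coordW i =>
    refine ⟨1, 1, zero_le_one, fun w u => ?_⟩
    have : |w i| ≤ ‖w‖ := by simpa using PiLp.norm_apply_le w i
    linarith [norm_nonneg u]
  | coordU i =>
    refine ⟨1, 1, zero_le_one, fun w u => ?_⟩
    have : |u i| ≤ ‖u‖ := by simpa using PiLp.norm_apply_le u i
    linarith [norm_nonneg w]
  | const c => exact ⟨|c|, 0, abs_nonneg c, fun w u => by simp⟩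
  | time => exact ⟨|q|, 0, abs_nonneg q, fun w u => by simp⟩
  | add _ _ ihf ihg =>
    obtain ⟨C, n, hC, hb⟩ := ihf
    obtain ⟨D, k, hD, hb'⟩ := ihg
    refine ⟨C + D, n + k, by positivity, fun w u => (abs_add_le _ _).trans ?_⟩
    have h1 : (1 : ℝ) ≤ 1 + ‖w‖ + ‖u‖ := by linarith [norm_nonneg w, norm_nonneg u]
    rw [add_mul]
    exact add_le_add
      ((hb w u).trans (mul_le_mul_of_nonneg_left (pow_le_pow_right₀ h1 (by omega)) hC))
      ((hb' w u).trans (mul_le_mul_of_nonneg_left (pow_le_pow_right₀ h1 (by omega)) hD))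
  | mul _ _ ihf ihg =>
    obtain ⟨C, n, hC, hb⟩ := ihf
    obtain ⟨D, k, hD, hb'⟩ := ihg
    refine ⟨C * D, n + k, by positivity, fun w u => ?_⟩
    rw [abs_mul]
    refine (mul_le_mul (hb w u) (hb' w u) (abs_nonneg _) (by positivity)).trans (le_of_eq ?_)
    rw [pow_add]; ring
  | congr _ h ih =>
    obtain ⟨C, n, hC, hb⟩ := ih
    exact ⟨C, n, hC, fun w u => by rw [h q hq w u]; exact hb w u⟩

/-- Mixed derivatives commute. -/
theorem dW_dU_comm {f : Fn d} (hf : X.Alg f) (i j : Fin d) {q : ℝ} (hq : q ^ 2 < X.t)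
    (w u : Space d) : dW i (dU j f) q w u = dU j (dW i f) q w u := by
  set g : Space d × Space d → ℝ := fun z => f q z.1 z.2
  have h2 : ContDiff ℝ 2 g := hf.contDiff_pair 2 hq
  have hd : Differentiable ℝ g := h2.differentiable (by norm_num)
  have hdd : Differentiable ℝ (fderiv ℝ g) :=
    (h2.fderiv_right (m := 1) (by norm_num)).differentiable one_ne_zero
  have eU : ∀ w u, dU j f q w u = fderiv ℝ g (w, u) (0, bv j) := by
    intro w u
    have : HasFDerivAt (fun u' => f q w u') _ u :=
      (hd (w, u)).hasFDerivAt.comp u (hasFDerivAt_prodMk_right (𝕜 := ℝ) w u)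
    simp only [Ctx.dU]
    rw [this.fderiv]; simp
  have eW : ∀ w u, dW i f q w u = fderiv ℝ g (w, u) (bv i, 0) := by
    intro w u
    have : HasFDerivAt (fun w' => f q w' u) _ w :=
      (hd (w, u)).hasFDerivAt.comp w (f := fun w' => (w', u))
        (hasFDerivAt_prodMk_left (𝕜 := ℝ) w u)
    simp only [Ctx.dW]
    rw [this.fderiv]; simp
  have a : dW i (dU j f) q w u = fderiv ℝ (fderiv ℝ g) (w, u) (bv i, 0) (0, bv j) := by
    have h1 : HasFDerivAt (fun w' => fderiv ℝ g (w', u) (0, bv j)) _ w :=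
      ((hdd (w, u)).hasFDerivAt.comp w (f := fun w' => (w', u))
        (hasFDerivAt_prodMk_left (𝕜 := ℝ) w u)).clm_apply (hasFDerivAt_const (0, bv j) w)
    show fderiv ℝ (fun w' => dU j f q w' u) w (bv i) = _
    rw [show (fun w' => dU j f q w' u) = fun w' => fderiv ℝ g (w', u) (0, bv j) from
      funext fun w' => eU w' u, h1.fderiv]
    simp
  have b : dU j (dW i f) q w u = fderiv ℝ (fderiv ℝ g) (w, u) (0, bv j) (bv i, 0) := by
    have h1 : HasFDerivAt (fun u' => fderiv ℝ g (w, u') (bv i, 0)) _ u :=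
      ((hdd (w, u)).hasFDerivAt.comp u (f := fun u' => (w, u'))
        (hasFDerivAt_prodMk_right (𝕜 := ℝ) w u)).clm_apply (hasFDerivAt_const (bv i, 0) u)
    show fderiv ℝ (fun u' => dW i f q w u') u (bv j) = _
    rw [show (fun u' => dW i f q w u') = fun u' => fderiv ℝ g (w, u') (bv i, 0) from
      funext fun u' => eW w u', h1.fderiv]
    simp
  rw [a, b]
  exact (h2.contDiffAt.isSymmSndFDerivAt (by simp)).eq _ _

/-- Derivatives in `w` commute. -/
theorem dW_comm {f : Fn d} (hf : X.Alg f) (i j : Fin d) {q : ℝ} (hq : q ^ 2 < X.t)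
    (w u : Space d) : dW i (dW j f) q w u = dW j (dW i f) q w u := by
  have h2 := hf.contDiff_w 2 hq u
  have hd : Differentiable ℝ (fderiv ℝ fun w' => f q w' u) :=
    (h2.fderiv_right (m := 1) (by norm_num)).differentiable one_ne_zero
  simp only [Ctx.dW]
  rw [fderiv_clm_apply (hd w) (differentiableAt_const _),
    fderiv_clm_apply (hd w) (differentiableAt_const _)]
  simp only [fderiv_fun_const, Pi.zero_apply, ContinuousLinearMap.comp_zero, zero_add,
    ContinuousLinearMap.flip_apply]
  exact (h2.contDiffAt.isSymmSndFDerivAt (by simp)).eq _ _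

/-- Derivatives in `U` commute. -/
theorem dU_comm {f : Fn d} (hf : X.Alg f) (i j : Fin d) {q : ℝ} (hq : q ^ 2 < X.t)
    (w u : Space d) : dU i (dU j f) q w u = dU j (dU i f) q w u := by
  have h2 := hf.contDiff_u 2 hq w
  have hd : Differentiable ℝ (fderiv ℝ fun u' => f q w u') :=
    (h2.fderiv_right (m := 1) (by norm_num)).differentiable one_ne_zero
  simp only [Ctx.dU]
  rw [fderiv_clm_apply (hd u) (differentiableAt_const _),
    fderiv_clm_apply (hd u) (differentiableAt_const _)]
  simp only [fderiv_fun_const, Pi.zero_apply, ContinuousLinearMap.comp_zero, zero_add,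
    ContinuousLinearMap.flip_apply]
  exact (h2.contDiffAt.isSymmSndFDerivAt (by simp)).eq _ _

end Ctx

end

end P347.Zero
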