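import Mathlib

/-!
# P347: tensors as functions of index lists, and their bipartition norms

A tensor of order `k` is a function of lists of length `k`. `Split T a b C` bounds the bilinear
form of the first `a` against the last `b` indices; `Bip T k C` bounds all bipartitions with both
sides nonempty of a symmetric tensor. `Bip` is stable under the contraction of two tensors in one
index, however the free indices are dealt out.
-/

namespace P347.Zero

open Finset

noncomputable section

variable {d : ℕ}

/-- The sum over all lists of length `n`. -/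
def tsum' : ℕ → (List (Fin d) → ℝ) → ℝ
  | 0, F => F []
  | n + 1, F => ∑ i, tsum' n fun L => F (i :: L)

theorem tsum'_congr : ∀ {n : ℕ} {F G : List (Fin d) → ℝ}, (∀ L, L.length = n → F L = G L) →
    tsum' n F = tsum' n G
  | 0, _, _, h => h [] rfl
  | n + 1, _, _, h => sum_congr rfl fun i _ => tsum'_congr fun L hL => h (i :: L) (by simp [hL])

theorem tsum'_add : ∀ (n : ℕ) (F G : List (Fin d) → ℝ),
    tsum' n (fun L => F L + G L) = tsum' n F + tsum' n G
  | 0, _, _ => rfl
  | n + 1, F, G => by
    simp only [tsum']
    rw [← sum_add_distrib]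
    exact sum_congr rfl fun i _ => tsum'_add n _ _

theorem tsum'_mul : ∀ (n : ℕ) (c : ℝ) (F : List (Fin d) → ℝ),
    tsum' n (fun L => c * F L) = c * tsum' n F
  | 0, _, _ => rfl
  | n + 1, c, F => by
    simp only [tsum']
    rw [mul_sum]
    exact sum_congr rfl fun i _ => tsum'_mul n c _

theorem tsum'_le : ∀ {n : ℕ} {F G : List (Fin d) → ℝ}, (∀ L, L.length = n → F L ≤ G L) →
    tsum' n F ≤ tsum' n G
  | 0, _, _, h => h [] rfl
  | n + 1, _, _, h => sum_le_sum fun i _ => tsum'_le fun L hL => h (i :: L) (by simp [hL])

theorem tsum'_zero (n : ℕ) : tsum' n (fun _ : List (Fin d) => (0 : ℝ)) = 0 := by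
  induction n with
  | zero => rfl
  | succ n ih => simp [tsum', ih]

theorem tsum'_sum {κ : Type*} (s : Finset κ) : ∀ (n : ℕ) (F : κ → List (Fin d) → ℝ),
    tsum' n (fun L => ∑ k ∈ s, F k L) = ∑ k ∈ s, tsum' n (F k)
  | 0, _ => rfl
  | n + 1, F => by
    simp only [tsum']
    rw [sum_congr rfl fun i _ => tsum'_sum s n fun k L => F k (i :: L), sum_comm]

theorem tsum'_comm : ∀ (m n : ℕ) (F : List (Fin d) → List (Fin d) → ℝ),
    tsum' m (fun A => tsum' n (F A)) = tsum' n (fun B => tsum' m (fun A => F A B))
  | 0, _, _ => rfl
  | m + 1, n, F => by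
    simp only [tsum']
    rw [sum_congr rfl fun i _ => tsum'_comm m n fun A => F (i :: A), ← tsum'_sum]

theorem tsum'_append : ∀ (m n : ℕ) (F : List (Fin d) → ℝ),
    tsum' (m + n) F = tsum' m (fun A => tsum' n fun B => F (A ++ B))
  | 0, n, F => by simp [tsum']
  | m + 1, n, F => by
    rw [show m + 1 + n = m + n + 1 by omega]
    simp only [tsum', List.cons_append]
    exact sum_congr rfl fun i _ => tsum'_append m n _

/-- The squared norm of a tensor. -/
def nsq (n : ℕ) (S : List (Fin d) → ℝ) : ℝ := tsum' n fun L => S L ^ 2

theorem nsq_nonneg (n : ℕ) (S : List (Fin d) → ℝ) : 0 ≤ nsq n S := by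
  refine le_trans (le_of_eq (tsum'_zero n).symm) (tsum'_le fun L _ => sq_nonneg _)

theorem tsum'_cauchy : ∀ (n : ℕ) (F G : List (Fin d) → ℝ),
    tsum' n (fun L => F L * G L) ^ 2 ≤ nsq n F * nsq n G := by
  intro n F G
  have h : ∀ s : ℝ, 0 ≤ nsq n F * (s * s) + 2 * tsum' n (fun L => F L * G L) * s + nsq n G := by
    intro s
    have : 0 ≤ tsum' n (fun L => (s * F L + G L) ^ 2) :=
      nsq_nonneg n fun L => s * F L + G L
    rw [tsum'_congr (G := fun L => (s * s) * F L ^ 2 + (2 * s * (F L * G L) + G L ^ 2))
      (fun L _ => by ring), tsum'_add, tsum'_add, tsum'_mul, tsum'_mul] at this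
    unfold nsq
    linarith
  have := discrim_le_zero h
  simp only [discrim] at this
  nlinarith

/-- The bilinear bound between the first `a` and the last `b` indices. -/
def Split (T : List (Fin d) → ℝ) (a b : ℕ) (C : ℝ) : Prop :=
  ∀ S X : List (Fin d) → ℝ,
    |tsum' a (fun A => tsum' b fun B => T (A ++ B) * S A * X B)| ≤ C * √(nsq a S) * √(nsq b X)

/-- The tensor does not see the order of its indices. -/
def Symm (T : List (Fin d) → ℝ) : Prop := ∀ A B : List (Fin d), A.Perm B → T A = T B

/-- All bipartitions with both sides nonempty. -/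
def Bip (T : List (Fin d) → ℝ) (k : ℕ) (C : ℝ) : Prop :=
  ∀ a b, 1 ≤ a → 1 ≤ b → a + b = k → Split T a b C

theorem Split.mono {T : List (Fin d) → ℝ} {a b : ℕ} {C C' : ℝ} (h : Split T a b C) (hC : C ≤ C') :
    Split T a b C' := fun S X =>
  (h S X).trans (by gcongr)

theorem Bip.mono {T : List (Fin d) → ℝ} {k : ℕ} {C C' : ℝ} (h : Bip T k C) (hC : C ≤ C') :
    Bip T k C' := fun a b ha hb hk => (h a b ha hb hk).mono hC

theorem Split.apply_sq {T : List (Fin d) → ℝ} {a b : ℕ} {C : ℝ} (h : Split T a b C) (hC : 0 ≤ C)
    (X : List (Fin d) → ℝ) :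
    nsq a (fun A => tsum' b fun B => T (A ++ B) * X B) ≤ C ^ 2 * nsq b X := by
  set Y : List (Fin d) → ℝ := fun A => tsum' b fun B => T (A ++ B) * X B
  have h1 := h Y X
  have e : tsum' a (fun A => tsum' b fun B => T (A ++ B) * Y A * X B) = nsq a Y := by
    refine tsum'_congr fun A _ => ?_
    rw [sq, ← tsum'_mul]
    exact tsum'_congr fun B _ => by ring
  rw [e, abs_of_nonneg (nsq_nonneg a Y)] at h1
  have hx := Real.mul_self_sqrt (nsq_nonneg b X)
  have hy := Real.mul_self_sqrt (nsq_nonneg a Y)
  rcases eq_or_lt_of_le (Real.sqrt_nonneg (nsq a Y)) with h0 | h0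
  · rw [← hy, ← h0]
    nlinarith [nsq_nonneg b X, sq_nonneg C]
  · have h2 : √(nsq a Y) ≤ C * √(nsq b X) := by
      by_contra hcon
      nlinarith
    calc nsq a Y = √(nsq a Y) * √(nsq a Y) := hy.symm
      _ ≤ (C * √(nsq b X)) * (C * √(nsq b X)) :=
          mul_self_le_mul_self h0.le h2
      _ = C ^ 2 * nsq b X := by
          rw [mul_mul_mul_comm, hx]; ring

theorem Split.swap {T : List (Fin d) → ℝ} {a b : ℕ} {C : ℝ} (h : Split T a b C) (hT : Symm T) :
    Split T b a C := by
  intro S X
  have e : tsum' b (fun A => tsum' a fun B => T (A ++ B) * S A * X B)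
      = tsum' a (fun A => tsum' b fun B => T (A ++ B) * X A * S B) := by
    rw [tsum'_comm]
    refine tsum'_congr fun A _ => tsum'_congr fun B _ => ?_
    rw [hT _ _ (List.perm_append_comm : (B ++ A).Perm (A ++ B))]
    ring
  rw [e]
  exact (h X S).trans (le_of_eq (by ring))

/-! ### Dealing out indices -/

/-- The indices marked true. -/
def pickT : List Bool → List (Fin d) → List (Fin d)
  | true :: p, i :: L => i :: pickT p L
  | false :: p, _ :: L => pickT p L
  | _, _ => []

/-- The indices marked false. -/
def pickF : List Bool → List (Fin d) → List (Fin d)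
  | true :: p, _ :: L => pickF p L
  | false :: p, i :: L => i :: pickF p L
  | _, _ => []

/-- Interleave two lists along a pattern. -/
def merge' : List Bool → List (Fin d) → List (Fin d) → List (Fin d)
  | true :: p, i :: A, B => i :: merge' p A B
  | false :: p, A, i :: B => i :: merge' p A B
  | _, _, _ => []

/-- The number of indices marked true. -/
def numT : List Bool → ℕ
  | [] => 0
  | true :: p => numT p + 1
  | false :: p => numT p

/-- The number of indices marked false. -/
def numF : List Bool → ℕ
  | [] => 0
  | true :: p => numF p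
  | false :: p => numF p + 1

theorem numT_add_numF : ∀ p : List Bool, numT p + numF p = p.length
  | [] => rfl
  | true :: p => by
    have := numT_add_numF p
    simp only [numT, numF, List.length_cons]
    omega
  | false :: p => by
    have := numT_add_numF p
    simp only [numT, numF, List.length_cons]
    omega

theorem numT_append : ∀ p q : List Bool, numT (p ++ q) = numT p + numT q
  | [], q => by simp [numT]
  | true :: p, q => by simp only [List.cons_append, numT, numT_append p q]; omega
  | false :: p, q => by simp only [List.cons_append, numT, numT_append p q]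

theorem numF_append : ∀ p q : List Bool, numF (p ++ q) = numF p + numF q
  | [], q => by simp [numF]
  | true :: p, q => by simp only [List.cons_append, numF, numF_append p q]
  | false :: p, q => by simp only [List.cons_append, numF, numF_append p q]; omega

theorem tsum'_merge : ∀ (p : List Bool) (F : List (Fin d) → ℝ),
    tsum' p.length F = tsum' (numT p) fun A => tsum' (numF p) fun B => F (merge' p A B)
  | [], F => rfl
  | true :: p, F => by
    simp only [List.length_cons, tsum', numT, numF, merge']
    exact sum_congr rfl fun i _ => tsum'_merge p _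
  | false :: p, F => by
    simp only [List.length_cons, tsum', numT, numF]
    rw [sum_congr rfl fun i _ => tsum'_merge p fun L => F (i :: L),
      tsum'_sum]
    exact sum_congr rfl fun i _ => tsum'_congr fun A _ => by cases A <;> simp [merge']

theorem pickT_merge : ∀ (p : List Bool) (A B : List (Fin d)), A.length = numT p →
    B.length = numF p → pickT p (merge' p A B) = A
  | [], A, B, hA, _ => by
    cases A with
    | nil => rfl
    | cons i A => simp [numT] at hA
  | true :: p, A, B, hA, hB => by
    cases A with
    | nil => simp [numT] at hA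
    | cons i A =>
      simp only [numT, List.length_cons, Nat.add_right_cancel_iff] at hA
      simp [merge', pickT, pickT_merge p A B hA hB]
  | false :: p, A, B, hA, hB => by
    cases B with
    | nil => simp [numF] at hB
    | cons i B =>
      simp only [numF, List.length_cons, Nat.add_right_cancel_iff] at hB
      cases A <;> simp [merge', pickT, pickT_merge p _ B hA hB]

theorem pickF_merge : ∀ (p : List Bool) (A B : List (Fin d)), A.length = numT p →
    B.length = numF p → pickF p (merge' p A B) = B
  | [], A, B, _, hB => by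
    cases B with
    | nil => rfl
    | cons i B => simp [numF] at hB
  | true :: p, A, B, hA, hB => by
    cases A with
    | nil => simp [numT] at hA
    | cons i A =>
      simp only [numT, List.length_cons, Nat.add_right_cancel_iff] at hA
      simp [merge', pickF, pickF_merge p A B hA hB]
  | false :: p, A, B, hA, hB => by
    cases B with
    | nil => simp [numF] at hB
    | cons i B =>
      simp only [numF, List.length_cons, Nat.add_right_cancel_iff] at hB
      cases A <;> simp [merge', pickF, pickF_merge p _ B hA hB]

theorem pickT_append : ∀ (p q : List Bool) (u v : List (Fin d)), p.length = u.length →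
    pickT (p ++ q) (u ++ v) = pickT p u ++ pickT q v
  | [], q, u, v, h => by
    cases u with
    | nil => simp [pickT]
    | cons i u => simp at h
  | b :: p, q, u, v, h => by
    cases u with
    | nil => simp at h
    | cons i u =>
      simp only [List.length_cons, Nat.add_right_cancel_iff] at h
      cases b <;> simp [pickT, pickT_append p q u v h]

theorem pickF_append : ∀ (p q : List Bool) (u v : List (Fin d)), p.length = u.length →
    pickF (p ++ q) (u ++ v) = pickF p u ++ pickF q v
  | [], q, u, v, h => by
    cases u with
    | nil => simp [pickF]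
    | cons i u => simp at h
  | b :: p, q, u, v, h => by
    cases u with
    | nil => simp at h
    | cons i u =>
      simp only [List.length_cons, Nat.add_right_cancel_iff] at h
      cases b <;> simp [pickF, pickF_append p q u v h]

/-- The contraction of `T` and `U` in one index, the free indices dealt out along `p`. -/
def contract (T U : List (Fin d) → ℝ) (p : List Bool) (L : List (Fin d)) : ℝ :=
  ∑ l, T (l :: pickT p L) * U (l :: pickF p L)

theorem contract_oriented {T U : List (Fin d) → ℝ} (hT : Symm T)
    {p q : List Bool} {Ct Cu : ℝ} (hCt : 0 ≤ Ct) (hCu : 0 ≤ Cu)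
    (h1 : Split T (numT p) (numT q + 1) Ct) (h2 : Split U (numF p + 1) (numF q) Cu) :
    Split (contract T U (p ++ q)) p.length q.length (Ct * Cu) := by
  intro S X
  -- apply `U` to `X`, the indices of `T` riding along
  set V : List (Fin d) → List (Fin d) → ℝ := fun A2 B1 =>
    tsum' (numF q) fun B2 => U (B1 ++ B2) * X (merge' q A2 B2) with hV
  set W : List (Fin d) → List (Fin d) → ℝ := fun A1 B1 =>
    ∑ l, tsum' (numT q) fun A2 => T (l :: (A1 ++ A2)) * V A2 (l :: B1) with hW
  have e : tsum' p.length (fun A => tsum' q.length fun B =>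
      contract T U (p ++ q) (A ++ B) * S A * X B)
      = tsum' (numT p) fun A1 => tsum' (numF p) fun B1 => S (merge' p A1 B1) * W A1 B1 := by
    rw [tsum'_merge p]
    refine tsum'_congr fun A1 hA1 => tsum'_congr fun B1 hB1 => ?_
    rw [hW]
    simp only
    rw [mul_sum, tsum'_merge q]
    have hlen : p.length = (merge' p A1 B1).length := by
      have : ∀ (p : List Bool) (A B : List (Fin d)), A.length = numT p → B.length = numF p →
          (merge' p A B).length = p.length := by
        intro p
        induction p with
        | nil => intros; rfl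
        | cons b p ih =>
          intro A B hA hB
          cases b
          · cases B with
            | nil => simp [numF] at hB
            | cons i B =>
              simp only [numF, List.length_cons, Nat.add_right_cancel_iff] at hB
              cases A <;> simp [merge', ih _ B hA hB]
          · cases A with
            | nil => simp [numT] at hA
            | cons i A =>
              simp only [numT, List.length_cons, Nat.add_right_cancel_iff] at hA
              simp [merge', ih A B hA hB]
      exact (this p A1 B1 hA1 hB1).symm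
    rw [tsum'_congr (G := fun A2 => ∑ l, S (merge' p A1 B1) * (T (l :: (A1 ++ A2)) *
      V A2 (l :: B1))) (fun A2 hA2 => ?_), tsum'_sum]
    · exact sum_congr rfl fun l _ => tsum'_mul _ _ _
    · rw [tsum'_congr (G := fun B2 => ∑ l, S (merge' p A1 B1) * (T (l :: (A1 ++ A2)) *
        (U (l :: B1 ++ B2) * X (merge' q A2 B2)))) (fun B2 hB2 => ?_), tsum'_sum]
      · refine sum_congr rfl fun l _ => ?_
        rw [hV, tsum'_mul, tsum'_mul]
      · simp only [contract, pickT_append p q _ _ hlen, pickF_append p q _ _ hlen,
          pickT_merge p A1 B1 hA1 hB1, pickF_merge p A1 B1 hA1 hB1, pickT_merge q A2 B2 hA2 hB2,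
          pickF_merge q A2 B2 hA2 hB2, sum_mul, List.cons_append]
        exact sum_congr rfl fun l _ => by ring
  rw [e]
  -- the size of `V`
  have hVb : tsum' (numT q) (fun A2 => nsq (numF p + 1) (V A2)) ≤ Cu ^ 2 * nsq q.length X := by
    unfold nsq
    rw [tsum'_merge q (fun L => X L ^ 2), ← tsum'_mul]
    exact tsum'_le fun A2 _ => h2.apply_sq hCu fun B2 => X (merge' q A2 B2)
  -- the size of `W`
  have hWb : tsum' (numT p) (fun A1 => tsum' (numF p) fun B1 => W A1 B1 ^ 2)
      ≤ Ct ^ 2 * (Cu ^ 2 * nsq q.length X) := by
    have hW1 : ∀ A1 B1, W A1 B1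
        = tsum' (numT q + 1) fun Z => T (A1 ++ Z) * V Z.tail (Z.head?.toList ++ B1) := by
      intro A1 B1
      rw [hW]
      simp only [tsum']
      refine sum_congr rfl fun l _ => tsum'_congr fun A2 _ => ?_
      rw [hT _ _ (List.perm_middle (a := l) (l₁ := A1) (l₂ := A2)).symm]
      simp
    rw [tsum'_comm]
    refine le_trans ?_ (mul_le_mul_of_nonneg_left hVb (sq_nonneg Ct))
    refine le_trans (tsum'_le (G := fun B1 => Ct ^ 2 * nsq (numT q + 1)
      fun Z => V Z.tail (Z.head?.toList ++ B1)) fun B1 _ => ?_) (le_of_eq ?_)
    · rw [tsum'_congr (G := fun A1 => (tsum' (numT q + 1)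
          fun Z => T (A1 ++ Z) * V Z.tail (Z.head?.toList ++ B1)) ^ 2)
          (fun A1 _ => by rw [hW1])]
      exact h1.apply_sq hCt fun Z => V Z.tail (Z.head?.toList ++ B1)
    · rw [tsum'_mul]
      congr 1
      unfold nsq
      simp only [tsum', List.tail_cons, List.head?_cons, Option.toList_some, List.cons_append,
        List.nil_append]
      simp only [tsum'_sum]
      rw [sum_congr rfl fun l _ => tsum'_comm (numF p) (numT q) fun B1 A2 => V A2 (l :: B1) ^ 2]
  have hS : tsum' (numT p) (fun A1 => tsum' (numF p) fun B1 => S (merge' p A1 B1) ^ 2)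
      = nsq p.length S := (tsum'_merge p fun L => S L ^ 2).symm
  set F : List (Fin d) → ℝ := fun L => S (merge' p (L.take (numT p)) (L.drop (numT p))) with hF
  set G : List (Fin d) → ℝ := fun L => W (L.take (numT p)) (L.drop (numT p)) with hG
  have hpair : ∀ (P : List (Fin d) → List (Fin d) → ℝ),
      tsum' (numT p) (fun A1 => tsum' (numF p) fun B1 => P A1 B1)
        = tsum' (numT p + numF p) fun L => P (L.take (numT p)) (L.drop (numT p)) := by
    intro P
    rw [tsum'_append]
    exact tsum'_congr fun A hA => tsum'_congr fun B _ => by simp [← hA]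
  have hc := tsum'_cauchy (numT p + numF p) F G
  rw [show nsq (numT p + numF p) F = nsq p.length S by
    rw [← hS, hpair fun A B => S (merge' p A B) ^ 2]; rfl] at hc
  rw [hpair fun A B => S (merge' p A B) * W A B]
  have hG2 : nsq (numT p + numF p) G ≤ (Ct * Cu) ^ 2 * nsq q.length X := by
    refine le_trans (le_of_eq ?_) (hWb.trans (le_of_eq (by ring)))
    rw [hpair fun A B => W A B ^ 2]; rfl
  refine Real.abs_le_sqrt (hc.trans (mul_le_mul_of_nonneg_left hG2 (nsq_nonneg _ _))) |>.trans
    (le_of_eq ?_)
  rw [Real.sqrt_mul (nsq_nonneg _ _), Real.sqrt_mul (sq_nonneg _),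
    Real.sqrt_sq (mul_nonneg hCt hCu)]
  ring

theorem contract_comm_pattern (T U : List (Fin d) → ℝ) : ∀ (p : List Bool) (L : List (Fin d)),
    pickT (p.map not) L = pickF p L ∧ pickF (p.map not) L = pickT p L
  | [], _ => by simp [pickT, pickF]
  | b :: p, L => by
    cases L with
    | nil => cases b <;> simp [pickT, pickF]
    | cons i L =>
      obtain ⟨h1, h2⟩ := contract_comm_pattern T U p L
      cases b <;> simp [pickT, pickF, h1, h2]

theorem contract_flip (T U : List (Fin d) → ℝ) (p : List Bool) :
    contract T U p = contract U T (p.map not) := by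
  funext L
  obtain ⟨h1, h2⟩ := contract_comm_pattern T U p L
  simp only [contract, h1, h2]
  exact sum_congr rfl fun l _ => mul_comm _ _

theorem numT_map_not : ∀ p : List Bool, numT (p.map not) = numF p ∧ numF (p.map not) = numT p
  | [] => ⟨rfl, rfl⟩
  | b :: p => by
    obtain ⟨h1, h2⟩ := numT_map_not p
    cases b <;> simp [numT, numF, h1, h2]

/-- A contraction in one index keeps the bipartition bounds. -/
theorem contract_bip {T U : List (Fin d) → ℝ} (hT : Symm T) (hU : Symm U) {Ct Cu : ℝ}
    (hCt : 0 ≤ Ct) (hCu : 0 ≤ Cu) {p q : List Bool} (hp : 1 ≤ p.length) (hq : 1 ≤ q.length)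
    (h1 : 1 ≤ numT (p ++ q)) (h2 : 1 ≤ numF (p ++ q))
    (hbT : Bip T (numT (p ++ q) + 1) Ct) (hbU : Bip U (numF (p ++ q) + 1) Cu) :
    Split (contract T U (p ++ q)) p.length q.length (Ct * Cu) := by
  rw [numT_append] at h1 hbT
  rw [numF_append] at h2 hbU
  have hpl := numT_add_numF p
  have hql := numT_add_numF q
  by_cases hc : 1 ≤ numT p ∧ 1 ≤ numF q
  · exact contract_oriented hT hCt hCu
      (hbT _ _ hc.1 (by omega) (by omega)) (hbU _ _ (by omega) hc.2 (by omega))
  · have hd : 1 ≤ numF p ∧ 1 ≤ numT q := by
      rw [not_and_or] at hc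
      omega
    rw [contract_flip, List.map_append, mul_comm Ct Cu]
    have := contract_oriented (T := U) (U := T) hU hCu hCt (p := p.map not) (q := q.map not)
      (by rw [(numT_map_not p).1, (numT_map_not q).1]
          exact hbU _ _ hd.1 (by omega) (by omega))
      (by rw [(numT_map_not p).2, (numT_map_not q).2]
          exact hbT _ _ (by omega) hd.2 (by omega))
    simpa using this

end

end P347.Zero
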