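import Vale.Agent.P347.Zero.Defs
import Vale.Agent.P347.Zero.Deriv
import Vale.Agent.P347.Zero.Tensor

/-!
# P347: heat calculus for the smoothed target

Derivatives of the smoothed density and of its logarithm: existence in space and time, symmetry,
and the heat equation.
-/

namespace P347.Zero

open MeasureTheory ProbabilityTheory Filter Topology Finset P347.Quarter
open scoped RealInnerProductSpace

noncomputable section

variable {d : ℕ} {V : Space d → ℝ}

/-- The unsmoothed density is bounded by one. -/
theorem InClass.bdd_exp (hV : InClass V) : Bdd (fun x => Real.exp (-V x)) 1 := by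
  refine ⟨(hV.smooth.continuous.neg).rexp, fun x => ?_⟩
  rw [Real.norm_eq_abs, Real.abs_exp, Real.exp_le_one_iff, neg_nonpos]
  have hl : ∀ c : ℝ, HasDerivAt (fun c : ℝ => V (c • x)) ⟪gradient V (c • x), x⟫ c := fun c => by
    have g0 : HasDerivAt (fun c : ℝ => c • x) x c := by
      simpa using (hasDerivAt_id c).smul_const x
    have := (hV.smooth.differentiable (by norm_num) (c • x)).hasFDerivAt.comp_hasDerivAt c g0
    rwa [← inner_gradient V (c • x) x] at this
  obtain ⟨c, ⟨hc, -⟩, hcx⟩ := exists_hasDerivAt_eq_slope (fun c : ℝ => V (c • x))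
    (fun c => ⟪gradient V (c • x), x⟫) one_pos
    (fun c _ => (hl c).continuousAt.continuousWithinAt) fun c _ => hl c
  simp [hV.zero] at hcx
  have h := hV.model.mono 0 (c • x)
  rw [zero_add, hV.grad0, sub_zero, real_inner_smul_right] at h
  have hcx' : ⟪gradient V (c • x), x⟫ = V x := by rw [inner_gradient]; exact hcx
  rw [hcx'] at h
  nlinarith [sq_nonneg ‖c • x‖]

theorem smooth_eq_gav (V : Space d → ℝ) (r : ℝ) :
    smooth V r = gav √r (fun x => Real.exp (-V x)) := rfl

theorem smooth_pos' (hV : InClass V) (r : ℝ) (z : Space d) : 0 < smooth V r z := by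
  have h : Integrable (fun w => Real.exp (-V (z + √r • w))) (stdGaussian (Space d)) :=
    ((InClass.bdd_exp hV).shift √r z).integrable _
  exact integral_exp_pos h

/-- Gaussian smoothings add their variances. -/
theorem gav_add {f : Space d → ℝ} {B : ℝ} (h : Bdd f B) {a b : ℝ} (ha : 0 ≤ a) (hb : 0 ≤ b) :
    gav a (gav b f) = gav √(a ^ 2 + b ^ 2) f := by
  rcases eq_or_ne (a ^ 2 + b ^ 2) 0 with h0 | h0
  · have ha0 : a = 0 := by nlinarith
    have hb0 : b = 0 := by nlinarith
    funext x
    simp [Quarter.gav, ha0, hb0]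
  · set σ := √(a ^ 2 + b ^ 2) with hσ
    have hσ0 : 0 < σ := Real.sqrt_pos.2 (lt_of_le_of_ne (by positivity) (Ne.symm h0))
    have hsq : σ ^ 2 = a ^ 2 + b ^ 2 := Real.sq_sqrt (by positivity)
    set θ := Real.arccos (a / σ) with hθ
    have ha1 : a / σ ≤ 1 := by
      rw [div_le_one hσ0]; exact Real.le_sqrt_of_sq_le (by nlinarith)
    have hcos : σ * Real.cos θ = a := by
      rw [Real.cos_arccos (by have : 0 ≤ a / σ := div_nonneg ha hσ0.le; linarith) ha1]
      field_simp
    have hsin : σ * Real.sin θ = b := by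
      rw [Real.sin_arccos, show 1 - (a / σ) ^ 2 = (b / σ) ^ 2 by field_simp; linarith,
        Real.sqrt_sq (by positivity)]
      field_simp
    funext x
    set μ := stdGaussian (Space d)
    have hrot := IsGaussian.map_rotation_eq_self (μ := μ) (by simp [μ]) θ
    have h1 : ∫ z : Space d × Space d, f (x + σ • z.1) ∂μ.prod μ = ∫ z, f (x + σ • z) ∂μ :=
      integral_fun_fst (fun z => f (x + σ • z)) |>.trans (by simp)
    have hc : Continuous fun z : Space d × Space d => f (x + σ • z.1) := h.cont.comp (by fun_prop)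
    have hc2 : Continuous fun z : Space d × Space d => f (x + a • z.1 + b • z.2) :=
      h.cont.comp (by fun_prop)
    have h2 : ∫ z : Space d × Space d, f (x + σ • z.1) ∂μ.prod μ
        = ∫ z : Space d × Space d, f (x + a • z.1 + b • z.2) ∂μ.prod μ := by
      conv_lhs => rw [← hrot]
      rw [integral_map (by fun_prop) hc.aestronglyMeasurable]
      refine integral_congr_ae (Eventually.of_forall fun z => ?_)
      simp [ContinuousLinearMap.rotation_apply, add_assoc, smul_smul, smul_add, hcos, hsin]
    simp only [Quarter.gav]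
    rw [← h1, h2, integral_prod _ (Integrable.of_bound hc2.aestronglyMeasurable
      B (Eventually.of_forall fun z => h.bound _))]

theorem smooth_semigroup (hV : InClass V) {s t : ℝ} (hs : 0 ≤ s) (hst : s ≤ t) :
    smooth V t = gav √(t - s) (smooth V s) := by
  rw [smooth_eq_gav, smooth_eq_gav, gav_add (InClass.bdd_exp hV) (Real.sqrt_nonneg _)
    (Real.sqrt_nonneg _), Real.sq_sqrt (by linarith), Real.sq_sqrt hs, sub_add_cancel]

theorem reg_smooth (hV : InClass V) {r : ℝ} (hr : 0 < r) : Reg (smooth V r) :=
  reg_gav (InClass.bdd_exp hV) (Real.sqrt_pos.2 hr)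

/-- Smoothing is continuous in the width and the point. -/
theorem continuous_gav_joint {f : Space d → ℝ} {B : ℝ} (h : Bdd f B) :
    Continuous fun p : ℝ × Space d => gav √p.1 f p.2 := by
  refine continuous_of_dominated (fun p => (h.shift √p.1 p.2).cont.aestronglyMeasurable)
    (fun p => Eventually.of_forall (h.shift √p.1 p.2).bound) (integrable_const B)
    (Eventually.of_forall fun w => h.cont.comp (by fun_prop))

/-- The heat equation for one smoothing. -/
theorem hasDerivAt_gav_sqrt {f : Space d → ℝ} (h : Reg f) {r : ℝ} (hr : 0 < r) (x : Space d) :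
    HasDerivAt (fun r' => gav √r' f x) (1 / 2 * ∑ i, gav √r (pd [i, i] f) x) r := by
  obtain ⟨C, hC⟩ := h.lip1 []
  simp only [pd] at hC
  set μ := stdGaussian (Space d)
  set σ := √r with hσ
  have hσ0 : 0 < σ := Real.sqrt_pos.2 hr
  have hC0 : 0 ≤ C := (norm_nonneg _).trans (hC.bound 0)
  have hfc : Continuous (fderiv ℝ f) := hC.smooth.continuous_fderiv one_ne_zero
  have hd := (hasDerivAt_integral_of_dominated_loc_of_deriv_le (μ := μ)
    (F := fun r' w => f (x + √r' • w)) (x₀ := r) (s := Set.Ioi (r / 2))
    (F' := fun r' w => fderiv ℝ f (x + √r' • w) ((1 / (2 * √r')) • w))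
    (bound := fun w => C * (1 / (2 * √(r / 2))) * ‖w‖)
    (Ioi_mem_nhds (by linarith))
    (Eventually.of_forall fun r' =>
      (hC.smooth.continuous.comp (by fun_prop)).aestronglyMeasurable)
    (hC.integrable σ x) (by exact ((hfc.comp (by fun_prop)).clm_apply
      (by fun_prop)).aestronglyMeasurable) ?_
    (integrable_norm_stdGaussian.const_mul _) ?_).2
  rotate_left
  · refine Eventually.of_forall fun w r' hr' => ?_
    rw [Set.mem_Ioi] at hr'
    refine ((fderiv ℝ f _).le_opNorm _).trans ?_
    rw [norm_smul, Real.norm_eq_abs, abs_of_nonneg (by positivity), mul_assoc C]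
    refine mul_le_mul (hC.bound _) (mul_le_mul_of_nonneg_right ?_ (norm_nonneg _))
      (by positivity) hC0
    exact one_div_le_one_div_of_le (by positivity)
      (by have := Real.sqrt_le_sqrt hr'.le; linarith)
  · refine Eventually.of_forall fun w r' hr' => ?_
    rw [Set.mem_Ioi] at hr'
    have h1 : HasDerivAt (fun u => x + √u • w) ((1 / (2 * √r')) • w) r' :=
      ((Real.hasDerivAt_sqrt (by linarith : r' ≠ 0)).smul_const w).const_add x
    exact ((hC.smooth.differentiable one_ne_zero _).hasFDerivAt).comp_hasDerivAt r' h1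
  refine hd.congr_deriv ?_
  -- Gaussian integration by parts in every coordinate
  have key : ∀ i : Fin d, ∫ w, ⟪w, bv i⟫ * pd [i] f (x + σ • w) ∂μ
      = σ * gav σ (pd [i, i] f) x := by
    intro i
    obtain ⟨B, hB⟩ := h.bdd [i]
    obtain ⟨C1, hC1⟩ := h.lip1 [i]
    have e1 : fderiv ℝ (gav σ (pd [i] f)) x (bv i) = gav σ (pd [i, i] f) x := by
      rw [(hC1.hasFDerivAt_gav σ x).fderiv]
      have hb : Bdd (fderiv ℝ (pd [i] f)) C1 :=
        ⟨hC1.smooth.continuous_fderiv one_ne_zero, hC1.bound⟩
      simp only [Quarter.gav]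
      rw [ContinuousLinearMap.integral_apply ((hb.shift σ x).integrable _)]
      rfl
    have hb2 : Bdd (fun y => pd [i] f (σ • y)) B := ⟨hB.cont.comp (by fun_prop), fun y => hB.bound _⟩
    rw [← e1, (hB.hasFDerivAt hσ0.ne' x).fderiv, _root_.smul_apply, gavDeriv_apply hb2,
      smul_eq_mul, ← mul_assoc, mul_inv_cancel₀ hσ0.ne', one_mul]
    simp [smul_add, smul_inv_smul₀ hσ0.ne', smul_eq_mul, μ]
  have hint : ∀ i : Fin d, Integrable (fun w => ⟪w, bv i⟫ * pd [i] f (x + σ • w)) μ := by
    intro i
    obtain ⟨B, hB⟩ := h.bdd [i]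
    refine (integrable_norm_stdGaussian.const_mul B).mono'
      ((continuous_id.inner continuous_const).mul (hB.cont.comp (by fun_prop))).aestronglyMeasurable
      (Eventually.of_forall fun w => ?_)
    rw [norm_mul, mul_comm B]
    refine mul_le_mul ?_ (hB.bound _) (norm_nonneg _) (norm_nonneg _)
    simpa using norm_inner_le_norm (𝕜 := ℝ) w (bv i)
  calc ∫ w, fderiv ℝ f (x + σ • w) ((1 / (2 * σ)) • w) ∂μ
      = ∫ w, (1 / (2 * σ)) * ∑ i, ⟪w, bv i⟫ * pd [i] f (x + σ • w) ∂μ := by
        refine integral_congr_ae (Eventually.of_forall fun w => ?_)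
        simp only [map_smul, smul_eq_mul]
        congr 1
        generalize hA : fderiv ℝ f (x + σ • w) = A
        conv_lhs => rw [← sum_coord_smul w]
        simp only [map_sum, map_smul, smul_eq_mul]
        subst hA
        exact sum_congr rfl fun i _ => by simp [pd, bv, EuclideanSpace.inner_single_right]
    _ = (1 / (2 * σ)) * ∑ i, σ * gav σ (pd [i, i] f) x := by
        rw [integral_const_mul, integral_finsetSum _ fun i _ => hint i]
        simp only [key]
    _ = 1 / 2 * ∑ i, gav σ (pd [i, i] f) x := by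
        rw [← mul_sum]; field_simp

theorem pd_smooth_eq (hV : InClass V) {r₀ r : ℝ} (h0 : 0 < r₀) (hr : r₀ ≤ r) (L : List (Fin d)) :
    pd L (smooth V r) = gav √(r - r₀) (pd L (smooth V r₀)) := by
  rw [smooth_semigroup hV h0.le hr, (reg_smooth hV h0).pd_gav]

/-- The heat equation for every derivative of the smoothed density. -/
theorem hasDerivAt_pd_smooth (hV : InClass V) {r : ℝ} (hr : 0 < r) (L : List (Fin d))
    (z : Space d) :
    HasDerivAt (fun r' => pd L (smooth V r') z)
      (1 / 2 * ∑ i, pd (i :: i :: L) (smooth V r) z) r := by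
  have h0 : 0 < r / 2 := by linarith
  have h := (hasDerivAt_gav_sqrt ((reg_smooth hV h0).tail L) (r := r - r / 2) (by linarith) z).comp
    r ((hasDerivAt_id r).sub_const (r / 2))
  refine (h.congr_of_eventuallyEq ?_).congr_deriv ?_
  · filter_upwards [Ioi_mem_nhds (show r / 2 < r by linarith)] with r' hr'
    exact congrFun (pd_smooth_eq hV h0 (le_of_lt hr') L) z
  · rw [mul_one]
    refine congrArg _ (sum_congr rfl fun i _ => ?_)
    rw [show pd [i, i] (pd L (smooth V (r / 2))) = pd (i :: i :: L) (smooth V (r / 2)) from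
      (pd_append [i, i] L _).symm]
    exact (congrFun (pd_smooth_eq hV h0 (by linarith) (i :: i :: L)) z).symm

/-- The half space of positive times. -/
def times (d : ℕ) : Set (ℝ × Space d) := Set.Ioi 0 ×ˢ Set.univ

theorem isOpen_times : IsOpen (times d) := isOpen_Ioi.prod isOpen_univ

/-- A derivative of the smoothed density, as a function of time and point. -/
def sd (V : Space d → ℝ) (L : List (Fin d)) (p : ℝ × Space d) : ℝ := pd L (smooth V p.1) p.2

theorem continuousAt_sd (hV : InClass V) (L : List (Fin d)) {p : ℝ × Space d} (hp : 0 < p.1) :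
    ContinuousAt (sd V L) p := by
  have h0 : 0 < p.1 / 2 := by linarith
  obtain ⟨B, hB⟩ := (reg_smooth hV h0).bdd L
  have h : Continuous fun u : ℝ × Space d => gav √(u.1 - p.1 / 2) (pd L (smooth V (p.1 / 2))) u.2 :=
    (continuous_gav_joint hB).comp ((continuous_fst.sub continuous_const).prodMk continuous_snd)
  refine h.continuousAt.congr ?_
  filter_upwards [continuous_fst.continuousAt.preimage_mem_nhds
    (Ioi_mem_nhds (show p.1 / 2 < p.1 by linarith))] with u hu
  exact (congrFun (pd_smooth_eq hV h0 (le_of_lt hu) L) u.2).symm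

theorem hasFDerivAt_sd (hV : InClass V) (L : List (Fin d)) {p : ℝ × Space d} (hp : 0 < p.1) :
    HasFDerivAt (sd V L)
      ((ContinuousLinearMap.toSpanSingleton ℝ (1 / 2 * ∑ i, sd V (i :: i :: L) p)).coprod
        (∑ i, sd V (i :: L) p • (EuclideanSpace.proj i : Space d →L[ℝ] ℝ))) p := by
  refine HasStrictFDerivAt.hasFDerivAt ?_
  refine hasStrictFDerivAt_uncurry_coprod (u := p) (f := fun r z => pd L (smooth V r) z)
    (f₁ := fun r z => ContinuousLinearMap.toSpanSingleton ℝ
      (1 / 2 * ∑ i, pd (i :: i :: L) (smooth V r) z))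
    (f₂ := fun r z => ∑ i, pd (i :: L) (smooth V r) z • (EuclideanSpace.proj i : Space d →L[ℝ] ℝ))
    ?_ ?_ ?_ ?_
  · filter_upwards [continuous_fst.continuousAt.preimage_mem_nhds (Ioi_mem_nhds hp)] with v hv
    exact (hasDerivAt_pd_smooth hV hv L v.2).hasFDerivAt
  · filter_upwards [continuous_fst.continuousAt.preimage_mem_nhds (Ioi_mem_nhds hp)] with v hv
    refine ((((reg_smooth hV hv).one L).differentiable one_ne_zero v.2).hasFDerivAt).congr_fderiv ?_
    exact congrFun (fderiv_eq_sum_pd L _) v.2
  · refine ((ContinuousLinearMap.toSpanSingletonCLE (𝕜 := ℝ) (E := ℝ)).continuous.continuousAt).comp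
      (f := fun u : ℝ × Space d => 1 / 2 * ∑ i, pd (i :: i :: L) (smooth V u.1) u.2) ?_
    exact continuousAt_const.mul (tendsto_finsetSum _ fun i _ => continuousAt_sd hV (i :: i :: L) hp)
  · show ContinuousAt (fun u : ℝ × Space d => ∑ i, sd V (i :: L) u •
      (EuclideanSpace.proj i : Space d →L[ℝ] ℝ)) p
    exact tendsto_finsetSum _ fun i _ =>
      (continuousAt_sd hV (i :: L) hp).smul (continuousAt_const (y := (EuclideanSpace.proj i : Space d →L[ℝ] ℝ)))

theorem contDiffOn_sd (hV : InClass V) : ∀ (n : ℕ) (L : List (Fin d)),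
    ContDiffOn ℝ n (sd V L) (times d)
  | 0, L => by
    rw [Nat.cast_zero, contDiffOn_zero]
    exact fun p hp => (continuousAt_sd hV L hp.1).continuousWithinAt
  | n + 1, L => by
    rw [Nat.cast_succ, contDiffOn_succ_iff_fderiv_of_isOpen isOpen_times]
    refine ⟨fun p hp => (hasFDerivAt_sd hV L hp.1).differentiableAt.differentiableWithinAt,
      by simp, ContDiffOn.congr ?_ fun p hp => (hasFDerivAt_sd hV L hp.1).fderiv⟩
    have h1 : ContDiffOn ℝ n (fun p => 1 / 2 * ∑ i, sd V (i :: i :: L) p) (times d) :=
      contDiffOn_const.mul (ContDiffOn.sum fun i _ => contDiffOn_sd hV n _)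
    have h2 : ContDiffOn ℝ n (fun p => ∑ i, sd V (i :: L) p •
        (EuclideanSpace.proj i : Space d →L[ℝ] ℝ)) (times d) :=
      ContDiffOn.sum fun i _ => (contDiffOn_sd hV n _).smul contDiffOn_const
    have e : ∀ (a : ℝ) (B : Space d →L[ℝ] ℝ), (ContinuousLinearMap.toSpanSingleton ℝ a).coprod B
        = a • ContinuousLinearMap.fst ℝ ℝ (Space d)
          + B.comp (ContinuousLinearMap.snd ℝ ℝ (Space d)) := by
      intro a B; ext u <;> simp [mul_comm]
    simp only [e]
    exact (h1.smul contDiffOn_const).add (h2.clm_comp contDiffOn_const)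

/-- A derivative of the logarithm of the smoothed density. -/
def ld (V : Space d → ℝ) (L : List (Fin d)) (p : ℝ × Space d) : ℝ :=
  pd L (fun z => Real.log (smooth V p.1 z)) p.2

theorem contDiffAt_ld_nil (hV : InClass V) (n : ℕ) {p : ℝ × Space d} (hp : 0 < p.1) :
    ContDiffAt ℝ n (ld V []) p := by
  have h := (contDiffOn_sd hV n []).contDiffAt (isOpen_times.mem_nhds ⟨hp, trivial⟩)
  exact h.log (smooth_pos' hV _ _).ne'

theorem contDiffAt_ld (hV : InClass V) : ∀ (L : List (Fin d)) (n : ℕ) {p : ℝ × Space d},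
    0 < p.1 → ContDiffAt ℝ n (ld V L) p
  | [], n, _, hp => contDiffAt_ld_nil hV n hp
  | i :: L, n, p, hp => by
    have e : ∀ u : ℝ × Space d, 0 < u.1 →
        ld V (i :: L) u = fderiv ℝ (ld V L) u (0, bv i) := by
      intro u hu
      have hd : HasFDerivAt (fun z => ld V L (u.1, z))
          ((fderiv ℝ (ld V L) u).comp (ContinuousLinearMap.inr ℝ ℝ (Space d))) u.2 :=
        (((contDiffAt_ld hV L 1 hu).differentiableAt one_ne_zero).hasFDerivAt).comp u.2
          (f := fun z => (u.1, z)) (hasFDerivAt_prodMk_right u.1 u.2)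
      show fderiv ℝ (pd L fun z => Real.log (smooth V u.1 z)) u.2 (bv i) = _
      rw [show (pd L fun z => Real.log (smooth V u.1 z)) = fun z => ld V L (u.1, z) from rfl,
        hd.fderiv]
      simp
    have h : ContDiffAt ℝ n (fun u => fderiv ℝ (ld V L) u (0, bv i)) p :=
      (((contDiffAt_ld hV L (n + 1) hp).fderiv_right (by simp)).clm_apply contDiffAt_const)
    refine h.congr_of_eventuallyEq ?_
    filter_upwards [continuous_fst.continuousAt.preimage_mem_nhds (Ioi_mem_nhds hp)] with u hu
    exact e u hu

theorem hasDerivAt_ld_space (hV : InClass V) (L : List (Fin d)) {r : ℝ} (hr : 0 < r)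
    (z : Space d) : ContDiff ℝ 2 (pd L fun z => Real.log (smooth V r z)) ∧
      HasFDerivAt (fun z => ld V L (r, z))
        (∑ i, ld V (i :: L) (r, z) • (EuclideanSpace.proj i : Space d →L[ℝ] ℝ)) z := by
  have h : ∀ x, ContDiffAt ℝ 2 (fun z => ld V L (r, z)) x := fun x =>
    (contDiffAt_ld hV L 2 (p := (r, x)) hr).comp x (contDiffAt_const.prodMk contDiffAt_id)
  refine ⟨contDiff_iff_contDiffAt.2 h, ?_⟩
  refine (((h z).differentiableAt (by norm_num)).hasFDerivAt).congr_fderiv ?_
  exact congrFun (fderiv_eq_sum_pd L (fun z => Real.log (smooth V r z))) z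

theorem ld_perm (hV : InClass V) {r : ℝ} (hr : 0 < r) {A B : List (Fin d)} (hp : A.Perm B)
    (z : Space d) : ld V A (r, z) = ld V B (r, z) := by
  have key : pd A (fun z => Real.log (smooth V r z)) = pd B (fun z => Real.log (smooth V r z)) := by
    induction hp with
    | nil => rfl
    | cons i _ ih => simp only [pd, ih]
    | swap i j L =>
      funext x
      have h2 := (hasDerivAt_ld_space hV L hr x).1
      have hd : Differentiable ℝ (fderiv ℝ (pd L fun z => Real.log (smooth V r z))) :=
        (h2.fderiv_right (m := 1) (by norm_num)).differentiable one_ne_zero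
      simp only [pd]
      rw [fderiv_clm_apply (hd x) (differentiableAt_const _),
        fderiv_clm_apply (hd x) (differentiableAt_const _)]
      simp only [fderiv_fun_const, Pi.zero_apply, ContinuousLinearMap.comp_zero, zero_add,
        ContinuousLinearMap.flip_apply]
      exact (h2.contDiffAt.isSymmSndFDerivAt (by simp)).eq _ _
    | trans _ _ ih1 ih2 => exact ih1.trans ih2
  exact congrFun key z

theorem symm_ld (hV : InClass V) {r : ℝ} (hr : 0 < r) (z : Space d) :
    Symm fun L => ld V L (r, z) := fun _ _ h => ld_perm hV hr h z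

theorem ld_single (hV : InClass V) {r : ℝ} (hr : 0 < r) (i : Fin d) (z : Space d) :
    ld V [i] (r, z) = sd V [i] (r, z) / sd V [] (r, z) := by
  have h : HasFDerivAt (fun z => Real.log (smooth V r z))
      ((smooth V r z)⁻¹ • fderiv ℝ (smooth V r) z) z :=
    ((((reg_smooth hV hr).one []).differentiable one_ne_zero z).hasFDerivAt).log
      (smooth_pos' hV r z).ne'
  show fderiv ℝ (fun z => Real.log (smooth V r z)) z (bv i) = _
  rw [h.fderiv, _root_.smul_apply, smul_eq_mul]
  simp only [sd, pd]
  ring

theorem ld_pair (hV : InClass V) {r : ℝ} (hr : 0 < r) (i : Fin d) (z : Space d) :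
    ld V [i, i] (r, z) = sd V [i, i] (r, z) / sd V [] (r, z) - ld V [i] (r, z) ^ 2 := by
  have e : (fun z => ld V [i] (r, z)) = fun z => pd [i] (smooth V r) z / smooth V r z :=
    funext fun z => ld_single hV hr i z
  have hdiv := ((((reg_smooth hV hr).one [i]).differentiable one_ne_zero z).hasFDerivAt).mul
    ((hasDerivAt_inv (smooth_pos' hV r z).ne').comp_hasFDerivAt z
      ((((reg_smooth hV hr).one []).differentiable one_ne_zero z).hasFDerivAt))
  have hdiv' : HasFDerivAt (fun z => pd [i] (smooth V r) z / smooth V r z) _ z :=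
    hdiv.congr_of_eventuallyEq (Eventually.of_forall fun u => div_eq_mul_inv _ _)
  show fderiv ℝ (fun z => ld V [i] (r, z)) z (bv i) = _
  rw [ld_single hV hr, e, hdiv'.fderiv]
  simp only [sd, pd, _root_.add_apply, _root_.smul_apply, smul_eq_mul]
  have := (smooth_pos' hV r z).ne'
  simp only [Function.comp_apply]
  field_simp
  ring

/-- The time derivative of the logarithm. -/
theorem hasDerivAt_ld_nil (hV : InClass V) {r : ℝ} (hr : 0 < r) (z : Space d) :
    HasDerivAt (fun r' => ld V [] (r', z))
      (1 / 2 * ∑ i, (ld V [i, i] (r, z) + ld V [i] (r, z) ^ 2)) r := by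
  have h := (hasDerivAt_pd_smooth hV hr [] z).log (smooth_pos' hV r z).ne'
  refine h.congr_deriv ?_
  rw [mul_div_assoc, sum_div]
  refine congrArg _ (sum_congr rfl fun i _ => ?_)
  rw [ld_pair hV hr, sub_add_cancel]
  rfl

/-- All ways of dealing out `n` indices. -/
def pats : ℕ → List (List Bool)
  | 0 => [[]]
  | n + 1 => (pats n).map (List.cons true) ++ (pats n).map (List.cons false)

/-- The sum of all one-index contractions of two derivative families. -/
def quadSum (V : Space d → ℝ) (L : List (Fin d)) (p : ℝ × Space d) : ℝ :=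
  ((pats L.length).map fun π => contract (fun A => ld V A p) (fun A => ld V A p) π L).sum

theorem hasFDerivAt_quadSum (hV : InClass V) (L : List (Fin d)) {r : ℝ} (hr : 0 < r) (z : Space d)
    (i : Fin d) : fderiv ℝ (fun z => quadSum V L (r, z)) z (bv i) = quadSum V (i :: L) (r, z) ∧
      DifferentiableAt ℝ (fun z => quadSum V L (r, z)) z := by
  have hd : ∀ A : List (Fin d), HasFDerivAt (fun z => ld V A (r, z))
      (∑ j, ld V (j :: A) (r, z) • (EuclideanSpace.proj j : Space d →L[ℝ] ℝ)) z :=
    fun A => (hasDerivAt_ld_space hV A hr z).2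
  have hval : ∀ A : List (Fin d),
      (∑ j, ld V (j :: A) (r, z) • (EuclideanSpace.proj j : Space d →L[ℝ] ℝ)) (bv i)
        = ld V (i :: A) (r, z) := by
    intro A
    simp [_root_.sum_apply, bv, EuclideanSpace.basisFun_apply]
  have key : ∀ P : List (List Bool),
      DifferentiableAt ℝ (fun z => (P.map fun π =>
        contract (fun A => ld V A (r, z)) (fun A => ld V A (r, z)) π L).sum) z ∧
      fderiv ℝ (fun z => (P.map fun π =>
        contract (fun A => ld V A (r, z)) (fun A => ld V A (r, z)) π L).sum) z (bv i)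
      = ((P.map (List.cons true) ++ P.map (List.cons false)).map fun π =>
        contract (fun A => ld V A (r, z)) (fun A => ld V A (r, z)) π (i :: L)).sum := by
    intro P
    induction P with
    | nil => simp
    | cons π P ih =>
      have h1 : HasFDerivAt (fun z => contract (fun A => ld V A (r, z)) (fun A => ld V A (r, z)) π L)
          _ z := HasFDerivAt.fun_sum fun l _ => (hd (l :: pickT π L)).mul (hd (l :: pickF π L))
      obtain ⟨ih1, ih2⟩ := ih
      simp only [List.map_cons, List.sum_cons]
      refine ⟨h1.differentiableAt.add ih1, ?_⟩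
      rw [fderiv_fun_add h1.differentiableAt ih1, _root_.add_apply, ih2, h1.fderiv]
      simp only [List.map_append, List.sum_append, List.map_map, List.map_cons, List.sum_cons,
        List.cons_append]
      have e : (∑ l, (ld V (l :: pickT π L) (r, z) • ∑ j, ld V (j :: l :: pickF π L) (r, z) •
            (EuclideanSpace.proj j : Space d →L[ℝ] ℝ) + ld V (l :: pickF π L) (r, z) •
            ∑ j, ld V (j :: l :: pickT π L) (r, z) •
            (EuclideanSpace.proj j : Space d →L[ℝ] ℝ))) (bv i)
          = contract (fun A => ld V A (r, z)) (fun A => ld V A (r, z)) (true :: π) (i :: L)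
            + contract (fun A => ld V A (r, z)) (fun A => ld V A (r, z)) (false :: π) (i :: L) := by
        simp only [_root_.sum_apply, _root_.add_apply, _root_.smul_apply, hval, smul_eq_mul,
          contract, pickT, pickF, ← sum_add_distrib]
        refine sum_congr rfl fun l _ => ?_
        have hswap : ∀ A : List (Fin d), ld V (i :: l :: A) (r, z) = ld V (l :: i :: A) (r, z) :=
          fun A => ld_perm hV hr (List.Perm.swap l i A) z
        rw [hswap, hswap]
        ring
      rw [e]
      simp only [Function.comp_def]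
      ring
  exact ⟨(key (pats L.length)).2, (key (pats L.length)).1⟩

/-- The heat equation for every derivative of the logarithm. -/
theorem hasDerivAt_ld (hV : InClass V) : ∀ (L : List (Fin d)) {r : ℝ}, 0 < r → ∀ z : Space d,
    HasDerivAt (fun r' => ld V L (r', z))
      (1 / 2 * (∑ i, ld V (i :: i :: L) (r, z) + quadSum V L (r, z))) r := by
  intro L
  induction L with
  | nil =>
    intro r hr z
    refine (hasDerivAt_ld_nil hV hr z).congr_deriv ?_
    simp [quadSum, pats, contract, pickT, pickF, sum_add_distrib, sq]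
  | cons k L ih =>
    intro r hr z
    have hC : ContDiffAt ℝ 2 (ld V L) (r, z) := contDiffAt_ld hV L 2 hr
    set G := fderiv ℝ (fderiv ℝ (ld V L)) (r, z) with hG
    have hfd : DifferentiableAt ℝ (fderiv ℝ (ld V L)) (r, z) :=
      (hC.fderiv_right (m := 1) (by norm_num)).differentiableAt one_ne_zero
    -- space derivative as a function of time
    have hA : ∀ u : ℝ × Space d, 0 < u.1 → ∀ v : Space d,
        fderiv ℝ (fun z => ld V L (u.1, z)) u.2 v = fderiv ℝ (ld V L) u (0, v) := by
      intro u hu v
      have : HasFDerivAt (fun z => ld V L (u.1, z)) _ u.2 :=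
        (((contDiffAt_ld hV L 1 hu).differentiableAt one_ne_zero).hasFDerivAt).comp u.2
        (f := fun z => (u.1, z)) (hasFDerivAt_prodMk_right (𝕜 := ℝ) u.1 u.2)
      rw [this.fderiv]; simp
    have h1 : HasDerivAt (fun r' => ld V (k :: L) (r', z)) (G (1, 0) (0, bv k)) r := by
      have g0 : HasDerivAt (fun r' : ℝ => (r', z)) ((1 : ℝ), (0 : Space d)) r :=
        (hasDerivAt_id' r).prodMk (hasDerivAt_const r z)
      have g1 : HasDerivAt (fun r' : ℝ => fderiv ℝ (ld V L) (r', z)) (G (1, 0)) r :=
        HasFDerivAt.comp_hasDerivAt (l := fderiv ℝ (ld V L)) (f := fun r' : ℝ => (r', z)) r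
          hfd.hasFDerivAt g0
      have h : HasDerivAt (fun r' : ℝ => fderiv ℝ (ld V L) (r', z) (0, bv k))
          (G (1, 0) (0, bv k)) r := by
        simpa using g1.clm_apply (hasDerivAt_const r ((0 : ℝ), bv k))
      refine h.congr_of_eventuallyEq ?_
      filter_upwards [Ioi_mem_nhds hr] with r' hr'
      exact hA (r', z) hr' (bv k)
    -- time derivative as a function of space
    have h2 : HasFDerivAt (fun z' => fderiv ℝ (ld V L) (r, z') (1, 0))
        ((ContinuousLinearMap.apply ℝ ℝ ((1 : ℝ), (0 : Space d))).comp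
          (G.comp (ContinuousLinearMap.inr ℝ ℝ (Space d)))) z :=
      ((ContinuousLinearMap.apply ℝ ℝ ((1 : ℝ), (0 : Space d))).hasFDerivAt).comp z
        (f := fun z' => fderiv ℝ (ld V L) (r, z'))
        (hfd.hasFDerivAt.comp z (f := fun z' => (r, z')) (hasFDerivAt_prodMk_right (𝕜 := ℝ) r z))
    have e2 : (fun z' => fderiv ℝ (ld V L) (r, z') (1, 0))
        = fun z' => 1 / 2 * (∑ i, ld V (i :: i :: L) (r, z') + quadSum V L (r, z')) := by
      funext z'
      have g0 : HasDerivAt (fun r' : ℝ => (r', z')) ((1 : ℝ), (0 : Space d)) r :=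
        (hasDerivAt_id' r).prodMk (hasDerivAt_const r z')
      have h : HasDerivAt (fun r' : ℝ => ld V L (r', z')) (fderiv ℝ (ld V L) (r, z') (1, 0)) r :=
        HasFDerivAt.comp_hasDerivAt (l := ld V L) (f := fun r' : ℝ => (r', z')) r
          (((contDiffAt_ld hV L 1 (p := (r, z')) hr).differentiableAt
            one_ne_zero).hasFDerivAt) g0
      exact h.unique (ih hr z')
    have h3 : G (0, bv k) (1, 0)
        = 1 / 2 * (∑ i, ld V (k :: i :: i :: L) (r, z) + quadSum V (k :: L) (r, z)) := by
      have hs : ∀ i, DifferentiableAt ℝ (fun z' => ld V (i :: i :: L) (r, z')) z :=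
        fun i => (hasDerivAt_ld_space hV _ hr z).2.differentiableAt
      obtain ⟨hq, hqd⟩ := hasFDerivAt_quadSum hV L hr z k
      have hf := h2.fderiv
      rw [e2] at hf
      have hv := congrArg (fun A : Space d →L[ℝ] ℝ => A (bv k)) hf
      simp only at hv
      rw [fderiv_const_mul ((DifferentiableAt.fun_sum fun i _ => hs i).fun_add hqd),
        fderiv_fun_add (DifferentiableAt.fun_sum fun i _ => hs i) hqd,
        fderiv_fun_sum fun i _ => hs i] at hv
      simp only [_root_.smul_apply, _root_.add_apply, _root_.sum_apply, hq, smul_eq_mul] at hv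
      have e3 : ∀ i, fderiv ℝ (fun z' => ld V (i :: i :: L) (r, z')) z (bv k)
          = ld V (k :: i :: i :: L) (r, z) := fun i => rfl
      simp only [e3] at hv
      simpa using hv.symm
    refine h1.congr_deriv ?_
    rw [(hC.isSymmSndFDerivAt (by simp)).eq, h3]
    congr 2
    exact sum_congr rfl fun i _ =>
      ld_perm hV hr ((List.Perm.swap i k _).trans ((List.Perm.swap i k _).cons i)) z

end

end P347.Zero
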