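import Vale.Agent.P347.Zero.PassDefs

/-!
# P347: the levels of the sweeps

`Lev.next` is what one sweep makes of the bounds it got. Errors and Lipschitz constants stay within
twice what comes from outside, distances decrease geometrically down to that.
-/

namespace P347.Zero

noncomputable section

/-- The bounds after a sweep: `e`, `l`, `D` come from the ends of the grid and the quadrature. -/
def Lev.next (P : Par) (C e l D : ℝ) (A : Lev) : Lev where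
  ea := e + C * sweepOut P.t P.ρ P.G P.θ P.sx P.sy P.Lx P.Ly A.ea A.eu
  eu := e + C * sweepOut P.t P.ρ P.G P.θ P.sx P.sy P.Lx P.Ly A.ea A.eu
  la := l + C * sweepOut P.t P.ρ P.G P.θ 0 0 P.Lx P.Ly A.la A.lu
  lu := l + C * sweepOut P.t P.ρ P.G P.θ 0 0 P.Lx P.Ly A.la A.lu
  Da := D + C * sweepOut P.t P.ρ P.G P.θ P.def0 P.def0 2 2 A.Da A.Du
  Du := D + C * sweepOut P.t P.ρ P.G P.θ P.def0 P.def0 2 2 A.Da A.Du

variable {t ρ G θ sx sy Lx Ly g : ℝ}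

theorem sweepSrc_nonneg (ht : 0 ≤ t) (hρ : 0 ≤ ρ) (hG : 0 ≤ G) (hθ : 0 ≤ θ) (hx : 0 ≤ sx)
    (hy : 0 ≤ sy) (hLx : 0 ≤ Lx) (hLy : 0 ≤ Ly) : 0 ≤ sweepSrc t ρ G θ sx sy Lx Ly := by
  simp only [sweepSrc, sweepOut, tanP, tanQ, sqP, sqQ, uPart]
  positivity

theorem sweepSrc_zero : sweepSrc t ρ G θ 0 0 Lx Ly = 0 := by
  simp [sweepSrc, sweepOut, tanP, tanQ, sqP, sqQ, uPart]

theorem sweepOut_nonneg (ht : 0 ≤ t) (hρ : 0 ≤ ρ) (hG : 0 ≤ G) (hθ : 0 ≤ θ) (hx : 0 ≤ sx)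
    (hy : 0 ≤ sy) (hLx : 0 ≤ Lx) (hLy : 0 ≤ Ly) {a u : ℝ} (ha : 0 ≤ a) (hu : 0 ≤ u) :
    0 ≤ sweepOut t ρ G θ sx sy Lx Ly a u := by
  simp only [sweepOut, tanP, tanQ, sqP, sqQ, uPart]
  positivity

/-- Smaller slopes have the same gains. -/
theorem Gains.mono (h : Gains t ρ G θ Lx Ly g) (ht : 0 ≤ t) (hρ : 0 ≤ ρ) (hG : 0 ≤ G)
    (hθ : 0 ≤ θ) {Lx' Ly' : ℝ} (hx0 : 0 ≤ Lx') (hy0 : 0 ≤ Ly') (hx : Lx' ≤ Lx) (hy : Ly' ≤ Ly) :
    Gains t ρ G θ Lx' Ly' g := by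
  have h0 : 0 ≤ Lx := hx0.trans hx
  have h1 : 0 ≤ Ly := hy0.trans hy
  exact ⟨h.nonneg, le_trans (by gcongr) h.z, le_trans (by gcongr) h.tan,
    le_trans (by gcongr) h.tanU, le_trans (by gcongr) h.tanUz, le_trans (by gcongr) h.sq,
    le_trans (by gcongr) h.sqU, le_trans (by gcongr) h.sqUz, le_trans (by gcongr) h.row,
    le_trans (by gcongr) h.rowU, le_trans (by gcongr) h.rowUz⟩

/-- Slopes `2` have at most four times the gains of slopes at least `1`. -/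
theorem Gains.two (h : Gains t ρ G θ Lx Ly g) (ht : 0 ≤ t) (hρ : 0 ≤ ρ) (hG : 0 ≤ G)
    (hθ : 0 ≤ θ) (hx : 1 ≤ Lx) (hy : 1 ≤ Ly) : Gains t ρ G θ 2 2 (8 * g) := by
  have h1 : Gains t ρ G θ 1 1 g := h.mono ht hρ hG hθ zero_le_one zero_le_one hx hy
  obtain ⟨h0, a1, a2, a3, a4, a5, a6, a7, a8, a9, a10⟩ := h1
  constructor <;> (try linarith)

/-- One sweep of a pair of equal quantities. -/
theorem sweep_level_step (hg : Gains t ρ G θ Lx Ly g) {C : ℝ} (hC : 0 ≤ C) (hCg : 40 * C * g ≤ 1)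
    {e x : ℝ} (hx0 : 0 ≤ x) :
    e + C * sweepOut t ρ G θ sx sy Lx Ly x x
      ≤ (e + C * sweepSrc t ρ G θ sx sy Lx Ly) + 1 / 2 * x := by
  have h := mul_le_mul_of_nonneg_left (sweepOut_le (sx := sx) (sy := sy) hg hx0 hx0) hC
  have h2 := mul_le_mul_of_nonneg_right hCg hx0
  linarith

/-- Iterates of a step that contracts by one half. -/
theorem halving {b : ℝ} (hb : 0 ≤ b) {x : ℕ → ℝ} (h : ∀ k, x (k + 1) ≤ b + 1 / 2 * x k) :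
    ∀ k, x k ≤ 2 * b + (1 / 2) ^ k * max 0 (x 0 - 2 * b) := by
  intro k
  induction k with
  | zero =>
    have := le_max_right (0 : ℝ) (x 0 - 2 * b)
    simp only [pow_zero, one_mul]
    linarith
  | succ k ih =>
    refine (h k).trans ?_
    rw [pow_succ]
    linarith

/-- A smaller contraction, for the distances. -/
theorem contracting {b γ : ℝ} (hb : 0 ≤ b) (hγ0 : 0 ≤ γ) (hγ : γ ≤ 1 / 2) {x : ℕ → ℝ}
    (h : ∀ k, x (k + 1) ≤ b + γ * x k) (hx : 0 ≤ x 0) :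
    ∀ k, x k ≤ 2 * b + γ ^ k * x 0 := by
  intro k
  induction k with
  | zero => simp only [pow_zero, one_mul]; linarith
  | succ k ih =>
    refine (h k).trans ?_
    have h1 := mul_le_mul_of_nonneg_left ih hγ0
    have h2 := mul_le_mul_of_nonneg_right hγ hb
    rw [pow_succ]
    linarith

variable {P : Par} {C e l D : ℝ}

/-- Equal quantities in a level. -/
structure Lev.Within (A : Lev) (E L X : ℝ) : Prop where
  ea : 0 ≤ A.ea ∧ A.ea ≤ E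
  eu : 0 ≤ A.eu ∧ A.eu ≤ E
  la : 0 ≤ A.la ∧ A.la ≤ L
  lu : 0 ≤ A.lu ∧ A.lu ≤ L
  Da : 0 ≤ A.Da ∧ A.Da ≤ X
  Du : 0 ≤ A.Du ∧ A.Du ≤ X

theorem Lev.Within.ok {A : Lev} {E L X : ℝ} (h : A.Within E L X) (hρ : 0 < P.ρ) (hX1 : X ≤ 1)
    (hX : 6 * X ≤ P.ρ) : A.Ok P := by
  refine ⟨h.ea.1, h.eu.1, h.la.1, h.lu.1, h.Da.1, h.Du.1, h.Da.2.trans hX1, ?_⟩
  rw [uPart, div_le_one hρ]
  linarith [h.Da.2, h.Du.2]

theorem sweepOut_mono (ht : 0 ≤ t) (hρ : 0 ≤ ρ) (hG : 0 ≤ G) (hθ : 0 ≤ θ) (hLx : 0 ≤ Lx)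
    (hLy : 0 ≤ Ly) {a u a' u' : ℝ} (ha : a ≤ a') (hu : u ≤ u') :
    sweepOut t ρ G θ sx sy Lx Ly a u ≤ sweepOut t ρ G θ sx sy Lx Ly a' u' := by
  simp only [sweepOut_eq]
  gcongr

/-- One sweep keeps the bounds of errors and Lipschitz constants and contracts the distances. -/
theorem Lev.Within.next {A : Lev} {E L X : ℝ} (h : A.Within E L X) (hP : Gains P.t P.ρ P.G P.θ
    P.Lx P.Ly g) (ht : 0 ≤ P.t) (hρ : 0 ≤ P.ρ) (hG : 0 ≤ P.G) (hθ : 0 ≤ P.θ) (hLx : 1 ≤ P.Lx)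
    (hLy : 1 ≤ P.Ly) (hsx : 0 ≤ P.sx) (hsy : 0 ≤ P.sy) (hdef : 0 ≤ P.def0) (hC : 0 ≤ C)
    (hCg : 320 * C * g ≤ 1) (he : 0 ≤ e) (hl : 0 ≤ l) (hD : 0 ≤ D)
    (hE : 2 * (e + C * sweepSrc P.t P.ρ P.G P.θ P.sx P.sy P.Lx P.Ly) ≤ E) (hL : 2 * l ≤ L) :
    (A.next P C e l D).Within E L
      ((D + C * sweepSrc P.t P.ρ P.G P.θ P.def0 P.def0 2 2) + 160 * C * g * X) := by
  have hLx0 : 0 ≤ P.Lx := zero_le_one.trans hLx
  have hLy0 : 0 ≤ P.Ly := zero_le_one.trans hLy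
  have hCg' : 40 * C * g ≤ 1 := by nlinarith [hP.nonneg]
  have hE0 : 0 ≤ E := h.ea.1.trans h.ea.2
  have hL0 : 0 ≤ L := h.la.1.trans h.la.2
  have hX0 : 0 ≤ X := h.Da.1.trans h.Da.2
  have nE := sweepOut_nonneg ht hρ hG hθ hsx hsy hLx0 hLy0 h.ea.1 h.eu.1
  have nL := sweepOut_nonneg ht hρ hG hθ le_rfl le_rfl hLx0 hLy0 h.la.1 h.lu.1
  have nD := sweepOut_nonneg ht hρ hG hθ hdef hdef zero_le_two zero_le_two h.Da.1 h.Du.1
  have bE : e + C * sweepOut P.t P.ρ P.G P.θ P.sx P.sy P.Lx P.Ly A.ea A.eu ≤ E := by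
    have h1 := mul_le_mul_of_nonneg_left
      (sweepOut_mono (sx := P.sx) (sy := P.sy) ht hρ hG hθ hLx0 hLy0 h.ea.2 h.eu.2) hC
    have h2 := sweep_level_step (sx := P.sx) (sy := P.sy) hP hC hCg' (e := e) hE0
    linarith
  have bL : l + C * sweepOut P.t P.ρ P.G P.θ 0 0 P.Lx P.Ly A.la A.lu ≤ L := by
    have h1 := mul_le_mul_of_nonneg_left
      (sweepOut_mono (sx := 0) (sy := 0) ht hρ hG hθ hLx0 hLy0 h.la.2 h.lu.2) hC
    have h2 := sweep_level_step (sx := 0) (sy := 0) hP hC hCg' (e := l) hL0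
    simp only [sweepSrc_zero, mul_zero, add_zero] at h2
    linarith
  have bD : D + C * sweepOut P.t P.ρ P.G P.θ P.def0 P.def0 2 2 A.Da A.Du
      ≤ (D + C * sweepSrc P.t P.ρ P.G P.θ P.def0 P.def0 2 2) + 160 * C * g * X := by
    have h1 := mul_le_mul_of_nonneg_left
      (sweepOut_mono (sx := P.def0) (sy := P.def0) ht hρ hG hθ zero_le_two zero_le_two
        h.Da.2 h.Du.2) hC
    have h2 := mul_le_mul_of_nonneg_left
      (sweepOut_le (sx := P.def0) (sy := P.def0) (hP.two ht hρ hG hθ hLx hLy) hX0 hX0) hC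
    linarith
  exact ⟨⟨add_nonneg he (mul_nonneg hC nE), bE⟩, ⟨add_nonneg he (mul_nonneg hC nE), bE⟩,
    ⟨add_nonneg hl (mul_nonneg hC nL), bL⟩, ⟨add_nonneg hl (mul_nonneg hC nL), bL⟩,
    ⟨add_nonneg hD (mul_nonneg hC nD), bD⟩, ⟨add_nonneg hD (mul_nonneg hC nD), bD⟩⟩

end

end P347.Zero
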