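import Vale.Agent.P347.Zero.Cond

/-!
# P347: a ladder of moves to finer scales

The moves are judged against the conditional means from the top, under which the intermediate points
stay in a ball, so the errors of the moves add.
-/

namespace P347.Zero

open MeasureTheory ProbabilityTheory Filter

noncomputable section

variable {d : ℕ} {V : Space d → ℝ}

theorem loop_size_le {W α : Type} {A : ℕ → Alg d (W × α) α} {s : ℕ} :
    ∀ n, (∀ m, m < n → (A m).size ≤ s) → (Alg.loop A n).size ≤ n * s
  | 0, _ => by simp [Alg.loop, Alg.pure]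
  | n + 1, h => by
    have h1 := h n n.lt_succ_self
    have h2 := loop_size_le n fun m hm => h m (hm.trans n.lt_succ_self)
    simp only [Alg.loop, Alg.seq, Alg.comap]
    rw [Nat.succ_mul]
    omega

theorem test_abs_sub {a b : Space d → ℝ} (ha : Test a) (hb : Test b) :
    Test fun x => |a x - b x| :=
  ⟨(ha.meas.sub hb.meas).abs, fun x => abs_nonneg _, fun x => by
    rw [abs_le]
    constructor <;> linarith [ha.nonneg x, ha.le_one x, hb.nonneg x, hb.le_one x]⟩

theorem condMean_le (hV : Quarter.InClass V) {t s : ℝ} (hs : 0 ≤ s) (hst : s ≤ t) (ht : t ≤ 1)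
    {a φ ψ : Space d → ℝ} (ha : Test a) (hφ : Test φ) (hψ : Test ψ) {c : ℝ}
    (h : ∀ z, a z ≤ c + φ z + ψ z) (y : Space d) :
    condMean V t s a y ≤ c + condMean V t s φ y + condMean V t s ψ y := by
  have hS := test_smooth hV s
  have hp := smooth_pos hV ht y
  have i0 := (test_shift (test_mul ha hS) √(t - s) y).integrable (stdGaussian (Space d))
  have i1 := (test_shift (test_mul hφ hS) √(t - s) y).integrable (stdGaussian (Space d))
  have i2 := (test_shift (test_mul hψ hS) √(t - s) y).integrable (stdGaussian (Space d))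
  have i3 := ((test_shift hS √(t - s) y).integrable (stdGaussian (Space d))).const_mul c
  rw [condMean_eq, condMean_eq, condMean_eq, div_le_iff₀ hp, add_mul, add_mul,
    div_mul_cancel₀ _ hp.ne', div_mul_cancel₀ _ hp.ne']
  simp only [Quarter.gav]
  rw [← smooth_comp hV hs hst y, Quarter.gav, ← integral_const_mul, ← integral_add i3 i1]
  have i31 : Integrable (fun z : Space d => c * smooth V s (y + √(t - s) • z)
      + φ (y + √(t - s) • z) * smooth V s (y + √(t - s) • z)) (stdGaussian (Space d)) := i3.add i1
  rw [← integral_add i31 i2]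
  refine integral_mono i0 (i31.add i2) fun z => ?_
  rw [← add_mul, ← add_mul]
  exact mul_le_mul_of_nonneg_right (h _) (hS.nonneg _)

/-- **The ladder on functions.** -/
theorem ladder (hV : Quarter.InClass V) {n : ℕ} {u : ℕ → ℝ} (hu : 0 ≤ u 0)
    (hmono : ∀ m, m < n → u m ≤ u (m + 1)) (h1 : u n ≤ 1)
    {M : ℕ → (Space d → ℝ) → Space d → ℝ} (hM : ∀ m g, Test g → Test (M m g)) {ε A R : ℝ}
    (hε : 0 ≤ ε) (hR : 0 ≤ R)
    (hclose : ∀ m, m < n → ∀ g, Test g → ∀ z, ‖z‖ ≤ A + R →
      |M m g z - condMean V (u (m + 1)) (u m) g z| ≤ ε)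
    {g : Space d → ℝ} (hg : Test g) {v : Space d} (hv : ‖v‖ ≤ A) :
    |iterOp M n g v - condMean V (u n) (u 0) g v| ≤ n * (ε + tailRatio d A R) := by
  have hle : ∀ j, j ≤ n → ∀ i, i ≤ j → u i ≤ u j := by
    intro j
    induction j with
    | zero => intro _ i hi; rw [Nat.le_zero.1 hi]
    | succ j ih =>
      intro hj i hi
      rcases Nat.lt_or_eq_of_le hi with h | h
      · exact (ih (by omega) i (by omega)).trans (hmono j (by omega))
      · rw [h]
  have hpos : ∀ j, j ≤ n → 0 ≤ u j := fun j hj => hu.trans (hle j hj 0 j.zero_le)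
  have hi := test_iterOp hM hg
  have hC : ∀ m, m ≤ n → Test (condMean V (u m) (u 0) g) := fun m hm =>
    test_condMean hV hu (hle m hm 0 m.zero_le) ((hle n le_rfl m hm).trans h1) hg
  have key : ∀ m (hm : m ≤ n),
      condMean V (u n) (u m) (fun z => |iterOp M m g z - condMean V (u m) (u 0) g z|) v
        ≤ m * (ε + tailRatio d A R) := by
    intro m
    induction m with
    | zero =>
      intro hm
      have e : (fun z => |iterOp M 0 g z - condMean V (u 0) (u 0) g z|) = fun _ => (0 : ℝ) :=
        funext fun z => by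
          rw [condMean_self hV ((hle n le_rfl 0 hm).trans h1)]
          simp [iterOp]
      rw [e, condMean_eq]
      simp [Quarter.gav]
    | succ m ih =>
      intro hm
      have h2 := ih (by omega)
      have hs0 := hpos m (by omega)
      have hs1 := hmono m (by omega)
      have hs2 := hle n le_rfl (m + 1) hm
      have ht1 := hs2.trans h1
      set D := fun z => |iterOp M m g z - condMean V (u m) (u 0) g z|
      have hD : Test D := test_abs_sub (hi m) (hC m (by omega))
      have hpt : ∀ z, |iterOp M (m + 1) g z - condMean V (u (m + 1)) (u 0) g z|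
          ≤ ε + outside (A + R) z + condMean V (u (m + 1)) (u m) D z := fun z => by
        refine (abs_sub_le _ (condMean V (u (m + 1)) (u m) (iterOp M m g) z) _).trans
          (add_le_add ?_ ?_)
        · rcases lt_or_ge (A + R) ‖z‖ with h | h
          · rw [outside_of_gt h]
            have a := hM m _ (hi m)
            have b := test_condMean hV hs0 hs1 ht1 (hi m)
            have a0 : 0 ≤ iterOp M (m + 1) g z := (a.nonneg z)
            have a1 : iterOp M (m + 1) g z ≤ 1 := (a.le_one z)
            rw [abs_le]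
            constructor <;> linarith [b.nonneg z, b.le_one z]
          · refine (hclose m (by omega) _ (hi m) z h).trans (le_add_of_nonneg_right ?_)
            exact (test_outside _).nonneg z
        · rw [← condMean_comp hV (hle m (by omega) 0 m.zero_le) hs1 ht1 hg z]
          have h := condMean_sub_le hV hs0 hs1 ht1 (hi m) (hC m (by omega)) hD (c := 0)
            (fun w => le_of_eq (zero_add _).symm) z
          rwa [zero_add] at h
      refine (condMean_le hV (hpos _ hm) hs2 h1 (test_abs_sub (hi _) (hC _ hm)) (test_outside _)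
        (test_condMean hV hs0 hs1 ht1 hD) hpt v).trans ?_
      rw [condMean_comp hV hs1 hs2 h1 hD v]
      have h3 := condMean_outside hV (s := u (m + 1)) (hpos _ hm) h1 hR hv
      push_cast
      linarith
  have := key n le_rfl
  rwa [condMean_self hV h1] at this

/-- Repetition seen through the seeds of its levels. -/
def levelAlg {n : ℕ} {Ω : Fin n → Type} (A : ∀ i, Alg d (Ω i × Space d) (Space d)) (k : ℕ) :
    Alg d ((∀ i, Ω i) × Space d) (Space d) :=
  if h : k < n then (A ⟨k, h⟩).comap fun z => (z.1 ⟨k, h⟩, z.2) else Alg.pure d Prod.snd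

/-- The whole ladder from queries. -/
def ladderAlg {n : ℕ} {Ω : Fin n → Type} (A : ∀ i, Alg d (Ω i × Space d) (Space d)) :
    Alg d ((Fin n → ∀ i, Ω i) × Space d) (Space d) :=
  Alg.loop (levelAlg A) n

variable {n : ℕ} {Ω : Fin n → Type} [∀ i, MeasurableSpace (Ω i)]

theorem levelAlg_meas {A : ∀ i, Alg d (Ω i × Space d) (Space d)} (hA : ∀ i, (A i).Meas) (k : ℕ) :
    (levelAlg A k).Meas := by
  unfold levelAlg
  split_ifs with h
  · exact Alg.comap_meas (hA _) (((measurable_pi_apply _).comp measurable_fst).prodMk measurable_snd)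
  · exact Alg.pure_meas measurable_snd

theorem ladderAlg_meas {A : ∀ i, Alg d (Ω i × Space d) (Space d)} (hA : ∀ i, (A i).Meas) :
    (ladderAlg A).Meas :=
  Alg.loop_meas (levelAlg_meas hA) n

omit [∀ i, MeasurableSpace (Ω i)] in
theorem ladderAlg_size {A : ∀ i, Alg d (Ω i × Space d) (Space d)} {s : ℕ}
    (h : ∀ i, (A i).size ≤ s) : (ladderAlg A).size ≤ n * s :=
  loop_size_le n fun m hm => by simp [levelAlg, dif_pos hm, Alg.comap, h]

/-- The ladder from queries against the conditional mean. -/
theorem ladderAlg_close (hV : Quarter.InClass V) {A : ∀ i, Alg d (Ω i × Space d) (Space d)}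
    (hA : ∀ i, (A i).Meas) (P : ∀ i, Measure (Ω i)) [∀ i, IsProbabilityMeasure (P i)] {u : ℕ → ℝ}
    (hu : 0 ≤ u 0) (hmono : ∀ m, m < n → u m ≤ u (m + 1)) (h1 : u n ≤ 1) {ε B R : ℝ}
    (hε : 0 ≤ ε) (hR : 0 ≤ R)
    (hclose : ∀ i : Fin n, ∀ g, Test g → ∀ z, ‖z‖ ≤ B + R →
      |∫ ω, g ((A i).eval (oracle V) (ω, z)) ∂P i - condMean V (u (i + 1)) (u i) g z| ≤ ε)
    {g : Space d → ℝ} (hg : Test g) {v : Space d} (hv : ‖v‖ ≤ B) :
    |∫ W, g ((ladderAlg A).eval (oracle V) (W, v)) ∂(Measure.pi fun _ : Fin n => Measure.pi P)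
        - condMean V (u n) (u 0) g v| ≤ n * (ε + tailRatio d B R) := by
  have hm : ∀ k, Measurable fun z : (∀ i, Ω i) × Space d =>
      (levelAlg A k).eval (oracle V) (z.1, z.2) := fun k =>
    (levelAlg_meas hA k).eval (O := fun _ => oracle V)
      ((Quarter.measurable_oracle hV.smooth).comp measurable_snd) measurable_id
  have e : ∀ W : Fin n → ∀ i, Ω i, (ladderAlg A).eval (oracle V) (W, v)
      = loopFold (fun k w y => (levelAlg A k).eval (oracle V) (w, y)) n W v := fun W => by
    rw [ladderAlg, Alg.loop_eval]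
  simp only [e]
  rw [integral_loopFold hm hg]
  refine ladder hV hu hmono h1 (fun k g hg => ?_) hε hR (fun k hk g hg z hz => ?_) hg hv
  · have hT : Test fun z : Space d × (∀ i, Ω i) => g ((levelAlg A k).eval (oracle V) (z.2, z.1)) :=
      ⟨hg.meas.comp ((hm k).comp (measurable_snd.prodMk measurable_fst)), fun _ => hg.nonneg _,
        fun _ => hg.le_one _⟩
    have hy : ∀ y, Test fun w : ∀ i, Ω i => g ((levelAlg A k).eval (oracle V) (w, y)) := fun y =>
      ⟨hg.meas.comp ((hm k).comp (measurable_id.prodMk measurable_const)), fun _ => hg.nonneg _,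
        fun _ => hg.le_one _⟩
    exact ⟨hT.meas.stronglyMeasurable.integral_prod_right'.measurable,
      fun y => ((hy y).integral_mem _).1, fun y => ((hy y).integral_mem _).2⟩
  · have hF : Measurable fun ω : Ω ⟨k, hk⟩ => g ((A ⟨k, hk⟩).eval (oracle V) (ω, z)) :=
      hg.meas.comp ((hA _).eval (O := fun _ => oracle V)
        ((Quarter.measurable_oracle hV.smooth).comp measurable_snd)
        (measurable_id.prodMk measurable_const))
    have h := hclose ⟨k, hk⟩ g hg z hz
    rw [← (measurePreserving_eval P ⟨k, hk⟩).map_eq,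
      integral_map (measurable_pi_apply _).aemeasurable hF.aestronglyMeasurable] at h
    simpa [levelAlg, dif_pos hk, Alg.comap_eval] using h

end

end P347.Zero
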