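import Vale.Agent.P347.Zero.Ops

/-!
# P347: the bounds on the node functions and their derivatives along the flows
-/

namespace P347.Zero

open MeasureTheory ProbabilityTheory Filter Topology Finset P347.Quarter
open scoped RealInnerProductSpace

noncomputable section

variable {d : ℕ}

namespace Ctx

variable (X : Ctx d)

/-- The score. -/
def bF : Fld d := fun L => X.coef L

/-- The Gaussian variable. -/
def uF : Fld d
  | i :: _ => fun _ _ u => u i
  | [] => fun _ _ _ => 0

/-- The identity. -/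
def idF : Fld d
  | i :: j :: _ => fun _ _ _ => if i = j then 1 else 0
  | _ => fun _ _ _ => 0

/-- The derivative of the score, applied to the Gaussian variable. -/
def b1F : Fld d := X.Mul 1 1 uF

/-- The same, twice. -/
def b2F : Fld d := X.Mul 1 1 X.b1F

/-- What the noise adds to the derivative along the flow, times the noise. -/
def gen (Y : Fld d) : Fld d := fun L q w u =>
  X.dlW (X.Mul 1 1 (DU Y)) L q w u + (-1 : ℝ) * dlU (X.Mul 1 1 (DW Y)) L q w u

/-- The derivative along the pair flow. -/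
def DR (ν : ℝ) (Y : Fld d) : Fld d := fun L q w u =>
  X.DT Y L q w u + ν⁻¹ * X.gen Y L q w u

variable {X}

theorem alg_bF : X.A 1 X.bF := fun L hL => Alg.coef L (by omega)

theorem alg_uF : X.A 1 (uF (d := d)) := fun L hL => by
  cases L with
  | nil => simp at hL
  | cons i L => exact Alg.coordU i

theorem alg_idF : X.A 2 (idF (d := d)) := fun L hL => by
  match L, hL with
  | [i, j], _ => exact Alg.const _

theorem alg_b1F : X.A 1 X.b1F := alg_Mul (a := 1) (s := 1) (m := 0) le_rfl alg_uF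

theorem alg_b2F : X.A 1 X.b2F := alg_Mul (a := 1) (s := 1) (m := 0) le_rfl alg_b1F

theorem alg_gen {n : ℕ} {Y : Fld d} (hY : X.A n Y) : X.A n (X.gen Y) := by
  have hU : X.A (1 + n) (DU Y) := fun L hL => alg_DU hY L (by omega)
  have hW : X.A (1 + n) (DW Y) := fun L hL => alg_DW hY L (by omega)
  exact alg_add (alg_dlW fun L hL => alg_Mul (s := 1) (m := n) le_rfl hU L (by omega))
    (alg_smul (-1) (alg_dlU fun L hL => alg_Mul (s := 1) (m := n) le_rfl hW L (by omega)))

theorem alg_DR {n : ℕ} {Y : Fld d} (ν : ℝ) (hY : X.A n Y) : X.A n (X.DR ν Y) :=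
  alg_add (alg_DT hY) (alg_smul ν⁻¹ (alg_gen hY))

theorem alg_DR_iterate {n : ℕ} (ν : ℝ) : ∀ (m : ℕ) {Y : Fld d}, X.A n Y →
    X.A n ((X.DR ν)^[m] Y)
  | 0, _, h => h
  | m + 1, Y, h => by
    rw [Function.iterate_succ_apply]
    exact alg_DR_iterate ν m (alg_DR ν h)

theorem alg_DT_iterate {n : ℕ} : ∀ (m : ℕ) {Y : Fld d}, X.A n Y → X.A n (X.DT^[m] Y)
  | 0, _, h => h
  | m + 1, Y, h => by
    rw [Function.iterate_succ_apply]
    exact alg_DT_iterate m (alg_DT h)

theorem dT_bF {q : ℝ} (hq : q ^ 2 < X.t) (L : List (Fin d)) (hL : L.length = 1) (w u : Space d) :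
    X.DT X.bF L q w u = (-1 : ℝ) * X.dlW (X.Mul 1 1 idF) L q w u := by
  obtain ⟨i, rfl⟩ := List.length_eq_one_iff.1 hL
  have hZ : ∀ l, X.Mul 1 1 idF (l :: [i]) = X.coef [l, i] := fun l => by
    funext q w u
    simp [Ctx.Mul, tsum'_one, idF]
  show X.dT (X.coef [i]) q w u = _
  rw [dT_coef [i] hq w u, proper_single]
  simp only [Ctx.dlW, hZ, dW_coef _ _ hq w u]
  simp

theorem DW_bF {q : ℝ} (hq : q ^ 2 < X.t) (L : List (Fin d)) (hL : L.length = 2) (w u : Space d) :
    DW X.bF L q w u = q * X.Mul 1 1 idF L q w u := by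
  match L, hL with
  | [l, i], _ =>
    simp only [DW, bF, dW_coef _ _ hq w u]
    simp [Ctx.Mul, tsum'_one, idF]

theorem idF_l2 {q : ℝ} (hq : q ^ 2 < X.t) : X.L2 q 2 idF √d := by
  refine le_of_eq ?_
  rw [avg_congr (f := fun _ _ _ => (d : ℝ)) fun w u => ?_, avg_const _ hq,
    Real.sq_sqrt (Nat.cast_nonneg d)]
  unfold nsq
  simp [tsum', idF, ite_pow]

theorem TB.idF {q : ℝ} (hq : q ^ 2 < X.t) : ∀ {N J : ℕ}, X.TB q N J 2 idF √d := by
  have hz : ∀ (L : List (Fin d)), L.length = 3 → ∀ w u, DW Ctx.idF L q w u = 0 ∧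
      DU Ctx.idF L q w u = 0 := by
    intro L hL w u
    match L, hL with
    | [k, i, j], _ => simp [DW, DU, Ctx.idF, Ctx.dW, Ctx.dU]
  have hS : ∀ J, X.Sob q J 2 Ctx.idF √d := by
    intro J
    cases J with
    | zero => exact idF_l2 hq
    | succ J => exact ⟨idF_l2 hq, Sob.zero hq (mul_nonneg (Real.sqrt_nonneg _) kap_nonneg)
        (fun L hL w u => (hz L hL w u).1), Sob.zero hq (mul_nonneg (Real.sqrt_nonneg _) kap_nonneg)
        (fun L hL w u => (hz L hL w u).2)⟩
  intro N J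
  cases N with
  | zero => exact hS J
  | succ N =>
    refine ⟨hS J, TB.zero hq (mul_nonneg (Real.sqrt_nonneg _) sig_nonneg) fun L hL q' _ w u => ?_⟩
    match L, hL with
    | [i, j], _ => simp [DT, Ctx.idF, dT_const]

theorem uF_l2 {q : ℝ} (hq : q ^ 2 < X.t) : X.L2 q 1 uF √d := by
  have h1 : ∀ i : Fin d, X.avg q (fun _ _ u => u i * u i) = 1 := by
    intro i
    have h := avg_ibp_u (X := X) (Alg.coordU i) i hq
    rw [avg_congr (f := fun _ _ u => 1 + (-1 : ℝ) * (u i * u i)) fun w u => by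
      rw [dU_coord, if_pos rfl]; ring,
      avg_add (Alg.const 1) ((Alg.const (-1)).mul ((Alg.coordU i).mul (Alg.coordU i))) hq,
      avg_const 1 hq, avg_mul_left] at h
    linarith
  refine le_of_eq ?_
  rw [Real.sq_sqrt (Nat.cast_nonneg d), avg_congr (f := fun _ _ u => ∑ i, u i * u i) fun w u => by
    simp [nsq, tsum', uF, sq], avg_sum _ (fun i => (Alg.coordU i).mul (Alg.coordU i)) hq]
  simp [h1]

theorem TB.uF {q : ℝ} (hq : q ^ 2 < X.t) : ∀ {N J : ℕ}, X.TB q N J 1 uF √d := by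
  have hS : ∀ J, X.Sob q J 1 Ctx.uF √d := by
    intro J
    cases J with
    | zero => exact uF_l2 hq
    | succ J =>
      refine ⟨uF_l2 hq, Sob.zero hq (mul_nonneg (Real.sqrt_nonneg _) kap_nonneg) fun L hL w u => ?_, ?_⟩
      · match L, hL with
        | [k, i], _ => simp [DW, Ctx.uF, dW_coordU]
      · refine ((TB.idF hq (N := 0) (J := J)).congr hq fun L hL q' _ w u => ?_).mono
          (Real.sqrt_nonneg _) (le_mul_of_one_le_right (Real.sqrt_nonneg _) (kap_one_le hq))
        match L, hL with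
        | [k, i], _ => simp [DU, Ctx.uF, Ctx.idF, dU_coord, eq_comm]
  intro N J
  cases N with
  | zero => exact hS J
  | succ N =>
    refine ⟨hS J, TB.zero hq (mul_nonneg (Real.sqrt_nonneg _) sig_nonneg) fun L hL q' _ w u => ?_⟩
    match L, hL with
    | [i], _ => simp [DT, Ctx.uF, dT_coordU]

theorem avg_w_only {q : ℝ} (G : Space d → ℝ) :
    X.avg q (fun q w _ => G w) = (∫ w, G w * X.wt q w ∂stdGaussian (Space d))
      / sd X.V [] (X.t, X.y) := by
  simp only [avg]
  rw [integral_fun_fst fun w => G w * X.wt q w]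
  simp

/-- The score has the mean `score V t y` and a second moment which grows with it and `√d` only. -/
theorem bF_l2 {q : ℝ} (hq : q ^ 2 < X.t) :
    X.L2 q 1 X.bF (10 * (√d + ‖score X.V X.t X.y‖)) := by
  set r := X.t - q ^ 2 with hr'
  have hr : 0 < r := by linarith
  have hp := X.mass_pos
  set c : Fin d → ℝ := fun i => ld X.V [i] (X.t, X.y) with hc
  have hcoef : ∀ i w (u : Space d), X.coef [i] q w u * X.wt q w
      = sd X.V [i] (r, X.y + q • w) := fun i w u => by
    simp only [Ctx.coef, Ctx.wt, ← hr', ld_single X.hV hr]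
    exact div_mul_cancel₀ _ (smooth_pos' X.hV _ _).ne'
  have hsdt : ∀ i, sd X.V [i] (X.t, X.y) = sd X.V [] (X.t, X.y) * c i := fun i => by
    simp only [hc, ld_single X.hV X.ht0]
    rw [mul_div_cancel₀ _ hp.ne']
  -- the first moments
  have mb : ∀ i, X.avg q (X.coef [i]) = c i := by
    intro i
    have e : X.avg q (X.coef [i]) = X.avg q (fun _ w _ => X.coef [i] q w 0) :=
      avg_congr fun w u => rfl
    rw [e, avg_w_only (fun w => X.coef [i] q w 0)]
    simp only [fun w => hcoef i w (0 : Space d)]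
    rw [sd_avg_abs X.hV hq X.y [i], hsdt]
    field_simp
  have mw : ∀ i, X.avg q (fun _ w _ => w i) = q * c i := by
    intro i
    have h := avg_ibp_w (X := X) (Alg.const 1) i hq
    rw [avg_congr (f := fun q w u => (-1 : ℝ) * w i + q * X.coef [i] q w u) fun w u => by
      simp [Ctx.dW, Ctx.beta],
      avg_add ((Alg.const (-1)).mul (Alg.coordW i)) (Alg.time.mul (Alg.coef [i] (by simp))) hq,
      avg_mul_left, avg_congr (f := fun _ w u => q * X.coef [i] q w u) (g := fun q w u => q * X.coef [i] q w u)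
        (fun w u => rfl)] at h
    have e2 : X.avg q (fun _ w u => q * X.coef [i] q w u) = q * c i := by
      rw [← mb i, ← avg_mul_left]
      exact avg_congr fun w u => rfl
    linarith
  have mbw : ∀ i, X.avg q (fun q w u => w i * X.coef [i] q w u)
      = q * (sd X.V [i, i] (X.t, X.y) / sd X.V [] (X.t, X.y)) := by
    intro i
    have e : X.avg q (fun q w u => w i * X.coef [i] q w u)
        = X.avg q (fun _ w _ => w i * X.coef [i] q w 0) := avg_congr fun w u => rfl
    rw [e, avg_w_only (fun w => w i * X.coef [i] q w 0)]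
    simp only [mul_assoc, fun w => hcoef i w (0 : Space d)]
    rw [(nice_sd X.hV [i]).gint_parts X.ht1 hq X.y i]
    simp only [← hr', (hasFDerivAt_sd_space X.hV [i] hr _).fderiv, sum_proj_bv]
    rw [hr', sd_avg_abs X.hV hq X.y [i, i], mul_div_assoc]
  have mww : ∀ i, X.avg q (fun _ w _ => w i * w i)
      = 1 + q * X.avg q (fun q w u => w i * X.coef [i] q w u) := by
    intro i
    have h := avg_ibp_w (X := X) (Alg.coordW i) i hq
    have hA := (Alg.coordW (X := X) i).mul (Alg.coef [i] (by simp))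
    rw [avg_congr (f := fun q' w u => 1 + ((-1 : ℝ) * (w i * w i)
        + q * (w i * X.coef [i] q' w u))) fun w u => by
      have : Ctx.dW i (fun _ w _ => w i : Fn d) q w u = 1 := by
        simp only [Ctx.dW]
        rw [show (fun w' : Space d => w' i) = ⇑(EuclideanSpace.proj i : Space d →L[ℝ] ℝ) from rfl,
          ContinuousLinearMap.fderiv]
        simp [bv, EuclideanSpace.basisFun_apply]
      rw [this]
      simp only [Ctx.beta]
      ring,
      avg_add (Alg.const 1) (((Alg.const (-1)).mul ((Alg.coordW i).mul (Alg.coordW i))).add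
        ((Alg.const q).mul hA)) hq,
      avg_add ((Alg.const (-1)).mul ((Alg.coordW i).mul (Alg.coordW i))) ((Alg.const q).mul hA) hq,
      avg_const 1 hq, avg_mul_left, avg_mul_left] at h
    linarith
  -- the spread of `w`
  have mspread : ∀ i, X.avg q (fun _ w _ => (w i - q * c i) * (w i - q * c i)) ≤ 3 := by
    intro i
    have hA := (Alg.coordW (X := X) i).mul (Alg.coordW i)
    rw [avg_congr (f := fun _ w _ => w i * w i + ((-2 * (q * c i)) * w i + (q * c i) * (q * c i)))
      fun w u => by ring,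
      avg_add hA (((Alg.const _).mul (Alg.coordW i)).add (Alg.const _)) hq,
      avg_add ((Alg.const _).mul (Alg.coordW i)) (Alg.const _) hq, avg_mul_left, avg_const _ hq,
      mw i, mww i, mbw i]
    have hld : |ld X.V [i, i] (X.t, X.y)| ≤ 2 := by
      have := bilinear_ld_pair X.hV X.ht0 (X.lip _ X.ht0) X.y (Pi.single i 1) (Pi.single i 1)
      simpa [Pi.single_apply, ite_mul, mul_ite, ite_pow] using this
    have h2 := ld_pair X.hV X.ht0 i X.y
    rw [show sd X.V [i, i] (X.t, X.y) / sd X.V [] (X.t, X.y)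
      = ld X.V [i, i] (X.t, X.y) + c i ^ 2 by rw [h2]; simp [hc]]
    have hq2 : q ^ 2 ≤ 1 := by linarith [X.ht1]
    nlinarith [abs_le.1 hld, mul_le_mul_of_nonneg_left (abs_le.1 hld).2 (sq_nonneg q)]
  -- compare with the score at a fixed point
  set k : Space d := score X.V r (X.y + q • (q • score X.V X.t X.y)) with hk
  have hsc : ∀ {s : ℝ}, 0 < s → ∀ z i, score X.V s z i = ld X.V [i] (s, z) := by
    intro s hs z i
    rw [score_eq_sum X.hV hs]
    simp [bv, EuclideanSpace.basisFun_apply, Pi.single_apply, Finset.sum_apply]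
  have hL : ∀ w u, ∑ i, (X.coef [i] q w u - k i) * (X.coef [i] q w u - k i)
      ≤ 4 * ∑ i, (w i - q * c i) * (w i - q * c i) := by
    intro w u
    have h := (X.lip r hr).dist_le_mul (X.y + q • w) (X.y + q • (q • score X.V X.t X.y))
    rw [dist_add_left, dist_smul₀, Real.norm_eq_abs, dist_eq_norm, dist_eq_norm] at h
    have h2 : ‖score X.V r (X.y + q • w) - k‖ ≤ 2 * ‖w - q • score X.V X.t X.y‖ := by
      refine h.trans ?_
      push_cast
      exact mul_le_mul_of_nonneg_left (mul_le_of_le_one_left (norm_nonneg _) (abs_q_le hq))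
        (by norm_num)
    have h3 := pow_le_pow_left₀ (norm_nonneg _) h2 2
    rw [mul_pow, EuclideanSpace.norm_sq_eq, EuclideanSpace.norm_sq_eq] at h3
    simp only [PiLp.sub_apply, PiLp.smul_apply, smul_eq_mul, Real.norm_eq_abs, sq_abs, hsc hr,
      hsc X.ht0] at h3
    simp only [Ctx.coef, ← hr', ← sq]
    norm_num at h3
    exact h3
  have hA1 : ∀ i, X.Alg fun q w u => (X.coef [i] q w u - k i) * (X.coef [i] q w u - k i) :=
    fun i => .congr (((Alg.coef [i] (by simp)).add (Alg.const (-(k i)))).mul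
      ((Alg.coef [i] (by simp)).add (Alg.const (-(k i))))) fun q _ w u => by ring
  have hA2 : ∀ i, X.Alg fun q' w _ => (w i - q * c i) * (w i - q * c i) :=
    fun i => .congr (((Alg.coordW i).add (Alg.const (-(q * c i)))).mul
      ((Alg.coordW i).add (Alg.const (-(q * c i))))) fun q' _ w u => by ring
  have hvar : ∑ i, X.avg q (fun q w u => (X.coef [i] q w u - k i) * (X.coef [i] q w u - k i))
      ≤ 12 * d := by
    rw [← avg_sum _ hA1 hq]
    refine le_trans (avg_mono (Alg.sum _ hA1) ((Alg.const 4).mul (Alg.sum _ hA2)) hq hL) ?_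
    rw [avg_mul_left, avg_sum _ hA2 hq]
    have := sum_le_sum (s := Finset.univ) fun i _ => mspread i
    simp at this
    linarith
  have hper : ∀ i, X.avg q (fun q w u => X.coef [i] q w u * X.coef [i] q w u)
      ≤ 6 * X.avg q (fun q w u => (X.coef [i] q w u - k i) * (X.coef [i] q w u - k i))
        + 4 * c i ^ 2 := by
    intro i
    have hB := Alg.coef (X := X) [i] (by simp)
    have e1 : X.avg q (fun q w u => (X.coef [i] q w u - k i) * (X.coef [i] q w u - k i))
        = X.avg q (fun q w u => X.coef [i] q w u * X.coef [i] q w u)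
          + (-2 * k i * c i + k i * k i) := by
      rw [avg_congr (f := fun q w u => X.coef [i] q w u * X.coef [i] q w u
          + ((-2 * k i) * X.coef [i] q w u + k i * k i)) fun w u => by ring,
        avg_add (hB.mul hB) (((Alg.const _).mul hB).add (Alg.const _)) hq,
        avg_add ((Alg.const _).mul hB) (Alg.const _) hq, avg_mul_left, avg_const _ hq, mb i]
    have hAc : X.Alg fun q w u => (X.coef [i] q w u - c i) * (X.coef [i] q w u - c i) :=
      .congr ((hB.add (Alg.const (-(c i)))).mul (hB.add (Alg.const (-(c i))))) fun q _ w u => by ring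
    have e2 : 0 ≤ X.avg q (fun q w u => X.coef [i] q w u * X.coef [i] q w u) - c i * c i := by
      have h0 : 0 ≤ X.avg q (fun q w u => (X.coef [i] q w u - c i) * (X.coef [i] q w u - c i)) :=
        avg_nonneg fun w u => mul_self_nonneg _
      rw [avg_congr (f := fun q w u => X.coef [i] q w u * X.coef [i] q w u
          + ((-2 * c i) * X.coef [i] q w u + c i * c i)) fun w u => by ring,
        avg_add (hB.mul hB) (((Alg.const _).mul hB).add (Alg.const _)) hq,
        avg_add ((Alg.const _).mul hB) (Alg.const _) hq, avg_mul_left, avg_const _ hq, mb i] at h0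
      linarith
    nlinarith [sq_nonneg (2 * c i - k i)]
  have hfin : X.avg q (fun q w u => nsq 1 fun L => X.bF L q w u)
      ≤ 72 * d + 4 * ‖score X.V X.t X.y‖ ^ 2 := by
    rw [avg_congr (f := fun q w u => ∑ i, X.coef [i] q w u * X.coef [i] q w u) fun w u => by
      simp [nsq, tsum', bF, sq],
      avg_sum _ (fun i => (Alg.coef [i] (by simp)).mul (Alg.coef [i] (by simp))) hq]
    refine (sum_le_sum fun i _ => hper i).trans ?_
    rw [sum_add_distrib, ← mul_sum, ← mul_sum, EuclideanSpace.norm_sq_eq]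
    simp only [Real.norm_eq_abs, sq_abs, hsc X.ht0]
    linarith
  refine le_trans hfin ?_
  have hd := Real.sq_sqrt (Nat.cast_nonneg (α := ℝ) d)
  nlinarith [mul_nonneg (Real.sqrt_nonneg (d : ℝ)) (norm_nonneg (score X.V X.t X.y)),
    sq_nonneg ‖score X.V X.t X.y‖]

end Ctx

open Ctx

/-- The derivative of the score along the flow. -/
theorem exists_dTb_bound (N J : ℕ) : ∃ C : ℝ, 0 ≤ C ∧ ∀ (d : ℕ) (X : Ctx d) (q : ℝ), q ^ 2 < X.t →
    X.TB q N J 1 (X.DT X.bF) (C * X.kap q * √d) := by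
  obtain ⟨C₁, J₁, hC₁, h₁⟩ := (bds N).dlw J
  obtain ⟨C₂, J₂, hC₂, h₂⟩ := (bds N).mul J₁ 1 1
  refine ⟨C₁ * C₂, by positivity, fun d X q hq => ?_⟩
  have t1 := h₂ d X q hq le_rfl le_rfl 1 idF √d (Real.sqrt_nonneg _) alg_idF (TB.idF hq)
  have a1 : X.A (1 + 1) (X.Mul 1 1 idF) := alg_Mul le_rfl alg_idF
  have t2 := h₁ d X q hq 1 _ _
    (mul_nonneg (mul_nonneg hC₂ (pow_nonneg rho_nonneg _)) (Real.sqrt_nonneg _)) a1 t1
  rw [show (1 + 1 - 2 : ℕ) = 0 from rfl, pow_zero, mul_one] at t2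
  refine ((TB.neg hq (alg_dlW a1) t2).congr hq fun L hL q' hq' w u => dT_bF hq' L hL w u).mono
    (by have := X.kap_nonneg (q := q); positivity) (le_of_eq (by ring))

/-- The score. -/
theorem exists_b_bound : ∀ (N J : ℕ), ∃ C : ℝ, 0 ≤ C ∧ ∀ (d : ℕ) (X : Ctx d) (q : ℝ),
    q ^ 2 < X.t → X.TB q N J 1 X.bF (C * (√d + ‖score X.V X.t X.y‖)) := by
  have hS : ∀ J, ∃ C : ℝ, 0 ≤ C ∧ ∀ (d : ℕ) (X : Ctx d) (q : ℝ), q ^ 2 < X.t →
      X.Sob q J 1 X.bF (C * (√d + ‖score X.V X.t X.y‖)) := by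
    intro J
    cases J with
    | zero => exact ⟨10, by norm_num, fun d X q hq => bF_l2 hq⟩
    | succ J =>
      obtain ⟨C, hC, h⟩ := exists_mul_sob J 1 1
      refine ⟨10 + C, by positivity, fun d X q hq => ?_⟩
      have hk := kap_one_le hq
      have hk0 : 0 ≤ X.kap q := kap_nonneg
      have hd : (0 : ℝ) ≤ √d := Real.sqrt_nonneg _
      have t1 := h d X q hq le_rfl le_rfl 1 idF √d hd alg_idF (TB.idF hq (N := 0))
      rw [show (1 + 1 - 2 : ℕ) = 0 from rfl, pow_zero, mul_one] at t1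
      refine ⟨(bF_l2 hq).mono (by positivity) (by
        refine mul_le_mul_of_nonneg_right ?_ (by positivity); linarith), ?_, ?_⟩
      · refine (t1.scale hq q (alg_Mul (a := 1) le_rfl alg_idF)
          fun L hL w u => DW_bF hq L hL w u).mono (by positivity) ?_
        calc |q| * (C * √d) ≤ 1 * (C * √d) :=
              mul_le_mul_of_nonneg_right (abs_q_le hq) (by positivity)
          _ ≤ (10 + C) * (√d + ‖score X.V X.t X.y‖) := by
              nlinarith [norm_nonneg (score X.V X.t X.y)]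
          _ ≤ _ := le_mul_of_one_le_right (by positivity) hk
      · refine Sob.zero hq (by positivity) fun L hL w u => ?_
        match L, hL with
        | [l, i], _ => exact dU_coef [i] l q w u
  intro N
  induction N with
  | zero => exact hS
  | succ N _ =>
    intro J
    obtain ⟨C, hC, h⟩ := hS J
    obtain ⟨D, hD, hD'⟩ := exists_dTb_bound N J
    refine ⟨C + D, by positivity, fun d X q hq => ⟨(h d X q hq).mono (by positivity) ?_,
      (hD' d X q hq).mono (by have := X.kap_nonneg (q := q); positivity) ?_⟩⟩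
    · gcongr; linarith
    · have hk : X.kap q ≤ X.sig q := le_mul_of_one_le_right kap_nonneg (rho_one_le hq)
      calc D * X.kap q * √d = D * √d * X.kap q := by ring
        _ ≤ D * √d * X.sig q := mul_le_mul_of_nonneg_left hk (by positivity)
        _ ≤ _ := by
          refine mul_le_mul_of_nonneg_right ?_ sig_nonneg
          nlinarith [norm_nonneg (score X.V X.t X.y), Real.sqrt_nonneg (d : ℝ)]

theorem exists_b12_bound (N J : ℕ) : ∃ C : ℝ, 0 ≤ C ∧ ∀ (d : ℕ) (X : Ctx d) (q : ℝ),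
    q ^ 2 < X.t → X.TB q N J 1 X.b1F (C * √d) ∧ X.TB q N J 1 X.b2F (C * √d) := by
  obtain ⟨C₂, J₂, hC₂, h₂⟩ := (bds N).mul J 1 1
  obtain ⟨C₁, J₁, hC₁, h₁⟩ := (bds N).mul J₂ 1 1
  refine ⟨C₂ + C₂ * C₁, by positivity, fun d X q hq => ?_⟩
  have hd : (0 : ℝ) ≤ √d := Real.sqrt_nonneg _
  have t0 := h₂ d X q hq le_rfl le_rfl 0 uF √d hd alg_uF (TB.uF hq)
  have t1 := h₁ d X q hq le_rfl le_rfl 0 uF √d hd alg_uF (TB.uF hq)
  rw [show (1 + 1 - 2 : ℕ) = 0 from rfl, pow_zero, mul_one] at t0 t1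
  have t2 := h₂ d X q hq le_rfl le_rfl 0 X.b1F (C₁ * √d) (by positivity) alg_b1F t1
  rw [show (1 + 1 - 2 : ℕ) = 0 from rfl, pow_zero, mul_one] at t2
  refine ⟨t0.mono (by positivity) ?_, t2.mono (by positivity) ?_⟩
  · nlinarith [mul_nonneg (mul_nonneg hC₂ hC₁) hd]
  · nlinarith [mul_nonneg hC₂ hd]

/-- The noise term costs two units of length over the noise. -/
theorem exists_DR_bound (N J : ℕ) : ∃ (C : ℝ) (J' : ℕ), 0 ≤ C ∧ ∀ (d : ℕ) (X : Ctx d) (q ν : ℝ),
    q ^ 2 < X.t → √X.t ≤ ν → ∀ (n : ℕ) (Y : Fld d) (M : ℝ), 0 ≤ M → X.A n Y →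
      X.TB q (N + 1) J' n Y M → X.TB q N J n (X.DR ν Y) (C * M * X.sig q) := by
  obtain ⟨Ca, Ja, hCa, ha⟩ := (bds N).dlw J
  obtain ⟨Cb, Jb, hCb, hb⟩ := (bds N).dlu J
  obtain ⟨Cm, Jm, hCm, hm⟩ := (bds N).mul (max Ja Jb) 1 1
  obtain ⟨Cu, Ju, hCu, hu⟩ := (bds N).du Jm
  obtain ⟨Cw, Jw, hCw, hw⟩ := (bds N).dw Jm
  refine ⟨2 * (1 + 2 * (Ca * (Cm * Cu) + Cb * (Cm * Cw))), max J (max Ju Jw), by positivity,
    fun d X q ν hq hν n Y M hM hY h => ?_⟩
  have hk : 0 ≤ X.kap q := kap_nonneg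
  have hs : 0 ≤ X.sig q := sig_nonneg
  have hp := TB.pred h
  have tu := hu d X q hq n Y M hM hY (hp.leJ (le_max_of_le_right (le_max_left _ _)))
  have tw := hw d X q hq n Y M hM hY (hp.leJ (le_max_of_le_right (le_max_right _ _)))
  rw [add_comm n 1] at tu tw
  have au : X.A (1 + n) (DU Y) := fun L hL => alg_DU hY L (by omega)
  have aw : X.A (1 + n) (DW Y) := fun L hL => alg_DW hY L (by omega)
  have tmu := hm d X q hq le_rfl le_rfl n _ _ (by positivity) au tu
  have tmw := hm d X q hq le_rfl le_rfl n _ _ (by positivity) aw tw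
  rw [add_comm 1 n, show (1 + 1 - 2 : ℕ) = 0 from rfl, pow_zero, mul_one] at tmu tmw
  have amu : X.A (n + 1) (X.Mul 1 1 (DU Y)) := fun L hL => alg_Mul le_rfl au L (by omega)
  have amw : X.A (n + 1) (X.Mul 1 1 (DW Y)) := fun L hL => alg_Mul le_rfl aw L (by omega)
  have ta := ha d X q hq n _ _ (by positivity) amu (tmu.leJ (le_max_left _ _))
  have tb := TB.neg hq (alg_dlU amw) (hb d X q hq n _ _ (by positivity) amw
    (tmw.leJ (le_max_right _ _)))
  have tg := TB.scale hq ν⁻¹ (alg_gen hY) (TB.add hq (alg_dlW amu) (alg_smul (-1) (alg_dlU amw))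
    ta tb (by positivity) (by positivity) : X.TB q N J n (X.gen Y) _)
  refine (TB.add hq (alg_DT hY) (alg_smul ν⁻¹ (alg_gen hY)) (h.2.leJ (le_max_left _ _)) tg
    (mul_nonneg hM hs) (by positivity) : X.TB q N J n (X.DR ν Y) _).mono (by positivity) ?_
  have ht : 0 < √X.t := Real.sqrt_pos.2 X.ht0
  have hk2 : |ν⁻¹| * (X.kap q * X.kap q) ≤ X.sig q := by
    rw [abs_inv, abs_of_nonneg (ht.le.trans hν)]
    refine (mul_le_mul_of_nonneg_right (inv_anti₀ ht hν) (mul_nonneg hk hk)).trans (le_of_eq ?_)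
    simp only [Ctx.sig, Ctx.kap, Ctx.rho]
    field_simp
  calc 2 * (M * X.sig q + |ν⁻¹| * (2 * (Ca * X.kap q * (Cm * (Cu * X.kap q * M))
          + Cb * X.kap q * (Cm * (Cw * X.kap q * M)))))
      = 2 * (M * X.sig q + 2 * (Ca * (Cm * Cu) + Cb * (Cm * Cw)) *
          (|ν⁻¹| * (X.kap q * X.kap q) * M)) := by ring
    _ ≤ 2 * (M * X.sig q + 2 * (Ca * (Cm * Cu) + Cb * (Cm * Cw)) * (X.sig q * M)) := by gcongr
    _ = _ := by ring

theorem exists_DR_iterate : ∀ (m N J : ℕ), ∃ (C : ℝ) (N' J' : ℕ), 0 ≤ C ∧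
    ∀ (d : ℕ) (X : Ctx d) (q ν : ℝ), q ^ 2 < X.t → √X.t ≤ ν →
      ∀ (n : ℕ) (Y : Fld d) (M : ℝ), 0 ≤ M → X.A n Y → X.TB q N' J' n Y M →
        X.TB q N J n ((X.DR ν)^[m] Y) (C * M * X.sig q ^ m)
  | 0, N, J => ⟨1, N, J, zero_le_one, fun d X q ν _ _ n Y M _ _ h => by simpa using h⟩
  | m + 1, N, J => by
    obtain ⟨C, N', J', hC, hb⟩ := exists_DR_iterate m N J
    obtain ⟨D, J'', hD, hD'⟩ := exists_DR_bound N' J'
    refine ⟨C * D, N' + 1, J'', by positivity, fun d X q ν hq hν n Y M hM hY h => ?_⟩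
    have hs : 0 ≤ X.sig q := sig_nonneg
    rw [Function.iterate_succ_apply]
    refine (hb d X q ν hq hν n _ _ (by positivity) (alg_DR ν hY)
      (hD' d X q ν hq hν n Y M hM hY h)).mono (by positivity) (le_of_eq ?_)
    rw [pow_succ]; ring

theorem TB_iterate {X : Ctx d} {q : ℝ} : ∀ {N n : ℕ} {Y : Fld d} {M : ℝ}, X.TB q N 0 n Y M →
    X.L2 q n (X.DT^[N] Y) (M * X.sig q ^ N)
  | 0, n, Y, M, h => by
    rw [pow_zero, mul_one]; exact h
  | N + 1, n, Y, M, h => by
    rw [Function.iterate_succ_apply, pow_succ', ← mul_assoc]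
    exact TB_iterate h.2

end

end P347.Zero
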