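import Vale.Agent.P347.Zero.PassLoop

/-!
# P347: all sweeps of one pass

From a step at one node and a step of one sweep, with the nodes indexed by any finite type: after
`k` sweeps there is a form for the value at the coarse end, with its blur, error, Lipschitz constant
and distance to the exact trajectory.
-/

namespace P347.Zero

open MeasureTheory ProbabilityTheory

noncomputable section

variable {d : ℕ} {En : Env d} {T : ℕ} {P : Par} {ι : Type}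

/-- A node can be built from what it is handed. -/
def NodeStep (π : Paths En T P) (S₀ : Bld En) (τ : ι → ℝ) (C : ℝ) (N : ℕ) : Prop :=
  ∀ (i : ι) (S : Bld En) (A : Lev) (φz φX : Form), S₀.Ext S → S.Ok → A.Ok P →
    NodeIn π S (τ i) A φz φX → S.len + N ≤ S.circ.T →
    ∃ (S' : Bld En) (fb fB fS : Form), S.Ext S' ∧ S'.Ok ∧ S'.len ≤ S.len + N ∧
      NodeOut π S' (τ i) A C fb fB fS

/-- A sweep turns the values at all nodes into new points, without new gates. -/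
def SweepStep (π : Paths En T P) (S₀ : Bld En) (τ : ι → ℝ) (C C' e l D nz₀ : ℝ) : Prop :=
  ∀ (S : Bld En) (A : Lev) (f : ι → Form × Form × Form), S₀.Ext S → S.Ok → A.Ok P →
    (∀ i, NodeOut π S (τ i) A C (f i).1 (f i).2.1 (f i).2.2) →
    (∃ b : ι → Form × Form, ∀ i, NodeIn π S (τ i) (A.next P C' e l D) (b i).1 (b i).2) ∧
    ∃ φ : Form, S.Has φ nz₀ (A.next P C' e l D).eu (A.next P C' e l D).lu ∧
      S.Near φ (π.xT 0) (A.next P C' e l D).Du

/-- The first points exist. -/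
def StartStep (π : Paths En T P) (S₀ : Bld En) (τ : ι → ℝ) (e l X₀ : ℝ) : Prop :=
  ∃ b : ι → Form × Form, ∀ i, NodeIn π S₀ (τ i) ⟨e, e, l, l, X₀, X₀⟩ (b i).1 (b i).2

variable {π : Paths En T P} [Fintype ι] {S₀ : Bld En} {τ : ι → ℝ}
  {C C' e l D X₀ nz₀ g : ℝ} {N : ℕ}

/-- All nodes, then the sweep. -/
theorem one_sweep (hN : NodeStep π S₀ τ C N) (hS : SweepStep π S₀ τ C C' e l D nz₀)
    (S : Bld En) (b : ι → Form × Form) (A : Lev) (hext : S₀.Ext S) (hok : S.Ok) (hA : A.Ok P)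
    (hb : ∀ i, NodeIn π S (τ i) A (b i).1 (b i).2)
    (hbud : S.len + Fintype.card ι * N ≤ S.circ.T) :
    ∃ S', S.Ext S' ∧ S'.Ok ∧ S'.len ≤ S.len + Fintype.card ι * N ∧
      (∃ b' : ι → Form × Form,
        ∀ i, NodeIn π S' (τ i) (A.next P C' e l D) (b' i).1 (b' i).2) ∧
      ∃ φ : Form, S'.Has φ nz₀ (A.next P C' e l D).eu (A.next P C' e l D).lu ∧
        S'.Near φ (π.xT 0) (A.next P C' e l D).Du := by
  obtain ⟨S', f, h1, h2, h3, h4⟩ := Bld.push_fintype (S := S) (β := Form × Form × Form) N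
    (fun i W x => NodeOut π W (τ i) A C x.1 x.2.1 x.2.2) (fun i W W' x hW h => h.of_ext hW)
    (fun i W hW hWok hWlen => by
      obtain ⟨W', fb, fB, fS, e1, e2, e3, e4⟩ :=
        hN i W A (b i).1 (b i).2 (hext.trans hW) hWok hA ((hb i).of_ext hW) hWlen
      exact ⟨W', (fb, fB, fS), e1, e2, e3, e4⟩) hok hbud
  obtain ⟨h5, h6⟩ := hS S' A f (hext.trans h1) h2 hA h4
  exact ⟨S', h1, h2, h3, h5, h6⟩

/-- The pass: `k + 1` sweeps. -/
theorem sweeps (h : Loop P C' e l D X₀ g) (hok : S₀.Ok) (hN : NodeStep π S₀ τ C N)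
    (hS : SweepStep π S₀ τ C C' e l D nz₀) (h0 : StartStep π S₀ τ e l X₀) (k : ℕ)
    (hbud : S₀.len + (k + 1) * (Fintype.card ι * N) ≤ S₀.circ.T) :
    ∃ (S : Bld En) (φ : Form), S₀.Ext S ∧ S.Ok ∧
      S.len ≤ S₀.len + (k + 1) * (Fintype.card ι * N) ∧
      S.Has φ nz₀ (2 * (e + C' * sweepSrc P.t P.ρ P.G P.θ P.sx P.sy P.Lx P.Ly)) (2 * l) ∧
      S.Near φ (π.xT 0)
        (2 * distSrc P C' D + (160 * C' * g) ^ (k + 1) * X₀) := by
  obtain ⟨b₀, hb₀⟩ := h0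
  rw [Nat.succ_mul] at hbud ⊢
  have hsx := sweepSrc_nonneg h.t_nn h.ρ_pos.le h.G_nn h.θ_nn h.sx_nn h.sy_nn
    (zero_le_one.trans h.Lx_ge) (zero_le_one.trans h.Ly_ge)
  have hC := mul_nonneg h.C_nn hsx
  have hw : (⟨e, e, l, l, X₀, X₀⟩ : Lev).Within
      (2 * (e + C' * sweepSrc P.t P.ρ P.G P.θ P.sx P.sy P.Lx P.Ly)) (2 * l) X₀ :=
    ⟨⟨h.e_nn, by linarith [h.e_nn]⟩, ⟨h.e_nn, by linarith [h.e_nn]⟩,
      ⟨h.l_nn, by linarith [h.l_nn]⟩, ⟨h.l_nn, by linarith [h.l_nn]⟩,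
      ⟨h.X_nn, le_rfl⟩, ⟨h.X_nn, le_rfl⟩⟩
  obtain ⟨S, b, A, hext, hSok, hlen, hb, hAok, hA⟩ := loop_states h (Fintype.card ι * N)
    (fun S (b : ι → Form × Form) A => ∀ i, NodeIn π S (τ i) A (b i).1 (b i).2) hok hb₀ hw
    (fun S b A hext hSok hb hAok hbud' => by
      obtain ⟨S', h1, h2, h3, ⟨b', hb'⟩, -⟩ := one_sweep hN hS S b A hext hSok hAok hb hbud'
      exact ⟨S', b', h1, h2, h3, hb'⟩) k (by omega)
  obtain ⟨S', h1, h2, h3, -, φ, hφ, hn⟩ :=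
    one_sweep hN hS S b A hext hSok hAok hb (by rw [hext.T]; omega)
  have hnext := hA.next (e := e) (l := l) (D := D) h.gains h.t_nn h.ρ_pos.le h.G_nn h.θ_nn
    h.Lx_ge h.Ly_ge h.sx_nn h.sy_nn h.def_nn h.C_nn h.small h.e_nn h.l_nn h.D_nn le_rfl le_rfl
  refine ⟨S', φ, hext.trans h1, h2, by omega, hφ.mono le_rfl hnext.eu.2 hnext.lu.2,
    fun V hV c => (hn V hV c).trans (ENNReal.ofReal_le_ofReal
      (mul_le_mul_of_nonneg_right ?_ (by positivity)))⟩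
  obtain ⟨hγ0, hγ⟩ := h.rate
  exact hnext.Du.2.trans (distBound_le h.src_nn hγ0 hγ h.X_nn (k + 1))

end

end P347.Zero
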