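import Vale.Agent.P347.Zero.Build
import Vale.Agent.P347.Zero.Window
import Vale.Agent.P347.Zero.Flow

/-!
# P347: one window in a circuit

From forms for a point and for a direction, a window of score gates gives a form for the derivative
of the score at the point applied to the direction: with its blur, error and Lipschitz constant,
and with its distance in mean square to the exact derivative.
-/

namespace P347.Zero

open MeasureTheory ProbabilityTheory Set
open scoped ENNReal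

noncomputable section

variable {d : ℕ}

/-- A pointwise bound by two functions passes to mean squares. -/
theorem eLpNorm_le_two {α : Type} [MeasurableSpace α] {μ : Measure α} {f g h : α → Space d}
    {a b A B : ℝ} (ha : 0 ≤ a) (hb : 0 ≤ b) (hA : 0 ≤ A) (hB : 0 ≤ B)
    (hg : AEStronglyMeasurable g μ) (hh : AEStronglyMeasurable h μ)
    (hf : ∀ x, ‖f x‖ ≤ a * ‖g x‖ + b * ‖h x‖) (hgA : eLpNorm g 2 μ ≤ ENNReal.ofReal A)
    (hhB : eLpNorm h 2 μ ≤ ENNReal.ofReal B) :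
    eLpNorm f 2 μ ≤ ENNReal.ofReal (a * A + b * B) := by
  refine (eLpNorm_mono_real (g := fun x => a * ‖g x‖ + b * ‖h x‖) hf).trans ?_
  have e : (fun x => a * ‖g x‖ + b * ‖h x‖) = a • (fun x => ‖g x‖) + b • fun x => ‖h x‖ := by
    funext x; simp
  rw [e, ENNReal.ofReal_add (mul_nonneg ha hA) (mul_nonneg hb hB), ENNReal.ofReal_mul ha,
    ENNReal.ofReal_mul hb]
  refine (eLpNorm_add_le (hg.norm.const_smul a) (hh.norm.const_smul b) one_le_two).trans
    (add_le_add ?_ ?_)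
  · rw [eLpNorm_const_smul, eLpNorm_norm g (p := 2), Real.enorm_eq_ofReal ha]
    exact mul_le_mul' le_rfl hgA
  · rw [eLpNorm_const_smul, eLpNorm_norm h (p := 2), Real.enorm_eq_ofReal hb]
    exact mul_le_mul' le_rfl hhB

/-- A pointwise affine bound passes to mean squares. -/
theorem eLpNorm_le_affine {α : Type} [MeasurableSpace α] {μ : Measure α} [IsProbabilityMeasure μ]
    {f g : α → Space d} {a b B : ℝ} (ha : 0 ≤ a) (hb : 0 ≤ b) (hB : 0 ≤ B)
    (hg : AEStronglyMeasurable g μ) (hf : ∀ x, ‖f x‖ ≤ a + b * ‖g x‖)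
    (hgB : eLpNorm g 2 μ ≤ ENNReal.ofReal B) :
    eLpNorm f 2 μ ≤ ENNReal.ofReal (a + b * B) := by
  refine (eLpNorm_mono_real (g := fun x => a + b * ‖g x‖) hf).trans ?_
  have e : (fun x => a + b * ‖g x‖) = (fun _ => a) + b • fun x => ‖g x‖ := by
    funext x; simp
  rw [e, ENNReal.ofReal_add ha (mul_nonneg hb hB), ENNReal.ofReal_mul hb]
  refine (eLpNorm_add_le aestronglyMeasurable_const (hg.norm.const_smul b) one_le_two).trans
    (add_le_add ?_ ?_)
  · rw [eLpNorm_const _ two_ne_zero (NeZero.ne μ)]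
    simp [Real.enorm_eq_ofReal ha]
  · rw [eLpNorm_const_smul, eLpNorm_norm g (p := 2), Real.enorm_eq_ofReal hb]
    exact mul_le_mul' le_rfl hgB

namespace Bld

variable {En : Env d}

theorem eval_combo (S : Bld En) (V : Space d → ℝ) (c : Space d) (x : En.X) (ξ : ℕ → Space d)
    {ι : Type} (s : Finset ι) (a : ι → ℝ) (φ : ι → Form) :
    S.eval V c x ξ (∑ i ∈ s, a i • φ i) = ∑ i ∈ s, a i • S.eval V c x ξ (φ i) := by
  classical
  induction s using Finset.induction_on with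
  | empty => simp [eval_zero]
  | insert i s hi ih => simp only [Finset.sum_insert hi, eval_add, eval_smul, ih]

/-- The size of a point moved along a direction. -/
theorem sized_move {S : Bld En} {φ y : Form} {A B : ℝ} (hA : 0 ≤ A) (hB : 0 ≤ B) {s l : ℝ}
    (hl : |s| ≤ l) (hφ : S.Sized φ A) (hy : S.Sized y B) : S.Sized (φ + s • y) (A + l * B) := by
  intro V hV c
  have hU : 0 ≤ √(d : ℝ) + ‖c‖ := by positivity
  have h1 := hφ V hV c
  have h2 := hy V hV c
  simp only [sub_zero] at h1 h2 ⊢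
  refine (eLpNorm_le_two zero_le_one (le_trans (abs_nonneg s) hl) (mul_nonneg hA hU)
    (mul_nonneg hB hU) (S.measurable_evalFun c hV φ).aestronglyMeasurable
    (S.measurable_evalFun c hV y).aestronglyMeasurable (fun p => ?_) h1 h2).trans
    (ENNReal.ofReal_le_ofReal (le_of_eq (by ring)))
  simp only [evalFun, eval_add, eval_smul, one_mul]
  refine (norm_add_le _ _).trans (add_le_add le_rfl ?_)
  rw [norm_smul, Real.norm_eq_abs]
  exact mul_le_mul_of_nonneg_right hl (norm_nonneg _)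

/-- The size of a score gate. -/
theorem sized_score {S S' : Bld En} (hext : S.Ext S') {φ ψ : Form} (hb : φ.Below S.len) {r Z : ℝ}
    (hr : 0 ≤ r) (hr1 : r ≤ 1) (hZ : 0 ≤ Z) (hφ : S.Sized φ Z)
    (he : ∀ V c x ξ, S'.eval V c x ξ ψ = score V r (S.eval V c x ξ φ)) :
    S'.Sized ψ (4 + 2 * Z) := by
  intro V hV c
  have hU : 0 ≤ √(d : ℝ) + ‖c‖ := by positivity
  have h1 : S'.Sized φ Z := hext.near hb hφ
  have h1' := h1 V hV c
  simp only [sub_zero] at h1' ⊢
  refine (eLpNorm_le_affine (a := 4 * √(d : ℝ)) (by positivity) zero_le_two (mul_nonneg hZ hU)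
    (S'.measurable_evalFun c hV φ).aestronglyMeasurable (fun p => ?_) h1').trans
    (ENNReal.ofReal_le_ofReal ?_)
  · simp only [evalFun, he, hext.eval V c p.1 (extFun p.2) hb]
    refine (norm_score_le hV hr _).trans ?_
    have : √((d : ℝ) * r) ≤ √d := Real.sqrt_le_sqrt (mul_le_of_le_one_right (by positivity) hr1)
    linarith
  · nlinarith [norm_nonneg c]

/-- What a window of `K` iterations leaves. -/
structure WindowState (S S' : Bld En) (φz φξ : Form) (r l : ℝ) (M K : ℕ)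
    (y : ℕ → Fin M → Form) (AY EY LY SY : ℝ) : Prop where
  ext : S.Ext S'
  ok : S'.Ok
  len : S'.len ≤ S.len + K * M
  start : ∀ i, y 0 i = φξ
  has : ∀ k, k ≤ K → ∀ i, S'.Has (y k i) AY EY LY ∧ S'.Sized (y k i) SY
  step : ∀ k, k < K → ∀ i V c x ξ, S'.eval V c x ξ (y (k + 1) i) = S'.eval V c x ξ φξ
    + ∑ j, windowWeight M l (node M i) j • score V (r - windowTime l (node M j) ^ 2)
      (S'.eval V c x ξ φz + windowTime l (node M j) • S'.eval V c x ξ (y k j))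

/-- One gate of the window. -/
theorem window_gate {S : Bld En} (hok : S.Ok) (hlen : S.len < S.circ.T) {φz y : Form}
    {az ez lz ay ey ly sz sy : ℝ} (hz : S.Has φz az ez lz) (hy : S.Has y ay ey ly)
    (h0 : 0 ≤ ez ∧ 0 ≤ lz ∧ 0 ≤ ey ∧ 0 ≤ ly ∧ 0 ≤ sz ∧ 0 ≤ sy)
    (hsz : S.Sized φz sz) (hsy : S.Sized y sy) {s l r δ L ρm τm : ℝ} (hs : |s| ≤ l) (hay : 0 ≤ ay)
    (hblur : az + l * ay ≤ τm) (hr : 0 ≤ r) (hr1 : r ≤ 1) (hδ : 0 ≤ δ) (hL : 0 ≤ L)
    (horc : ∃ (O : Orc d) (tgt ρ : ℝ), τm ≤ tgt ∧ 0 < tgt ∧ |ρ| ≤ ρm ∧ O.A.size ≤ S.qb ∧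
      ∀ V, Quarter.InClass V → Valid O.P O.A V r tgt ρ δ L) :
    ∃ (S' : Bld En) (g : Form), S.Ext S' ∧ S'.Ok ∧ S'.len = S.len + 1 ∧
      S'.Has g (√(S.circ.T : ℝ) * ρm) (δ * (1 + (sz + l * sy)) + L * (ez + l * ey))
        (L * (lz + l * ly)) ∧
      S'.Sized g (4 + 2 * (sz + l * sy)) ∧
      ∀ V c x ξ, S'.eval V c x ξ g
        = score V r (S.eval V c x ξ φz + s • S.eval V c x ξ y) := by
  obtain ⟨he, hlp, hey, hly, hsz0, hsy0⟩ := h0
  have hl : 0 ≤ l := le_trans (abs_nonneg s) hs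
  obtain ⟨O, tgt, ρ, h1, h2, h3, h4, h5⟩ := horc
  have harg : S.Has (φz + s • y) (az + l * ay) (ez + l * ey) (lz + l * ly) :=
    (hz.add hok (hy.smul s)).mono
      (add_le_add le_rfl (mul_le_mul_of_nonneg_right hs hay))
      (add_le_add le_rfl (mul_le_mul_of_nonneg_right hs hey))
      (add_le_add le_rfl (mul_le_mul_of_nonneg_right hs hly))
  have hS := sized_move hsz0 hsy0 hs hsz hsy
  obtain ⟨S', g, hext, hok', hlen', hhas, hev⟩ := push_score hok hlen harg (by positivity)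
    (by positivity) (by positivity) hS (r := r) h2 (hblur.trans h1) O hδ hL h5 h4
  refine ⟨S', g, hext, hok', hlen',
    hhas.mono (mul_le_mul_of_nonneg_left h3 (Real.sqrt_nonneg _)) le_rfl le_rfl,
    sized_score hext harg.below hr hr1 (by positivity) hS hev, fun V c x ξ => ?_⟩
  rw [hev, eval_add, eval_smul]

/-- The bounds used inside one window. -/
structure WinCtx (S : Bld En) (φz φξ : Form) (M : ℕ)
    (r l δ L ρm τm C az ez lz sz AY EY LY SY Eg Lg SG : ℝ) : Prop where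
  r_le : r ≤ 1
  l_pos : 0 < l
  l_le : l ≤ √r / 2
  δ_nn : 0 ≤ δ
  L_nn : 0 ≤ L
  orc : ∀ r', 3 / 4 * r ≤ r' → r' ≤ r → ∃ (O : Orc d) (tgt ρ : ℝ), τm ≤ tgt ∧ 0 < tgt ∧
    |ρ| ≤ ρm ∧ O.A.size ≤ S.qb ∧ ∀ V, Quarter.InClass V → Valid O.P O.A V r' tgt ρ δ L
  weights : ∀ c ∈ Icc (0 : ℝ) 1, ∑ j, |windowWeight M l c j| ≤ C * l
  hz : S.Has φz az ez lz
  hzs : S.Sized φz sz
  nn : 0 ≤ ez ∧ 0 ≤ lz ∧ 0 ≤ sz ∧ 0 ≤ AY ∧ 0 ≤ EY ∧ 0 ≤ LY ∧ 0 ≤ SY ∧ 0 ≤ ρm ∧ 0 ≤ Eg ∧ 0 ≤ Lg ∧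
    0 ≤ SG
  hξ : S.Has φξ (AY - C * l * (√(S.circ.T : ℝ) * ρm)) (EY - C * l * Eg) (LY - C * l * Lg)
  hξs : S.Sized φξ (SY - C * l * SG)
  C_nn : 0 ≤ C
  ξs_nn : 0 ≤ SY - C * l * SG
  blur : az + l * AY ≤ τm
  err : δ * (1 + (sz + l * SY)) + L * (ez + l * EY) ≤ Eg
  lips : L * (lz + l * LY) ≤ Lg
  size : 4 + 2 * (sz + l * SY) ≤ SG

variable {S : Bld En} {φz φξ : Form} {M : ℕ}
  {r l δ L ρm τm C az ez lz sz AY EY LY SY Eg Lg SG : ℝ}

theorem window_time (hl : 0 < l) (hlr : l ≤ √r / 2) {c : ℝ} (hc : c ∈ Icc (0 : ℝ) 1) :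
    |windowTime l c| ≤ l ∧ 0 ≤ r - windowTime l c ^ 2 ∧
      3 / 4 * r ≤ r - windowTime l c ^ 2 ∧ r - windowTime l c ^ 2 ≤ r := by
  have ht := windowTime_mem hl.le hc
  obtain ⟨-, h1, h2⟩ := window_slab hl hlr ht
  exact ⟨abs_le.2 ht, by linarith, h2, by linarith [sq_nonneg (windowTime l c)]⟩

/-- Gates at given fractions of the window. -/
theorem window_gates (hC : WinCtx S φz φξ M r l δ L ρm τm C az ez lz sz AY EY LY SY Eg Lg SG)
    {S₁ : Bld En} {m : ℕ} (ct : Fin m → ℝ) (hct : ∀ i, ct i ∈ Icc (0 : ℝ) 1)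
    (h1 : S.Ext S₁) (hok1 : S₁.Ok) (hb1 : S₁.len + m ≤ S₁.circ.T)
    (y : Fin m → Form) (hy : ∀ i, S₁.Has (y i) AY EY LY ∧ S₁.Sized (y i) SY) :
    ∃ (S₂ : Bld En) (g : Fin m → Form), S₁.Ext S₂ ∧ S₂.Ok ∧ S₂.len ≤ S₁.len + m ∧
      ∀ j, S₂.Has (g j) (√(S.circ.T : ℝ) * ρm) Eg Lg ∧ S₂.Sized (g j) SG ∧
        ∀ V c x ξ, S₂.eval V c x ξ (g j) = score V (r - windowTime l (ct j) ^ 2)
          (S₂.eval V c x ξ φz + windowTime l (ct j) • S₂.eval V c x ξ (y j)) := by
  obtain ⟨hez, hlz, hsz, hAY, hEY, hLY, hSY, -, -, -, -⟩ := hC.nn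
  obtain ⟨S₂, g, e1, e2, e3, e4⟩ := push_all m 1 (fun j T g => S₁.Ext T ∧
      T.Has g (√(S.circ.T : ℝ) * ρm) Eg Lg ∧ T.Sized g SG ∧
        ∀ V c x ξ, T.eval V c x ξ g = score V (r - windowTime l (ct j) ^ 2)
          (T.eval V c x ξ φz + windowTime l (ct j) • T.eval V c x ξ (y j)))
    (by
      rintro i A B g hAB ⟨p0, p1, p2, p4⟩
      refine ⟨p0.trans hAB, hAB.has p1, hAB.near p1.below p2, fun V c x ξ => ?_⟩
      rw [hAB.eval V c x ξ p1.below, hAB.eval V c x ξ (hC.hz.below.mono (h1.le.trans p0.le)),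
        hAB.eval V c x ξ ((hy i).1.below.mono p0.le)]
      exact p4 V c x ξ)
    (fun i A hA hAok hAlen => by
      obtain ⟨hm1, hm0, hm2, hm3⟩ := window_time hC.l_pos hC.l_le (hct i)
      obtain ⟨O, tg, ρ, q1, q2, q3, q4, q5⟩ := hC.orc _ hm2 hm3
      have hzA := (h1.trans hA).has hC.hz
      have hyA := hA.has (hy i).1
      obtain ⟨B, g, hB, hBok, hBlen, hBhas, hBs, hBev⟩ := window_gate hAok (by omega) hzA hyA
        ⟨hez, hlz, hEY, hLY, hsz, hSY⟩ ((h1.trans hA).near hC.hz.below hC.hzs)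
        (hA.near (hy i).1.below (hy i).2) hm1 hAY hC.blur hm0 (hm3.trans hC.r_le) hC.δ_nn hC.L_nn
        ⟨O, tg, ρ, q1, q2, q3, by rw [(h1.trans hA).qb]; exact q4, q5⟩
      rw [(h1.trans hA).T] at hBhas
      refine ⟨B, g, hB, hBok, hBlen.le, hA.trans hB, hBhas.mono le_rfl hC.err hC.lips, ?_,
        fun V c x ξ => ?_⟩
      · exact fun V hV c => (hBs V hV c).trans (ENNReal.ofReal_le_ofReal
          (mul_le_mul_of_nonneg_right hC.size (by positivity)))
      · rw [hBev, hB.eval V c x ξ hzA.below, hB.eval V c x ξ hyA.below])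
    hok1 (by omega)
  exact ⟨S₂, g, e1, e2, by omega, fun j => ⟨(e4 j).2.1, (e4 j).2.2.1, (e4 j).2.2.2⟩⟩

/-- The direction plus a combination of gate values. -/
theorem window_combine (hC : WinCtx S φz φξ M r l δ L ρm τm C az ez lz sz AY EY LY SY Eg Lg SG)
    {S₂ : Bld En} (h2 : S.Ext S₂) (hok2 : S₂.Ok) {c : ℝ} (hc : c ∈ Icc (0 : ℝ) 1)
    (g : Fin M → Form)
    (hg : ∀ j, S₂.Has (g j) (√(S.circ.T : ℝ) * ρm) Eg Lg ∧ S₂.Sized (g j) SG) :
    S₂.Has (φξ + ∑ j, windowWeight M l c j • g j) AY EY LY ∧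
      S₂.Sized (φξ + ∑ j, windowWeight M l c j • g j) SY := by
  obtain ⟨-, -, -, -, -, -, -, hρm, hEg, hLg, hSG⟩ := hC.nn
  have hW := hC.weights c hc
  have hs := Bld.Has.sum hok2 Finset.univ (windowWeight M l c) g
    (fun _ => √(S.circ.T : ℝ) * ρm) (fun _ => Eg) (fun _ => Lg) fun j _ => (hg j).1
  simp only [← Finset.sum_mul] at hs
  refine ⟨((h2.has hC.hξ).add hok2 hs).mono ?_ ?_ ?_, fun V hV z => ?_⟩
  · linarith [mul_le_mul_of_nonneg_right hW (mul_nonneg (Real.sqrt_nonneg (S.circ.T : ℝ)) hρm)]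
  · linarith [mul_le_mul_of_nonneg_right hW hEg]
  · linarith [mul_le_mul_of_nonneg_right hW hLg]
  · have hU : 0 ≤ √(d : ℝ) + ‖z‖ := by positivity
    have h1 := h2.near hC.hξ.below hC.hξs V hV z
    simp only [sub_zero] at h1 ⊢
    have e : S₂.evalFun V z (φξ + ∑ j, windowWeight M l c j • g j) =
        S₂.evalFun V z φξ + fun p => ∑ j, windowWeight M l c j • S₂.evalFun V z (g j) p := by
      funext p
      simp only [Pi.add_apply, evalFun, eval_add, eval_combo]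
    rw [e]
    refine (eLpNorm_add_le (S₂.measurable_evalFun z hV φξ).aestronglyMeasurable
      (Finset.aestronglyMeasurable_fun_sum _ fun j _ =>
        ((S₂.measurable_evalFun z hV (g j)).fun_const_smul
          (c := windowWeight M l c j)).aestronglyMeasurable) one_le_two).trans ?_
    refine (add_le_add h1 (eLpNorm_weighted_sum_le _
      (fun j => (S₂.measurable_evalFun z hV (g j)).aestronglyMeasurable)
      (B := fun _ => SG * (√d + ‖z‖)) (fun _ => mul_nonneg hSG hU) fun j => by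
        simpa only [sub_zero] using (hg j).2 V hV z)).trans ?_
    rw [← Finset.sum_mul, ← ENNReal.ofReal_add (mul_nonneg hC.ξs_nn hU)
      (mul_nonneg (Finset.sum_nonneg fun j _ => abs_nonneg _) (mul_nonneg hSG hU))]
    refine ENNReal.ofReal_le_ofReal ?_
    linarith [mul_le_mul_of_nonneg_right hW (mul_nonneg hSG hU)]

/-- The iterates of the window. -/
theorem window_iterates (hC : WinCtx S φz φξ M r l δ L ρm τm C az ez lz sz AY EY LY SY Eg Lg SG)
    (hok : S.Ok) (hbase : S.Has φξ AY EY LY ∧ S.Sized φξ SY) :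
    ∀ k, S.len + k * M ≤ S.circ.T → ∃ (S₁ : Bld En) (y : ℕ → Fin M → Form),
      WindowState S S₁ φz φξ r l M k y AY EY LY SY := by
  intro k
  induction k with
  | zero =>
    exact fun _ => ⟨S, fun _ _ => φξ, Ext.refl S, hok, by simp, fun _ => rfl,
      fun _ _ _ => hbase, fun k hk => absurd hk (Nat.not_lt_zero k)⟩
  | succ k ih =>
    intro hk
    rw [Nat.succ_mul] at hk
    obtain ⟨S₁, y, hw⟩ := ih (by omega)
    have hlen1 := hw.len
    have hnode : ∀ j, node M j ∈ Icc (0 : ℝ) 1 := fun j => Ioc_subset_Icc_self (node_mem _ _)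
    obtain ⟨S₂, g, h12, hok2, hlen2, hg⟩ := window_gates hC (node M) hnode hw.ext hw.ok
      (by rw [hw.ext.T]; omega) (y k) (hw.has k le_rfl)
    have hext2 : S.Ext S₂ := hw.ext.trans h12
    refine ⟨S₂, fun m => if m = k + 1 then
      (fun i => φξ + ∑ j, windowWeight M l (node M i) j • g j) else y m, hext2, hok2,
      by rw [Nat.succ_mul]; omega, fun i => by simpa using hw.start i, fun m hm i => ?_,
      fun m hm i V c x ξ => ?_⟩
    · by_cases he : m = k + 1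
      · subst he
        simp only [if_pos]
        exact window_combine hC hext2 hok2 (hnode i) g fun j => ⟨(hg j).1, (hg j).2.1⟩
      · simp only [if_neg he]
        obtain ⟨p1, p2⟩ := hw.has m (by omega) i
        exact ⟨h12.has p1, h12.near p1.below p2⟩
    · have hne : m ≠ k + 1 := by omega
      simp only [if_neg hne]
      by_cases he : m = k
      · subst he
        simp only [if_pos, eval_add, eval_combo]
        exact congrArg _ (Finset.sum_congr rfl fun j _ => by rw [(hg j).2.2])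
      · have hm' : m < k := by omega
        simp only [if_neg (show m + 1 ≠ k + 1 by omega)]
        rw [h12.eval V c x ξ (hw.has (m + 1) (by omega) i).1.below,
          h12.eval V c x ξ (hC.hξ.below.mono hw.ext.le),
          h12.eval V c x ξ (hC.hz.below.mono hw.ext.le), hw.step m hm' i V c x ξ]
        exact congrArg _ (Finset.sum_congr rfl fun j _ => by
          rw [h12.eval V c x ξ (hw.has m hm'.le j).1.below])

/-- One step of the window at approximate point, direction and arguments. -/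
theorem norm_step_sub_le {V : Space d → ℝ} (hreg : Regular V) {M : ℕ} {r l C c : ℝ} (hl : 0 < l) (hlr : l ≤ √r / 2)
    (hW : ∑ j, |windowWeight M l c j| ≤ C * l) (hC : 0 ≤ C) (hCl : C * l ^ 2 ≤ 1 / 4)
    (z z' x x' : Space d) (u u' : Fin M → Space d) (hu : ∀ j, ‖u j - u' j‖ ≤ ‖x - x'‖) :
    ‖(x + ∑ j, windowWeight M l c j • score V (r - windowTime l (node M j) ^ 2)
        (z + windowTime l (node M j) • u j)) - windowStep V r l M c z' x' u'‖
      ≤ 2 * ‖x - x'‖ + 2 * C * l * ‖z - z'‖ := by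
  set T := ∑ j, |windowWeight M l c j|
  have hpt : ∀ j, ‖score V (r - windowTime l (node M j) ^ 2) (z + windowTime l (node M j) • u j)
      - windowGate V r l M j z' (u' j)‖ ≤ 2 * (‖z - z'‖ + l * ‖x - x'‖) := by
    intro j
    obtain ⟨h1, h2, -, -⟩ := window_time hl hlr (Ioc_subset_Icc_self (node_mem M j))
    refine ((hreg.lip _ h2).norm_sub_le _ _).trans ?_
    rw [NNReal.coe_ofNat]
    refine mul_le_mul_of_nonneg_left ?_ zero_le_two
    rw [show z + windowTime l (node M j) • u j - (z' + windowTime l (node M j) • u' j)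
      = (z - z') + windowTime l (node M j) • (u j - u' j) by rw [smul_sub]; abel]
    refine (norm_add_le _ _).trans (add_le_add le_rfl ?_)
    rw [norm_smul, Real.norm_eq_abs]
    exact mul_le_mul h1 (hu j) (norm_nonneg _) hl.le
  rw [windowStep, add_sub_add_comm, ← Finset.sum_sub_distrib]
  refine (norm_add_le _ _).trans ?_
  have hs : ‖∑ j, (windowWeight M l c j • score V (r - windowTime l (node M j) ^ 2)
        (z + windowTime l (node M j) • u j) - windowWeight M l c j • windowGate V r l M j z' (u' j))‖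
      ≤ C * l * (2 * (‖z - z'‖ + l * ‖x - x'‖)) := by
    refine ((norm_sum_le _ _).trans (Finset.sum_le_sum fun j _ => ?_)).trans
      (le_of_eq_of_le (Finset.sum_mul _ _ _).symm (mul_le_mul_of_nonneg_right hW
        (show 0 ≤ 2 * (‖z - z'‖ + l * ‖x - x'‖) by positivity)))
    rw [← smul_sub, norm_smul, Real.norm_eq_abs]
    exact mul_le_mul_of_nonneg_left (hpt j) (abs_nonneg _)
  have hq := mul_le_mul_of_nonneg_right hCl (norm_nonneg (x - x'))
  refine (add_le_add le_rfl hs).trans ?_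
  linarith [norm_nonneg (x - x')]

/-- The output of a window is near the derivative applied to the direction. -/
theorem window_near {N : ℕ} {a κ : Fin N → ℝ} {Cw : ℝ} {n : ℕ} (hCw : 0 ≤ Cw)
    (hκ : ∀ i, |κ i| ≤ 1)
    (hwin : ∀ (d : ℕ) (V : Space d → ℝ), Quarter.InClass V → Regular V →
      ∀ (r l : ℝ), r ≤ 1 → 0 < l → l ≤ √r / 2 → Cw * l ^ 2 ≤ 1 / 2 →
      ∀ W : Space d → ℝ → Space d → Space d, (∀ z, IsFlow V z r (W z)) →
      ∀ (Ω : Type) (_ : MeasurableSpace Ω) (μ : Measure Ω) (ν : Measure (Space d)),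
        IsProbabilityMeasure μ → IsProbabilityMeasure ν →
      ∀ zz ξ : Ω → Space d,
        MeasurePreserving (fun w => (zz w, ξ w)) μ (ν.prod (stdGaussian (Space d))) →
      ∀ (E e e' : ℝ), 0 ≤ E → 0 ≤ e → 0 ≤ e' → eLpNorm (score V r) 2 ν ≤ ENNReal.ofReal E →
      ∀ y : ℕ → Fin (n + 1) → Ω → Space d, (∀ k i, Measurable (y k i)) → (∀ i, y 0 i = ξ) →
        (∀ k i, eLpNorm (fun w => y (k + 1) i w - windowStep V r l (n + 1) (node (n + 1) i)
          (zz w) (ξ w) (fun j => y k j w)) 2 μ ≤ ENNReal.ofReal e) →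
      ∀ (k : ℕ) (o : Fin N → Ω → Space d), (∀ i, Measurable (o i)) →
        (∀ i, eLpNorm (fun w => o i w - windowStep V r l (n + 1) ((κ i + 1) / 2) (zz w) (ξ w)
          (fun j => y k j w)) 2 μ ≤ ENNReal.ofReal e) →
      ∀ T : Ω → Space d, Measurable T →
        eLpNorm (fun w => T w - l⁻¹ • ∑ i, a i •
          score V (r - (κ i * l) ^ 2) (zz w + (κ i * l) • o i w)) 2 μ ≤ ENNReal.ofReal e' →
        eLpNorm (fun w => T w - scoreD V r (zz w) (ξ w)) 2 μ ≤
          ENNReal.ofReal (Cw * ((Cw * l ^ 2) ^ k * (√d + E) + (l / √r) ^ n * √d + e) + e'))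
    {S₁ : Bld En} {φz φξ : Form} {r l C AY EY LY SY : ℝ} {K : ℕ} {y : ℕ → Fin (n + 1) → Form}
    (hw : WindowState S S₁ φz φξ r l (n + 1) K y AY EY LY SY)
    {S₃ : Bld En} (h13 : S₁.Ext S₃) (hbz : φz.Below S₁.len) (hbξ : φξ.Below S₁.len)
    {o : Fin N → Form} {ψ : Form}
    (hr1 : r ≤ 1) (hl : 0 < l) (hlr : l ≤ √r / 2) (hC : 0 ≤ C) (hCl : C * l ^ 2 ≤ 1 / 4)
    (hCwl : Cw * l ^ 2 ≤ 1 / 2)
    (hW : ∀ c ∈ Icc (0 : ℝ) 1, ∑ j, |windowWeight (n + 1) l c j| ≤ C * l)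
    (ho : ∀ i V c x ξ, S₃.eval V c x ξ (o i) = S₃.eval V c x ξ φξ
      + ∑ j, windowWeight (n + 1) l ((κ i + 1) / 2) j • score V
          (r - windowTime l (node (n + 1) j) ^ 2)
          (S₃.eval V c x ξ φz + windowTime l (node (n + 1) j) • S₃.eval V c x ξ (y K j)))
    (hψ : ∀ V c x ξ, S₃.eval V c x ξ ψ = l⁻¹ • ∑ i, a i • score V (r - (κ i * l) ^ 2)
      (S₃.eval V c x ξ φz + (κ i * l) • S₃.eval V c x ξ (o i)))
    {zzT ξT : Truth En} {Dz Dξ E : ℝ} (hDz : 0 ≤ Dz) (hDξ : 0 ≤ Dξ) (hE : 0 ≤ E)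
    (hnz : S₃.Near φz zzT Dz) (hnξ : S₃.Near φξ ξT Dξ)
    (hlaw : ∀ V, Quarter.InClass V → ∀ c : Space d, ∃ ν : Measure (Space d),
      IsProbabilityMeasure ν ∧ eLpNorm (score V r) 2 ν ≤ ENNReal.ofReal (E * (√d + ‖c‖)) ∧
      MeasurePreserving (fun p => (zzT V c p.1 (extFun p.2), ξT V c p.1 (extFun p.2)))
        S₃.idealLaw (ν.prod (stdGaussian (Space d)))) :
    S₃.Near ψ (fun V c x ξ => scoreD V r (zzT V c x ξ) (ξT V c x ξ))
      (Cw * ((Cw * l ^ 2) ^ K * (1 + E) + (l / √r) ^ n + (2 * Dξ + 2 * C * l * Dz))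
        + 2 * l⁻¹ * (∑ i, |a i|) * Dz) := by
  intro V hV c
  obtain ⟨ν, hν, hνE, hmp⟩ := hlaw V hV c
  have hreg : Regular V := regular score_spec hV
  have hsr : 0 < √r := by linarith
  have hr : 0 < r := Real.sqrt_pos.1 hsr
  obtain ⟨W, hW'⟩ : ∃ W : Space d → ℝ → Space d → Space d, ∀ z, IsFlow V z r (W z) := by
    choose W hW' _ using fun z => flow_spec d V hV z r hr hr1
    exact ⟨W, hW'⟩
  set U := √(d : ℝ) + ‖c‖
  have hU : 0 ≤ U := by positivity
  set zz := fun p : En.X × (Fin S₃.circ.T → Space d) => zzT V c p.1 (extFun p.2)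
  set ξξ := fun p : En.X × (Fin S₃.circ.T → Space d) => ξT V c p.1 (extFun p.2)
  have hzzm : Measurable zz := measurable_fst.comp hmp.measurable
  have hξm : Measurable ξξ := measurable_snd.comp hmp.measurable
  let Y : ℕ → Fin (n + 1) → En.X × (Fin S₃.circ.T → Space d) → Space d := fun k =>
    Nat.rec (fun _ => ξξ) (fun m prev i => if m + 1 ≤ K then S₃.evalFun V c (y (m + 1) i)
      else fun p => windowStep V r l (n + 1) (node (n + 1) i) (zz p) (ξξ p) fun j => prev j p) k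
  have hY0 : ∀ i, Y 0 i = ξξ := fun _ => rfl
  have hYs : ∀ m i, Y (m + 1) i = if m + 1 ≤ K then S₃.evalFun V c (y (m + 1) i)
      else fun p => windowStep V r l (n + 1) (node (n + 1) i) (zz p) (ξξ p) fun j => Y m j p :=
    fun _ _ => rfl
  have hYm : ∀ k i, Measurable (Y k i) := by
    intro k
    induction k with
    | zero => exact fun _ => hξm
    | succ k ih =>
      intro i
      rw [hYs]
      split_ifs
      · exact S₃.measurable_evalFun c hV _
      · exact measurable_windowStep hreg hl hlr _ _ hzzm hξm ih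
  set e := (2 * Dξ + 2 * C * l * Dz) * U
  have he : 0 ≤ e := by positivity
  have hzd := hnz V hV c
  have hξd := hnξ V hV c
  have hu : ∀ k, k ≤ K → ∀ p j, ‖S₃.evalFun V c (y k j) p - Y k j p‖
      ≤ ‖S₃.evalFun V c φξ p - ξξ p‖ := by
    intro k hk p j
    cases k with
    | zero => rw [hw.start j]; rfl
    | succ m => rw [hYs, if_pos hk, sub_self, norm_zero]; exact norm_nonneg _
  have hstep : ∀ (k : ℕ) (ck : ℝ), k ≤ K → ck ∈ Icc (0 : ℝ) 1 →
      eLpNorm (fun p => (S₃.evalFun V c φξ p + ∑ j, windowWeight (n + 1) l ck j • score V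
        (r - windowTime l (node (n + 1) j) ^ 2)
        (S₃.evalFun V c φz p + windowTime l (node (n + 1) j) • S₃.evalFun V c (y k j) p))
        - windowStep V r l (n + 1) ck (zz p) (ξξ p) fun j => Y k j p) 2 S₃.idealLaw
        ≤ ENNReal.ofReal e := by
    intro k ck hk hck
    refine (eLpNorm_le_two (a := 2) (b := 2 * C * l) (A := Dξ * U) (B := Dz * U) zero_le_two
      (by positivity) (by positivity) (by positivity)
      ((S₃.measurable_evalFun c hV φξ).sub hξm).aestronglyMeasurable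
      ((S₃.measurable_evalFun c hV φz).sub hzzm).aestronglyMeasurable
      (fun p => norm_step_sub_le hreg hl hlr (hW ck hck) hC hCl _ _ _ _ _ _ (hu k hk p))
      hξd hzd).trans (le_of_eq ?_)
    congr 1
    simp only [e]; ring
  have hY : ∀ k i, eLpNorm (fun p => Y (k + 1) i p - windowStep V r l (n + 1) (node (n + 1) i)
      (zz p) (ξξ p) fun j => Y k j p) 2 S₃.idealLaw ≤ ENNReal.ofReal e := by
    intro k i
    by_cases hk : k + 1 ≤ K
    · simp only [hYs, if_pos hk]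
      refine le_of_eq_of_le (congrArg (eLpNorm · 2 _) (funext fun p => ?_))
        (hstep k _ (by omega) (Ioc_subset_Icc_self (node_mem _ i)))
      have hyb : ∀ m, m ≤ K → ∀ j, (y m j).Below S₁.len := fun m hm j => (hw.has m hm j).1.below
      simp only [evalFun, h13.eval _ _ _ _ (hyb (k + 1) hk i), hw.step k hk i,
        h13.eval _ _ _ _ hbξ, h13.eval _ _ _ _ hbz,
        fun j => h13.eval V c p.1 (extFun p.2) (hyb k (by omega) j)]
    · simp only [hYs, if_neg hk, sub_self, eLpNorm_zero', zero_le]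
  have hct : ∀ i, (κ i + 1) / 2 ∈ Icc (0 : ℝ) 1 := fun i =>
    ⟨by linarith [(abs_le.1 (hκ i)).1], by linarith [(abs_le.1 (hκ i)).2]⟩
  have ho' : ∀ i, eLpNorm (fun p => S₃.evalFun V c (o i) p - windowStep V r l (n + 1)
      ((κ i + 1) / 2) (zz p) (ξξ p) fun j => Y K j p) 2 S₃.idealLaw ≤ ENNReal.ofReal e := fun i =>
    le_of_eq_of_le (congrArg (eLpNorm · 2 _) (funext fun p => by simp only [evalFun, ho i]))
      (hstep K _ le_rfl (hct i))
  have hT : eLpNorm (fun p => S₃.evalFun V c ψ p - l⁻¹ • ∑ i, a i • score V (r - (κ i * l) ^ 2)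
      (zz p + (κ i * l) • S₃.evalFun V c (o i) p)) 2 S₃.idealLaw
      ≤ ENNReal.ofReal (2 * l⁻¹ * (∑ i, |a i|) * Dz * U) := by
    refine (eLpNorm_le_two (a := 2 * l⁻¹ * (∑ i, |a i|)) (b := 0) (A := Dz * U) (B := Dz * U)
      (by positivity) le_rfl (by positivity) (by positivity)
      ((S₃.measurable_evalFun c hV φz).sub hzzm).aestronglyMeasurable
      ((S₃.measurable_evalFun c hV φz).sub hzzm).aestronglyMeasurable (fun p => ?_) hzd hzd).trans
      (le_of_eq (by congr 1; ring))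
    simp only [evalFun, hψ, ← smul_sub, ← Finset.sum_sub_distrib, zero_mul, add_zero, norm_smul,
      norm_inv, Real.norm_eq_abs, abs_of_pos hl]
    rw [show 2 * l⁻¹ * (∑ i, |a i|) * ‖(S₃.evalFun V c φz - zz) p‖
      = l⁻¹ * ∑ i, |a i| * (2 * ‖(S₃.evalFun V c φz - zz) p‖) by rw [← Finset.sum_mul]; ring]
    refine mul_le_mul_of_nonneg_left ((norm_sum_le _ _).trans (Finset.sum_le_sum fun i _ => ?_))
      (inv_nonneg.2 hl.le)
    rw [norm_smul, Real.norm_eq_abs]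
    refine mul_le_mul_of_nonneg_left ?_ (abs_nonneg _)
    have hκl : (κ i * l) ^ 2 ≤ r := by
      have h1 := pow_le_pow_left₀ hl.le hlr 2
      rw [div_pow, Real.sq_sqrt hr.le] at h1
      have h2 := mul_le_mul_of_nonneg_right ((sq_le_one_iff_abs_le_one (κ i)).2 (hκ i)) (sq_nonneg l)
      rw [mul_pow]; linarith
    refine ((hreg.lip _ (sub_nonneg.2 hκl)).norm_sub_le _ _).trans (le_of_eq ?_)
    rw [add_sub_add_right_eq_sub, NNReal.coe_ofNat]; rfl
  refine (hwin d V hV hreg r l hr1 hl hlr hCwl W hW' _ inferInstance S₃.idealLaw ν inferInstance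
    hν zz ξξ hmp (E * U) e _ (by positivity) he (by positivity) hνE Y hYm hY0 hY K
    (fun i => S₃.evalFun V c (o i)) (fun i => S₃.measurable_evalFun c hV _) ho'
    (S₃.evalFun V c ψ) (S₃.measurable_evalFun c hV _) hT).trans (ENNReal.ofReal_le_ofReal ?_)
  have h1 : √(d : ℝ) ≤ U := le_add_of_nonneg_right (norm_nonneg c)
  have h2 := mul_le_mul_of_nonneg_left h1 (show 0 ≤ Cw * ((Cw * l ^ 2) ^ K + (l / √r) ^ n) by positivity)
  simp only [e]
  linarith

/-- The inner bounds of a window fit: `sz` for the point, `sξ` for the direction. -/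
theorem window_fit {δ L l B ez eξ lz lξ sz sξ : ℝ} (hδ : 0 ≤ δ) (hL : 0 ≤ L) (hl : 0 ≤ l)
    (hez : 0 ≤ ez) (heξ : 0 ≤ eξ) (hlz : 0 ≤ lz) (hlξ : 0 ≤ lξ) (hsz : 0 ≤ sz) (hsξ : 0 ≤ sξ)
    (hq : B * l ^ 2 ≤ 1 / 4) (hqL : B * L * l ^ 2 ≤ 1 / 2) :
    sz + l * (sξ + B * l * (4 + 2 * (3 * (sz + l * sξ) + 2))) ≤ 3 * (sz + l * sξ) + 2 ∧
    δ * (1 + (sz + l * (sξ + B * l * (4 + 2 * (3 * (sz + l * sξ) + 2)))))
        + L * (ez + l * (eξ + B * l * (2 * (δ * (3 * (2 + (sz + l * sξ))) + L * (ez + l * eξ)))))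
      ≤ 2 * (δ * (3 * (2 + (sz + l * sξ))) + L * (ez + l * eξ)) ∧
    L * (lz + l * (lξ + B * l * (2 * (L * (lz + l * lξ))))) ≤ 2 * (L * (lz + l * lξ)) := by
  have hS : 0 ≤ sz + l * sξ := by positivity
  have h0 : sz + l * (sξ + B * l * (4 + 2 * (3 * (sz + l * sξ) + 2))) ≤ 3 * (sz + l * sξ) + 2 := by
    have h1 := mul_le_mul_of_nonneg_right hq
      (show (0 : ℝ) ≤ 4 + 2 * (3 * (sz + l * sξ) + 2) by positivity)
    linarith
  refine ⟨h0, ?_, ?_⟩
  · have h1 := mul_le_mul_of_nonneg_left h0 hδ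
    have h2 := mul_le_mul_of_nonneg_right hqL
      (show 0 ≤ 2 * (δ * (3 * (2 + (sz + l * sξ))) + L * (ez + l * eξ)) by positivity)
    nlinarith [mul_nonneg hδ hS]
  · have h2 := mul_le_mul_of_nonneg_right hqL (show 0 ≤ 2 * (L * (lz + l * lξ)) by positivity)
    linarith

/-- The output constants of a window fit. -/
theorem window_out {A Cw B C δ L l ez eξ sz Dz Dξ E : ℝ} {n K : ℕ} {r : ℝ} (hA : 0 ≤ A)
    (hCw : 0 ≤ Cw) (hB : 0 ≤ B) (hC0 : 0 ≤ C) (hCA : 6 * A + 2 * Cw ≤ C)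
    (hCD : Cw + 2 * A + 2 * Cw * B ≤ C) (hl : 0 < l) (hl2 : l ≤ 1 / 2) (hδ : 0 ≤ δ) (hL : 0 ≤ L)
    (hez : 0 ≤ ez) (heξ : 0 ≤ eξ) (hsz : 0 ≤ sz) (hDz : 0 ≤ Dz) (hDξ : 0 ≤ Dξ) (hE : 0 ≤ E) :
    A / l * (2 * (δ * (3 * (2 + sz)) + L * (ez + l * eξ)))
        ≤ C / l * (δ * (2 + sz) + L * (ez + l * eξ)) ∧
    Cw * ((Cw * l ^ 2) ^ K * (1 + E) + (l / √r) ^ n + (2 * Dξ + 2 * B * l * Dz))
        + 2 * l⁻¹ * A * Dz
      ≤ C * ((C * l ^ 2) ^ K * (1 + E) + (l / √r) ^ n + Dξ + Dz / l) := by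
  have hCw' : Cw ≤ C := by nlinarith [mul_nonneg hCw hB]
  refine ⟨?_, ?_⟩
  · have h1 : 6 * A * (δ * (2 + sz)) ≤ C * (δ * (2 + sz)) :=
      mul_le_mul_of_nonneg_right (by linarith) (by positivity)
    have h2 : 2 * A * (L * (ez + l * eξ)) ≤ C * (L * (ez + l * eξ)) :=
      mul_le_mul_of_nonneg_right (by linarith) (by positivity)
    rw [div_mul_eq_mul_div, div_mul_eq_mul_div]
    refine div_le_div_of_nonneg_right ?_ hl.le
    linarith
  · have e1 : (Cw * l ^ 2) ^ K ≤ (C * l ^ 2) ^ K :=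
      pow_le_pow_left₀ (by positivity) (mul_le_mul_of_nonneg_right hCw' (sq_nonneg l)) K
    have p1 : Cw * ((Cw * l ^ 2) ^ K * (1 + E)) ≤ C * ((C * l ^ 2) ^ K * (1 + E)) :=
      mul_le_mul hCw' (mul_le_mul_of_nonneg_right e1 (by linarith)) (by positivity) hC0
    have p2 : Cw * (l / √r) ^ n ≤ C * (l / √r) ^ n :=
      mul_le_mul_of_nonneg_right hCw' (pow_nonneg (div_nonneg hl.le (Real.sqrt_nonneg r)) n)
    have p3 : 2 * Cw * Dξ ≤ C * Dξ := mul_le_mul_of_nonneg_right (by linarith) hDξ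
    have hll : l ≤ l⁻¹ := by rw [inv_eq_one_div, le_div_iff₀ hl]; nlinarith
    have h1 : 2 * Cw * B * l * Dz ≤ 2 * Cw * B * l⁻¹ * Dz :=
      mul_le_mul_of_nonneg_right (mul_le_mul_of_nonneg_left hll (by positivity)) hDz
    have h2 : (2 * Cw * B + 2 * A) * (l⁻¹ * Dz) ≤ C * (l⁻¹ * Dz) :=
      mul_le_mul_of_nonneg_right (by linarith) (by positivity)
    rw [show Dz / l = l⁻¹ * Dz from div_eq_inv_mul _ _]
    linarith

end Bld

/-- A window in a circuit. -/
theorem tan_block (hT : TimeSpec) (hTan : TanSpec) (n : ℕ) :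
    ∃ (N : ℕ) (C : ℝ), 1 ≤ C ∧ ∀ (d : ℕ) (En : Env d) (S : Bld En), S.Ok →
      ∀ (r l δ L ρm τm : ℝ), r ≤ 1 → 0 < l → l ≤ √r / 2 → C * l ^ 2 ≤ 1 / 4 →
      C * L * l ^ 2 ≤ 1 / 2 → 0 ≤ δ → 0 ≤ L → 0 ≤ ρm →
      (∀ r', 3 / 4 * r ≤ r' → r' ≤ r → ∃ (O : Orc d) (tgt ρ : ℝ), τm ≤ tgt ∧ 0 < tgt ∧
        |ρ| ≤ ρm ∧ O.A.size ≤ S.qb ∧
        ∀ V, Quarter.InClass V → Valid O.P O.A V r' tgt ρ δ L) →
      ∀ K : ℕ, S.len + (K * (n + 1) + (n + 1) + N) ≤ S.circ.T →
      ∀ (φz φξ : Form) (az ez lz aξ eξ lξ sz sξ : ℝ), S.Has φz az ez lz → S.Has φξ aξ eξ lξ →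
      0 ≤ ez → 0 ≤ lz → 0 ≤ aξ → 0 ≤ eξ → 0 ≤ lξ → 0 ≤ sz → 0 ≤ sξ →
      az + l * (aξ + C * l * (√(S.circ.T : ℝ) * ρm)) ≤ τm →
      S.Sized φz sz → S.Sized φξ sξ →
      ∀ (zzT ξT : Bld.Truth En) (Dz Dξ E : ℝ), 0 ≤ Dz → 0 ≤ Dξ → 0 ≤ E →
      S.Near φz zzT Dz → S.Near φξ ξT Dξ →
      (∀ V, Quarter.InClass V → ∀ c : Space d, ∃ ν : Measure (Space d), IsProbabilityMeasure ν ∧
        eLpNorm (score V r) 2 ν ≤ ENNReal.ofReal (E * (√d + ‖c‖)) ∧
        MeasurePreserving (fun p => (zzT V c p.1 (extFun p.2), ξT V c p.1 (extFun p.2)))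
          S.idealLaw (ν.prod (stdGaussian (Space d)))) →
      ∃ (S' : Bld En) (ψ : Form), S.Ext S' ∧ S'.Ok ∧
        S'.len ≤ S.len + (K * (n + 1) + (n + 1) + N) ∧
        S'.Has ψ (C / l * (√(S.circ.T : ℝ) * ρm))
          (C / l * (δ * (2 + (sz + l * sξ)) + L * (ez + l * eξ))) (C / l * (L * (lz + l * lξ))) ∧
        S'.Near ψ (fun V c x ξ => scoreD V r (zzT V c x ξ) (ξT V c x ξ))
          (C * ((C * l ^ 2) ^ K * (1 + E) + (l / √r) ^ n + Dξ + Dz / l)) := by
  obtain ⟨N, a, κ, Cw, hCw, hκ, hwin⟩ := window_tan_error hT hTan n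
  set B : ℝ := 4 * (1 + basisSize (n + 1))
  set A : ℝ := ∑ i, |a i|
  have hB0 : 0 ≤ basisSize (n + 1) := (ruleSize_nonneg (n + 1) (intTo 1)).trans
    (ruleSize_intTo_le_basisSize (n + 1) ⟨zero_le_one, le_rfl⟩)
  have hB : 0 ≤ B := by positivity
  have hA : 0 ≤ A := by positivity
  set C : ℝ := max (max 1 B) (max (6 * A + 2 * Cw) (Cw + 2 * A + 2 * Cw * B))
  have hC1 : 1 ≤ C := le_max_of_le_left (le_max_left _ _)
  have hCB : B ≤ C := le_max_of_le_left (le_max_right _ _)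
  have hCA : 6 * A + 2 * Cw ≤ C := le_max_of_le_right (le_max_left _ _)
  have hCD : Cw + 2 * A + 2 * Cw * B ≤ C := le_max_of_le_right (le_max_right _ _)
  have hC0 : 0 ≤ C := by linarith
  refine ⟨N, C, hC1, ?_⟩
  intro d En S hok r l δ L ρm τm hr1 hl hlr hCl hCL hδ hL hρm horc K hbud φz φξ az ez lz aξ eξ lξ
    sz sξ hz hξ hez hlz haξ heξ hlξ hsz hsξ hblur hzs hξs zzT ξT Dz Dξ E hDz hDξ hE hnz hnξ hlaw
  have hl2 : l ≤ 1 / 2 := by linarith [Real.sqrt_le_one.2 hr1]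
  set sT := √(S.circ.T : ℝ) * ρm
  have hsT : 0 ≤ sT := by positivity
  set Eg := 2 * (δ * (3 * (2 + (sz + l * sξ))) + L * (ez + l * eξ)) with hEgd
  set Lg := 2 * (L * (lz + l * lξ)) with hLgd
  set SG := 4 + 2 * (3 * (sz + l * sξ) + 2) with hSGd
  have hS : 0 ≤ sz + l * sξ := by positivity
  have hEg : 0 ≤ Eg := by positivity
  have hLg : 0 ≤ Lg := by positivity
  have hSG : 0 ≤ SG := by positivity
  have hBl : B * l ≤ C * l := mul_le_mul_of_nonneg_right hCB hl.le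
  have hW : ∀ c ∈ Icc (0 : ℝ) 1, ∑ j, |windowWeight (n + 1) l c j| ≤ B * l := fun c hc => by
    refine (sum_abs_windowWeight_le _ hl.le hc).trans ?_
    simp only [B]
    nlinarith
  have hq : B * l ^ 2 ≤ 1 / 4 := le_trans (mul_le_mul_of_nonneg_right hCB (sq_nonneg l)) hCl
  have hqL : B * L * l ^ 2 ≤ 1 / 2 := le_trans (by gcongr) hCL
  obtain ⟨hsize, herr, hlips⟩ := Bld.window_fit hδ hL hl.le hez heξ hlz hlξ hsz hsξ hq hqL
  have hctx : Bld.WinCtx S φz φξ (n + 1) r l δ L ρm τm B az ez lz sz (aξ + B * l * sT)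
      (eξ + B * l * Eg) (lξ + B * l * Lg) (sξ + B * l * SG) Eg Lg SG := by
    refine ⟨hr1, hl, hlr, hδ, hL, horc, hW, hz, hzs, ⟨hez, hlz, hsz, by positivity, by positivity,
      by positivity, by positivity, hρm, hEg, hLg, hSG⟩, ?_, ?_, hB, by linarith, ?_, ?_, ?_, ?_⟩
    · simpa only [sT, add_sub_cancel_right] using hξ
    · simpa only [add_sub_cancel_right] using hξs
    · refine le_trans ?_ hblur
      gcongr
    · exact herr
    · exact hlips
    · simp only [hSGd] at hsize ⊢; linarith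
  have hbase : S.Has φξ (aξ + B * l * sT) (eξ + B * l * Eg) (lξ + B * l * Lg) ∧
      S.Sized φξ (sξ + B * l * SG) :=
    ⟨hξ.mono (le_add_of_nonneg_right (by positivity)) (le_add_of_nonneg_right (by positivity))
      (le_add_of_nonneg_right (by positivity)), fun V hV c => (hξs V hV c).trans
        (ENNReal.ofReal_le_ofReal (mul_le_mul_of_nonneg_right
          (le_add_of_nonneg_right (by positivity)) (by positivity)))⟩
  obtain ⟨S₁, y, hw⟩ := Bld.window_iterates hctx hok hbase K (by omega)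
  have hlen1 := hw.len
  have hT1 := hw.ext.T
  obtain ⟨S₂, g, h12, hok2, hlen2, hg⟩ := Bld.window_gates hctx (node (n + 1))
    (fun j => Ioc_subset_Icc_self (node_mem _ j)) hw.ext hw.ok (by omega) (y K) (hw.has K le_rfl)
  have h02 := hw.ext.trans h12
  have hct : ∀ i, (κ i + 1) / 2 ∈ Icc (0 : ℝ) 1 := fun i =>
    ⟨by linarith [(abs_le.1 (hκ i)).1], by linarith [(abs_le.1 (hκ i)).2]⟩
  set o : Fin N → Form := fun i =>
    φξ + ∑ j, windowWeight (n + 1) l ((κ i + 1) / 2) j • g j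
  have hos : ∀ i, S₂.Has (o i) (aξ + B * l * sT) (eξ + B * l * Eg) (lξ + B * l * Lg) ∧
      S₂.Sized (o i) (sξ + B * l * SG) := fun i =>
    Bld.window_combine hctx h02 hok2 (hct i) g fun j => ⟨(hg j).1, (hg j).2.1⟩
  obtain ⟨S₃, g', h23, hok3, hlen3, hg'⟩ := Bld.window_gates hctx (fun i => (κ i + 1) / 2) hct
    h02 hok2 (by rw [h02.T]; omega) o hos
  have h03 := h02.trans h23
  have h13 := h12.trans h23
  have hψ := Bld.Has.sum hok3 Finset.univ (fun i => l⁻¹ * a i) g' (fun _ => sT) (fun _ => Eg)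
    (fun _ => Lg) fun i _ => (hg' i).1
  have htime : ∀ i, windowTime l ((κ i + 1) / 2) = κ i * l := fun i => by
    unfold windowTime; ring
  have hsumA : ∑ i, |l⁻¹ * a i| = A / l := by
    simp only [abs_mul, abs_of_pos (inv_pos.2 hl), ← Finset.mul_sum, A]
    ring
  simp only [← Finset.sum_mul, hsumA] at hψ
  refine ⟨S₃, ∑ i, (l⁻¹ * a i) • g' i, h03, hok3, by omega, hψ.mono ?_ ?_ ?_, ?_⟩
  · exact mul_le_mul_of_nonneg_right (div_le_div_of_nonneg_right (by linarith) hl.le) hsT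
  · exact (Bld.window_out (n := n) (K := K) (r := r) hA hCw.le hB hC0 hCA hCD hl hl2 hδ hL hez
      heξ hS hDz hDξ hE).1
  · simp only [hLgd]
    rw [show A / l * (2 * (L * (lz + l * lξ))) = (2 * A) / l * (L * (lz + l * lξ)) by ring]
    exact mul_le_mul_of_nonneg_right (div_le_div_of_nonneg_right (by linarith) hl.le) (by positivity)
  · have hlaw3 : ∀ V, Quarter.InClass V → ∀ c : Space d, ∃ ν : Measure (Space d),
        IsProbabilityMeasure ν ∧ eLpNorm (score V r) 2 ν ≤ ENNReal.ofReal (E * (√d + ‖c‖)) ∧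
        MeasurePreserving (fun p => (zzT V c p.1 (extFun p.2), ξT V c p.1 (extFun p.2)))
          S₃.idealLaw (ν.prod (stdGaussian (Space d))) := by
      intro V hV c
      unfold Bld.idealLaw
      rw [h03.T]
      exact hlaw V hV c
    have hne := Bld.window_near hCw.le hκ hwin hw h13 (hz.below.mono hw.ext.le)
      (hξ.below.mono hw.ext.le) (o := o) (ψ := ∑ i, (l⁻¹ * a i) • g' i) hr1 hl hlr hB hq
      (le_trans (by gcongr; linarith) (hCl.trans (by norm_num))) hW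
      (fun i V c x ξ => ?_) (fun V c x ξ => ?_) hDz hDξ hE (h03.near hz.below hnz)
      (h03.near hξ.below hnξ) hlaw3
    · refine fun V hV c => (hne V hV c).trans (ENNReal.ofReal_le_ofReal
        (mul_le_mul_of_nonneg_right ?_ (by positivity)))
      exact (Bld.window_out hA hCw.le hB hC0 hCA hCD hl hl2 hδ hL hez heξ hS hDz hDξ hE).2
    · have hb : ∀ j, (g j).Below S₂.len := fun j => (hg j).1.below
      simp only [o, Bld.eval_add, Bld.eval_combo]
      refine congrArg _ (Finset.sum_congr rfl fun j _ => ?_)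
      rw [h23.eval V c x ξ (hb j), (hg j).2.2,
        h23.eval V c x ξ (hz.below.mono h02.le),
        h23.eval V c x ξ ((hw.has K le_rfl j).1.below.mono h12.le)]
    · simp only [Bld.eval_combo, Finset.smul_sum, smul_smul]
      exact Finset.sum_congr rfl fun i _ => by rw [(hg' i).2.2, htime i]

end

end P347.Zero
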