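import Vale.Agent.P347.Zero.RowsBlock
import Vale.Agent.P347.Zero.TanBlock

/-!
# P347: a window in a circuit as a block for the rows

`tan_block` gives `TanStep`: what depends on the point is the block's own part, the seed enters
with the slope `C L` (error, Lipschitz constant) or `C` (distance).
-/

namespace P347.Zero

open MeasureTheory ProbabilityTheory
open scoped ENNReal

noncomputable section

/-- A window as a block for the derivative of the score at a random point. -/
theorem tan_step (hT : TimeSpec) (hTan : TanSpec) (n : ℕ) :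
    ∃ (Ng : ℕ) (C : ℝ), 1 ≤ C ∧ ∀ (d : ℕ) (En : Env d) (S : Bld En),
      ∀ (r l δ L ρm τm : ℝ), r ≤ 1 → 0 < l → l ≤ √r / 2 → C * l ^ 2 ≤ 1 / 4 →
      C * L * l ^ 2 ≤ 1 / 2 → 0 ≤ δ → 1 ≤ L → 0 ≤ ρm →
      (∀ r', 3 / 4 * r ≤ r' → r' ≤ r → ∃ (O : Orc d) (tgt ρ : ℝ), τm ≤ tgt ∧ 0 < tgt ∧
        |ρ| ≤ ρm ∧ O.A.size ≤ S.qb ∧
        ∀ V, Quarter.InClass V → Valid O.P O.A V r' tgt ρ δ L) →
      ∀ (φz : Form) (az ez lz szz : ℝ) (Fz : Bld.Truth En) (Dz E Dmax : ℝ),
      S.Has φz az ez lz → 0 ≤ ez → 0 ≤ lz → 0 ≤ szz → S.Sized φz szz →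
      0 ≤ Dz → 0 ≤ E → 0 ≤ Dmax → S.Near φz Fz Dz → Bld.TMeas Fz →
      (∀ V, Quarter.InClass V → ∀ c : Space d,
        eLpNorm (fun p => score V r (S.truthFun Fz V c p)) 2 S.idealLaw
          ≤ ENNReal.ofReal (E * (√d + ‖c‖))) →
      az + C * l ^ 2 * (√(S.circ.T : ℝ) * ρm) ≤ τm →
      ∀ K : ℕ, ∃ N : Bld.TanNum, S.TanStep r Fz N ∧
        N.K = K * (n + 1) + (n + 1) + Ng ∧
        N.tol = (τm - az - C * l ^ 2 * (√(S.circ.T : ℝ) * ρm)) / l ∧
        N.out = C / l * (√(S.circ.T : ℝ) * ρm) ∧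
        N.src = C / l * (δ * (3 + szz + l * Dmax) + L * ez) ∧
        N.srcL = C / l * (L * lz) ∧
        N.srcD = C * ((C * l ^ 2) ^ K * (1 + E) + (l / √r) ^ n + Dz / l) ∧
        N.L = C * L ∧ N.Ld = C ∧ N.Dmax = Dmax := by
  obtain ⟨Ng, C, hC, hblk⟩ := tan_block hT hTan n
  refine ⟨Ng, C, hC, ?_⟩
  intro d En S r l δ L ρm τm hr1 hl hlr hCl hCL hδ hL hρm horc φz az ez lz szz Fz Dz E Dmax hz hez
    hlz hszz hzs hDz hE hDmax hnz hFz hscore haz K
  have hr : 0 < r := Real.sqrt_pos.1 (by linarith)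
  have hC0 : 0 ≤ C := zero_le_one.trans hC
  refine ⟨{ K := K * (n + 1) + (n + 1) + Ng
            tol := (τm - az - C * l ^ 2 * (√(S.circ.T : ℝ) * ρm)) / l
            out := C / l * (√(S.circ.T : ℝ) * ρm)
            src := C / l * (δ * (3 + szz + l * Dmax) + L * ez)
            srcL := C / l * (L * lz)
            srcD := C * ((C * l ^ 2) ^ K * (1 + E) + (l / √r) ^ n + Dz / l)
            L := C * L
            Ld := C
            Dmax := Dmax
            out_nonneg := by positivity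
            src_nonneg := by positivity
            srcL_nonneg := by positivity
            srcD_nonneg := by positivity
            one_le_L := one_le_mul_of_one_le_of_one_le hC hL
            one_le_Ld := hC }, ?_, rfl, rfl, rfl, rfl, rfl, rfl, rfl, rfl, rfl⟩
  intro A hA hAok hAlen φ nz e lp D Fξ he hlp hD hφ hnz' hDle hFξ hseed hnear
  dsimp only at hAlen hnz' hDle ⊢
  have htol : 0 ≤ (τm - az - C * l ^ 2 * (√(S.circ.T : ℝ) * ρm)) / l :=
    div_nonneg (by linarith) hl.le
  have hblur : az + l * (max nz 0 + C * l * (√(A.circ.T : ℝ) * ρm)) ≤ τm := by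
    rw [hA.T]
    have := (le_div_iff₀ hl).1 (max_le hnz' htol)
    linarith
  -- the sizes
  have hξs : A.Sized φ (1 + Dmax) := by
    refine (hnear.sized hD zero_le_one hFξ fun V hV c => ?_).mono (by linarith)
    obtain ⟨ν, hν, hlaw⟩ := hseed V hV c
    have e := eLpNorm_comp_measurePreserving (g := fun x : Space d => x) (p := 2)
      aestronglyMeasurable_id (measurePreserving_snd.comp hlaw)
    simp only [Function.comp_def] at e
    exact e.trans_le ((eLpNorm_gauss d).trans (ENNReal.ofReal_le_ofReal (by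
      linarith [norm_nonneg c])))
  have hlawA : ∀ V, Quarter.InClass V → ∀ c : Space d, ∃ ν : Measure (Space d),
      IsProbabilityMeasure ν ∧ eLpNorm (score V r) 2 ν ≤ ENNReal.ofReal (E * (√d + ‖c‖)) ∧
      MeasurePreserving (fun p => (Fz V c p.1 (extFun p.2), Fξ V c p.1 (extFun p.2)))
        A.idealLaw (ν.prod (stdGaussian (Space d))) := by
    intro V hV c
    obtain ⟨ν, hν, hlaw⟩ := hseed V hV c
    refine ⟨ν, hν, ?_, hlaw⟩
    have e := eLpNorm_comp_measurePreserving (g := score V r) (p := 2)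
      (lipschitz_score hV hr.le).continuous.aestronglyMeasurable
      (measurePreserving_fst.comp hlaw)
    simp only [Function.comp_def] at e
    rw [← e, hA.T]
    exact hscore V hV c
  obtain ⟨B, ψ, h1, h2, h3, h4, h5⟩ := hblk d En A hAok r l δ L ρm τm hr1 hl hlr hCl hCL hδ
    (zero_le_one.trans hL) hρm (by rw [hA.qb]; exact horc) K hAlen φz φ az ez lz (max nz 0) e lp
    szz (1 + Dmax) (hA.has hz) (hφ.mono (le_max_left _ _) le_rfl le_rfl) hez hlz
    (le_max_right _ _) he hlp hszz (by linarith) hblur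
    (hA.near hz.below hzs) hξs Fz Fξ Dz D E hDz hD hE (hA.near hz.below hnz)
    hnear hlawA
  refine ⟨B, ψ, h1, h2, h3, ?_, h5.mono (le_of_eq (by ring))⟩
  rw [hA.T] at h4
  refine h4.mono le_rfl ?_ (le_of_eq ?_)
  · have hCl' : 0 ≤ C / l := div_nonneg hC0 hl.le
    have e : C / l * (l * (L * e)) = C * L * e := by field_simp
    nlinarith [mul_le_mul_of_nonneg_left (show l ≤ 1 by linarith [Real.sqrt_le_one.2 hr1])
      (mul_nonneg hCl' hδ)]
  · field_simp

end

end P347.Zero
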