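import Vale.Agent.P347.Zero.NodeFirst
import Vale.Agent.P347.Zero.TanStep
import Vale.Agent.P347.Zero.Sweeps
import Vale.Agent.P347.Zero.Sweep

/-!
# P347: all three values at a node

The square of the derivative of the score comes from the rows, with one inner and one outer window
at the point of the node.
-/

namespace P347.Zero

open MeasureTheory ProbabilityTheory Set
open scoped ENNReal

noncomputable section

attribute [local irreducible] score smooth scoreD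

variable {d T : ℕ} {P : Par} {En : Env d}

/-- Point, noise and partner at a node, as the rows need them. -/
theorem Paths.pairSeedAt (π : Paths En T P) (hs : 0 < P.s) (hst : P.s ≤ P.t) {q : ℝ}
    (hq : q ∈ Icc 0 √(P.t - P.s)) :
    Bld.PairSeedAt En T (π.zT q) (π.uT q) π.aux := fun V hV c => by
  have hq2 := sq_lt_of_mem_pair hs hst hq
  have := isProbability_flowLaw hV c hq2.le
  have hg : Measurable fun a : Space d => c + q • a := by fun_prop
  refine ⟨(flowLaw V c P.t q).map fun a => c + q • a,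
    Measure.isProbabilityMeasure_map hg.aemeasurable, ?_⟩
  have h1 : MeasurePreserving
      (fun a : (Space d × Space d) × Space d => (c + q • a.1.1, (a.1.2, a.2)))
      ((pairLaw V c P.t q).prod (stdGaussian (Space d)))
      (((flowLaw V c P.t q).map fun a => c + q • a).prod
        ((stdGaussian (Space d)).prod (stdGaussian (Space d)))) := by
    rw [pairLaw_eq]
    exact ((⟨hg, rfl⟩ : MeasurePreserving (fun a : Space d => c + q • a) _ _).prod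
      (MeasurePreserving.id _)).comp (measurePreserving_prodAssoc _ _ _)
  exact h1.comp (π.mp_pair hV c hs hst hq)

/-- A window at a node as a block for the rows, for either kind of oracle. -/
theorem node_window (hT : TimeSpec) (hTan : TanSpec) (n : ℕ) :
    ∃ (Ng : ℕ) (C : ℝ), 8 ≤ C ∧ ∀ (d : ℕ) (En : Env d) (S : Bld En) (P : Par)
      (π : Paths En S.circ.T P) (K : ℕ) (C₀ δ L b Dl : ℝ), C ≤ C₀ → S.Ok →
      P.Ok d S.circ.T S.qb C₀ → 0 ≤ δ → 1 ≤ L → 0 ≤ b → 0 ≤ Dl →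
      (∀ r, 0 < r → r ≤ P.t → HasOrc d S.qb r P.ν b δ L) →
      C₀ * L * (P.h ^ 2 * P.t) ≤ 1 / 2 → C₀ * (√(S.circ.T : ℝ) * (P.t * b)) ≤ P.ν →
      C * ((C * P.h ^ 2) ^ K + P.h ^ n) ≤ P.def0 →
      ∀ q ∈ Icc 0 √(P.t - P.s), ∀ (A : Lev) (φz φX : Form), NodeIn π S q A φz φX → A.Ok P →
      ∃ N : Bld.TanNum, S.TanStep (P.t - q ^ 2) (π.zT q) N ∧
        N.K = K * (n + 1) + (n + 1) + Ng ∧ P.ν ≤ N.tol ∧ N.out ≤ P.G * b ∧
        N.src ≤ (29 + Dl) * (tanP P.G δ L A.ea / √(P.t - q ^ 2)) ∧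
        N.srcL ≤ tanP P.G 0 L A.la / √(P.t - q ^ 2) ∧
        N.srcD ≤ P.def0 + P.G * A.Da / √(P.t - q ^ 2) ∧
        P.h * √(P.t - q ^ 2) * N.srcD ≤ C ∧ N.L ≤ C * L ∧ N.Ld ≤ C ∧
        N.Dmax = Dl / (P.h * √(P.t - q ^ 2)) := by
  obtain ⟨Ng, Ct, hCt, hstep⟩ := tan_step hT hTan n
  refine ⟨Ng, 64 * Ct, by linarith, ?_⟩
  intro d En S P π K C₀ δ L b Dl hC₀ hok hP₀ hδ hL hb hDl horc hwinL hblurL htail q hq A φz φX
    hin hA
  have hP := hP₀.mono (by linarith) hC₀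
  obtain ⟨hr, hrt, -, hsr1, -, hG2, -, -, -⟩ := hP.node_facts (by linarith) hok.pos hq
  have hst : P.s ≤ P.t := by linarith [hP.s_le, hP.s_pos]
  set r := P.t - q ^ 2
  have hsr0 : 0 < √r := Real.sqrt_pos.2 hr
  have hh := hP.h_pos
  set l := P.h * √r with hldef
  have hl : 0 < l := mul_pos hh hsr0
  have hlr : l ≤ √r / 2 := by
    have := mul_le_mul_of_nonneg_right hP.h_le hsr0.le
    linarith
  have hl1 : l ≤ 1 := by linarith
  have hl2 : l ^ 2 = P.h ^ 2 * r := by simp only [l, mul_pow, Real.sq_sqrt hr.le]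
  have hCt0 : 0 ≤ Ct := by linarith
  have hwin : Ct * l ^ 2 ≤ 1 / 4 ∧ Ct * L * l ^ 2 ≤ 1 / 2 := by
    have h1 : l ^ 2 ≤ P.h ^ 2 * P.t := by
      rw [hl2]; exact mul_le_mul_of_nonneg_left hrt (sq_nonneg _)
    have h0 : 0 ≤ P.h ^ 2 * P.t := (sq_nonneg l).trans h1
    have h2 : 64 * Ct * L * (P.h ^ 2 * P.t) ≤ 1 / 2 := le_trans
      (mul_le_mul_of_nonneg_right (mul_le_mul_of_nonneg_right hC₀ (by linarith)) h0) hwinL
    have h3 : Ct * L * l ^ 2 ≤ Ct * L * (P.h ^ 2 * P.t) :=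
      mul_le_mul_of_nonneg_left h1 (by positivity)
    have h4 : Ct * l ^ 2 ≤ Ct * L * l ^ 2 :=
      mul_le_mul_of_nonneg_right (le_mul_of_one_le_right hCt0 hL) (sq_nonneg _)
    exact ⟨by linarith, by linarith⟩
  have hν := hP.ν_pos
  have horc' : ∀ r', 3 / 4 * r ≤ r' → r' ≤ r → ∃ (O : Orc d) (tgt ρ : ℝ),
      P.ν * √r / 2 ≤ tgt ∧ 0 < tgt ∧ |ρ| ≤ b * √r ∧ O.A.size ≤ S.qb ∧
      ∀ V, Quarter.InClass V → Valid O.P O.A V r' tgt ρ δ L := by
    intro r' h1 h2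
    obtain ⟨O, tgt, ρo, a1, a2, a3, a4, a5⟩ :=
      horc r' (lt_of_lt_of_le (by linarith) h1) (h2.trans hrt)
    refine ⟨O, tgt, ρo, le_trans ?_ a1, a2,
      a3.trans (mul_le_mul_of_nonneg_left (Real.sqrt_le_sqrt h2) hb), a4, a5⟩
    rw [mul_div_assoc]
    refine mul_le_mul_of_nonneg_left (Real.le_sqrt_of_sq_le ?_) hν.le
    rw [div_pow, Real.sq_sqrt hr.le]
    linarith
  have hsT := Real.sqrt_nonneg (S.circ.T : ℝ)
  have hblur : Ct * l ^ 2 * (√(S.circ.T : ℝ) * (b * √r)) ≤ √r / 64 * P.ν := by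
    have h1 : 64 * (Ct * (√(S.circ.T : ℝ) * (r * b))) ≤ P.ν := by
      have e : 64 * Ct * (√(S.circ.T : ℝ) * (r * b)) ≤ C₀ * (√(S.circ.T : ℝ) * (P.t * b)) :=
        mul_le_mul hC₀ (mul_le_mul_of_nonneg_left (mul_le_mul_of_nonneg_right hrt hb) hsT)
          (by positivity) (by linarith)
      linarith
    have h2 : P.h ^ 2 ≤ 1 := pow_le_one₀ hh.le (by linarith [hP.h_le])
    have h3 : 0 ≤ Ct * (√(S.circ.T : ℝ) * (r * b)) := by positivity
    calc Ct * l ^ 2 * (√(S.circ.T : ℝ) * (b * √r))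
        = P.h ^ 2 * (Ct * (√(S.circ.T : ℝ) * (r * b))) * √r := by rw [hl2]; ring
      _ ≤ 1 * (Ct * (√(S.circ.T : ℝ) * (r * b))) * √r := by gcongr
      _ ≤ P.ν / 64 * √r := by
          rw [one_mul]
          exact mul_le_mul_of_nonneg_right (by linarith) hsr0.le
      _ = _ := by ring
  have hDa := hA.Da
  have hsz : S.Sized φz 26 :=
    (hin.nz.sized hA.Da (sz := 25) (by norm_num) (π.tmeas_zT hP.s_pos hst hq)
      fun V hV c => π.size_zT hP.s_pos hst hq hP.t_le hV c).mono (by linarith [hA.Da_le])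
  have hscore : ∀ V, Quarter.InClass V → ∀ c : Space d,
      eLpNorm (fun p => score V r (S.truthFun (π.zT q) V c p)) 2 S.idealLaw
        ≤ ENNReal.ofReal (54 * (√d + ‖c‖)) := fun V hV c => by
    obtain ⟨μ, hμ, hle, hlaw⟩ := node_law hP.s_pos hst hP.t_le hq (π := π) hV c
    have e := eLpNorm_comp_measurePreserving (g := score V r) (p := 2)
      (lipschitz_score hV hr.le).continuous.aestronglyMeasurable
      (measurePreserving_fst.comp hlaw)
    simp only [Function.comp_def] at e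
    exact e.trans_le hle
  have hνr : 0 ≤ P.ν * √r := by positivity
  obtain ⟨N, hN, eK, etol, eout, esrc, esrcL, esrcD, eL, eLd, eDmax⟩ :=
    hstep d En S r l δ L (b * √r) (P.ν * √r / 2) (hrt.trans hP.t_le) hl hlr hwin.1 hwin.2 hδ hL
      (mul_nonneg hb hsr0.le) horc' φz (P.ν * √r / 8) A.ea A.la 26 (π.zT q) A.Da 54 (Dl / l)
      hin.hz hA.ea hA.la (by norm_num) hsz hA.Da (by norm_num) (div_nonneg hDl hl.le) hin.nz
      (π.tmeas_zT hP.s_pos hst hq) hscore (by linarith [mul_comm (√r) P.ν]) K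
  have hG : 0 ≤ P.G := le_trans (div_nonneg (by linarith) hh.le) hG2
  have hCl : Ct / l ≤ P.G / √r := by
    rw [hldef, ← div_div]
    exact div_le_div_of_nonneg_right
      (le_trans (div_le_div_of_nonneg_right (by linarith) hh.le) hG2) hsr0.le
  have hlh : l / √r = P.h := by simp only [l]; field_simp
  refine ⟨N, hN, eK, ?_, ?_, ?_, ?_, ?_, ?_, ?_, ?_, eDmax⟩
  · rw [etol, le_div_iff₀ hl]
    have : P.ν * l ≤ P.ν * (√r / 4) := by
      refine mul_le_mul_of_nonneg_left ?_ hν.le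
      have := mul_le_mul_of_nonneg_right hP.h_le hsr0.le
      linarith
    linarith [mul_comm (√r) P.ν]
  · rw [eout]
    calc Ct / l * (√(S.circ.T : ℝ) * (b * √r))
        = Ct * (√(S.circ.T : ℝ) / P.h) * b := by simp only [l]; field_simp
      _ ≤ P.G * b := mul_le_mul_of_nonneg_right (le_trans
          (mul_le_mul_of_nonneg_right (by linarith) (div_nonneg hsT hh.le)) hP.G_ge) hb
  · rw [esrc, mul_div_cancel₀ _ hl.ne']
    have e : (29 + Dl) * (tanP P.G δ L A.ea / √r)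
        = P.G / √r * ((29 + Dl) * (δ + L * A.ea)) := by simp only [tanP]; ring
    have hLe : 0 ≤ L * A.ea := mul_nonneg (by linarith) hA.ea
    rw [e]
    refine mul_le_mul hCl ?_ (by positivity) (by positivity)
    linarith [mul_nonneg hDl hLe]
  · rw [esrcL]
    have e : tanP P.G 0 L A.la / √r = P.G / √r * (L * A.la) := by simp only [tanP]; ring
    rw [e]
    exact mul_le_mul_of_nonneg_right hCl (mul_nonneg (by linarith) hA.la)
  · rw [esrcD, hlh, mul_add, ← mul_div_assoc]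
    refine add_le_add (le_trans ?_ htail) ?_
    · have h1 : Ct * l ^ 2 ≤ 64 * Ct * P.h ^ 2 := by
        have e : r * (Ct * P.h ^ 2) ≤ 1 * (Ct * P.h ^ 2) :=
          mul_le_mul_of_nonneg_right (hrt.trans hP.t_le) (by positivity)
        rw [hl2]
        linarith [mul_nonneg hCt0 (sq_nonneg P.h)]
      have h2 := mul_le_mul_of_nonneg_left (pow_le_pow_left₀ (by positivity) h1 K) hCt0
      have hy : 0 ≤ Ct * (64 * Ct * P.h ^ 2) ^ K := by positivity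
      have hn : 0 ≤ Ct * P.h ^ n := by positivity
      linarith
    · rw [mul_div_assoc, mul_comm P.G, mul_div_assoc, mul_comm A.Da (P.G / √r)]
      exact le_trans (le_of_eq (by ring)) (mul_le_mul_of_nonneg_right hCl hDa)
  · rw [esrcD, hlh]
    have e : l * (Ct * ((Ct * l ^ 2) ^ K * (1 + 54) + P.h ^ n + A.Da / l))
        = Ct * (l * ((Ct * l ^ 2) ^ K * 55 + P.h ^ n) + A.Da) := by field_simp; ring
    rw [e]
    have h1 : (Ct * l ^ 2) ^ K ≤ 1 := pow_le_one₀ (by positivity) (by linarith)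
    have h2 : P.h ^ n ≤ 1 := pow_le_one₀ hh.le (by linarith [hP.h_le])
    have h3 : l * ((Ct * l ^ 2) ^ K * 55 + P.h ^ n) ≤ 1 * (1 * 55 + 1) := by gcongr
    calc Ct * (l * ((Ct * l ^ 2) ^ K * 55 + P.h ^ n) + A.Da) ≤ Ct * 64 :=
          mul_le_mul_of_nonneg_left (by linarith [hA.Da_le]) hCt0
      _ = _ := mul_comm _ _
  · rw [eL]
    exact mul_le_mul_of_nonneg_right (by linarith) (by linarith)
  · rw [eLd]; linarith

/-- The rows stay within the distance that their windows take. -/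
theorem rowGap_le_div (M : ℕ) {θ du l C : ℝ} {N : Bld.TanNum} (hθ0 : 0 ≤ θ) (hθ1 : θ ≤ 1)
    (hdu0 : 0 ≤ du) (hdu : du ≤ 1) (hl : 0 < l) (hl1 : l ≤ 1) (hsrc : l * N.srcD ≤ C)
    (hLd : N.Ld ≤ C) :
    Bld.rowGap M θ (2 * du) (Bld.rowsDist M θ N (2 * du) 0) ≤
      (M * (2 + Bld.rowsConst M * (2 + 10 * C)) + 2 ^ M * Real.exp 2 * 2) / l := by
  obtain ⟨-, -, hc⟩ := Bld.rowsConst_bounds M
  have hL0 : 0 ≤ N.Ld := zero_le_one.trans N.one_le_Ld
  have hC : 0 ≤ C := hL0.trans hLd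
  have hs := N.srcD_nonneg
  have hp : θ ^ M ≤ 1 := pow_le_one₀ hθ0 hθ1
  rw [le_div_iff₀ hl]
  have h1 : N.Ld * du * l ≤ C * 1 * 1 := by gcongr
  have h2 : N.Ld * θ ^ M * l ≤ C * 1 * 1 := by gcongr
  have h3 : Bld.rowsDist M θ N (2 * du) 0 * l ≤ Bld.rowsConst M * (2 + 10 * C) :=
    calc Bld.rowsDist M θ N (2 * du) 0 * l
        = θ * Bld.rowsConst M *
            (2 * l + 2 * (l * N.srcD) + 4 * (N.Ld * du * l) + 4 * (N.Ld * θ ^ M * l)) := by
          simp only [Bld.rowsDist, pow_zero]; ring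
      _ ≤ 1 * Bld.rowsConst M * (2 + 10 * C) :=
          mul_le_mul (mul_le_mul_of_nonneg_right hθ1 (by linarith)) (by linarith)
            (by positivity) (by positivity)
      _ = _ := by ring
  have h4 : du * l ≤ 1 * 1 := by gcongr
  have h5 : θ ^ M * l ≤ 1 * 1 := by gcongr
  calc Bld.rowGap M θ (2 * du) (Bld.rowsDist M θ N (2 * du) 0) * l
      = M * (2 * (du * l) + Bld.rowsDist M θ N (2 * du) 0 * l)
          + 2 ^ M * Real.exp 2 * (θ ^ M * l) * 2 := by simp only [Bld.rowGap]; ring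
    _ ≤ M * (2 + Bld.rowsConst M * (2 + 10 * C)) + 2 ^ M * Real.exp 2 * 1 * 2 := by
        gcongr <;> linarith
    _ = _ := by ring

/-- The output of the rows in the units of `Rec`. -/
theorem rows_out_le {C B R c m θ G L L' sP sQ src1 src2 L1 L2 U : ℝ} (hθ : 0 < θ) (hU : 0 ≤ U)
    (hB : 0 ≤ B) (hR : 1 ≤ R) (hm : 0 ≤ m) (hc : 0 ≤ c) (hC : 0 ≤ C) (hCG : C ≤ G)
    (hsP : 0 ≤ sP) (hsQ : 0 ≤ sQ) (hL : 0 ≤ L) (hL' : 0 ≤ L') (hs1 : 0 ≤ src1) (hL1 : 0 ≤ L1)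
    (h1 : src1 ≤ B * sP) (h2 : src2 ≤ B * sQ) (hL1' : L1 ≤ C * L) (hL2 : 0 ≤ L2)
    (hL2' : L2 ≤ C * L') :
    θ⁻¹ * R * (src2 + L2 * (c * U + m * (θ * (src1 + L1 * (c * U))))) ≤
      R * (1 + m) * (B + c) * (θ⁻¹ * sQ + G * L' * sP
        + (θ⁻¹ * G * L' + G ^ 2 * L' * L) * U) := by
  have hG : 0 ≤ G := hC.trans hCG
  have a1 : L2 ≤ G * L' := hL2'.trans (mul_le_mul_of_nonneg_right hCG hL')
  have a2 : L1 ≤ G * L := hL1'.trans (mul_le_mul_of_nonneg_right hCG hL)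
  have hR0 : 0 ≤ R := by linarith
  have hcU : 0 ≤ c * U := mul_nonneg hc hU
  calc θ⁻¹ * R * (src2 + L2 * (c * U + m * (θ * (src1 + L1 * (c * U)))))
      ≤ θ⁻¹ * R * (B * sQ + G * L' * (c * U + m * (θ * (B * sP + G * L * (c * U))))) := by
        gcongr
    _ = R * (B * (θ⁻¹ * sQ) + c * (θ⁻¹ * G * L' * U) + m * B * (G * L' * sP)
          + m * c * (G ^ 2 * L' * L * U)) := by field_simp; ring
    _ ≤ R * ((1 + m) * (B + c) * (θ⁻¹ * sQ) + (1 + m) * (B + c) * (θ⁻¹ * G * L' * U)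
          + (1 + m) * (B + c) * (G * L' * sP) + (1 + m) * (B + c) * (G ^ 2 * L' * L * U)) := by
        have k1 : 0 ≤ m * B := mul_nonneg hm hB
        have k2 : 0 ≤ m * c := mul_nonneg hm hc
        have e : (1 + m) * (B + c) = B + c + m * B + m * c := by ring
        rw [e]
        gcongr <;> linarith
    _ = _ := by ring

/-- The square from the two windows. -/
theorem node_sq {M k : ℕ} (hM : 2 ≤ M) {S : Bld En} (hok : S.Ok) (hTS : S.circ.T = T) {qb : ℕ}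
    {C₀ Cb C₂ Dl : ℝ} {π : Paths En T P} {q : ℝ} {A : Lev} {φu φa : Form} {Ni No : Bld.TanNum}
    (hP : P.Ok d T qb C₀) (hPb : P.Ok d T qb Cb) (hq : q ∈ Icc 0 √(P.t - P.s)) (hA : A.Ok P)
    (hC₂ : 1 ≤ C₂) (hbC₂ : C₂ ≤ Cb)
    (hDl : Dl = M * (2 + Bld.rowsConst M * (2 + 10 * C₂)) + 2 ^ M * Real.exp 2 * 2)
    (hbD : 2 * Bld.rowsConst M * C₂ ≤ Cb) (hbblur : 8 * M * Bld.powBound M ≤ Cb)
    (hbnear : 4 * Bld.rowsConst M ^ 2 ≤ Cb)
    (hberr : Bld.powBound M * (1 + M * Bld.rowsConst M) * (29 + Dl + 14) ≤ Cb)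
    (hbb : Bld.powBound M ≤ Cb)
    (htail : C₂ * ((2 * Bld.rowsConst M * C₂ * P.θ) ^ k + P.θ ^ (M - 1)) ≤ P.def0)
    (hu : S.Has φu (P.ν / 4) (14 * uPart P.ρ P.sx P.Lx A.ea A.eu) (uPart P.ρ 0 P.Lx A.la A.lu))
    (hnu : S.Near φu (π.uT q) (uPart P.ρ 0 2 A.Da A.Du))
    (ha : S.Has φa 0 0 0) (hna : S.Near φa π.aux 0)
    (sti : S.TanStep (P.t - q ^ 2) (π.zT q) Ni) (toli : P.ν ≤ Ni.tol) (outi : Ni.out ≤ P.G * P.bx)
    (srci : Ni.src ≤ (29 + Dl) * (tanP P.G P.sx P.Lx A.ea / √(P.t - q ^ 2)))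
    (srcLi : Ni.srcL ≤ tanP P.G 0 P.Lx A.la / √(P.t - q ^ 2))
    (srcDi : Ni.srcD ≤ P.def0 + P.G * A.Da / √(P.t - q ^ 2))
    (lsrci : P.h * √(P.t - q ^ 2) * Ni.srcD ≤ C₂) (Li : Ni.L ≤ C₂ * P.Lx) (Ldi : Ni.Ld ≤ C₂)
    (Dmi : Ni.Dmax = Dl / (P.h * √(P.t - q ^ 2)))
    (sto : S.TanStep (P.t - q ^ 2) (π.zT q) No) (tolo : P.ν ≤ No.tol) (outo : No.out ≤ P.G * P.by')
    (srco : No.src ≤ (29 + Dl) * (tanP P.G P.sy P.Ly A.ea / √(P.t - q ^ 2)))
    (srcLo : No.srcL ≤ tanP P.G 0 P.Ly A.la / √(P.t - q ^ 2))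
    (srcDo : No.srcD ≤ P.def0 + P.G * A.Da / √(P.t - q ^ 2))
    (Lo : No.L ≤ C₂ * P.Ly) (Ldo : No.Ld ≤ C₂)
    (Dmo : No.Dmax = Dl / (P.h * √(P.t - q ^ 2)))
    (hlen : S.len + (k * (2 * (M * Ni.K)) + M * No.K) ≤ S.circ.T) :
    ∃ (S₃ : Bld En) (fS : Form), S.Ext S₃ ∧ S₃.Ok ∧
      S₃.len ≤ S.len + (k * (2 * (M * Ni.K)) + M * No.K) ∧
      S₃.Has fS (Cb * (P.θ⁻¹ * P.G * P.by'))
        (Cb * (sqP P.G P.θ P.sx P.sy P.Lx P.Ly A.ea / √(P.t - q ^ 2)
          + sqQ P.G P.θ P.ρ P.sx P.Lx P.Ly A.ea A.eu))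
        (Cb * (sqP P.G P.θ 0 0 P.Lx P.Ly A.la / √(P.t - q ^ 2)
          + sqQ P.G P.θ P.ρ 0 P.Lx P.Ly A.la A.lu)) ∧
      S₃.Near fS (π.fT q 2)
        (Cb * (sqP P.G P.θ P.def0 P.def0 2 2 A.Da / √(P.t - q ^ 2)
          + sqQ P.G P.θ P.ρ P.def0 2 2 A.Da A.Du)) := by
  obtain ⟨-, -, hc1⟩ := Bld.rowsConst_bounds M
  have hb1 := Bld.one_le_powBound M
  set cM := Bld.rowsConst M
  set bM := Bld.powBound M
  have hM0 : (0 : ℝ) ≤ M := Nat.cast_nonneg M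
  have hst : P.s ≤ P.t := by linarith [hP.s_le, hP.s_pos]
  obtain ⟨hr, hrt, hsr, hsr1, hρ, hG2, hG1, hGC, hT1⟩ :=
    hPb.node_facts (hC₂.trans hbC₂) (hTS ▸ hok.pos) hq
  have hθ := hP.θ_pos
  have hh := hP.h_pos
  have hDl0 : 0 ≤ Dl := by rw [hDl]; positivity
  -- the seeds
  have hea := hA.ea
  have heu := hA.eu
  have hla := hA.la
  have hlu := hA.lu
  have hDa := hA.Da
  have hDu := hA.Du
  have hLx : 0 ≤ P.Lx := by linarith [hP.Lx_ge]
  have hLy : 0 ≤ P.Ly := by linarith [hP.Ly_ge]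
  have hsx := hP.sx_nn
  have hD0 := hP.def_nn
  have hU : 0 ≤ uPart P.ρ P.sx P.Lx A.ea A.eu := by unfold uPart; positivity
  have hUl : 0 ≤ uPart P.ρ 0 P.Lx A.la A.lu := by unfold uPart; positivity
  have hUD : 0 ≤ uPart P.ρ 0 2 A.Da A.Du := by unfold uPart; positivity
  have hg2 : S.Has φa (P.ν / 4) (14 * uPart P.ρ P.sx P.Lx A.ea A.eu)
      (uPart P.ρ 0 P.Lx A.la A.lu) :=
    ha.mono (by linarith [hP.ν_pos]) (by positivity) hUl
  have hng2 := hna.mono hUD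
  have hG : 0 ≤ P.G := by linarith
  have hsr0 : 0 < √(P.t - q ^ 2) := Real.sqrt_pos.2 hr
  have hθG : P.θ ≤ P.θ * P.G * P.Lx := by
    rw [mul_assoc]
    exact le_mul_of_one_le_right hθ.le (one_le_mul_of_one_le_of_one_le hG1 hP.Lx_ge)
  have hblur : P.ν / 4 + M * (P.θ * bM * Ni.out) ≤ P.ν := by
    have h1 : M * (P.θ * bM * Ni.out) ≤ M * (P.θ * bM * (P.G * P.bx)) := by gcongr
    have h2 : 8 * M * bM * (P.θ * P.G * P.bx) ≤ P.ν :=
      (mul_le_mul_of_nonneg_right hbblur (by have := hP.bx_nn; positivity)).trans hPb.blurRow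
    linarith [hP.ν_pos]
  have hfit : Bld.RowsFit M P.θ Ni (P.ν / 4) Ni.tol := by
    refine ⟨?_, ?_, hblur.trans toli⟩
    · have h1 : cM * P.θ * Ni.L ≤ cM * P.θ * (C₂ * P.Lx) := by gcongr
      have h2 : P.θ * P.Lx ≤ P.θ * P.G * P.Lx :=
        mul_le_mul_of_nonneg_right (le_mul_of_one_le_right hθ.le hG1) hLx
      have h3 : 2 * cM * C₂ * (P.θ * P.G * P.Lx) ≤ 1 / 2 :=
        (mul_le_mul_of_nonneg_right hbD (by positivity)).trans hPb.row
      have h4 := mul_le_mul_of_nonneg_left h2 (show (0:ℝ) ≤ cM * C₂ by positivity)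
      have h5 : 0 ≤ cM * C₂ * (P.θ * P.G * P.Lx) :=
        mul_nonneg (mul_nonneg (by linarith) (by linarith)) (by positivity)
      linarith
    · have h1 : cM * P.θ * (2 * Ni.Ld) ≤ cM * P.θ * (2 * C₂) := by gcongr
      have h3 : 2 * cM * C₂ * (P.θ * P.G * P.Lx) ≤ 1 / 2 :=
        (mul_le_mul_of_nonneg_right hbD (by positivity)).trans hPb.row
      have h4 := mul_le_mul_of_nonneg_left hθG
        (show (0:ℝ) ≤ 2 * cM * C₂ from mul_nonneg (by linarith) (by linarith))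
      linarith
  have hmax := rowGap_le_div M (N := Ni) hθ.le hP.θ_le hUD hA.U_le (mul_pos hh hsr0)
    (mul_le_one₀ (by linarith [hP.h_le]) hsr0.le hsr1) lsrci Ldi
  obtain ⟨S₃, fS, e3, ok3, len3, hfS, hnS⟩ := Bld.rowsBlock sti sto hok (k := k) (th := P.θ)
    hlen (φu := φu) (φg := φa) (du := uPart P.ρ 0 2 A.Da A.Du) hM hfit
    (hblur.trans tolo) hr hθ (hmax.trans_eq (by rw [Dmi, hDl])) (hmax.trans_eq (by rw [Dmo, hDl]))
    (by positivity) hUl hUD hu hg2 (π.tmeas_zT hP.s_pos hst hq) (π.tmeas_uT hP.s_pos hst hq)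
    π.aux_meas hnu hng2 (by rw [hTS]; exact π.pairSeedAt hP.s_pos hst hq)
  have hC0 : 0 ≤ Cb := by linarith
  have hby := hP.by_nn
  refine ⟨S₃, fS, e3, ok3, len3, hfS.mono ?_ ?_ ?_, ?_⟩
  · calc P.θ⁻¹ * bM * No.out ≤ P.θ⁻¹ * Cb * (P.G * P.by') :=
          mul_le_mul (by gcongr) outo No.out_nonneg (by positivity)
      _ = _ := by ring
  · have h := rows_out_le (m := M * cM) (R := bM) (c := 14) (B := 29 + Dl) (G := P.G)
      (sP := tanP P.G P.sx P.Lx A.ea / √(P.t - q ^ 2))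
      (sQ := tanP P.G P.sy P.Ly A.ea / √(P.t - q ^ 2)) hθ hU (by linarith) hb1 (by positivity)
      (by norm_num) (show (0:ℝ) ≤ C₂ by linarith) (by linarith) (by unfold tanP; positivity)
      (by have := hP.sy_nn; unfold tanP; positivity) hLx hLy Ni.src_nonneg
      (zero_le_one.trans Ni.one_le_L) srci srco Li (zero_le_one.trans No.one_le_L) Lo
    refine le_trans (le_of_eq (by simp only [Bld.rowsSize, cM, bM]; ring)) (h.trans ?_)
    refine mul_le_mul hberr (le_of_eq (by simp only [tanP, sqP, sqQ]; ring))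
      (by have := hP.sy_nn; unfold tanP; positivity) hC0
  · have h := rows_out_le (m := M * cM) (R := bM) (c := 1) (B := 1) (G := P.G)
      (sP := tanP P.G 0 P.Lx A.la / √(P.t - q ^ 2))
      (sQ := tanP P.G 0 P.Ly A.la / √(P.t - q ^ 2)) hθ hUl zero_le_one hb1 (by positivity)
      zero_le_one (show (0:ℝ) ≤ C₂ by linarith) (by linarith) (by unfold tanP; positivity)
      (by unfold tanP; positivity) hLx hLy Ni.srcL_nonneg (zero_le_one.trans Ni.one_le_L)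
      (srcLi.trans_eq (one_mul _).symm) (srcLo.trans_eq (one_mul _).symm) Li
      (zero_le_one.trans No.one_le_L) Lo
    refine le_trans (le_of_eq (by simp only [Bld.rowsSize, cM, bM]; ring)) (h.trans ?_)
    refine mul_le_mul (le_trans (mul_le_mul_of_nonneg_left (by linarith) (by positivity)) hberr)
      (le_of_eq (by simp only [tanP, sqP, sqQ]; ring))
      (by unfold tanP; positivity) hC0
  · refine (hnS.mono ?_).congr fun V c x ξ => ?_
    · set sr := √(P.t - q ^ 2)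
      set U0 := uPart P.ρ 0 2 A.Da A.Du
      have hUU : U0 ≤ uPart P.ρ P.def0 2 A.Da A.Du := by
        simp only [U0, uPart]
        gcongr
      have hU0' : 0 ≤ uPart P.ρ P.def0 2 A.Da A.Du := hUD.trans hUU
      have hp : (cM * P.θ * (2 * Ni.Ld)) ^ k ≤ (2 * cM * C₂ * P.θ) ^ k := by
        refine pow_le_pow_left₀ ?_ ?_ k
        · have := Ni.one_le_Ld; positivity
        · calc cM * P.θ * (2 * Ni.Ld) ≤ cM * P.θ * (2 * C₂) := by gcongr
            _ = _ := by ring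
      have hq1 : No.Ld * ((cM * P.θ * (2 * Ni.Ld)) ^ k + P.θ ^ (M - 1)) ≤ P.def0 :=
        le_trans (mul_le_mul Ldo (add_le_add hp le_rfl)
          (by have := Ni.one_le_Ld; positivity) (by linarith))
          htail
      have hLdG : No.Ld ≤ P.G := by linarith
      have hdef : P.def0 ≤ P.G * P.def0 / sr := by
        rw [le_div_iff₀ hsr0]
        calc P.def0 * sr ≤ P.def0 * 1 := mul_le_mul_of_nonneg_left hsr1 hD0
          _ ≤ _ := by rw [mul_one]; exact le_mul_of_one_le_left hD0 hG1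
      have t1 : P.θ⁻¹ * No.srcD ≤ P.θ⁻¹ * (P.G * P.def0 / sr + P.G * A.Da / sr) :=
        mul_le_mul_of_nonneg_left (by linarith) (inv_nonneg.2 hθ.le)
      have t2 : P.θ⁻¹ * (No.Ld * (2 * (U0))) ≤
          P.θ⁻¹ * (P.G * (2 * uPart P.ρ P.def0 2 A.Da A.Du)) := by gcongr
      have t3 : No.Ld * Ni.srcD ≤ P.G * (P.G * P.def0 / sr + P.G * A.Da / sr) :=
        mul_le_mul hLdG (by linarith) Ni.srcD_nonneg hG
      have t4 : P.def0 ≤ P.G * (P.G * P.def0 / sr) := by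
        have := le_mul_of_one_le_left (show 0 ≤ P.G * P.def0 / sr by positivity) hG1
        linarith
      refine le_trans (mul_le_mul hbnear (?_ : _ ≤ sqP P.G P.θ P.def0 P.def0 2 2 A.Da / sr
        + sqQ P.G P.θ P.ρ P.def0 2 2 A.Da A.Du) ?_ hC0) (le_of_eq ?_)
      · have e : sqP P.G P.θ P.def0 P.def0 2 2 A.Da / sr
            + sqQ P.G P.θ P.ρ P.def0 2 2 A.Da A.Du
            = P.θ⁻¹ * (P.G * P.def0 / sr + P.G * A.Da / sr) + P.θ⁻¹ * (P.G * A.Da / sr)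
              + P.θ⁻¹ * (P.G * (2 * uPart P.ρ P.def0 2 A.Da A.Du))
              + 2 * (P.G * (P.G * P.def0 / sr + P.G * A.Da / sr))
              + 2 * (P.G * (P.G * A.Da / sr))
              + 4 * (P.G ^ 2 * uPart P.ρ P.def0 2 A.Da A.Du) := by
          simp only [sqP, sqQ]; ring
        rw [e]
        have n1 : 0 ≤ P.θ⁻¹ * (P.G * A.Da / sr) := by positivity
        have n2 : 0 ≤ P.G * (P.G * A.Da / sr) := by positivity
        have n3 : 0 ≤ P.G ^ 2 * uPart P.ρ P.def0 2 A.Da A.Du := by positivity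
        linarith
      · have := No.srcD_nonneg
        have := Ni.srcD_nonneg
        have := No.one_le_Ld
        have := Ni.one_le_Ld
        positivity
      · ring
    · rfl


/-- All three values at every node of the grid. -/
theorem node_block (hT : TimeSpec) (hTan : TanSpec) (n M k K : ℕ) (hM : 2 ≤ M) :
    ∃ (N : ℕ) (C : ℝ), 1 ≤ C ∧ ∀ (d : ℕ) (En : Env d) (S₀ : Bld En) (T : ℕ) (P : Par) (C₀ : ℝ)
      (π : Paths En T P) (J m : ℕ) (φa : Form),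
      C ≤ C₀ → S₀.Ok → S₀.circ.T = T → P.Ok d T S₀.qb C₀ →
      S₀.Has φa 0 0 0 → S₀.Near φa π.aux 0 →
      C * ((C * P.h ^ 2) ^ K + P.h ^ n + (C * P.θ) ^ k + P.θ ^ (M - 1)) ≤ P.def0 →
      NodeStep π S₀ (gridNode (pairGrid P.t P.s P.h) : Fin J × Fin m → ℝ) C N := by
  obtain ⟨N₁, C₁, hC₁, htan⟩ := node_tan hT hTan n
  obtain ⟨N₂, C₂, hC₂, hwin⟩ := node_window hT hTan n
  obtain ⟨-, -, hc1⟩ := Bld.rowsConst_bounds M
  have hb1 := Bld.one_le_powBound M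
  set cM := Bld.rowsConst M
  set bM := Bld.powBound M
  set Dl : ℝ := M * (2 + cM * (2 + 10 * C₂)) + 2 ^ M * Real.exp 2 * 2
  have hM0 : (0 : ℝ) ≤ M := Nat.cast_nonneg M
  have hDl : 0 ≤ Dl := by positivity
  refine ⟨1 + (K * (n + 1) + (n + 1) + N₁) + (k * (2 * (M * (K * (n + 1) + (n + 1) + N₂)))
      + M * (K * (n + 1) + (n + 1) + N₂)),
    28 + C₁ + 2 * cM * C₂ + 8 * M * bM + bM * (1 + M * cM) * (29 + Dl + 14) + 4 * cM ^ 2,
    by nlinarith [mul_nonneg (mul_nonneg (show (0:ℝ) ≤ bM by linarith)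
      (show (0:ℝ) ≤ 1 + M * cM by positivity)) (show (0:ℝ) ≤ 29 + Dl + 14 by linarith)], ?_⟩
  intro d En S₀ T P C₀ π J m φa hC₀ hok₀ hT₀ hP ha hna htail i S A φz φX hext hok hA hin hbud
  set Cb := 28 + C₁ + 2 * cM * C₂ + 8 * M * bM + bM * (1 + M * cM) * (29 + Dl + 14) + 4 * cM ^ 2
    with hCb
  have hp0 : 0 ≤ bM * (1 + M * cM) * (29 + Dl + 14) := by positivity
  have hp1 : 0 ≤ 8 * M * bM := by positivity
  have hp2 : 0 ≤ 4 * cM ^ 2 := by positivity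
  have hC21 : C₂ ≤ cM * C₂ := le_mul_of_one_le_left (by linarith) hc1
  have hCb1 : 28 ≤ Cb ∧ C₁ ≤ Cb ∧ C₂ ≤ Cb ∧ 2 * cM * C₂ ≤ Cb ∧ 8 * M * bM ≤ Cb ∧
      4 * cM ^ 2 ≤ Cb ∧ bM * (1 + M * cM) * (29 + Dl + 14) ≤ Cb ∧ bM ≤ Cb := by
    have : bM ≤ bM * (1 + M * cM) * (29 + Dl + 14) := by
      rw [mul_assoc]
      exact le_mul_of_one_le_right (by linarith)
        (one_le_mul_of_one_le_of_one_le (by linarith [mul_nonneg hM0 (show (0:ℝ) ≤ cM by linarith)])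
          (by linarith))
    refine ⟨?_, ?_, ?_, ?_, ?_, ?_, ?_, ?_⟩ <;> linarith
  obtain ⟨hb28, hbC₁, hbC₂, hbD, hbblur, hbnear, hberr, hbb⟩ := hCb1
  have hPb := hP.mono (by linarith) hC₀
  rw [← hext.qb] at hP hPb
  have hTS : S.circ.T = T := hext.T.trans hT₀
  have hst : P.s ≤ P.t := by linarith [hP.s_le, hP.s_pos]
  have ht : 0 < P.t := by linarith [hP.s_le, hP.s_pos]
  set q := gridNode (pairGrid P.t P.s P.h) i with hqdef
  have hq : q ∈ Icc 0 √(P.t - P.s) :=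
    gridNode_pair_mem ht hP.h_pos.le (by linarith [hP.h_le]) i
  have hTpos : 0 < T := hTS ▸ hok.pos
  obtain ⟨hr, hrt, hsr, hsr1, hρ, hG2, hG1, hGC, hT1⟩ :=
    hPb.node_facts (by linarith) hTpos hq
  have hθ := hP.θ_pos
  have hh := hP.h_pos
  -- the score
  obtain ⟨S₁, fb, e1, ok1, len1, hfb, hnb⟩ : ∃ (S' : Bld En) (fb : Form), S.Ext S' ∧ S'.Ok ∧
      S'.len = S.len + 1 ∧
      S'.Has fb (√(T : ℝ) * (√(P.t - q ^ 2) * P.bx)) (27 * (P.sx + P.Lx * A.ea))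
        (P.Lx * A.la) ∧
      S'.Near fb (π.fT q 0) (2 * A.Da) := by
    subst hTS
    exact node_score hok (by omega) hP (by linarith) hq hin hA
  have hT1' : S₁.circ.T = T := e1.T.trans hTS
  have hP1 : P.Ok d T S₁.qb C₀ := by rw [e1.qb]; exact hP
  have hin1 : NodeIn π S₁ q A φz φX := hin.of_ext e1
  -- the noise
  obtain ⟨φu, hu, hnu, hsu⟩ : ∃ φu : Form,
      S₁.Has φu (P.ν / 4) (14 * uPart P.ρ P.sx P.Lx A.ea A.eu) (uPart P.ρ 0 P.Lx A.la A.lu) ∧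
      S₁.Near φu (π.uT q) (uPart P.ρ 0 2 A.Da A.Du) ∧ S₁.Sized φu 26 := by
    subst hT1'
    exact node_noise ok1 hP1 (by linarith) hq hin1 hA hfb hnb
  have htails : ∀ Cs, 0 ≤ Cs → Cs ≤ Cb → Cs * ((Cs * P.h ^ 2) ^ K + P.h ^ n) ≤ P.def0 ∧
      Cs * ((2 * cM * C₂ * P.θ) ^ k + P.θ ^ (M - 1)) ≤ P.def0 := by
    intro Cs h0 hle
    have a1 : (Cs * P.h ^ 2) ^ K ≤ (Cb * P.h ^ 2) ^ K :=
      pow_le_pow_left₀ (by positivity) (mul_le_mul_of_nonneg_right hle (sq_nonneg _)) K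
    have a2 : (2 * cM * C₂ * P.θ) ^ k ≤ (Cb * P.θ) ^ k :=
      pow_le_pow_left₀ (mul_nonneg (mul_nonneg (by linarith) (by linarith)) hθ.le)
        (mul_le_mul_of_nonneg_right hbD hθ.le) k
    have b0 : 0 ≤ (Cb * P.h ^ 2) ^ K := by positivity
    have b1 : 0 ≤ P.h ^ n := by positivity
    have b2 : 0 ≤ (Cb * P.θ) ^ k := by positivity
    have b3 : 0 ≤ P.θ ^ (M - 1) := by positivity
    have c1 : 0 ≤ (Cs * P.h ^ 2) ^ K := by positivity
    have c2 : 0 ≤ (2 * cM * C₂ * P.θ) ^ k := pow_nonneg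
      (mul_nonneg (mul_nonneg (by linarith) (by linarith)) hθ.le) k
    exact ⟨le_trans (mul_le_mul hle (by linarith) (by linarith) (by linarith)) htail,
      le_trans (mul_le_mul hle (by linarith) (by linarith) (by linarith)) htail⟩
  -- the first derivative
  obtain ⟨S₂, fB, e2, ok2, len2, hfB, hnB⟩ : ∃ (S' : Bld En) (fB : Form), S₁.Ext S' ∧ S'.Ok ∧
      S'.len ≤ S₁.len + (K * (n + 1) + (n + 1) + N₁) ∧
      S'.Has fB (P.G * P.bx)
        (28 * (tanP P.G P.sx P.Lx A.ea / √(P.t - q ^ 2) + tanQ P.G P.ρ P.sx P.Lx A.ea A.eu))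
        (tanP P.G 0 P.Lx A.la / √(P.t - q ^ 2) + tanQ P.G P.ρ 0 P.Lx A.la A.lu) ∧
      S'.Near fB (π.fT q 1)
        (tanP P.G P.def0 2 A.Da / √(P.t - q ^ 2) + tanQ P.G P.ρ P.def0 2 A.Da A.Du) := by
    have hb' : S₁.len + (K * (n + 1) + (n + 1) + N₁) ≤ S₁.circ.T := by rw [e1.T]; omega
    subst hT1'
    exact htan d En S₁ P π K C₀ (by linarith) ok1 hP1 (htails C₁ (by linarith) hbC₁).1 hb'
      q hq A φz φX φu hin1 hA hu hnu hsu
  have hT2 : S₂.circ.T = T := e2.T.trans hT1'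
  have hP2 : P.Ok d T S₂.qb C₀ := by rw [e2.qb]; exact hP1
  have hin2 : NodeIn π S₂ q A φz φX := hin1.of_ext e2
  -- the two windows of the rows
  have win : ∀ (δ L b : ℝ), 0 ≤ δ → 1 ≤ L → 0 ≤ b →
      (∀ r, 0 < r → r ≤ P.t → HasOrc d S₂.qb r P.ν b δ L) →
      C₀ * L * (P.h ^ 2 * P.t) ≤ 1 / 2 → C₀ * (√(T : ℝ) * (P.t * b)) ≤ P.ν →
      ∃ N : Bld.TanNum, S₂.TanStep (P.t - q ^ 2) (π.zT q) N ∧
        N.K = K * (n + 1) + (n + 1) + N₂ ∧ P.ν ≤ N.tol ∧ N.out ≤ P.G * b ∧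
        N.src ≤ (29 + Dl) * (tanP P.G δ L A.ea / √(P.t - q ^ 2)) ∧
        N.srcL ≤ tanP P.G 0 L A.la / √(P.t - q ^ 2) ∧
        N.srcD ≤ P.def0 + P.G * A.Da / √(P.t - q ^ 2) ∧
        P.h * √(P.t - q ^ 2) * N.srcD ≤ C₂ ∧ N.L ≤ C₂ * L ∧ N.Ld ≤ C₂ ∧
        N.Dmax = Dl / (P.h * √(P.t - q ^ 2)) := by
    intro δ L b hδ hL hb horc h1 h2
    subst hT2
    exact hwin d En S₂ P π K C₀ δ L b Dl (by linarith) ok2 hP2 hδ hL hb hDl horc h1 h2
      (htails C₂ (by linarith) hbC₂).1 q hq A φz φX hin2 hA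
  obtain ⟨Ni, sti, Ki, toli, outi, srci, srcLi, srcDi, lsrci, Li, Ldi, Dmi⟩ :=
    win P.sx P.Lx P.bx hP.sx_nn hP.Lx_ge hP.bx_nn hP2.orcX hP.winX hP.blurWinX
  obtain ⟨No, sto, Ko, tolo, outo, srco, srcLo, srcDo, lsrco, Lo, Ldo, Dmo⟩ :=
    win P.sy P.Ly P.by' hP.sy_nn hP.Ly_ge hP.by_nn hP2.orcY hP.winY hP.blurWinY
  obtain ⟨S₃, fS, e3, ok3, len3, hS, hnS⟩ := node_sq hM ok2 hT2 hP hPb hq hA
    (by linarith : (1:ℝ) ≤ C₂) hbC₂ rfl hbD hbblur hbnear hberr hbb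
    (htails C₂ (by linarith) hbC₂).2 (e2.has hu) (e2.near hu.below hnu)
    (((hext.trans e1).trans e2).has ha) (((hext.trans e1).trans e2).near ha.below hna)
    sti toli outi srci srcLi srcDi lsrci Li Ldi Dmi sto tolo outo srco srcLo srcDo Lo Ldo Dmo
    (by rw [Ki, Ko, hT2]; omega)
  have hG : 0 ≤ P.G := by linarith
  have hea := hA.ea
  have heu := hA.eu
  have hla := hA.la
  have hlu := hA.lu
  have hDa := hA.Da
  have hDu := hA.Du
  have hLx : 0 ≤ P.Lx := by linarith [hP.Lx_ge]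
  have hsx := hP.sx_nn
  have hD0 := hP.def_nn
  refine ⟨S₃, fb, fB, fS, (e1.trans e2).trans e3, ok3, ?_, ?_⟩
  · rw [Ki, Ko] at len3; omega
  have hC1 : 1 ≤ Cb := by linarith
  have hC0 : 0 ≤ Cb := by linarith
  have hbx := hP.bx_nn
  refine
    { hb := (e3.has (e2.has hfb)).mono ?_ ?_ ?_
      hB := (e3.has hfB).mono ?_ ?_ ?_
      hS := hS
      nb := ((e2.trans e3).near hfb.below hnb).mono ?_
      nB := (e3.near hfB.below hnB).mono ?_
      nS := hnS }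
  · exact le_mul_of_one_le_left (by positivity) hC1
  · exact mul_le_mul_of_nonneg_right (by linarith) (by have := hP.sx_nn; positivity)
  · exact le_mul_of_one_le_left (by positivity) hC1
  · exact le_mul_of_one_le_left (by positivity) hC1
  · exact mul_le_mul_of_nonneg_right hb28 (by unfold tanP tanQ uPart; positivity)
  · exact le_mul_of_one_le_left (by unfold tanP tanQ uPart; positivity) hC1
  · exact le_trans (by linarith) (le_mul_of_one_le_left (by positivity) hC1)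
  · exact le_mul_of_one_le_left (by unfold tanP tanQ uPart; positivity) hC1

end

end P347.Zero
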