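import Vale.Agent.P347.Zero.PathsFacts
import Vale.Agent.P347.Zero.TanBlock

/-!
# P347: the score, the noise and the first derivative at a node

A node asks one oracle for the score at its point, reads the noise `U` off the value `X`, and runs
one window for the derivative of the score applied to `U`.
-/

namespace P347.Zero

open MeasureTheory ProbabilityTheory Set
open scoped ENNReal

noncomputable section

variable {d T qb : ℕ} {P : Par} {C C₀ : ℝ}

attribute [local irreducible] score smooth scoreD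

/-- A smaller constant asks less. -/
theorem Par.Ok.mono (h : P.Ok d T qb C₀) (hC : 0 ≤ C) (hle : C ≤ C₀) : P.Ok d T qb C := by
  have hh := h.h_pos
  have hG : 0 ≤ P.G := le_trans (mul_nonneg (hC.trans hle)
    (div_nonneg (Real.sqrt_nonneg _) hh.le)) h.G_ge
  have ht : 0 ≤ P.t := by linarith [h.s_le, h.s_pos]
  have hθ := h.θ_pos.le
  have hLx : 0 ≤ P.Lx := by linarith [h.Lx_ge]
  have hLy : 0 ≤ P.Ly := by linarith [h.Ly_ge]
  have hbx := h.bx_nn
  have hby := h.by_nn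
  exact { h with
    G_ge := le_trans (mul_le_mul_of_nonneg_right hle (by positivity)) h.G_ge
    row := le_trans (mul_le_mul_of_nonneg_right hle (by positivity)) h.row
    winX := le_trans (mul_le_mul_of_nonneg_right
      (mul_le_mul_of_nonneg_right hle hLx) (by positivity)) h.winX
    winY := le_trans (mul_le_mul_of_nonneg_right
      (mul_le_mul_of_nonneg_right hle hLy) (by positivity)) h.winY
    blurRow := le_trans (mul_le_mul_of_nonneg_right hle (by positivity)) h.blurRow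
    blurWinX := le_trans (mul_le_mul_of_nonneg_right hle (by positivity)) h.blurWinX
    blurWinY := le_trans (mul_le_mul_of_nonneg_right hle (by positivity)) h.blurWinY
    blurU := le_trans (mul_le_mul_of_nonneg_right hle (by positivity)) h.blurU }

/-- Elementary facts about a node. -/
theorem Par.Ok.node_facts (h : P.Ok d T qb C) (hC : 1 ≤ C) (hT : 0 < T) {q : ℝ}
    (hq : q ∈ Icc 0 √(P.t - P.s)) :
    0 < P.t - q ^ 2 ∧ P.t - q ^ 2 ≤ P.t ∧ √(P.t - q ^ 2) ≤ √P.t ∧ √(P.t - q ^ 2) ≤ 1 ∧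
      0 < P.ρ ∧ C / P.h ≤ P.G ∧ 1 ≤ P.G ∧ C ≤ P.G ∧ 1 ≤ √(T : ℝ) := by
  have hst : P.s ≤ P.t := by linarith [h.s_le, h.s_pos]
  have h1 := sq_lt_of_mem_pair h.s_pos hst hq
  have ht : 0 < P.t := by linarith [h.s_le, h.s_pos]
  have hle : P.t - q ^ 2 ≤ P.t := by linarith [sq_nonneg q]
  have hT1 : 1 ≤ √(T : ℝ) := Real.one_le_sqrt.2 (by exact_mod_cast hT)
  have hh := h.h_pos
  have h2 : C / P.h ≤ P.G := by
    refine le_trans ?_ h.G_ge
    rw [mul_div_assoc']
    exact div_le_div_of_nonneg_right (le_mul_of_one_le_right (by linarith) hT1) hh.le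
  have h3 : C ≤ C / P.h := by
    rw [le_div_iff₀ hh]
    exact mul_le_of_le_one_right (by linarith) (by linarith [h.h_le])
  exact ⟨sub_pos.2 h1, hle, Real.sqrt_le_sqrt hle,
    Real.sqrt_le_one.2 (hle.trans h.t_le), (Real.sqrt_pos.2 ht).trans_le h.ρ_ge, h2,
    by linarith, h3.trans h2, hT1⟩

variable {En : Env d} {S : Bld En} {q : ℝ} {A : Lev} {φz φX : Form} {π : Paths En S.circ.T P}

/-- The score at a node. -/
theorem node_score (hok : S.Ok) (hlen : S.len < S.circ.T) (hP : P.Ok d S.circ.T S.qb C)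
    (hC : 1 ≤ C) (hq : q ∈ Icc 0 √(P.t - P.s)) (hin : NodeIn π S q A φz φX) (hA : A.Ok P) :
    ∃ (S' : Bld En) (fb : Form), S.Ext S' ∧ S'.Ok ∧ S'.len = S.len + 1 ∧
      S'.Has fb (√(S.circ.T : ℝ) * (√(P.t - q ^ 2) * P.bx)) (27 * (P.sx + P.Lx * A.ea))
        (P.Lx * A.la) ∧
      S'.Near fb (π.fT q 0) (2 * A.Da) := by
  obtain ⟨hr, hrt, -, -, -, -, -, -, -⟩ := hP.node_facts hC hok.pos hq
  have hst : P.s ≤ P.t := by linarith [hP.s_le, hP.s_pos]
  obtain ⟨O, tgt, ρo, ht1, ht2, ht3, ht4, ht5⟩ := hP.orcX _ hr hrt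
  have hsr := Real.sqrt_nonneg (P.t - q ^ 2)
  have hnz : P.ν * √(P.t - q ^ 2) / 8 ≤ tgt := by
    linarith [mul_nonneg hP.ν_pos.le hsr]
  have hsz : S.Sized φz 26 :=
    (hin.nz.sized hA.Da (sz := 25) (by norm_num) (π.tmeas_zT hP.s_pos hst hq)
      fun V hV c => π.size_zT hP.s_pos hst hq hP.t_le hV c).mono (by linarith [hA.Da_le])
  obtain ⟨S', fb, hext, hok', hlen', hhas, hev⟩ := Bld.push_score hok hlen hin.hz hA.ea hA.la
    (by norm_num) hsz ht2 hnz O hP.sx_nn (by linarith [hP.Lx_ge]) ht5 ht4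
  refine ⟨S', fb, hext, hok', hlen', hhas.mono ?_ ?_ le_rfl, ?_⟩
  · refine mul_le_mul_of_nonneg_left (ht3.trans (le_of_eq ?_)) (Real.sqrt_nonneg _)
    ring
  · nlinarith [mul_nonneg (zero_le_one.trans hP.Lx_ge) hA.ea, hP.sx_nn]
  · exact hin.nz.score hr.le hext hin.hz.below hev

/-- The noise at a node, from `X` and the score. -/
theorem node_noise (hok : S.Ok) (hP : P.Ok d S.circ.T S.qb C) (hC : 8 ≤ C)
    (hq : q ∈ Icc 0 √(P.t - P.s)) (hin : NodeIn π S q A φz φX) (hA : A.Ok P) {fb : Form}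
    (hb : S.Has fb (√(S.circ.T : ℝ) * (√(P.t - q ^ 2) * P.bx)) (27 * (P.sx + P.Lx * A.ea))
      (P.Lx * A.la))
    (hnb : S.Near fb (π.fT q 0) (2 * A.Da)) :
    ∃ φu : Form,
      S.Has φu (P.ν / 4) (14 * uPart P.ρ P.sx P.Lx A.ea A.eu) (uPart P.ρ 0 P.Lx A.la A.lu) ∧
      S.Near φu (π.uT q) (uPart P.ρ 0 2 A.Da A.Du) ∧ S.Sized φu 26 := by
  obtain ⟨hr, hrt, hsr, -, hρ, -, -, -, -⟩ := hP.node_facts (by linarith) hok.pos hq
  have hst : P.s ≤ P.t := by linarith [hP.s_le, hP.s_pos]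
  have hDa := hA.Da
  have hDu := hA.Du
  have hLx : 0 ≤ P.Lx := by linarith [hP.Lx_ge]
  have hsx := hP.sx_nn
  have hea := hA.ea
  have heu := hA.eu
  have hla := hA.la
  have hlu := hA.lu
  refine ⟨P.ρ⁻¹ • (φX + (-1 : ℝ) • fb),
    ((hin.hX.add hok (hb.smul (-1))).smul P.ρ⁻¹).mono ?_ ?_ ?_, ?_, ?_⟩
  · rw [abs_of_nonneg (inv_nonneg.2 hρ.le), abs_neg, abs_one, one_mul, ← div_eq_inv_mul,
      div_le_iff₀ hρ]
    have h1 : √(S.circ.T : ℝ) * (√(P.t - q ^ 2) * P.bx) ≤ √(S.circ.T : ℝ) * (√P.t * P.bx) :=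
      mul_le_mul_of_nonneg_left (mul_le_mul_of_nonneg_right hsr hP.bx_nn) (Real.sqrt_nonneg _)
    have h2 : 8 * (√(S.circ.T : ℝ) * (√P.t * P.bx)) ≤ C * (√(S.circ.T : ℝ) * (√P.t * P.bx)) :=
      mul_le_mul_of_nonneg_right hC
        (mul_nonneg (Real.sqrt_nonneg _) (mul_nonneg (Real.sqrt_nonneg _) hP.bx_nn))
    linarith [hP.blurU]
  · rw [abs_of_nonneg (inv_nonneg.2 hρ.le), abs_neg, abs_one, one_mul, uPart,
      ← div_eq_inv_mul, mul_div_assoc']
    exact div_le_div_of_nonneg_right (by nlinarith) hρ.le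
  · rw [abs_of_nonneg (inv_nonneg.2 hρ.le), abs_neg, abs_one, one_mul, uPart, ← div_eq_inv_mul,
      zero_add]
    exact div_le_div_of_nonneg_right (by nlinarith) hρ.le
  all_goals
    have hxm := π.tmeas_xT hP.s_pos hst hq
    have hbm := π.tmeas_fT hP.s_pos hst hq 0
    have hnear : S.Near (P.ρ⁻¹ • (φX + (-1 : ℝ) • fb)) (π.uT q) (uPart P.ρ 0 2 A.Da A.Du) := by
      refine (((hin.nX.add hA.Du (by positivity) hxm (hbm.smul (-1))
        (hnb.smul (-1))).smul P.ρ⁻¹).mono ?_).congr fun V c x ξ => ?_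
      · rw [abs_of_nonneg (inv_nonneg.2 hρ.le), abs_neg, abs_one, one_mul, uPart, zero_add,
          ← div_eq_inv_mul]
        exact div_le_div_of_nonneg_right (by linarith) hρ.le
      · simp only [Paths.xT, Paths.fT, nodeFn, Paths.zT, Paths.uT, neg_smul, one_smul,
          add_neg_cancel_right, add_comm (score V _ _), smul_smul, inv_mul_cancel₀ hρ.ne']
  · exact hnear
  · refine (hnear.sized (le_trans (le_of_eq (by ring)) (show (0 : ℝ) ≤ uPart P.ρ 0 2 A.Da A.Du by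
      unfold uPart; positivity)) (sz := 1) zero_le_one (π.tmeas_uT hP.s_pos hst hq)
      fun V hV c => (π.size_uT hP.s_pos hst hq hV c).trans (ENNReal.ofReal_le_ofReal (by
        linarith [norm_nonneg c]))).mono (by linarith [hA.U_le])

/-- The law of the point and the noise at a node, as a window needs it. -/
theorem node_law (hs : 0 < P.s) (hst : P.s ≤ P.t) (ht : P.t ≤ 1)
    (hq : q ∈ Icc 0 √(P.t - P.s)) {V : Space d → ℝ} (hV : Quarter.InClass V) (c : Space d) :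
    ∃ ν : Measure (Space d), IsProbabilityMeasure ν ∧
      eLpNorm (score V (P.t - q ^ 2)) 2 ν ≤ ENNReal.ofReal (54 * (√d + ‖c‖)) ∧
      MeasurePreserving (fun p : En.X × (Fin S.circ.T → Space d) =>
          (π.zT q V c p.1 (extFun p.2), π.uT q V c p.1 (extFun p.2)))
        S.idealLaw (ν.prod (stdGaussian (Space d))) := by
  have hq2 := sq_lt_of_mem_pair hs hst hq
  have := isProbability_flowLaw hV c hq2.le
  have hg : Measurable fun a : Space d => c + q • a := by fun_prop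
  refine ⟨(flowLaw V c P.t q).map fun a => c + q • a,
    Measure.isProbabilityMeasure_map hg.aemeasurable, ?_, ?_⟩
  · have hs1 : Continuous (score V (P.t - q ^ 2)) :=
      ((regular score_spec hV).lip _ (sub_pos.2 hq2).le).continuous
    rw [eLpNorm_map_measure hs1.aestronglyMeasurable hg.aemeasurable,
      ← eLpNorm_comp_measurePreserving
        (hs1.comp (by fun_prop : Continuous fun a : Space d => c + q • a)).aestronglyMeasurable
        (measurePreserving_fst_pairLaw V c P.t q)]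
    exact eLpNorm_score_node_le hV c ht hq2
  · have h1 : MeasurePreserving (fun a : Space d × Space d => (c + q • a.1, a.2))
        (pairLaw V c P.t q)
        (((flowLaw V c P.t q).map fun a => c + q • a).prod (stdGaussian (Space d))) := by
      rw [pairLaw_eq]
      exact (⟨hg, rfl⟩ : MeasurePreserving (fun a : Space d => c + q • a) _ _).prod
        (MeasurePreserving.id _)
    exact h1.comp (π.mp_node hV c hs hst hq)

/-- The derivative of the score applied to the noise, by one window. -/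
theorem node_tan (hT : TimeSpec) (hTan : TanSpec) (n : ℕ) :
    ∃ (N : ℕ) (C : ℝ), 8 ≤ C ∧ ∀ (d : ℕ) (En : Env d) (S : Bld En) (P : Par)
      (π : Paths En S.circ.T P) (K : ℕ) (C₀ : ℝ), C ≤ C₀ → S.Ok → P.Ok d S.circ.T S.qb C₀ →
      C * ((C * P.h ^ 2) ^ K + P.h ^ n) ≤ P.def0 →
      S.len + (K * (n + 1) + (n + 1) + N) ≤ S.circ.T →
      ∀ q ∈ Icc 0 √(P.t - P.s), ∀ (A : Lev) (φz φX φu : Form), NodeIn π S q A φz φX → A.Ok P →
        S.Has φu (P.ν / 4) (14 * uPart P.ρ P.sx P.Lx A.ea A.eu)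
          (uPart P.ρ 0 P.Lx A.la A.lu) →
        S.Near φu (π.uT q) (uPart P.ρ 0 2 A.Da A.Du) → S.Sized φu 26 →
        ∃ (S' : Bld En) (fB : Form), S.Ext S' ∧ S'.Ok ∧
          S'.len ≤ S.len + (K * (n + 1) + (n + 1) + N) ∧
          S'.Has fB (P.G * P.bx)
            (28 * (tanP P.G P.sx P.Lx A.ea / √(P.t - q ^ 2)
              + tanQ P.G P.ρ P.sx P.Lx A.ea A.eu))
            (tanP P.G 0 P.Lx A.la / √(P.t - q ^ 2) + tanQ P.G P.ρ 0 P.Lx A.la A.lu) ∧
          S'.Near fB (π.fT q 1)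
            (tanP P.G P.def0 2 A.Da / √(P.t - q ^ 2) + tanQ P.G P.ρ P.def0 2 A.Da A.Du) := by
  obtain ⟨N, Ct, hCt, hblock⟩ := tan_block hT hTan n
  refine ⟨N, 64 * Ct, by linarith, ?_⟩
  intro d En S P π K C₀ hC₀ hok hP₀ htail hbud q hq A φz φX φu hin hA hu hnu hsu
  have hP := hP₀.mono (by linarith) hC₀
  obtain ⟨hr, hrt, hsr, hsr1, hρ, hG2, hG1, hGC, hT1⟩ := hP.node_facts (by linarith) hok.pos hq
  have hst : P.s ≤ P.t := by linarith [hP.s_le, hP.s_pos]
  set r := P.t - q ^ 2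
  have hsr0 : 0 < √r := Real.sqrt_pos.2 hr
  set l := P.h * √r
  have hh := hP.h_pos
  have hl : 0 < l := mul_pos hh hsr0
  have hlr : l ≤ √r / 2 := by
    have := mul_le_mul_of_nonneg_right hP.h_le hsr0.le
    linarith
  have hl2 : l ^ 2 = P.h ^ 2 * r := by simp only [l, mul_pow, Real.sq_sqrt hr.le]
  have hLx : 0 ≤ P.Lx := by linarith [hP.Lx_ge]
  have hwin : Ct * l ^ 2 ≤ 1 / 4 ∧ Ct * P.Lx * l ^ 2 ≤ 1 / 2 := by
    have h1 : l ^ 2 ≤ P.h ^ 2 * P.t := by
      rw [hl2]; exact mul_le_mul_of_nonneg_left hrt (sq_nonneg _)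
    have h0 : 0 ≤ P.h ^ 2 * P.t := le_trans (sq_nonneg l) h1
    have h2 := hP.winX
    have h3 : Ct * P.Lx * l ^ 2 ≤ Ct * P.Lx * (P.h ^ 2 * P.t) :=
      mul_le_mul_of_nonneg_left h1 (by positivity)
    have h4 : Ct * l ^ 2 ≤ Ct * P.Lx * l ^ 2 :=
      mul_le_mul_of_nonneg_right (le_mul_of_one_le_right (by linarith) hP.Lx_ge) (sq_nonneg _)
    exact ⟨by linarith, by linarith⟩
  have hbxr : 0 ≤ P.bx * √r := mul_nonneg hP.bx_nn hsr0.le
  have horc : ∀ r', 3 / 4 * r ≤ r' → r' ≤ r → ∃ (O : Orc d) (tgt ρ : ℝ),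
      P.ν * √r / 2 ≤ tgt ∧ 0 < tgt ∧ |ρ| ≤ P.bx * √r ∧ O.A.size ≤ S.qb ∧
      ∀ V, Quarter.InClass V → Valid O.P O.A V r' tgt ρ P.sx P.Lx := by
    intro r' h1 h2
    obtain ⟨O, tgt, ρo, a1, a2, a3, a4, a5⟩ :=
      hP.orcX r' (lt_of_lt_of_le (by linarith) h1) (h2.trans hrt)
    refine ⟨O, tgt, ρo, le_trans ?_ a1, a2,
      a3.trans (mul_le_mul_of_nonneg_left (Real.sqrt_le_sqrt h2) hP.bx_nn), a4, a5⟩
    rw [mul_div_assoc]
    refine mul_le_mul_of_nonneg_left (Real.le_sqrt_of_sq_le ?_) hP.ν_pos.le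
    rw [div_pow, Real.sq_sqrt hr.le]
    linarith
  have hsx := hP.sx_nn
  have hν := hP.ν_pos
  have hblur : P.ν * √r / 8 + l * (P.ν / 4 + Ct * l * (√(S.circ.T : ℝ) * (P.bx * √r)))
      ≤ P.ν * √r / 2 := by
    have h1 : Ct * (√(S.circ.T : ℝ) * (r * P.bx)) ≤ P.ν / 64 := by
      have e : Ct * (√(S.circ.T : ℝ) * (r * P.bx)) ≤ Ct * (√(S.circ.T : ℝ) * (P.t * P.bx)) :=
        mul_le_mul_of_nonneg_left (mul_le_mul_of_nonneg_left
          (mul_le_mul_of_nonneg_right hrt hP.bx_nn) (Real.sqrt_nonneg _)) (by linarith)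
      linarith [hP.blurWinX]
    have e2 : Ct * l * (√(S.circ.T : ℝ) * (P.bx * √r))
        = P.h * (Ct * (√(S.circ.T : ℝ) * (r * P.bx))) := by
      simp only [l]
      linear_combination (Ct * P.h * √(S.circ.T : ℝ) * P.bx) * Real.mul_self_sqrt hr.le
    rw [e2]
    have h2 : P.h * (Ct * (√(S.circ.T : ℝ) * (r * P.bx))) ≤ P.ν / 64 :=
      le_trans (mul_le_of_le_one_left (by have := hP.bx_nn; positivity)
        (by linarith [hP.h_le])) h1
    calc P.ν * √r / 8 + l * (P.ν / 4 + P.h * (Ct * (√(S.circ.T : ℝ) * (r * P.bx))))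
        ≤ P.ν * √r / 8 + √r / 2 * (P.ν / 4 + P.ν / 64) :=
          add_le_add le_rfl (mul_le_mul hlr (by linarith) (by have := hP.bx_nn; positivity)
            (by positivity))
      _ ≤ _ := by linarith [mul_nonneg hν.le hsr0.le]
  have hea := hA.ea
  have heu := hA.eu
  have hla := hA.la
  have hlu := hA.lu
  have hU : 0 ≤ uPart P.ρ P.sx P.Lx A.ea A.eu := by unfold uPart; positivity
  have hUl : 0 ≤ uPart P.ρ 0 P.Lx A.la A.lu := by unfold uPart; positivity
  have hUD : 0 ≤ uPart P.ρ 0 2 A.Da A.Du := by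
    have := hA.Da
    have := hA.Du
    unfold uPart; positivity
  have hsz : S.Sized φz 26 :=
    (hin.nz.sized hA.Da (sz := 25) (by norm_num) (π.tmeas_zT hP.s_pos hst hq)
      fun V hV c => π.size_zT hP.s_pos hst hq hP.t_le hV c).mono (by linarith [hA.Da_le])
  obtain ⟨S', fB, hext, hok', hlen', hhas, hnear⟩ := hblock d En S hok r l P.sx P.Lx (P.bx * √r)
    (P.ν * √r / 2) (hrt.trans hP.t_le) hl hlr hwin.1 hwin.2 hsx hLx hbxr horc K hbud φz φu
    (P.ν * √r / 8) A.ea A.la (P.ν / 4) (14 * uPart P.ρ P.sx P.Lx A.ea A.eu)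
    (uPart P.ρ 0 P.Lx A.la A.lu) 26 26 hin.hz hu hA.ea hA.la (by positivity) (by positivity) hUl
    (by norm_num) (by norm_num) hblur hsz hsu (π.zT q) (π.uT q) A.Da (uPart P.ρ 0 2 A.Da A.Du) 54 hA.Da hUD
    (by norm_num) hin.nz hnu fun V hV c => node_law hP.s_pos hst hP.t_le hq hV c
  have hCl : Ct / l ≤ P.G / √r := by
    have e : Ct / l = Ct / P.h / √r := by simp only [l]; rw [div_div]
    rw [e]
    refine div_le_div_of_nonneg_right ?_ hsr0.le
    exact le_trans (div_le_div_of_nonneg_right (by linarith) hh.le) hG2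
  refine ⟨S', fB, hext, hok', hlen', hhas.mono ?_ ?_ ?_, fun V hV c =>
    (hnear V hV c).trans (ENNReal.ofReal_le_ofReal
      (mul_le_mul_of_nonneg_right ?_ (by positivity)))⟩
  · have e : Ct / l * (√(S.circ.T : ℝ) * (P.bx * √r))
        = Ct * (√(S.circ.T : ℝ) / P.h) * P.bx := by
      simp only [l]; field_simp
    rw [e]
    refine mul_le_mul_of_nonneg_right (le_trans ?_ hP.G_ge) hP.bx_nn
    exact mul_le_mul_of_nonneg_right (by linarith)
      (div_nonneg (Real.sqrt_nonneg _) hh.le)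
  · have hl26 : P.sx * (l * 26) ≤ P.sx * 26 :=
      mul_le_mul_of_nonneg_left (by nlinarith) hsx
    have h1 : Ct / l * (P.sx * (2 + (26 + l * 26)) + P.Lx * A.ea)
        ≤ 28 * (tanP P.G P.sx P.Lx A.ea / √r) := by
      have e : 28 * (tanP P.G P.sx P.Lx A.ea / √r) = P.G / √r * (28 * (P.sx + P.Lx * A.ea)) := by
        simp only [tanP]; ring
      rw [e]
      have hCl2 : 2 * (Ct / l) ≤ P.G / √r := by
        have e2 : 2 * (Ct / l) = 2 * Ct / P.h / √r := by simp only [l]; field_simp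
        rw [e2]
        exact div_le_div_of_nonneg_right
          (le_trans (div_le_div_of_nonneg_right (by linarith) hh.le) hG2) hsr0.le
      calc Ct / l * (P.sx * (2 + (26 + l * 26)) + P.Lx * A.ea)
          ≤ Ct / l * (2 * (28 * (P.sx + P.Lx * A.ea))) :=
            mul_le_mul_of_nonneg_left (by linarith [mul_nonneg hLx hA.ea]) (by positivity)
        _ = 2 * (Ct / l) * (28 * (P.sx + P.Lx * A.ea)) := by ring
        _ ≤ _ := mul_le_mul_of_nonneg_right hCl2 (by positivity)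
    have h2 : Ct / l * (P.Lx * (l * (14 * uPart P.ρ P.sx P.Lx A.ea A.eu)))
        ≤ 28 * tanQ P.G P.ρ P.sx P.Lx A.ea A.eu := by
      have e : Ct / l * (P.Lx * (l * (14 * uPart P.ρ P.sx P.Lx A.ea A.eu)))
          = 14 * (Ct * P.Lx * uPart P.ρ P.sx P.Lx A.ea A.eu) := by field_simp
      rw [e, tanQ]
      have := mul_le_mul_of_nonneg_right (mul_le_mul_of_nonneg_right (show Ct ≤ P.G by linarith)
        hLx) hU
      linarith [mul_nonneg (mul_nonneg (show (0:ℝ) ≤ P.G by linarith) hLx) hU]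
    linarith
  · have h1 : Ct / l * (P.Lx * A.la) ≤ tanP P.G 0 P.Lx A.la / √r := by
      have e : tanP P.G 0 P.Lx A.la / √r = P.G / √r * (P.Lx * A.la) := by
        simp only [tanP]; ring
      rw [e]
      exact mul_le_mul_of_nonneg_right hCl (mul_nonneg hLx hA.la)
    have h2 : Ct / l * (P.Lx * (l * uPart P.ρ 0 P.Lx A.la A.lu))
        ≤ tanQ P.G P.ρ 0 P.Lx A.la A.lu := by
      have e : Ct / l * (P.Lx * (l * uPart P.ρ 0 P.Lx A.la A.lu))
          = Ct * P.Lx * uPart P.ρ 0 P.Lx A.la A.lu := by field_simp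
      rw [e, tanQ]
      exact mul_le_mul_of_nonneg_right (mul_le_mul_of_nonneg_right (by linarith) hLx) hUl
    linarith
  · have hlh : l / √r = P.h := by simp only [l]; field_simp
    rw [hlh]
    have hD0 := hP.def_nn
    have hDa := hA.Da
    have ht1 : Ct * ((Ct * l ^ 2) ^ K * (1 + 54) + P.h ^ n)
        ≤ P.G * P.def0 / √r := by
      have h1 : Ct * l ^ 2 ≤ 64 * Ct * P.h ^ 2 := by
        rw [hl2]
        have := mul_le_mul_of_nonneg_left (hrt.trans hP.t_le) (sq_nonneg P.h)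
        nlinarith [mul_nonneg (show (0:ℝ) ≤ Ct by linarith) (sq_nonneg P.h)]
      have h2 := pow_le_pow_left₀ (by positivity) h1 K
      have hCt0 : (0 : ℝ) ≤ Ct := by linarith
      have hy : 0 ≤ Ct * (64 * Ct * P.h ^ 2) ^ K :=
        mul_nonneg hCt0 (pow_nonneg (mul_nonneg (by linarith) (sq_nonneg _)) K)
      have hn : 0 ≤ Ct * P.h ^ n := mul_nonneg hCt0 (pow_nonneg hh.le n)
      have hx := mul_le_mul_of_nonneg_left h2 hCt0
      have h3 : Ct * ((Ct * l ^ 2) ^ K * (1 + 54) + P.h ^ n)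
          ≤ 64 * Ct * ((64 * Ct * P.h ^ 2) ^ K + P.h ^ n) := by
        linarith only [hx, hy, hn]
      refine h3.trans (htail.trans ?_)
      rw [le_div_iff₀ hsr0]
      calc P.def0 * √r ≤ P.def0 * 1 := mul_le_mul_of_nonneg_left hsr1 hD0
        _ ≤ P.G * P.def0 := by
          rw [mul_one]; exact le_mul_of_one_le_left hD0 hG1
    have ht2 : Ct * (A.Da / l) ≤ P.G * A.Da / √r := by
      have e : Ct * (A.Da / l) = Ct / l * A.Da := by ring
      rw [e, mul_comm P.G, mul_div_assoc, mul_comm A.Da]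
      exact mul_le_mul_of_nonneg_right hCl hDa
    have ht3 : Ct * uPart P.ρ 0 2 A.Da A.Du ≤ tanQ P.G P.ρ P.def0 2 A.Da A.Du := by
      have hle : uPart P.ρ 0 2 A.Da A.Du ≤ uPart P.ρ P.def0 2 A.Da A.Du := by
        unfold uPart
        exact div_le_div_of_nonneg_right (by linarith) hρ.le
      rw [tanQ]
      refine mul_le_mul (by linarith) hle hUD (by linarith)
    have ht4 : P.G * P.def0 / √r + P.G * A.Da / √r ≤ tanP P.G P.def0 2 A.Da / √r := by
      rw [← add_div, tanP]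
      refine div_le_div_of_nonneg_right ?_ hsr0.le
      have := mul_nonneg (show (0:ℝ) ≤ P.G by linarith only [hG1]) hDa
      linarith only [this]
    linarith only [ht1, ht2, ht3, ht4]

end

end P347.Zero
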