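import Vale.Agent.P347.Zero.Field
import Vale.Agent.P347.Zero.Specs

/-!
# P347: averages over the law of the pair, and Sobolev norms of tensor fields

The operators are the derivatives `DW`, `DU`, their adjoints `dlW`, `dlU` in the law of the pair,
and the multiplication `Mul a s` by a derivative of `log smooth` with `a` free and `s` contracted
indices. All of them are bounded on the scale of norms, with constants free of the dimension.
-/

namespace P347.Zero

open MeasureTheory ProbabilityTheory Filter Topology Finset P347.Quarter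
open scoped RealInnerProductSpace

noncomputable section

variable {d : ℕ}

theorem exists_cum_norm (k : ℕ) : ∃ C : ℝ, 1 ≤ C ∧ ∀ (d : ℕ) (V : Space d → ℝ), InClass V →
    ∀ r, 0 < r → r ≤ 1 → ∀ z n, 2 ≤ n → n ≤ k →
      Bip (fun L => ld V L (r, z)) n (C * (√r)⁻¹ ^ (n - 2)) := by
  obtain ⟨C, hC, h⟩ := exists_cum k
  exact ⟨C, hC, fun d V hV r hr hr1 z n hn hn' =>
    h d V hV (fun r' hr' => lipschitz_score hV hr'.le) r hr hr1 z n hn hn'⟩

theorem sd_avg_abs {V : Space d → ℝ} (hV : InClass V) {t q : ℝ} (hq : q ^ 2 < t) (y : Space d)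
    (L : List (Fin d)) :
    ∫ w, sd V L (t - q ^ 2, y + q • w) ∂stdGaussian (Space d) = sd V L (t, y) := by
  rcases le_total 0 q with h | h
  · exact sd_avg hV hq h y L
  · have h' := sd_avg hV (v := -q) (by simpa using hq) (by linarith) y L
    set γ := stdGaussian (Space d) with hγ
    have hm : γ.map (LinearIsometryEquiv.neg ℝ (E := Space d)) = γ := stdGaussian_map _
    have hc : Continuous fun w => sd V L (t - q ^ 2, y + q • w) :=
      ((nice_sd hV L).contDiff (r := t - q ^ 2) (by linarith)).continuous.comp (by fun_prop)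
    rw [← hm, integral_map (by fun_prop) hc.aestronglyMeasurable, ← h']
    exact integral_congr_ae (Eventually.of_forall fun w => by simp)

namespace Ctx

variable (X : Ctx d)

/-- The density of `w`, up to a constant. -/
def wt (q : ℝ) (w : Space d) : ℝ := sd X.V [] (X.t - q ^ 2, X.y + q • w)

/-- The mean over the law of the pair. -/
def avg (q : ℝ) (f : Fn d) : ℝ :=
  (∫ z, f q z.1 z.2 * X.wt q z.1 ∂gauss2 (Space d)) / sd X.V [] (X.t, X.y)

theorem wt_pos {q : ℝ} (w : Space d) : 0 < X.wt q w := smooth_pos' X.hV _ _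

theorem mass_pos : 0 < sd X.V [] (X.t, X.y) := smooth_pos' X.hV _ _

variable {X}

theorem continuous_wt {q : ℝ} (hq : q ^ 2 < X.t) : Continuous (X.wt q) :=
  ((nice_sd X.hV []).contDiff (r := X.t - q ^ 2) (by linarith)).continuous.comp (by fun_prop)

theorem wt_le {q : ℝ} (hq : q ^ 2 < X.t) : ∃ K, 0 ≤ K ∧ ∀ w, X.wt q w ≤ K := by
  obtain ⟨K, hK, h⟩ := exists_sd_bound d [] (show 0 < X.t - q ^ 2 by linarith)
  exact ⟨K, hK, fun w => (le_abs_self _).trans (h X.V X.hV _ le_rfl _)⟩

theorem Alg.tame_w {f : Fn d} (hf : X.Alg f) {q : ℝ} (hq : q ^ 2 < X.t) (u : Space d) :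
    Tame fun w => f q w u := by
  obtain ⟨C, n, hC, hb⟩ := hf.growth hq
  choose D k hD hD' using fun i => (hf.dW i).growth hq
  refine Tame.of_bounds (hf.contDiff_w 1 hq u) (C := C * (1 + ‖u‖) ^ n)
    (D := ∑ i, D i * (1 + ‖u‖) ^ k i) (n := n) (k := ∑ i, k i) (by positivity)
    (sum_nonneg fun i _ => mul_nonneg (hD i) (by positivity)) (fun w => ?_) fun w => ?_
  · rw [Real.norm_eq_abs]
    refine (hb w u).trans ?_
    rw [mul_assoc, ← mul_pow]
    exact mul_le_mul_of_nonneg_left (pow_le_pow_left₀ (by positivity)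
      (by nlinarith [norm_nonneg u, norm_nonneg w]) n) hC
  · refine ((norm_fderiv_pd_le [] (fun w => f q w u) w).trans (le_of_eq rfl)).trans ?_
    rw [sum_mul]
    refine sum_le_sum fun i _ => (hD' i w u).trans ?_
    rw [mul_assoc]
    refine mul_le_mul_of_nonneg_left ?_ (hD i)
    refine (pow_le_pow_left₀ (by positivity) (show 1 + ‖w‖ + ‖u‖ ≤ (1 + ‖u‖) * (1 + ‖w‖) by
      nlinarith [norm_nonneg u, norm_nonneg w]) _).trans ?_
    rw [mul_pow]
    exact mul_le_mul_of_nonneg_left (pow_le_pow_right₀ (by linarith [norm_nonneg w])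
      (single_le_sum (fun j _ => Nat.zero_le (k j)) (mem_univ i))) (by positivity)

theorem Alg.tame_u {f : Fn d} (hf : X.Alg f) {q : ℝ} (hq : q ^ 2 < X.t) (w : Space d) :
    Tame fun u => f q w u := by
  obtain ⟨C, n, hC, hb⟩ := hf.growth hq
  choose D k hD hD' using fun i => (hf.dU i).growth hq
  refine Tame.of_bounds (hf.contDiff_u 1 hq w) (C := C * (1 + ‖w‖) ^ n)
    (D := ∑ i, D i * (1 + ‖w‖) ^ k i) (n := n) (k := ∑ i, k i) (by positivity)
    (sum_nonneg fun i _ => mul_nonneg (hD i) (by positivity)) (fun u => ?_) fun u => ?_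
  · rw [Real.norm_eq_abs]
    refine (hb w u).trans ?_
    rw [mul_assoc, ← mul_pow]
    exact mul_le_mul_of_nonneg_left (pow_le_pow_left₀ (by positivity)
      (by nlinarith [norm_nonneg u, norm_nonneg w]) n) hC
  · refine ((norm_fderiv_pd_le [] (fun u => f q w u) u).trans (le_of_eq rfl)).trans ?_
    rw [sum_mul]
    refine sum_le_sum fun i _ => (hD' i w u).trans ?_
    rw [mul_assoc]
    refine mul_le_mul_of_nonneg_left ?_ (hD i)
    refine (pow_le_pow_left₀ (by positivity) (show 1 + ‖w‖ + ‖u‖ ≤ (1 + ‖w‖) * (1 + ‖u‖) by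
      nlinarith [norm_nonneg u, norm_nonneg w]) _).trans ?_
    rw [mul_pow]
    exact mul_le_mul_of_nonneg_left (pow_le_pow_right₀ (by linarith [norm_nonneg u])
      (single_le_sum (fun j _ => Nat.zero_le (k j)) (mem_univ i))) (by positivity)

theorem Alg.integrable {f : Fn d} (hf : X.Alg f) {q : ℝ} (hq : q ^ 2 < X.t) :
    Integrable (fun z : Space d × Space d => f q z.1 z.2 * X.wt q z.1) (gauss2 (Space d)) := by
  obtain ⟨C, n, hC, hb⟩ := hf.growth hq
  obtain ⟨K, hK, hKb⟩ := wt_le hq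
  refine integrable_of_poly (C := C * 2 ^ n * K) (n := n)
    ((hf.contDiff_pair 1 hq).continuous.mul
      ((continuous_wt hq).comp continuous_fst)).aestronglyMeasurable fun z => ?_
  rw [Real.norm_eq_abs, abs_mul, abs_of_pos (X.wt_pos z.1)]
  refine (mul_le_mul (hb _ _) (hKb _) (X.wt_pos z.1).le (by positivity)).trans ?_
  have h2 : (1 + ‖z.1‖ + ‖z.2‖) ^ n ≤ (2 * (1 + ‖z‖)) ^ n := pow_le_pow_left₀ (by positivity)
    (by linarith [norm_fst_le z, norm_snd_le z, norm_nonneg z]) n
  rw [mul_pow] at h2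
  have := mul_le_mul_of_nonneg_right (mul_le_mul_of_nonneg_left h2 hC) hK
  nlinarith

theorem avg_congr {f g : Fn d} {q : ℝ} (h : ∀ w u, g q w u = f q w u) :
    X.avg q g = X.avg q f := by
  simp [avg, h]

theorem avg_add {f g : Fn d} (hf : X.Alg f) (hg : X.Alg g) {q : ℝ} (hq : q ^ 2 < X.t) :
    X.avg q (fun q w u => f q w u + g q w u) = X.avg q f + X.avg q g := by
  simp only [avg, add_mul]
  rw [integral_add (hf.integrable hq) (hg.integrable hq), add_div]

theorem avg_mul_left (c : ℝ) (f : Fn d) (q : ℝ) :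
    X.avg q (fun q w u => c * f q w u) = c * X.avg q f := by
  simp only [avg, mul_assoc]
  rw [integral_const_mul, mul_div_assoc]

theorem avg_mono {f g : Fn d} (hf : X.Alg f) (hg : X.Alg g) {q : ℝ} (hq : q ^ 2 < X.t)
    (h : ∀ w u, f q w u ≤ g q w u) : X.avg q f ≤ X.avg q g :=
  div_le_div_of_nonneg_right (integral_mono (hf.integrable hq) (hg.integrable hq) fun z =>
    mul_le_mul_of_nonneg_right (h z.1 z.2) (X.wt_pos z.1).le) X.mass_pos.le

theorem avg_nonneg {f : Fn d} {q : ℝ} (h : ∀ w u, 0 ≤ f q w u) : 0 ≤ X.avg q f :=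
  div_nonneg (integral_nonneg fun z => mul_nonneg (h z.1 z.2) (X.wt_pos z.1).le) X.mass_pos.le

theorem avg_const (c : ℝ) {q : ℝ} (hq : q ^ 2 < X.t) : X.avg q (fun _ _ _ => c) = c := by
  simp only [avg]
  rw [integral_const_mul, integral_fun_fst (fun w => X.wt q w)]
  have := sd_avg_abs X.hV hq X.y []
  simp only [probReal_univ, one_smul, Ctx.wt, this]
  field_simp [X.mass_pos.ne']

theorem avg_sum {κ : Type} (s : Finset κ) {f : κ → Fn d} (h : ∀ k, X.Alg (f k)) {q : ℝ}
    (hq : q ^ 2 < X.t) :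
    X.avg q (fun q w u => ∑ k ∈ s, f k q w u) = ∑ k ∈ s, X.avg q (f k) := by
  simp only [avg, sum_mul]
  rw [integral_finsetSum _ fun k _ => (h k).integrable hq, sum_div]

theorem Alg.tsum : ∀ (n : ℕ) {F : List (Fin d) → Fn d},
    (∀ L, L.length = n → X.Alg (F L)) → X.Alg fun q w u => tsum' n fun L => F L q w u
  | 0, _, h => h [] rfl
  | n + 1, F, h => Alg.sum Finset.univ fun i =>
      Alg.tsum n (F := fun L => F (i :: L)) fun L hL => h _ (by simp [hL])

theorem avg_tsum : ∀ (n : ℕ) {F : List (Fin d) → Fn d}, (∀ L, L.length = n → X.Alg (F L)) →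
    ∀ {q : ℝ}, q ^ 2 < X.t → X.avg q (fun q w u => tsum' n fun L => F L q w u)
      = tsum' n fun L => X.avg q (F L)
  | 0, _, _, _, _ => rfl
  | n + 1, F, h, q, hq => by
    simp only [tsum']
    rw [avg_sum _ (fun i => Alg.tsum n (F := fun L => F (i :: L)) fun L hL => h _ (by simp [hL])) hq]
    exact sum_congr rfl fun i _ =>
      avg_tsum n (F := fun L => F (i :: L)) (fun L hL => h _ (by simp [hL])) hq

/-- Integration by parts in `w`. -/
theorem avg_ibp_w {f : Fn d} (hf : X.Alg f) (l : Fin d) {q : ℝ} (hq : q ^ 2 < X.t) :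
    X.avg q (fun q w u => dW l f q w u + X.beta l q w u * f q w u) = 0 := by
  have hA : X.Alg fun q w u => dW l f q w u + X.beta l q w u * f q w u :=
    (hf.dW l).add ((X.alg_beta l).mul hf)
  simp only [avg, div_eq_zero_iff]
  left
  rw [integral_prod_symm _ (hA.integrable hq)]
  refine integral_eq_zero_of_ae (Eventually.of_forall fun u => ?_)
  simp only [Pi.zero_apply]
  have hr : 0 < X.t - q ^ 2 := by linarith
  have hP : Tame (X.wt q) := by
    obtain ⟨K, hK, hKb⟩ := (nice_sd X.hV ([] : List (Fin d))).bd _ hr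
    refine tame_of_lip (((nice_sd X.hV []).contDiff hr).comp (by fun_prop)) (L := |q| * K) fun w => ?_
    have h : HasFDerivAt (X.wt q) (q • fderiv ℝ (fun z => sd X.V [] (X.t - q ^ 2, z))
        (X.y + q • w)) w := by
      refine (((((nice_sd X.hV []).contDiff hr).differentiable one_ne_zero _).hasFDerivAt).comp w
        (((hasFDerivAt_id w).const_smul q).const_add X.y)).congr_fderiv ?_
      ext v; simp
    rw [h.fderiv, norm_smul, Real.norm_eq_abs]
    exact mul_le_mul_of_nonneg_left (hKb _ le_rfl (by linarith [X.ht1, sq_nonneg q]) _).2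
      (abs_nonneg q)
  have hg := gauss_parts ((hf.tame_w hq u).mul hP) (bv l)
  simp only [inner_bv] at hg
  have hd : ∀ w, fderiv ℝ (fun w => f q w u * X.wt q w) w (bv l)
      = (dW l f q w u + q * X.coef [l] q w u * f q w u) * X.wt q w := by
    intro w
    rw [fderiv_fun_mul ((hf.tame_w hq u).differentiable w) (hP.differentiable w)]
    have h2 : fderiv ℝ (X.wt q) w (bv l) = q * X.coef [l] q w u * X.wt q w := by
      have h : HasFDerivAt (X.wt q) _ w := HasFDerivAt.comp w
        (g := fun z => sd X.V [] (X.t - q ^ 2, z)) (f := fun w : Space d => X.y + q • w)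
        (hasFDerivAt_sd_space X.hV [] hr (X.y + q • w))
        (((hasFDerivAt_id w).const_smul q).const_add X.y)
      rw [h.fderiv]
      simp only [ContinuousLinearMap.comp_apply, _root_.smul_apply, ContinuousLinearMap.id_apply,
        map_smul, sum_proj_bv, smul_eq_mul, Ctx.coef, Ctx.wt, ld_single X.hV hr]
      field_simp [(smooth_pos' X.hV (X.t - q ^ 2) (X.y + q • w)).ne', sd, pd]
    simp only [_root_.add_apply, _root_.smul_apply, smul_eq_mul, h2, Ctx.dW]
    ring
  simp only [hd] at hg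
  have i1 : Integrable (fun w => (dW l f q w u + q * X.coef [l] q w u * f q w u) * X.wt q w)
      (stdGaussian (Space d)) :=
    ((((hf.dW l).add ((Alg.time.mul (Alg.coef [l] (by simp))).mul hf)).tame_w hq u).mul hP).integrable
  have i2 : Integrable (fun w => w l * (f q w u * X.wt q w)) (stdGaussian (Space d)) :=
    ((tame_clm (EuclideanSpace.proj l : Space d →L[ℝ] ℝ)).mul ((hf.tame_w hq u).mul hP)).integrable
  rw [show (fun w => (dW l f q w u + X.beta l q w u * f q w u) * X.wt q w)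
      = fun w => (dW l f q w u + q * X.coef [l] q w u * f q w u) * X.wt q w
        - w l * (f q w u * X.wt q w) from funext fun w => by simp only [Ctx.beta]; ring,
    integral_sub i1 i2, hg, sub_self]

/-- Integration by parts in `U`. -/
theorem avg_ibp_u {f : Fn d} (hf : X.Alg f) (l : Fin d) {q : ℝ} (hq : q ^ 2 < X.t) :
    X.avg q (fun q w u => dU l f q w u - u l * f q w u) = 0 := by
  have hA : X.Alg fun q w u => dU l f q w u - u l * f q w u :=
    .congr ((hf.dU l).add ((Alg.coordU l).mul hf).neg) fun q _ w u => by ring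
  simp only [avg, div_eq_zero_iff]
  left
  rw [integral_prod _ (hA.integrable hq)]
  refine integral_eq_zero_of_ae (Eventually.of_forall fun w => ?_)
  simp only [Pi.zero_apply]
  rw [integral_mul_const]
  have hg := gauss_parts (hf.tame_u hq w) (bv l)
  simp only [inner_bv] at hg
  have i1 : Integrable (fun u => dU l f q w u) (stdGaussian (Space d)) :=
    ((hf.dU l).tame_u hq w).integrable
  have i2 : Integrable (fun u => u l * f q w u) (stdGaussian (Space d)) :=
    ((tame_clm (EuclideanSpace.proj l : Space d →L[ℝ] ℝ)).mul (hf.tame_u hq w)).integrable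
  rw [integral_sub i1 i2, hg]
  simp [Ctx.dU]

end Ctx

/-! ### Tensor fields -/

/-- A tensor field. -/
abbrev Fld (d : ℕ) : Type := List (Fin d) → Fn d

/-- Reindexing along a map which does not increase norms. -/
def RX {d : ℕ} (n n' : ℕ) (g : List (Fin d) → List (Fin d)) : Prop :=
  (∀ L, L.length = n → (g L).length = n') ∧
    ∀ S : List (Fin d) → ℝ, nsq n (fun L => S (g L)) ≤ nsq n' S

/-- Put the head after the next `a` indices. -/
def mv (a : ℕ) : List (Fin d) → List (Fin d)
  | h :: L => L.take a ++ h :: L.drop a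
  | [] => []

/-- Bring the index at position `s` to the head. -/
def pk (s : ℕ) (L : List (Fin d)) : List (Fin d) :=
  (L.drop s).head?.toList ++ (L.take s ++ (L.drop s).tail)

/-- Keep the head, change the rest. -/
def lift' (g : List (Fin d) → List (Fin d)) : List (Fin d) → List (Fin d)
  | i :: L => i :: g L
  | [] => []

theorem mv_apply (h : Fin d) {A R : List (Fin d)} {a : ℕ} (hA : A.length = a) :
    mv a (h :: (A ++ R)) = A ++ h :: R := by
  simp [mv, ← hA]

theorem pk_apply (h : Fin d) {A R : List (Fin d)} {s : ℕ} (hA : A.length = s) :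
    pk s (A ++ h :: R) = h :: (A ++ R) := by
  simp [pk, ← hA]

theorem rx_lift {n n' : ℕ} {g : List (Fin d) → List (Fin d)} (hg : RX n n' g) :
    RX (n + 1) (n' + 1) (lift' g) := by
  refine ⟨fun L hL => ?_, fun S => ?_⟩
  · cases L with
    | nil => simp at hL
    | cons i L => simp [lift', hg.1 L (by simpa using hL)]
  · simp only [nsq, tsum', lift']
    exact sum_le_sum fun i _ => hg.2 fun L => S (i :: L)

theorem tsum'_succ_comm (a m : ℕ) (F : List (Fin d) → ℝ) :
    tsum' (a + m + 1) (fun L => F (mv a L)) = tsum' (a + m + 1) F := by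
  rw [show a + m + 1 = a + (m + 1) by omega, tsum'_append a (m + 1) F]
  rw [show a + (m + 1) = a + m + 1 by omega]
  simp only [tsum']
  rw [tsum'_sum, sum_congr rfl fun h _ => tsum'_append a m _]
  exact sum_congr rfl fun h _ => tsum'_congr fun A hA => tsum'_congr fun R _ => by
    rw [mv_apply h hA]

theorem rx_mv (a m : ℕ) : RX (d := d) (a + m + 1) (a + m + 1) (mv a) := by
  refine ⟨fun L hL => ?_, fun S => le_of_eq (tsum'_succ_comm a m fun L => S L ^ 2)⟩
  cases L with
  | nil => simp at hL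
  | cons h L => simp [mv] at hL ⊢; omega

theorem rx_pk (a m : ℕ) : RX (d := d) (a + m + 1) (a + m + 1) (pk a) := by
  refine ⟨fun L hL => ?_, fun S => le_of_eq ?_⟩
  · obtain ⟨h, R, e⟩ : ∃ h R, L.drop a = h :: R := by
      cases hd : L.drop a with
      | nil => have := congrArg List.length hd; simp at this; omega
      | cons h R => exact ⟨h, R, rfl⟩
    have := congrArg List.length e
    simp at this
    simp [pk, e]; omega
  · unfold nsq
    rw [← tsum'_succ_comm a m]
    refine tsum'_congr fun L hL => ?_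
    cases L with
    | nil => simp at hL
    | cons h L =>
      simp only [List.length_cons, Nat.add_right_cancel_iff] at hL
      have hA : (L.take a).length = a := by simp; omega
      simp only [mv]
      rw [pk_apply h hA, List.take_append_drop]

namespace Ctx

variable (X : Ctx d)

/-- Admissible fields of order `n`. -/
def A (n : ℕ) (Y : Fld d) : Prop := ∀ L, L.length = n → X.Alg (Y L)

/-- The derivative in `w`, the new index first. -/
def DW (Y : Fld d) : Fld d
  | i :: L => dW i (Y L)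
  | [] => fun _ _ _ => 0

/-- The derivative in `U`, the new index first. -/
def DU (Y : Fld d) : Fld d
  | i :: L => dU i (Y L)
  | [] => fun _ _ _ => 0

/-- The adjoint of `-DW`. -/
def dlW (Y : Fld d) : Fld d := fun L q w u =>
  ∑ l, (dW l (Y (l :: L)) q w u + X.beta l q w u * Y (l :: L) q w u)

/-- The adjoint of `-DU`. -/
def dlU (Y : Fld d) : Fld d := fun L q w u =>
  ∑ l, (dU l (Y (l :: L)) q w u - u l * Y (l :: L) q w u)

/-- Multiplication by a derivative of `log smooth`: `a` free indices, `s` contracted ones. -/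
def Mul (a s : ℕ) (Y : Fld d) : Fld d := fun L q w u =>
  tsum' s fun S => X.coef (L.take a ++ S) q w u * Y (S ++ L.drop a) q w u

/-- Multiplication by the time. -/
def tim (Y : Fld d) : Fld d := fun L q w u => q * Y L q w u

/-- The squared norm at time `q` is at most `M²`. -/
def L2 (q : ℝ) (n : ℕ) (Y : Fld d) (M : ℝ) : Prop :=
  X.avg q (fun q w u => nsq n fun L => Y L q w u) ≤ M ^ 2

/-- The unit of length: `√t / √r`. -/
def kap (q : ℝ) : ℝ := √X.t / √(X.t - q ^ 2)

/-- The inverse root of the variance. -/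
def rho (q : ℝ) : ℝ := (√(X.t - q ^ 2))⁻¹

/-- All derivatives up to order `J` are bounded in units of `kap`. -/
def Sob (q : ℝ) : ℕ → ℕ → Fld d → ℝ → Prop
  | 0, n, Y, M => X.L2 q n Y M
  | J + 1, n, Y, M => X.L2 q n Y M ∧ Sob q J (n + 1) (DW Y) (M * X.kap q) ∧
      Sob q J (n + 1) (DU Y) (M * X.kap q)

variable {X}

theorem alg_DW {n : ℕ} {Y : Fld d} (h : X.A n Y) : X.A (n + 1) (DW Y) := fun L hL => by
  cases L with
  | nil => simp at hL
  | cons i L => exact (h L (by simpa using hL)).dW i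

theorem alg_DU {n : ℕ} {Y : Fld d} (h : X.A n Y) : X.A (n + 1) (DU Y) := fun L hL => by
  cases L with
  | nil => simp at hL
  | cons i L => exact (h L (by simpa using hL)).dU i

theorem alg_dlW {n : ℕ} {Y : Fld d} (h : X.A (n + 1) Y) : X.A n (X.dlW Y) := fun L hL =>
  Alg.sum Finset.univ fun l => ((h (l :: L) (by simp [hL])).dW l).add
    ((X.alg_beta l).mul (h (l :: L) (by simp [hL])))

theorem alg_dlU {n : ℕ} {Y : Fld d} (h : X.A (n + 1) Y) : X.A n (dlU Y) := fun L hL =>
  .congr (Alg.sum Finset.univ fun l => ((h (l :: L) (by simp [hL])).dU l).add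
    ((Alg.coordU l).mul (h (l :: L) (by simp [hL]))).neg) fun q _ w u =>
      sum_congr rfl fun l _ => by ring

theorem alg_Mul {a s m : ℕ} {Y : Fld d} (ha : 1 ≤ a) (h : X.A (s + m) Y) :
    X.A (a + m) (X.Mul a s Y) := fun L hL =>
  Alg.tsum s fun S hS =>
    (Alg.coef (L.take a ++ S) (by simp; omega)).mul (h _ (by simp [hS]; omega))

theorem alg_rx {n n' : ℕ} {g : List (Fin d) → List (Fin d)} {Y : Fld d} (hg : RX n n' g)
    (h : X.A n' Y) : X.A n fun L => Y (g L) :=
  fun L hL => h _ (hg.1 L hL)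

theorem alg_tim {n : ℕ} {Y : Fld d} (h : X.A n Y) : X.A n (tim Y) :=
  fun L hL => Alg.time.mul (h L hL)

theorem alg_add {n : ℕ} {Y Z : Fld d} (hY : X.A n Y) (hZ : X.A n Z) :
    X.A n fun L q w u => Y L q w u + Z L q w u :=
  fun L hL => (hY L hL).add (hZ L hL)

theorem alg_smul {n : ℕ} {Y : Fld d} (c : ℝ) (h : X.A n Y) :
    X.A n fun L q w u => c * Y L q w u :=
  fun L hL => (Alg.const c).mul (h L hL)

theorem alg_sq {n : ℕ} {Y : Fld d} (h : X.A n Y) : X.Alg fun q w u => nsq n fun L => Y L q w u :=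
  .congr (Alg.tsum n fun L hL => (h L hL).mul (h L hL)) fun q _ w u => by simp [nsq, sq]

theorem kap_one_le {q : ℝ} (hq : q ^ 2 < X.t) : 1 ≤ X.kap q := by
  rw [kap, one_le_div₀ (Real.sqrt_pos.2 (by linarith))]
  exact Real.sqrt_le_sqrt (by linarith [sq_nonneg q])

theorem rho_one_le {q : ℝ} (hq : q ^ 2 < X.t) : 1 ≤ X.rho q :=
  (one_le_inv₀ (Real.sqrt_pos.2 (by linarith))).2
    (Real.sqrt_le_one.2 (by linarith [X.ht1, sq_nonneg q]))

theorem abs_q_rho {q : ℝ} (hq : q ^ 2 < X.t) : |q| * X.rho q ≤ X.kap q := by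
  rw [kap, div_eq_mul_inv, rho]
  exact mul_le_mul_of_nonneg_right (by rw [← Real.sqrt_sq_eq_abs]; exact Real.sqrt_le_sqrt hq.le)
    (by positivity)

theorem abs_q_le {q : ℝ} (hq : q ^ 2 < X.t) : |q| ≤ 1 := abs_le_one_of_sq X.ht1 hq

theorem L2.congr {q : ℝ} {n : ℕ} {Y Z : Fld d} {M : ℝ} (h : X.L2 q n Y M)
    (e : ∀ L, L.length = n → ∀ w u, Z L q w u = Y L q w u) : X.L2 q n Z M := by
  refine le_trans (le_of_eq (avg_congr fun w u => ?_)) h
  exact tsum'_congr fun L hL => by simp only [e L hL w u]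

theorem L2.mono {q : ℝ} {n : ℕ} {Y : Fld d} {M M' : ℝ} (h : X.L2 q n Y M) (hM : 0 ≤ M)
    (hM' : M ≤ M') : X.L2 q n Y M' :=
  le_trans h (pow_le_pow_left₀ hM hM' 2)

theorem L2.add {q : ℝ} (hq : q ^ 2 < X.t) {n : ℕ} {Y Z : Fld d} {M N : ℝ} (hY : X.A n Y)
    (hZ : X.A n Z) (h : X.L2 q n Y M) (h' : X.L2 q n Z N) (hM : 0 ≤ M) (hN : 0 ≤ N) :
    X.L2 q n (fun L q w u => Y L q w u + Z L q w u) (2 * (M + N)) := by
  refine le_trans (avg_mono (alg_sq (alg_add hY hZ))
    (((Alg.const 2).mul (alg_sq hY)).add ((Alg.const 2).mul (alg_sq hZ))) hq fun w u => ?_) ?_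
  · unfold nsq
    rw [← tsum'_mul, ← tsum'_mul, ← tsum'_add]
    exact tsum'_le fun L _ => by nlinarith [sq_nonneg (Y L q w u - Z L q w u)]
  · rw [avg_add ((Alg.const 2).mul (alg_sq hY)) ((Alg.const 2).mul (alg_sq hZ)) hq,
      avg_mul_left, avg_mul_left]
    unfold L2 at h h'
    nlinarith [mul_nonneg hM hN]

theorem L2.scale {q : ℝ} {n : ℕ} {Y Z : Fld d} {M : ℝ} (c : ℝ) (h : X.L2 q n Y M)
    (e : ∀ L, L.length = n → ∀ w u, Z L q w u = c * Y L q w u) : X.L2 q n Z (|c| * M) := by
  refine le_trans (le_of_eq (avg_congr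
    (f := fun q w u => c ^ 2 * nsq n fun L => Y L q w u) fun w u => ?_)) ?_
  · unfold nsq
    rw [← tsum'_mul]
    exact tsum'_congr fun L hL => by simp only [e L hL w u]; ring
  · rw [avg_mul_left, mul_pow, sq_abs]
    exact mul_le_mul_of_nonneg_left h (sq_nonneg c)

theorem Sob.l2 {q : ℝ} {J n : ℕ} {Y : Fld d} {M : ℝ} (h : X.Sob q J n Y M) : X.L2 q n Y M := by
  cases J with
  | zero => exact h
  | succ J => exact h.1

theorem Sob.le {q : ℝ} : ∀ {J J' : ℕ}, J ≤ J' → ∀ {n : ℕ} {Y : Fld d} {M : ℝ},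
    X.Sob q J' n Y M → X.Sob q J n Y M
  | 0, _, _, _, _, _, h => Sob.l2 h
  | _ + 1, 0, hJ, _, _, _, _ => absurd hJ (by omega)
  | _ + 1, _ + 1, hJ, _, _, _, h =>
    ⟨h.1, Sob.le (Nat.succ_le_succ_iff.1 hJ) h.2.1, Sob.le (Nat.succ_le_succ_iff.1 hJ) h.2.2⟩

theorem Sob.mono {q : ℝ} : ∀ {J n : ℕ} {Y : Fld d} {M M' : ℝ},
    X.Sob q J n Y M → 0 ≤ M → M ≤ M' → X.Sob q J n Y M'
  | 0, _, _, _, _, h, h0, hM => L2.mono h h0 hM
  | J + 1, _, _, _, _, h, h0, hM => by
    have hk : 0 ≤ X.kap q := by unfold Ctx.kap; positivity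
    exact ⟨h.1.mono h0 hM, h.2.1.mono (mul_nonneg h0 hk) (mul_le_mul_of_nonneg_right hM hk),
      h.2.2.mono (mul_nonneg h0 hk) (mul_le_mul_of_nonneg_right hM hk)⟩

theorem DW_eq {n : ℕ} {Y Z : Fld d} {q : ℝ} (e : ∀ L, L.length = n → ∀ w u, Z L q w u = Y L q w u)
    (L : List (Fin d)) (hL : L.length = n + 1) (w u : Space d) : DW Z L q w u = DW Y L q w u := by
  cases L with
  | nil => simp at hL
  | cons i L =>
    simp only [DW, dW, show (fun w' => Z L q w' u) = fun w' => Y L q w' u from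
      funext fun w' => e L (by simpa using hL) w' u]

theorem DU_eq {n : ℕ} {Y Z : Fld d} {q : ℝ} (e : ∀ L, L.length = n → ∀ w u, Z L q w u = Y L q w u)
    (L : List (Fin d)) (hL : L.length = n + 1) (w u : Space d) : DU Z L q w u = DU Y L q w u := by
  cases L with
  | nil => simp at hL
  | cons i L =>
    simp only [DU, dU, show (fun u' => Z L q w u') = fun u' => Y L q w u' from
      funext fun u' => e L (by simpa using hL) w u']

theorem Sob.congr {q : ℝ} : ∀ {J n : ℕ} {Y Z : Fld d} {M : ℝ}, X.Sob q J n Y M →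
    (∀ L, L.length = n → ∀ w u, Z L q w u = Y L q w u) → X.Sob q J n Z M
  | 0, _, _, _, _, h, e => L2.congr h e
  | J + 1, _, _, _, _, h, e => ⟨h.1.congr e, h.2.1.congr (DW_eq e), h.2.2.congr (DU_eq e)⟩

theorem Sob.scale {q : ℝ} (hq : q ^ 2 < X.t) (c : ℝ) : ∀ {J n : ℕ} {Y Z : Fld d} {M : ℝ},
    X.Sob q J n Y M → X.A n Y →
    (∀ L, L.length = n → ∀ w u, Z L q w u = c * Y L q w u) → X.Sob q J n Z (|c| * M)
  | 0, _, _, _, _, h, _, e => L2.scale c h e
  | J + 1, n, Y, Z, M, h, hY, e => by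
    refine ⟨h.1.scale c e, ?_, ?_⟩ <;> rw [mul_assoc]
    · refine h.2.1.scale hq c (alg_DW hY) fun L hL w u => ?_
      rw [DW_eq (Y := fun L q w u => c * Y L q w u) e L hL]
      cases L with
      | nil => simp at hL
      | cons i L =>
        simp only [DW, dW]
        rw [fderiv_const_mul ((hY L (by simpa using hL)).contDiff_w 1 hq u |>.differentiable
          one_ne_zero w)]
        simp
    · refine h.2.2.scale hq c (alg_DU hY) fun L hL w u => ?_
      rw [DU_eq (Y := fun L q w u => c * Y L q w u) e L hL]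
      cases L with
      | nil => simp at hL
      | cons i L =>
        simp only [DU, dU]
        rw [fderiv_const_mul ((hY L (by simpa using hL)).contDiff_u 1 hq w |>.differentiable
          one_ne_zero u)]
        simp

theorem Sob.add {q : ℝ} (hq : q ^ 2 < X.t) : ∀ {J n : ℕ} {Y Z : Fld d} {M N : ℝ},
    X.A n Y → X.A n Z → X.Sob q J n Y M → X.Sob q J n Z N → 0 ≤ M → 0 ≤ N →
    X.Sob q J n (fun L q w u => Y L q w u + Z L q w u) (2 * (M + N))
  | 0, _, _, _, _, _, hY, hZ, h, h', hM, hN => L2.add hq hY hZ h h' hM hN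
  | J + 1, n, Y, Z, M, N, hY, hZ, h, h', hM, hN => by
    have hk : 0 ≤ X.kap q := by unfold Ctx.kap; positivity
    refine ⟨L2.add hq hY hZ h.1 h'.1 hM hN, ?_, ?_⟩ <;>
      rw [show 2 * (M + N) * X.kap q = 2 * (M * X.kap q + N * X.kap q) by ring]
    · refine (Sob.add hq (alg_DW hY) (alg_DW hZ) h.2.1 h'.2.1 (mul_nonneg hM hk)
        (mul_nonneg hN hk)).congr fun L hL w u => ?_
      cases L with
      | nil => simp at hL
      | cons i L => exact dW_add (hY L (by simpa using hL)) (hZ L (by simpa using hL)) i hq w u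
    · refine (Sob.add hq (alg_DU hY) (alg_DU hZ) h.2.2 h'.2.2 (mul_nonneg hM hk)
        (mul_nonneg hN hk)).congr fun L hL w u => ?_
      cases L with
      | nil => simp at hL
      | cons i L => exact dU_add (hY L (by simpa using hL)) (hZ L (by simpa using hL)) i hq w u

theorem Sob.rx {q : ℝ} (hq : q ^ 2 < X.t) : ∀ {J n n' : ℕ} {g : List (Fin d) → List (Fin d)}
    {Y : Fld d} {M : ℝ}, RX n n' g → X.A n' Y → X.Sob q J n' Y M →
    X.Sob q J n (fun L => Y (g L)) M
  | 0, n, n', g, Y, M, hg, hY, h =>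
    le_trans (avg_mono (alg_sq (alg_rx hg hY)) (alg_sq hY) hq fun w u =>
      hg.2 fun L => Y L q w u) h
  | J + 1, n, n', g, Y, M, hg, hY, h => by
    refine ⟨le_trans (avg_mono (alg_sq (alg_rx hg hY)) (alg_sq hY) hq fun w u =>
      hg.2 fun L => Y L q w u) h.1, (Sob.rx hq (rx_lift hg) (alg_DW hY) h.2.1).congr ?_,
      (Sob.rx hq (rx_lift hg) (alg_DU hY) h.2.2).congr ?_⟩
    all_goals
      intro L hL w u
      cases L with
      | nil => simp at hL
      | cons i L => rfl

theorem dW_sum {κ : Type} (s : Finset κ) {f : κ → Fn d} (h : ∀ k, X.Alg (f k)) (i : Fin d)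
    {q : ℝ} (hq : q ^ 2 < X.t) (w u : Space d) :
    dW i (fun q w u => ∑ k ∈ s, f k q w u) q w u = ∑ k ∈ s, dW i (f k) q w u := by
  simp only [Ctx.dW]
  rw [fderiv_fun_sum fun k _ => ((h k).contDiff_w 1 hq u).differentiable one_ne_zero w]
  simp

theorem dU_sum {κ : Type} (s : Finset κ) {f : κ → Fn d} (h : ∀ k, X.Alg (f k)) (i : Fin d)
    {q : ℝ} (hq : q ^ 2 < X.t) (w u : Space d) :
    dU i (fun q w u => ∑ k ∈ s, f k q w u) q w u = ∑ k ∈ s, dU i (f k) q w u := by
  simp only [Ctx.dU]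
  rw [fderiv_fun_sum fun k _ => ((h k).contDiff_u 1 hq w).differentiable one_ne_zero u]
  simp

theorem dW_tsum (i : Fin d) {q : ℝ} (hq : q ^ 2 < X.t) (w u : Space d) :
    ∀ (s : ℕ) {F : List (Fin d) → Fn d}, (∀ L, L.length = s → X.Alg (F L)) →
      dW i (fun q w u => tsum' s fun L => F L q w u) q w u = tsum' s fun L => dW i (F L) q w u
  | 0, _, _ => rfl
  | s + 1, F, h => by
    simp only [tsum']
    rw [dW_sum _ (fun j => Alg.tsum s (F := fun L => F (j :: L)) fun L hL => h _ (by simp [hL]))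
      i hq w u]
    exact sum_congr rfl fun j _ =>
      dW_tsum i hq w u s (F := fun L => F (j :: L)) fun L hL => h _ (by simp [hL])

theorem dU_tsum (i : Fin d) {q : ℝ} (hq : q ^ 2 < X.t) (w u : Space d) :
    ∀ (s : ℕ) {F : List (Fin d) → Fn d}, (∀ L, L.length = s → X.Alg (F L)) →
      dU i (fun q w u => tsum' s fun L => F L q w u) q w u = tsum' s fun L => dU i (F L) q w u
  | 0, _, _ => rfl
  | s + 1, F, h => by
    simp only [tsum']
    rw [dU_sum _ (fun j => Alg.tsum s (F := fun L => F (j :: L)) fun L hL => h _ (by simp [hL]))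
      i hq w u]
    exact sum_congr rfl fun j _ =>
      dU_tsum i hq w u s (F := fun L => F (j :: L)) fun L hL => h _ (by simp [hL])

theorem coef_bip {q : ℝ} (hq : q ^ 2 < X.t) {k : ℕ} {C : ℝ}
    (hC : ∀ (d : ℕ) (V : Space d → ℝ), InClass V → ∀ r, 0 < r → r ≤ 1 → ∀ z n, 2 ≤ n → n ≤ k →
      Bip (fun L => ld V L (r, z)) n (C * (√r)⁻¹ ^ (n - 2)))
    {n : ℕ} (hn : 2 ≤ n) (hn' : n ≤ k) (w u : Space d) :
    Bip (fun L => X.coef L q w u) n (C * X.rho q ^ (n - 2)) :=
  hC d X.V X.hV _ (by linarith) (by linarith [X.ht1, sq_nonneg q]) _ n hn hn'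

theorem nsq_append (a m : ℕ) (S : List (Fin d) → ℝ) :
    nsq (a + m) S = tsum' m fun R => nsq a fun L => S (L ++ R) := by
  unfold nsq
  rw [tsum'_append, tsum'_comm]

/-- Multiplication is bounded in `L²`. -/
theorem exists_mul_l2 (a s : ℕ) : ∃ C : ℝ, 0 ≤ C ∧ ∀ (d : ℕ) (X : Ctx d) (q : ℝ),
    q ^ 2 < X.t → 1 ≤ a → 1 ≤ s → ∀ (m : ℕ) (Y : Fld d) (M : ℝ), X.A (s + m) Y →
      X.L2 q (s + m) Y M → X.L2 q (a + m) (X.Mul a s Y) (C * X.rho q ^ (a + s - 2) * M) := by
  obtain ⟨C, hC, hCb⟩ := exists_cum_norm (a + s)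
  refine ⟨C, by linarith, fun d X q hq ha hs m Y M hY h => ?_⟩
  set B := C * X.rho q ^ (a + s - 2) with hB
  have hB0 : 0 ≤ B := mul_nonneg (by linarith) (by unfold Ctx.rho; positivity)
  refine le_trans (avg_mono (alg_sq (alg_Mul ha hY)) ((Alg.const (B ^ 2)).mul (alg_sq hY)) hq
    fun w u => ?_) ?_
  · rw [nsq_append a m, nsq_append s m, ← tsum'_mul]
    refine tsum'_le fun R _ => ?_
    refine le_trans (le_of_eq (tsum'_congr fun L hL => ?_))
      ((coef_bip hq hCb (n := a + s) (by omega) le_rfl w u a s ha hs rfl).apply_sq hB0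
        fun S => Y (S ++ R) q w u)
    simp only [Ctx.Mul, ← hL, List.take_left, List.drop_left]
  · rw [avg_mul_left, mul_pow B M]
    exact mul_le_mul_of_nonneg_left h (sq_nonneg B)

theorem DW_Mul {a s m : ℕ} {Y : Fld d} (ha : 1 ≤ a) (hY : X.A (s + m) Y) {q : ℝ} (hq : q ^ 2 < X.t)
    (L : List (Fin d)) (hL : L.length = a + m + 1) (w u : Space d) :
    DW (X.Mul a s Y) L q w u = tim (X.Mul (a + 1) s Y) L q w u
      + X.Mul a s (fun L => DW Y (pk s L)) (mv a L) q w u := by
  cases L with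
  | nil => simp at hL
  | cons i L =>
    simp only [List.length_cons, Nat.add_right_cancel_iff] at hL
    have hc : ∀ S : List (Fin d), S.length = s → X.Alg (X.coef (L.take a ++ S)) :=
      fun S _ => Alg.coef _ (by simp; omega)
    have hy : ∀ S : List (Fin d), S.length = s → X.Alg (Y (S ++ L.drop a)) :=
      fun S hS => hY _ (by simp [hS]; omega)
    show dW i (fun q w u => tsum' s fun S =>
      X.coef (L.take a ++ S) q w u * Y (S ++ L.drop a) q w u) q w u = _
    rw [dW_tsum i hq w u s (F := fun S q w u =>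
      X.coef (L.take a ++ S) q w u * Y (S ++ L.drop a) q w u) fun S hS => (hc S hS).mul (hy S hS)]
    simp only [Ctx.tim, Ctx.Mul, ← tsum'_mul, mv, List.take_succ_cons, List.drop_succ_cons,
      List.cons_append]
    rw [← tsum'_add]
    refine tsum'_congr fun S hS => ?_
    have hA : (L.take a).length = a := by simp; omega
    rw [dW_mul (hc S hS) (hy S hS) i hq w u, dW_coef _ i hq w u, List.take_left' hA,
      List.drop_left' hA, pk_apply i hS]
    simp only [DW]
    ring

theorem DU_Mul {a s m : ℕ} {Y : Fld d} (ha : 1 ≤ a) (hY : X.A (s + m) Y) {q : ℝ} (hq : q ^ 2 < X.t)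
    (L : List (Fin d)) (hL : L.length = a + m + 1) (w u : Space d) :
    DU (X.Mul a s Y) L q w u = X.Mul a s (fun L => DU Y (pk s L)) (mv a L) q w u := by
  cases L with
  | nil => simp at hL
  | cons i L =>
    simp only [List.length_cons, Nat.add_right_cancel_iff] at hL
    have hc : ∀ S : List (Fin d), S.length = s → X.Alg (X.coef (L.take a ++ S)) :=
      fun S _ => Alg.coef _ (by simp; omega)
    have hy : ∀ S : List (Fin d), S.length = s → X.Alg (Y (S ++ L.drop a)) :=
      fun S hS => hY _ (by simp [hS]; omega)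
    show dU i (fun q w u => tsum' s fun S =>
      X.coef (L.take a ++ S) q w u * Y (S ++ L.drop a) q w u) q w u = _
    rw [dU_tsum i hq w u s (F := fun S q w u =>
      X.coef (L.take a ++ S) q w u * Y (S ++ L.drop a) q w u) fun S hS => (hc S hS).mul (hy S hS)]
    simp only [Ctx.Mul, mv]
    refine tsum'_congr fun S hS => ?_
    have hA : (L.take a).length = a := by simp; omega
    rw [dU_mul (hc S hS) (hy S hS) i hq w u, dU_coef _ i q w u, List.take_left' hA,
      List.drop_left' hA, pk_apply i hS]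
    simp [DU]

/-- Multiplication is bounded on every Sobolev scale. -/
theorem exists_mul_sob : ∀ (J a s : ℕ), ∃ C : ℝ, 0 ≤ C ∧ ∀ (d : ℕ) (X : Ctx d) (q : ℝ),
    q ^ 2 < X.t → 1 ≤ a → 1 ≤ s → ∀ (m : ℕ) (Y : Fld d) (M : ℝ), 0 ≤ M → X.A (s + m) Y →
      X.Sob q J (s + m) Y M → X.Sob q J (a + m) (X.Mul a s Y) (C * X.rho q ^ (a + s - 2) * M)
  | 0, a, s => by
    obtain ⟨C, hC, h⟩ := exists_mul_l2 a s
    exact ⟨C, hC, fun d X q hq ha hs m Y M _ hY hS => h d X q hq ha hs m Y M hY hS⟩
  | J + 1, a, s => by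
    obtain ⟨C₀, hC₀, h₀⟩ := exists_mul_l2 a s
    obtain ⟨C₁, hC₁, h₁⟩ := exists_mul_sob J (a + 1) s
    obtain ⟨C₂, hC₂, h₂⟩ := exists_mul_sob J a s
    refine ⟨C₀ + 2 * (C₁ + C₂), by positivity, fun d X q hq ha hs m Y M hM hY h => ?_⟩
    set R := X.rho q ^ (a + s - 2)
    have hk := kap_one_le hq
    have hR : 0 ≤ R := pow_nonneg (le_trans zero_le_one (rho_one_le hq)) _
    have hMk : 0 ≤ M * X.kap q := mul_nonneg hM (by linarith)
    refine ⟨(h₀ d X q hq ha hs m Y M hY h.1).mono (by positivity)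
      (by gcongr; linarith), ?_, ?_⟩
    · have e1 := h₁ d X q hq (by omega) hs m Y M hM hY (Sob.le (Nat.le_succ J) h)
      have e1' : X.Sob q J (a + 1 + m) (tim (X.Mul (a + 1) s Y))
          (|q| * (C₁ * X.rho q ^ (a + 1 + s - 2) * M)) :=
        e1.scale hq q (alg_Mul (by omega) hY) fun L _ w u => rfl
      have hrx : RX (d := d) (s + (m + 1)) (s + m + 1) (pk s) := rx_pk s m
      have e2 := h₂ d X q hq ha hs (m + 1) (fun L => DW Y (pk s L)) (M * X.kap q) hMk
        (alg_rx hrx (alg_DW hY)) (Sob.rx hq hrx (alg_DW hY) h.2.1)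
      have e2' := Sob.rx hq (rx_mv (d := d) a m) (alg_Mul (s := s) (m := m + 1) ha (alg_rx hrx (alg_DW hY))) e2
      rw [show a + 1 + m = a + m + 1 by omega] at e1'
      have hA1 : X.A (a + m + 1) (tim (X.Mul (a + 1) s Y)) := fun L hL =>
        alg_tim (alg_Mul (a := a + 1) (by omega) hY) L (by omega)
      have hρ := abs_q_rho hq
      refine (((Sob.add hq hA1 (alg_rx (rx_mv a m) (alg_Mul (s := s) (m := m + 1) ha (alg_rx hrx (alg_DW hY)))) e1' e2'
        (mul_nonneg (abs_nonneg q) (mul_nonneg (mul_nonneg hC₁ (pow_nonneg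
          (le_trans zero_le_one (rho_one_le hq)) _)) hM)) (by positivity)).congr
        fun L hL w u => DW_Mul ha hY hq L hL w u).mono ?_ ?_)
      · simp only [Ctx.rho, Ctx.kap, R]; positivity
      · rw [show a + 1 + s - 2 = a + s - 2 + 1 by omega, pow_succ]
        have h3 : |q| * X.rho q * (C₁ * R * M) ≤ X.kap q * (C₁ * R * M) :=
          mul_le_mul_of_nonneg_right hρ (by positivity)
        have h4 : 0 ≤ C₀ * R * M * X.kap q := by positivity
        nlinarith
    · have hrx : RX (d := d) (s + (m + 1)) (s + m + 1) (pk s) := rx_pk s m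
      have e2 := h₂ d X q hq ha hs (m + 1) (fun L => DU Y (pk s L)) (M * X.kap q) hMk
        (alg_rx hrx (alg_DU hY)) (Sob.rx hq hrx (alg_DU hY) h.2.2)
      refine ((Sob.rx hq (rx_mv (d := d) a m) (alg_Mul (s := s) (m := m + 1) ha (alg_rx hrx (alg_DU hY))) e2).congr
        fun L hL w u => DU_Mul ha hY hq L hL w u).mono (by positivity) ?_
      have h4 : 0 ≤ (C₀ + C₁ + C₁) * (R * (M * X.kap q)) := by positivity
      have h5 : 0 ≤ C₂ * (R * (M * X.kap q)) := by positivity
      nlinarith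

end Ctx

end

end P347.Zero
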