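import Vale.Agent.P347.Zero.Rules

/-!
# P347: time derivatives along the flow of the fields built by the operators

`TB q N J n Y M`: the first `N` derivatives along the flow of `Y` are, at the time `q`, bounded by
`M` on the Sobolev scale of order `J`, in units of `sig = √t / r`. Each operator keeps these bounds.
-/

namespace P347.Zero

open MeasureTheory ProbabilityTheory Filter Topology Finset P347.Quarter
open scoped RealInnerProductSpace

noncomputable section

variable {d : ℕ}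

namespace Ctx

/-- The unit of one derivative in time: `√t / r`. -/
def sig (X : Ctx d) (q : ℝ) : ℝ := X.kap q * X.rho q

/-- Bounds on the first `N` derivatives along the flow. -/
def TB (X : Ctx d) (q : ℝ) : ℕ → ℕ → ℕ → Fld d → ℝ → Prop
  | 0, J, n, Y, M => X.Sob q J n Y M
  | N + 1, J, n, Y, M => X.Sob q J n Y M ∧ TB X q N J n (X.DT Y) (M * X.sig q)

variable {X : Ctx d} {q : ℝ}

theorem rho_nonneg : 0 ≤ X.rho q := by unfold Ctx.rho; positivity

theorem sig_nonneg : 0 ≤ X.sig q := mul_nonneg kap_nonneg rho_nonneg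

theorem sig_one_le (hq : q ^ 2 < X.t) : 1 ≤ X.sig q :=
  one_le_mul_of_one_le_of_one_le (kap_one_le hq) (rho_one_le hq)

theorem TB.sob : ∀ {N J n : ℕ} {Y : Fld d} {M : ℝ}, X.TB q N J n Y M → X.Sob q J n Y M
  | 0, _, _, _, _, h => h
  | _ + 1, _, _, _, _, h => h.1

theorem TB.pred : ∀ {N J n : ℕ} {Y : Fld d} {M : ℝ}, X.TB q (N + 1) J n Y M → X.TB q N J n Y M
  | 0, _, _, _, _, h => h.1
  | _ + 1, _, _, _, _, h => ⟨h.1, TB.pred h.2⟩

theorem TB.leJ {J J' : ℕ} (hJ : J ≤ J') : ∀ {N n : ℕ} {Y : Fld d} {M : ℝ},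
    X.TB q N J' n Y M → X.TB q N J n Y M
  | 0, _, _, _, h => Sob.le hJ h
  | _ + 1, _, _, _, h => ⟨Sob.le hJ h.1, TB.leJ hJ h.2⟩

theorem TB.mono : ∀ {N J n : ℕ} {Y : Fld d} {M M' : ℝ}, X.TB q N J n Y M → 0 ≤ M → M ≤ M' →
    X.TB q N J n Y M'
  | 0, _, _, _, _, _, h, h0, hM => Sob.mono h h0 hM
  | _ + 1, _, _, _, _, _, h, h0, hM =>
    ⟨h.1.mono h0 hM, TB.mono h.2 (mul_nonneg h0 sig_nonneg)
      (mul_le_mul_of_nonneg_right hM sig_nonneg)⟩

theorem TB.congr (hq : q ^ 2 < X.t) : ∀ {N J n : ℕ} {Y Z : Fld d} {M : ℝ}, X.TB q N J n Y M →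
    (∀ L, L.length = n → ∀ q', q' ^ 2 < X.t → ∀ w u, Z L q' w u = Y L q' w u) →
    X.TB q N J n Z M
  | 0, _, _, _, _, _, h, e => Sob.congr h fun L hL => e L hL q hq
  | _ + 1, _, _, _, _, _, h, e =>
    ⟨h.1.congr fun L hL => e L hL q hq, TB.congr hq h.2 fun L hL q' hq' w u =>
      dT_congr (e L hL) q' hq' w u⟩

theorem TB.rx (hq : q ^ 2 < X.t) : ∀ {N J n n' : ℕ} {g : List (Fin d) → List (Fin d)} {Y : Fld d}
    {M : ℝ}, RX n n' g → X.A n' Y → X.TB q N J n' Y M → X.TB q N J n (fun L => Y (g L)) M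
  | 0, _, _, _, _, _, _, hg, hY, h => Sob.rx hq hg hY h
  | _ + 1, _, _, _, g, Y, _, hg, hY, h =>
    ⟨Sob.rx hq hg hY h.1, TB.rx (g := g) (Y := X.DT Y) hq hg (alg_DT hY) h.2⟩

theorem TB.add (hq : q ^ 2 < X.t) : ∀ {N J n : ℕ} {Y Z : Fld d} {M M' : ℝ},
    X.A n Y → X.A n Z → X.TB q N J n Y M → X.TB q N J n Z M' → 0 ≤ M → 0 ≤ M' →
    X.TB q N J n (fun L q w u => Y L q w u + Z L q w u) (2 * (M + M'))
  | 0, _, _, _, _, _, _, hY, hZ, h, h', hM, hM' => Sob.add hq hY hZ h h' hM hM'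
  | N + 1, J, n, Y, Z, M, M', hY, hZ, h, h', hM, hM' => by
    refine ⟨Sob.add hq hY hZ h.1 h'.1 hM hM', ?_⟩
    rw [show 2 * (M + M') * X.sig q = 2 * (M * X.sig q + M' * X.sig q) by ring]
    exact (TB.add hq (alg_DT hY) (alg_DT hZ) h.2 h'.2 (mul_nonneg hM sig_nonneg)
      (mul_nonneg hM' sig_nonneg)).congr hq fun L hL q' hq' w u =>
        dT_add (hY L hL) (hZ L hL) hq' w u

theorem TB.scale (hq : q ^ 2 < X.t) (c : ℝ) : ∀ {N J n : ℕ} {Y : Fld d} {M : ℝ},
    X.A n Y → X.TB q N J n Y M → X.TB q N J n (fun L q w u => c * Y L q w u) (|c| * M)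
  | 0, _, _, _, _, hY, h => Sob.scale hq c h hY fun _ _ _ _ => rfl
  | N + 1, J, n, Y, M, hY, h => by
    refine ⟨Sob.scale hq c h.1 hY fun _ _ _ _ => rfl, ?_⟩
    rw [mul_assoc]
    exact (TB.scale hq c (alg_DT hY) h.2).congr hq fun L hL q' hq' w u => by
      show X.dT (fun q w u => c * Y L q w u) q' w u = c * X.dT (Y L) q' w u
      rw [dT_mul (Alg.const c) (hY L hL) hq' w u, dT_const]
      ring

theorem TB.neg (hq : q ^ 2 < X.t) {N J n : ℕ} {Y : Fld d} {M : ℝ} (hY : X.A n Y)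
    (h : X.TB q N J n Y M) : X.TB q N J n (fun L q w u => (-1 : ℝ) * Y L q w u) M := by
  simpa using TB.scale hq (-1) hY h

theorem Sob.zero (hq : q ^ 2 < X.t) : ∀ {J n : ℕ} {Y : Fld d} {M : ℝ}, 0 ≤ M →
    (∀ L, L.length = n → ∀ w u, Y L q w u = 0) → X.Sob q J n Y M
  | 0, n, Y, M, _, e => by
    show X.avg q _ ≤ M ^ 2
    rw [avg_congr (f := fun _ _ _ => (0 : ℝ)) fun w u => ?_, avg_const 0 hq]
    · exact sq_nonneg M
    · rw [nsq, tsum'_congr (G := fun _ => (0 : ℝ)) fun L hL => by simp [e L hL w u], tsum'_zero]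
  | J + 1, n, Y, M, hM, e => by
    refine ⟨Sob.zero (J := 0) hq hM e, Sob.zero hq (mul_nonneg hM kap_nonneg) ?_,
      Sob.zero hq (mul_nonneg hM kap_nonneg) ?_⟩ <;>
    · intro L hL w u
      cases L with
      | nil => simp at hL
      | cons i L =>
        have hL' : L.length = n := by simpa using hL
        simp [DW, DU, Ctx.dW, Ctx.dU, e L hL']

theorem TB.zero (hq : q ^ 2 < X.t) : ∀ {N J n : ℕ} {Y : Fld d} {M : ℝ}, 0 ≤ M →
    (∀ L, L.length = n → ∀ q', q' ^ 2 < X.t → ∀ w u, Y L q' w u = 0) → X.TB q N J n Y M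
  | 0, _, _, _, _, hM, e => Sob.zero hq hM fun L hL => e L hL q hq
  | _ + 1, _, _, Y, _, hM, e =>
    ⟨Sob.zero hq hM fun L hL => e L hL q hq, TB.zero hq (mul_nonneg hM sig_nonneg)
      fun L hL q' hq' w u => by
        show X.dT (Y L) q' w u = 0
        rw [dT_congr (f := fun _ _ _ => (0 : ℝ)) (e L hL) q' hq' w u, dT_const]⟩

end Ctx

open Ctx

/-- Multiplication by the time keeps the bounds. -/
theorem exists_tim : ∀ N : ℕ, ∃ C : ℝ, 0 ≤ C ∧ ∀ (d : ℕ) (X : Ctx d) (q : ℝ), q ^ 2 < X.t →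
    ∀ (J n : ℕ) (Y : Fld d) (M : ℝ), 0 ≤ M → X.A n Y → X.TB q N J n Y M →
      X.TB q N J n (tim Y) (C * M)
  | 0 => ⟨1, zero_le_one, fun d X q hq J n Y M hM hY h => by
      refine (Sob.scale hq q h hY fun L _ w u => rfl).mono (by positivity) ?_
      exact mul_le_mul_of_nonneg_right (abs_q_le hq) hM⟩
  | N + 1 => by
    obtain ⟨C, hC, hb⟩ := exists_tim N
    refine ⟨1 + 2 * (1 + C), by positivity, fun d X q hq J n Y M hM hY h => ?_⟩
    refine ⟨(Sob.scale hq q h.1 hY fun L _ w u => rfl).mono (by positivity) ?_, ?_⟩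
    · refine (mul_le_mul_of_nonneg_right (abs_q_le hq) hM).trans ?_
      nlinarith
    · have h1 := hb d X q hq J n (X.DT Y) (M * X.sig q) (mul_nonneg hM sig_nonneg) (alg_DT hY) h.2
      have hs := sig_one_le hq
      have hM' : 0 ≤ M * X.sig q := mul_nonneg hM sig_nonneg
      refine ((TB.add hq hY (alg_tim (alg_DT hY)) (TB.pred h) h1 hM (mul_nonneg hC hM')).congr hq
        fun L hL q' hq' w u => ?_).mono (by positivity) ?_
      · show X.dT (fun q w u => q * Y L q w u) q' w u = _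
        rw [dT_mul Alg.time (hY L hL) hq' w u, dT_time, one_mul]
        rfl
      · nlinarith [mul_le_mul_of_nonneg_left hs hM]

/-- Bounds for the multiplications. -/
def BdMul (N J a s : ℕ) : Prop :=
  ∃ (C : ℝ) (J' : ℕ), 0 ≤ C ∧ ∀ (d : ℕ) (X : Ctx d) (q : ℝ), q ^ 2 < X.t → 1 ≤ a → 1 ≤ s →
    ∀ (m : ℕ) (Y : Fld d) (M : ℝ), 0 ≤ M → X.A (s + m) Y → X.TB q N J' (s + m) Y M →
      X.TB q N J (a + m) (X.Mul a s Y) (C * X.rho q ^ (a + s - 2) * M)

/-- Bounds for an operator which adds an index. -/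
def BdUp (op : ∀ {d : ℕ}, Ctx d → Fld d → Fld d) (N J : ℕ) : Prop :=
  ∃ (C : ℝ) (J' : ℕ), 0 ≤ C ∧ ∀ (d : ℕ) (X : Ctx d) (q : ℝ), q ^ 2 < X.t →
    ∀ (n : ℕ) (Y : Fld d) (M : ℝ), 0 ≤ M → X.A n Y → X.TB q N J' n Y M →
      X.TB q N J (n + 1) (op X Y) (C * X.kap q * M)

/-- Bounds for an operator which removes an index. -/
def BdDown (op : ∀ {d : ℕ}, Ctx d → Fld d → Fld d) (N J : ℕ) : Prop :=
  ∃ (C : ℝ) (J' : ℕ), 0 ≤ C ∧ ∀ (d : ℕ) (X : Ctx d) (q : ℝ), q ^ 2 < X.t →
    ∀ (n : ℕ) (Y : Fld d) (M : ℝ), 0 ≤ M → X.A (n + 1) Y → X.TB q N J' (n + 1) Y M →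
      X.TB q N J n (op X Y) (C * X.kap q * M)

theorem mulC_bound {N : ℕ} (ih : ∀ J a s, BdMul N J a s) (J : ℕ) (π : List Bool) (a s : ℕ) :
    ∃ (C : ℝ) (J' : ℕ), 0 ≤ C ∧ ∀ (d : ℕ) (X : Ctx d) (q : ℝ), q ^ 2 < X.t → 1 ≤ a → 1 ≤ s →
      π.length = a + s → 1 ≤ numT π → 1 ≤ numF π →
      ∀ (m : ℕ) (Y : Fld d) (M : ℝ), 0 ≤ M → X.A (s + m) Y → X.TB q N J' (s + m) Y M →
        X.TB q N J (a + m) (X.MulC a s π Y) (C * X.rho q ^ (a + s - 2) * M) := by
  -- one orientation
  have key : ∀ p p' : List Bool, ∃ (C : ℝ) (J' : ℕ), 0 ≤ C ∧ ∀ (d : ℕ) (X : Ctx d) (q : ℝ),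
      q ^ 2 < X.t → 1 ≤ numT p → 1 ≤ numF p' →
      ∀ (m : ℕ) (Y : Fld d) (M : ℝ), 0 ≤ M → X.A (p'.length + m) Y →
        X.TB q N J' (p'.length + m) Y M →
        X.TB q N J (p.length + m) (X.MulC p.length p'.length (p ++ p') Y)
          (C * X.rho q ^ (p.length + p'.length - 2) * M) := by
    intro p p'
    obtain ⟨C₁, J₁, hC₁, h₁⟩ := ih J (numT p) (numT p' + 1)
    obtain ⟨C₂, J₂, hC₂, h₂⟩ := ih J₁ (numF p + 1) (numF p')
    refine ⟨C₁ * C₂, J₂, by positivity, fun d X q hq hT hF m Y M hM hY h => ?_⟩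
    have hp := numT_add_numF p
    have hp' := numT_add_numF p'
    have a1 := alg_rx (rx_g1 p' m) hY
    have t1 := TB.rx hq (rx_g1 p' m) hY h
    have a2 := alg_Mul (a := numF p + 1) (by omega) a1
    have t2 := h₂ d X q hq (by omega) hF (numT p' + m) _ M hM a1 t1
    have a3 := alg_rx (rx_g3 (numF p) (numT p') m) a2
    have t3 := TB.rx hq (rx_g3 (numF p) (numT p') m) a2 t2
    have hM2 : 0 ≤ C₂ * X.rho q ^ (numF p + 1 + numF p' - 2) * M :=
      mul_nonneg (mul_nonneg hC₂ (pow_nonneg rho_nonneg _)) hM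
    have a4 := alg_Mul (a := numT p) hT a3
    have t4 := h₁ d X q hq hT (by omega) (numF p + m) _ _ hM2 a3 t3
    refine ((TB.rx hq (rx_g5 p m) a4 t4).congr hq
      fun L hL q' hq' w u => MulC_eq hq' L hL w u).mono
      (mul_nonneg (mul_nonneg hC₁ (pow_nonneg rho_nonneg _)) hM2) (le_of_eq ?_)
    rw [show p.length + p'.length - 2 = (numT p + (numT p' + 1) - 2) + (numF p + 1 + numF p' - 2) by
      omega, pow_add]
    ring
  obtain ⟨C₁, J₁, hC₁, h₁⟩ := key (π.take a) (π.drop a)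
  obtain ⟨C₂, J₂, hC₂, h₂⟩ := key ((π.take a).map not) ((π.drop a).map not)
  refine ⟨C₁ + C₂, max J₁ J₂, by positivity, fun d X q hq ha hs hl hT hF m Y M hM hY h => ?_⟩
  have hla : (π.take a).length = a := by simp; omega
  have hls : (π.drop a).length = s := by simp; omega
  have hadd := numT_add_numF (π.take a)
  have hadd' := numT_add_numF (π.drop a)
  have hsT := numT_append (π.take a) (π.drop a)
  have hsF := numF_append (π.take a) (π.drop a)
  rw [List.take_append_drop] at hsT hsF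
  have hR : 0 ≤ X.rho q ^ (a + s - 2) * M := mul_nonneg (pow_nonneg rho_nonneg _) hM
  by_cases hc : 1 ≤ numT (π.take a) ∧ 1 ≤ numF (π.drop a)
  · have := h₁ d X q hq hc.1 hc.2 m Y M hM (by rwa [hls]) (by rw [hls]; exact h.leJ (le_max_left _ _))
    rw [hla, hls, List.take_append_drop] at this
    exact this.mono (by nlinarith) (by nlinarith)
  · have := h₂ d X q hq (by rw [(numT_map_not _).1]; omega) (by rw [(numT_map_not _).2]; omega) m Y M hM
      (by rwa [List.length_map, hls]) (by rw [List.length_map, hls]; exact h.leJ (le_max_right _ _))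
    rw [List.length_map, List.length_map, hla, hls, ← List.map_append, List.take_append_drop] at this
    refine (this.congr hq fun L hL q' hq' w u => tsum'_congr fun S _ => ?_).mono (by nlinarith)
      (by nlinarith)
    rw [contract_flip]

theorem mulP_bound {N : ℕ} (ih : ∀ J a s, BdMul N J a s) (J a s : ℕ) :
    ∃ (C : ℝ) (J' : ℕ), 0 ≤ C ∧ ∀ (d : ℕ) (X : Ctx d) (q : ℝ), q ^ 2 < X.t → 1 ≤ a → 1 ≤ s →
      ∀ (m : ℕ) (Y : Fld d) (M : ℝ), 0 ≤ M → X.A (s + m) Y → X.TB q N J' (s + m) Y M →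
        X.TB q N J (a + m) (X.MulP a s Y) (C * X.rho q ^ (a + s - 2) * M) := by
  have key : ∀ R : List (List Bool), ∃ (C : ℝ) (J' : ℕ), 0 ≤ C ∧
      ∀ (d : ℕ) (X : Ctx d) (q : ℝ), q ^ 2 < X.t → 1 ≤ a → 1 ≤ s →
      (∀ π ∈ R, π.length = a + s ∧ 1 ≤ numT π ∧ 1 ≤ numF π) →
      ∀ (m : ℕ) (Y : Fld d) (M : ℝ), 0 ≤ M → X.A (s + m) Y → X.TB q N J' (s + m) Y M →
        X.A (a + m) (fun L q w u => (R.map fun π => X.MulC a s π Y L q w u).sum) ∧
        X.TB q N J (a + m) (fun L q w u => (R.map fun π => X.MulC a s π Y L q w u).sum)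
          (C * X.rho q ^ (a + s - 2) * M) := by
    intro R
    induction R with
    | nil =>
      refine ⟨0, 0, le_rfl, fun d X q hq _ _ _ m Y M hM hY _ => ⟨fun L _ => ?_, TB.zero hq
        (by simp) fun L _ q' _ w u => by simp⟩⟩
      exact .congr (Alg.const 0) fun q _ w u => by simp
    | cons π R ihR =>
      obtain ⟨C₁, J₁, hC₁, h₁⟩ := mulC_bound ih J π a s
      obtain ⟨C₂, J₂, hC₂, h₂⟩ := ihR
      refine ⟨2 * (C₁ + C₂), max J₁ J₂, by positivity, fun d X q hq ha hs hR m Y M hM hY h => ?_⟩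
      obtain ⟨hl, hT, hF⟩ := hR π (by simp)
      have t1 := h₁ d X q hq ha hs hl hT hF m Y M hM hY (h.leJ (le_max_left _ _))
      obtain ⟨a2, t2⟩ := h₂ d X q hq ha hs (fun ρ hρ => hR ρ (List.mem_cons_of_mem _ hρ)) m Y M hM hY
        (h.leJ (le_max_right _ _))
      have hR0 : 0 ≤ X.rho q ^ (a + s - 2) := pow_nonneg rho_nonneg _
      refine ⟨fun L hL => .congr ((alg_MulC π hY L hL).add (a2 L hL)) fun q _ w u => by simp,
        ((TB.add hq (alg_MulC π hY) a2 t1 t2 (by positivity) (by positivity)).congr hq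
          fun L _ q' _ w u => by simp).mono (by positivity) (le_of_eq (by ring))⟩
  obtain ⟨mid, hm, hmp⟩ : ∃ mid : List (List Bool), (1 ≤ a + s → pats (a + s)
      = List.replicate (a + s) true :: mid ++ [List.replicate (a + s) false]) ∧
      ∀ π ∈ mid, π.length = a + s ∧ 1 ≤ numT π ∧ 1 ≤ numF π := by
    rcases Nat.eq_zero_or_pos (a + s) with h | h
    · exact ⟨[], fun h' => by omega, by simp⟩
    · obtain ⟨mid, hm, hmp⟩ := pats_split (a + s) h
      exact ⟨mid, fun _ => hm, hmp⟩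
  obtain ⟨C, J', hC, hb⟩ := key mid
  refine ⟨C, J', hC, fun d X q hq ha hs m Y M hM hY h =>
    ((hb d X q hq ha hs hmp m Y M hM hY h).2).congr hq fun L hL q' _ w u => ?_⟩
  simp only [Ctx.MulP, Ctx.MulC]
  have hswap : ∀ R : List (List Bool), (R.map fun π => tsum' s fun S =>
      contract (fun A => X.coef A q' w u) (fun A => X.coef A q' w u) π (L.take a ++ S)
        * Y (S ++ L.drop a) q' w u).sum
      = tsum' s fun S => (R.map fun π =>
        contract (fun A => X.coef A q' w u) (fun A => X.coef A q' w u) π (L.take a ++ S)).sum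
        * Y (S ++ L.drop a) q' w u := by
    intro R
    induction R with
    | nil => simp [tsum'_zero]
    | cons π R ihR => simp only [List.map_cons, List.sum_cons, ihR, ← tsum'_add, add_mul]
  rw [hswap]
  refine tsum'_congr fun S hS => ?_
  have hlen : (L.take a ++ S).length = a + s := by simp [hS]; omega
  rw [proper_eq _ (mid := mid) (by rw [hlen]; exact hm (by omega))]
  rfl

/-- All the bounds at one number of time derivatives. -/
structure Bds (N : ℕ) : Prop where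
  dw : ∀ J, BdUp (fun _ Y => DW Y) N J
  du : ∀ J, BdUp (fun _ Y => DU Y) N J
  dlw : ∀ J, BdDown (fun X Y => X.dlW Y) N J
  dlu : ∀ J, BdDown (fun _ Y => dlU Y) N J
  mul : ∀ J a s, BdMul N J a s

theorem bds : ∀ N, Bds N
  | 0 => by
    refine ⟨fun J => ⟨1, J + 1, zero_le_one, fun d X q _ n Y M _ _ h => ?_⟩,
      fun J => ⟨1, J + 1, zero_le_one, fun d X q _ n Y M _ _ h => ?_⟩, fun J => ?_, fun J => ?_,
      fun J a s => ?_⟩
    · rw [one_mul, mul_comm]; exact h.2.1
    · rw [one_mul, mul_comm]; exact h.2.2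
    · obtain ⟨C, hC, hb⟩ := exists_dlW_sob J
      exact ⟨C, J + 1, hC, hb⟩
    · obtain ⟨C, hC, hb⟩ := exists_dlU_sob J
      exact ⟨C, J + 1, hC, hb⟩
    · obtain ⟨C, hC, hb⟩ := exists_mul_sob J a s
      exact ⟨C, J, hC, hb⟩
  | N + 1 => by
    have B := bds N
    obtain ⟨Ct, hCt, ht⟩ := exists_tim N
    refine ⟨fun J => ?_, fun J => ?_, fun J => ?_, fun J => ?_, fun J a s => ?_⟩
    · obtain ⟨C₁, J₁, hC₁, h₁⟩ := B.dw J
      obtain ⟨C₂, J₂, hC₂, h₂⟩ := B.mul J 1 1
      obtain ⟨C₃, J₃, hC₃, h₃⟩ := B.dw J₂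
      refine ⟨1 + 2 * (C₁ + Ct * (C₂ * C₃)), max (J + 1) (max J₁ J₃), by positivity,
        fun d X q hq n Y M hM hY h => ?_⟩
      have hk : 0 ≤ X.kap q := kap_nonneg
      have hMs : 0 ≤ M * X.sig q := mul_nonneg hM sig_nonneg
      refine ⟨((Sob.le (le_max_left _ _) h.1).2.1).mono (by positivity) ?_, ?_⟩
      · have : 0 ≤ 2 * (C₁ + Ct * (C₂ * C₃)) * (M * X.kap q) := by positivity
        nlinarith
      · have t1 := h₁ d X q hq n (X.DT Y) _ hMs (alg_DT hY)
          (h.2.leJ (le_max_of_le_right (le_max_left _ _)))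
        have t3 := h₃ d X q hq n Y M hM hY
          ((TB.pred h).leJ (le_max_of_le_right (le_max_right _ _)))
        rw [add_comm n 1] at t3
        have a3 : X.A (1 + n) (DW Y) := by rw [add_comm]; exact alg_DW hY
        have t2 := h₂ d X q hq le_rfl le_rfl n (DW Y) _ (by positivity) a3 t3
        rw [add_comm 1 n, show (1 + 1 - 2 : ℕ) = 0 from rfl, pow_zero] at t2
        have a2 : X.A (n + 1) (X.Mul 1 1 (DW Y)) := by
          rw [add_comm]; exact alg_Mul le_rfl a3
        have t4 := TB.neg hq (alg_tim a2) (ht d X q hq J (n + 1) _ _ (by positivity) a2 t2)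
        refine ((TB.add hq (alg_DW (alg_DT hY)) (alg_smul (-1) (alg_tim a2)) t1 t4
          (by positivity) (by positivity)).congr hq
            fun L hL q' hq' w u => DT_DW hY hq' L hL w u).mono (by positivity) ?_
        have h5 : Ct * (C₂ * 1 * (C₃ * X.kap q * M))
            ≤ Ct * (C₂ * C₃) * (X.kap q * (M * X.sig q)) := by
          calc Ct * (C₂ * 1 * (C₃ * X.kap q * M)) = Ct * (C₂ * C₃) * (X.kap q * (M * 1)) := by ring
            _ ≤ _ := by gcongr; exact sig_one_le hq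
        have h6 : 0 ≤ X.kap q * (M * X.sig q) := by positivity
        nlinarith
    · obtain ⟨C₁, J₁, hC₁, h₁⟩ := B.du J
      refine ⟨1 + C₁, max (J + 1) J₁, by positivity, fun d X q hq n Y M hM hY h => ?_⟩
      have hk : 0 ≤ X.kap q := kap_nonneg
      have hMs : 0 ≤ M * X.sig q := mul_nonneg hM sig_nonneg
      refine ⟨((Sob.le (le_max_left _ _) h.1).2.2).mono (by positivity) ?_, ?_⟩
      · have : 0 ≤ C₁ * (M * X.kap q) := by positivity
        nlinarith
      · refine ((h₁ d X q hq n (X.DT Y) _ hMs (alg_DT hY) (h.2.leJ (le_max_right _ _))).congr hq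
          fun L hL q' hq' w u => DT_DU hY hq' L hL w u).mono (by positivity) ?_
        have : 0 ≤ X.kap q * (M * X.sig q) := by positivity
        nlinarith
    · obtain ⟨C₀, hC₀, h₀⟩ := exists_dlW_sob J
      obtain ⟨C₁, J₁, hC₁, h₁⟩ := B.dlw J
      obtain ⟨C₂, J₂, hC₂, h₂⟩ := B.mul J₁ 1 1
      refine ⟨C₀ + 2 * (C₁ + Ct * (C₁ * C₂)), max (J + 1) (max J₁ J₂), by positivity,
        fun d X q hq n Y M hM hY h => ?_⟩
      have hk : 0 ≤ X.kap q := kap_nonneg
      have hMs : 0 ≤ M * X.sig q := mul_nonneg hM sig_nonneg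
      refine ⟨(h₀ d X q hq n Y M hM hY (Sob.le (le_max_left _ _) h.1)).mono (by positivity) ?_, ?_⟩
      · have : 0 ≤ 2 * (C₁ + Ct * (C₁ * C₂)) * (X.kap q * M) := by positivity
        nlinarith
      · have t1 := h₁ d X q hq n (X.DT Y) _ hMs (alg_DT hY)
          (h.2.leJ (le_max_of_le_right (le_max_left _ _)))
        have aY : X.A (1 + n) Y := by rw [add_comm]; exact hY
        have t2 := h₂ d X q hq le_rfl le_rfl n Y M hM aY
          (by rw [add_comm]; exact (TB.pred h).leJ (le_max_of_le_right (le_max_right _ _)))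
        rw [add_comm 1 n, show (1 + 1 - 2 : ℕ) = 0 from rfl, pow_zero] at t2
        have a2 : X.A (n + 1) (X.Mul 1 1 Y) := by
          rw [add_comm]; exact alg_Mul le_rfl aY
        have t3 := h₁ d X q hq n _ _ (by positivity) a2 t2
        have a3 := alg_dlW a2
        have t4 := TB.neg hq (alg_tim a3) (ht d X q hq J n _ _ (by positivity) a3 t3)
        refine ((TB.add hq (alg_dlW (alg_DT hY)) (alg_smul (-1) (alg_tim a3)) t1 t4
          (by positivity) (by positivity)).congr hq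
            fun L hL q' hq' w u => DT_dlW hY hq' L hL w u).mono (by positivity) ?_
        have h5 : Ct * (C₁ * X.kap q * (C₂ * 1 * M))
            ≤ Ct * (C₁ * C₂) * (X.kap q * (M * X.sig q)) := by
          calc Ct * (C₁ * X.kap q * (C₂ * 1 * M)) = Ct * (C₁ * C₂) * (X.kap q * (M * 1)) := by ring
            _ ≤ _ := by gcongr; exact sig_one_le hq
        have h6 : 0 ≤ X.kap q * (M * X.sig q) := by positivity
        nlinarith
    · obtain ⟨C₀, hC₀, h₀⟩ := exists_dlU_sob J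
      obtain ⟨C₁, J₁, hC₁, h₁⟩ := B.dlu J
      refine ⟨C₀ + C₁, max (J + 1) J₁, by positivity, fun d X q hq n Y M hM hY h => ?_⟩
      have hk : 0 ≤ X.kap q := kap_nonneg
      have hMs : 0 ≤ M * X.sig q := mul_nonneg hM sig_nonneg
      refine ⟨(h₀ d X q hq n Y M hM hY (Sob.le (le_max_left _ _) h.1)).mono (by positivity) ?_, ?_⟩
      · have : 0 ≤ C₁ * (X.kap q * M) := by positivity
        nlinarith
      · refine ((h₁ d X q hq n (X.DT Y) _ hMs (alg_DT hY) (h.2.leJ (le_max_right _ _))).congr hq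
          fun L hL q' hq' w u => DT_dlU hY hq' L hL w u).mono (by positivity) ?_
        have : 0 ≤ X.kap q * (M * X.sig q) := by positivity
        nlinarith
    · obtain ⟨C₀, hC₀, h₀⟩ := exists_mul_sob J a s
      obtain ⟨C₁, J₁, hC₁, h₁⟩ := B.mul J a s
      obtain ⟨Cd, Jd, hCd, hd'⟩ := B.dlw J
      obtain ⟨C₂, J₂, hC₂, h₂⟩ := B.mul Jd (a + 1) s
      obtain ⟨C₃, J₃, hC₃, h₃⟩ := B.mul J a (s + 1)
      obtain ⟨Cw, Jw, hCw, hw⟩ := B.dw J₃
      obtain ⟨C₄, J₄, hC₄, h₄⟩ := mulP_bound B.mul J a s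
      refine ⟨C₀ + 2 * (C₁ + 2 * (Cd * C₂ + 2 * (C₃ * Cw + Ct * C₄))),
        max J (max J₁ (max J₂ (max Jw J₄))), by positivity,
        fun d X q hq ha hs m Y M hM hY h => ?_⟩
      set R := X.rho q ^ (a + s - 2) with hRdef
      have hR : 0 ≤ R := pow_nonneg rho_nonneg _
      have hρ : 0 ≤ X.rho q := rho_nonneg
      have hk : 0 ≤ X.kap q := kap_nonneg
      have hMs : 0 ≤ M * X.sig q := mul_nonneg hM sig_nonneg
      refine ⟨(h₀ d X q hq ha hs m Y M hM hY (Sob.le (le_max_left _ _) h.1)).mono (by positivity) ?_,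
        ?_⟩
      · have : 0 ≤ 2 * (C₁ + 2 * (Cd * C₂ + 2 * (C₃ * Cw + Ct * C₄))) * (R * M) := by positivity
        nlinarith
      · have hpre := TB.pred h
        have t1 := h₁ d X q hq ha hs m (X.DT Y) _ hMs (alg_DT hY)
          (h.2.leJ (le_max_of_le_right (le_max_left _ _)))
        -- the adjoint of the next multiplication
        have t2 := h₂ d X q hq (by omega) hs m Y M hM hY
          (hpre.leJ (le_max_of_le_right (le_max_of_le_right (le_max_left _ _))))
        have a2 : X.A (a + m + 1) (X.Mul (a + 1) s Y) := fun L hL =>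
          alg_Mul (a := a + 1) (by omega) hY L (by omega)
        rw [show a + 1 + m = a + m + 1 by omega, show a + 1 + s - 2 = a + s - 2 + 1 by omega,
          pow_succ, ← hRdef] at t2
        have t2' := TB.neg hq (alg_dlW a2) (hd' d X q hq (a + m) _ _ (by positivity) a2 t2)
        -- the transposed derivative
        have tw := hw d X q hq (s + m) Y M hM hY
          (hpre.leJ (le_max_of_le_right (le_max_of_le_right (le_max_of_le_right (le_max_left _ _)))))
        have aw : X.A (s + 1 + m) (DW Y) := fun L hL => alg_DW hY L (by omega)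
        rw [show s + m + 1 = s + 1 + m by omega] at tw
        have t3 := h₃ d X q hq ha (by omega) m (DW Y) _ (by positivity) aw tw
        rw [show a + (s + 1) - 2 = a + s - 2 + 1 by omega, pow_succ, ← hRdef] at t3
        -- the contractions
        have t4 := h₄ d X q hq ha hs m Y M hM hY
          (hpre.leJ (le_max_of_le_right (le_max_of_le_right (le_max_of_le_right (le_max_right _ _)))))
        have a4 := alg_MulP ha hY
        have t4' := TB.neg hq (alg_tim a4) (ht d X q hq J (a + m) _ _ (by positivity) a4 t4)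
        have s34 := TB.add hq (alg_Mul ha aw) (alg_smul (-1) (alg_tim a4)) t3 t4'
          (by positivity) (by positivity)
        have s234 := TB.add hq (alg_smul (-1) (alg_dlW a2))
          (alg_add (alg_Mul ha aw) (alg_smul (-1) (alg_tim a4))) t2' s34
          (by positivity) (by positivity)
        refine ((TB.add hq (alg_Mul ha (alg_DT hY)) (alg_add (alg_smul (-1) (alg_dlW a2))
          (alg_add (alg_Mul ha aw) (alg_smul (-1) (alg_tim a4)))) t1 s234
          (by positivity) (by positivity)).congr hq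
            fun L hL q' hq' w u => DT_Mul ha hY hq' L hL w u).mono (by positivity) ?_
        have e : X.sig q = X.kap q * X.rho q := rfl
        have h5 : Ct * (C₄ * R * M) ≤ Ct * C₄ * (R * (M * X.sig q)) := by
          calc Ct * (C₄ * R * M) = Ct * C₄ * (R * (M * 1)) := by ring
            _ ≤ _ := by gcongr; exact sig_one_le hq
        have h6 : 0 ≤ R * (M * X.sig q) := by positivity
        rw [e] at *
        nlinarith

end

end P347.Zero
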