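import Vale.Agent.P347.Zero.Cond

/-!
# P347: the outer chain with a descent inside every step

The chain is the proximal chain of the target itself in the unit `t`. A step is replaced by an
operator close to the conditional mean at a fine scale on bounded inputs; all tests met on the way
are Lipschitz because every step ends in a Gaussian smoothing.
-/

namespace P347.Zero

open MeasureTheory ProbabilityTheory Filter Finset
open scoped RealInnerProductSpace

noncomputable section

variable {d : ℕ} {V : Space d → ℝ}

theorem lipE_mono {K K' : ℝ} {g : Space d → ℝ} (h : LipE K g) (hK : K ≤ K') : LipE K' g :=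
  fun x y => (h x y).trans (mul_le_mul_of_nonneg_right hK (norm_nonneg _))

/-- A Gaussian average of a test function is Lipschitz. -/
theorem lipE_smooth {F : Space d → ℝ} (hF : Test F) :
    LipE (perturbConst * d) fun u => ∫ ξ, F (u + ξ) ∂stdGaussian (Space d) := by
  intro x y
  have hT : Test fun p : Fin d → ℝ => F (WithLp.toLp 2 p) :=
    ⟨hF.meas.comp (PiLp.continuous_toLp 2 _).measurable, fun _ => hF.nonneg _,
      fun _ => hF.le_one _⟩
  simp only [← noise_eq_stdGaussian, noise_pi]
  have hsl : ∀ w : Space d, ∀ i, Slope fun t => t - w i := fun w i =>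
    ⟨by fun_prop, fun z a _ => by linarith, fun z a ha => by linarith⟩
  refine (site_perturb (hsl x) (hsl y) (c := fun _ => ‖x - y‖) (fun i t => ?_) hT).trans
    (le_of_eq (by simp; ring))
  have := PiLp.norm_apply_le (x - y) i
  rw [Real.norm_eq_abs, WithLp.ofLp_sub, Pi.sub_apply] at this
  rwa [sub_sub_sub_cancel_left, abs_sub_comm]

/-- The start is within `√L` of the target in the unit `η`, up to a tail. -/
theorem mix_unit (hV : Quarter.InClass V) {η : ℝ} (h0 : 0 < η) {L : ℝ} (hL : 0 ≤ L) {K : ℝ}
    (hK : 0 ≤ K) {g : Space d → ℝ} (hg : Test g) (hl : LipE K g) :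
    |g 0 - ∫ u, g u ∂chainLaw (reg V √η)| ≤ K * (√L / √η) + ballTail d L := by
  have := hV.prob
  have hs := Real.sqrt_pos.2 h0
  have hm := measurableSet_ballSet (E := Space d) L
  rw [hV.unit_law h0]
  have hT : Test fun x : Space d => g ((√η)⁻¹ • x) :=
    ⟨hg.meas.comp (measurable_const_smul _), fun _ => hg.nonneg _, fun _ => hg.le_one _⟩
  have hbd : ∀ x : Space d, |g 0 - g ((√η)⁻¹ • x)|
      ≤ K * (√L / √η) + (ballSet (Space d) L)ᶜ.indicator (fun _ => (1 : ℝ)) x := by
    intro x
    by_cases hx : x ∈ ballSet (Space d) L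
    · rw [Set.indicator_of_notMem (by simpa using hx), add_zero]
      refine (hl _ _).trans (mul_le_mul_of_nonneg_left ?_ hK)
      rw [zero_sub, norm_neg, norm_smul, Real.norm_eq_abs, abs_inv, abs_of_pos hs,
        inv_mul_eq_div]
      exact div_le_div_of_nonneg_right
        ((Real.le_sqrt (norm_nonneg x) hL).2 hx) hs.le
    · rw [Set.indicator_of_mem (by simpa using hx)]
      have : 0 ≤ K * (√L / √η) := by positivity
      rw [abs_le]
      constructor <;> linarith [hg.nonneg 0, hg.le_one 0, hg.nonneg ((√η)⁻¹ • x),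
        hg.le_one ((√η)⁻¹ • x)]
  rw [show g 0 - ∫ x, g ((√η)⁻¹ • x) ∂gibbs V = ∫ x, (g 0 - g ((√η)⁻¹ • x)) ∂gibbs V by
    rw [integral_sub (integrable_const _) (hT.integrable _)]; simp]
  refine (abs_integral_le_integral_abs.trans (integral_mono ((integrable_const _).sub
    (hT.integrable _)).abs ((integrable_const _).add ((integrable_const (1 : ℝ)).indicator hm.compl))
    hbd)).trans ?_
  simp only [Pi.add_apply]
  rw [integral_add (integrable_const _) ((integrable_const (1 : ℝ)).indicator hm.compl),
    integral_indicator_const _ hm.compl, probReal_compl_eq_one_sub hm]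
  have := gibbs_ball hV.model.block (b := d) (le_of_eq finrank_euclideanSpace_fin) L
  simp only [integral_const, probReal_univ, smul_eq_mul, mul_one, ballTail]
  linarith

/-- The target smoothed a little. -/
theorem smoothed_close (hV : Quarter.InClass V) (hd : 1 ≤ d) {f : Space d → ℝ} (hf : Continuous f)
    (tf : Test f) {σ : ℝ} (hs0 : 0 ≤ σ) {Rc L : ℝ} (hRc : 0 < Rc) (hL : 0 ≤ L) :
    |∫ x, Quarter.gav σ f x ∂gibbs V - ∫ x, f x ∂gibbs V|
      ≤ 2 * ((d / Rc * (L + 1) + ballTail d L) + (2 * Rc + 2) * σ * (1 + d)) := by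
  have := hV.prob
  obtain ⟨hz, hz'⟩ := Quarter.gauss_norm (E := Space d)
  rw [show Module.finrank ℝ (Space d) = d by simp] at hz'
  have hpt : ∀ z : Space d, |∫ x, f (x + σ • z) ∂gibbs V - ∫ x, f x ∂gibbs V|
      ≤ 2 * ((d / Rc * (L + 1) + ballTail d L) + (2 * Rc + 2) * (σ * ‖z‖)) := fun z => by
    have hn : ‖σ • z‖ = σ * ‖z‖ := by rw [norm_smul, Real.norm_eq_abs, abs_of_nonneg hs0]
    have hf0 : 0 ≤ ∫ x, far Rc x ∂gibbs V := ((test_far hRc).integral_mem _).1
    rcases le_or_gt (σ * ‖z‖) 1 with h | h
    · refine (hV.translate_le tf (σ • z) hRc).trans ?_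
      rw [hn]
      have := hV.far_mean hd hRc hL
      have := mul_le_mul_of_nonneg_right (show 2 * (σ * ‖z‖) ≤ 2 by linarith)
        (show 0 ≤ σ * ‖z‖ by positivity)
      linarith
    · have h5 := (Quarter.test_line hf tf
        (by fun_prop : Continuous fun x : Space d => x + σ • z)).integral_mem (gibbs V)
      have h6 := tf.integral_mem (gibbs V)
      have := hV.far_mean hd hRc hL
      have : 0 ≤ Rc * (σ * ‖z‖) := by positivity
      rw [abs_le]
      constructor <;> linarith [h5.1, h5.2, h6.1, h6.2]
  have hsw : ∫ x, Quarter.gav σ f x ∂gibbs V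
      = ∫ z, ∫ x, f (x + σ • z) ∂gibbs V ∂stdGaussian (Space d) :=
    integral_integral_swap ((Quarter.test_line hf tf (by fun_prop :
      Continuous fun a : Space d × Space d => a.1 + σ • a.2)).integrable _)
  have hin : Test fun z : Space d => ∫ x, f (x + σ • z) ∂gibbs V :=
    ⟨((hf.comp (by fun_prop : Continuous fun a : Space d × Space d => a.2 + σ • a.1)
      ).measurable.stronglyMeasurable.integral_prod_right').measurable,
      fun z => ((Quarter.test_line hf tf (by fun_prop : Continuous fun x : Space d => x + σ • z)).integral_mem _).1,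
      fun z => ((Quarter.test_line hf tf (by fun_prop : Continuous fun x : Space d => x + σ • z)).integral_mem _).2⟩
  rw [hsw, show ∫ x, f x ∂gibbs V = ∫ _z : Space d, (∫ x, f x ∂gibbs V) ∂stdGaussian (Space d) by
    simp, ← integral_sub (hin.integrable _) (integrable_const _)]
  refine (abs_integral_le_integral_abs.trans (integral_mono
    ((hin.integrable _).sub (integrable_const _)).abs
    (((integrable_const _).add ((hz.const_mul σ).const_mul _)).const_mul 2) hpt)).trans ?_
  simp only [Pi.add_apply]
  rw [integral_const_mul, integral_add (integrable_const _) ((hz.const_mul σ).const_mul _),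
    integral_const_mul, integral_const_mul]
  simp only [integral_const, probReal_univ, one_smul]
  have := mul_le_mul_of_nonneg_left hz' (show 0 ≤ (2 * Rc + 2) * σ by positivity)
  linarith

/-- A step: the next noise, then the descent. -/
def stepOp (Ld : (Space d → ℝ) → Space d → ℝ) (t : ℝ) (g : Space d → ℝ) (x : Space d) : ℝ :=
  ∫ ξ, Ld g (x + √t • ξ) ∂stdGaussian (Space d)

open Classical in
/-- **The outer chain.** -/
theorem outer (hV : Quarter.InClass V) (hd : 1 ≤ d) {t s σ ε B R ρ r L Rc : ℝ} (ht : 0 < t)
    (ht8 : t ≤ 1 / 8) (hs : 0 ≤ s) (hst : s ≤ t) (hσ : 0 < σ) (hε : 0 ≤ ε) (hR : 0 ≤ R)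
    (hρ : 0 ≤ ρ) (hr : 0 < r) (hL : 0 ≤ L) (hRc : 0 < Rc) (hB : √t * (r + ρ) ≤ B)
    (hsmall : ε + (perturbConst * d + 1 / σ) / √t * √s * R + tailRatio d B R
      + ballTail d (ρ ^ 2) ≤ 1)
    {Ld : (Space d → ℝ) → Space d → ℝ} (hLd : ∀ g, Test g → Test (Ld g))
    (hclose : ∀ g, Test g → ∀ v, ‖v‖ ≤ B → |Ld g v - condMean V t s g v| ≤ ε)
    {f : Space d → ℝ} (hf : Continuous f) (tf : Test f) (N : ℕ) :
    |iterOp (fun _ => stepOp Ld t) (N + 1) (Quarter.gav σ f) 0 - ∫ x, f x ∂gibbs V|
      ≤ (N + 1) * (ε + (perturbConst * d + 1 / σ) / √t * √s * R + tailRatio d B R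
            + ballTail d (ρ ^ 2) + 2 * (√L / √t / r) + 3 * ballTail d L)
        + 3 * ballTail d L + perturbConst * d / (1 + t) ^ N * (√L / √t)
        + 2 * ((d / Rc * (L + 1) + ballTail d L) + (2 * Rc + 2) * σ * (1 + d)) := by
  have ht1 : t ≤ 1 := ht8.trans (by norm_num)
  have hs' := Real.sqrt_pos.2 ht
  have hpc : 0 ≤ perturbConst := by unfold perturbConst; positivity
  set κ := perturbConst * d + 1 / σ with hκdef
  have hκ : 0 ≤ κ := by positivity
  have hbρ : 0 ≤ ballTail d (ρ ^ 2) := by unfold ballTail; positivity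
  have hbt : 0 ≤ tailRatio d B R :=
    mul_nonneg (by unfold ballTail; positivity) (normBound_pos d B).le
  set δ := ε + κ / √t * √s * R + tailRatio d B R + ballTail d (ρ ^ 2) with hδdef
  have hδ0 : 0 ≤ δ := by positivity
  have hS := hV.chain ht ht8
  -- the step in units
  set op : (Space d → ℝ) → Space d → ℝ := fun g u =>
    ∫ ξ, Ld (fun x => g ((√t)⁻¹ • x)) (√t • (u + ξ)) ∂stdGaussian (Space d) with hop
  have hscale : ∀ {g : Space d → ℝ}, Test g → Test fun x : Space d => g ((√t)⁻¹ • x) := fun hg =>
    ⟨hg.meas.comp (measurable_const_smul _), fun _ => hg.nonneg _, fun _ => hg.le_one _⟩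
  have hF : ∀ {g : Space d → ℝ}, Test g →
      Test fun v : Space d => Ld (fun x => g ((√t)⁻¹ • x)) (√t • v) := fun hg =>
    have h := hLd _ (hscale hg)
    ⟨h.meas.comp (measurable_const_smul _), fun _ => h.nonneg _, fun _ => h.le_one _⟩
  set A : (Space d → ℝ) → Space d → ℝ := fun g =>
    if LipE κ g then op g else chainOp (reg V √t) g with hAdef
  have hA : ∀ g, Test g → Test (A g) := fun g hg => by
    simp only [hAdef]
    split_ifs
    · have h := test_gav' (hF hg) 1
      have e : Quarter.gav 1 (fun v => Ld (fun x => g ((√t)⁻¹ • x)) (√t • v)) = op g := by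
        funext u; simp [Quarter.gav, hop]
      exact e ▸ h
    · exact hS.test_outer hg
  have hc : ∀ g, Test g → ∀ u, |A g u - chainOp (reg V √t) g u| ≤ δ + far r u := fun g hg u => by
    have hA' := hA g hg
    have hK' := hS.test_outer hg
    rcases le_or_gt r ‖u‖ with hu | hu
    · have := Quarter.one_le_far hr hu
      rw [abs_le]
      constructor <;> linarith [hA'.nonneg u, hA'.le_one u, hK'.nonneg u, hK'.le_one u]
    · have hfar := (test_far (d := d) hr).nonneg u
      simp only [hAdef]
      split_ifs with hl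
      swap
      · simp only [sub_self, abs_zero]; linarith
      refine le_trans ?_ (le_add_of_nonneg_right hfar)
      have hgs := hscale hg
      have hls : LipE (κ / √t) fun x : Space d => g ((√t)⁻¹ • x) := fun x y => by
        refine (hl _ _).trans (le_of_eq ?_)
        rw [← smul_sub, norm_smul, Real.norm_eq_abs, abs_inv, abs_of_pos hs']
        ring
      have hp : Test fun ξ : Space d => Ld (fun x => g ((√t)⁻¹ • x)) (√t • (u + ξ)) :=
        ⟨(hF hg).meas.comp (measurable_const_add u), fun _ => (hF hg).nonneg _,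
          fun _ => (hF hg).le_one _⟩
      have hq : Test fun ξ : Space d => Quarter.post V t g (u + ξ) :=
        ⟨(hV.test_post ht ht8 hg).meas.comp (measurable_const_add u),
          fun _ => (hV.test_post ht ht8 hg).nonneg _, fun _ => (hV.test_post ht ht8 hg).le_one _⟩
      have e : chainOp (reg V √t) g u = ∫ ξ, Quarter.post V t g (u + ξ) ∂stdGaussian (Space d) := by
        rw [chainOp, noise_eq_stdGaussian]; rfl
      set c := ε + κ / √t * √s * R + tailRatio d B R with hcdef
      rw [e, hop, ← integral_sub (hp.integrable _) (hq.integrable _)]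
      refine (abs_integral_le_integral_abs.trans (integral_mono ((hp.integrable _).sub
        (hq.integrable _)).abs ((integrable_const c).add ((test_outside ρ).integrable _))
        fun ξ => ?_)).trans ?_
      · rcases lt_or_ge ρ ‖ξ‖ with h | h
        · simp only [Pi.add_apply, Pi.sub_apply, outside_of_gt h]
          have : 0 ≤ c := by positivity
          rw [abs_le]
          constructor <;> linarith [hp.nonneg ξ, hp.le_one ξ, hq.nonneg ξ, hq.le_one ξ]
        · simp only [Pi.add_apply, Pi.sub_apply]
          refine le_trans ?_ (le_add_of_nonneg_right ((test_outside ρ).nonneg ξ))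
          have hv : ‖√t • (u + ξ)‖ ≤ B := by
            rw [norm_smul, Real.norm_eq_abs, abs_of_pos hs']
            exact (mul_le_mul_of_nonneg_left ((norm_add_le _ _).trans (add_le_add hu.le h))
              hs'.le).trans hB
          rw [post_eq_condMean hV ht ht8]
          refine (abs_sub_le _ (condMean V t s (fun x => g ((√t)⁻¹ • x)) (√t • (u + ξ))) _).trans ?_
          rw [hcdef, add_assoc]
          exact add_le_add (hclose _ hgs _ hv)
            (condMean_lip hV hs hst ht1 hR hgs (by positivity) hls hv)
      · simp only [Pi.add_apply]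
        rw [integral_add (integrable_const c) ((test_outside ρ).integrable _)]
        simp only [integral_const, probReal_univ, one_smul, hδdef]
        exact add_le_add le_rfl (gauss_outside hρ)
  -- the iterates
  set h := Quarter.gav σ f
  have th : Test h := test_gav' tf σ
  have hhl : LipE (1 / σ) h := fun x y => by
    rw [one_div]
    exact (Quarter.test2_gav hf (fun x => ⟨tf.nonneg x, tf.le_one x⟩) hσ).lip x y
  have htest : ∀ k, Test (iterOp (fun _ => stepOp Ld t) k h) := by
    refine test_iterOp (fun _ g hg => ?_) th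
    exact test_gav' (hLd g hg) √t
  have hiter : ∀ k, iterOp (fun _ => A) k (fun u => h (√t • u))
      = (fun u => iterOp (fun _ => stepOp Ld t) k h (√t • u))
      ∧ LipE κ (fun u => iterOp (fun _ => stepOp Ld t) k h (√t • u)) := by
    intro k
    induction k with
    | zero =>
      refine ⟨rfl, fun x y => ?_⟩
      refine (hhl _ _).trans ?_
      rw [← smul_sub, norm_smul, Real.norm_eq_abs, abs_of_pos hs', ← mul_assoc]
      refine mul_le_mul_of_nonneg_right ?_ (norm_nonneg _)
      have h1 : 1 / σ * √t ≤ 1 / σ :=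
        mul_le_of_le_one_right (by positivity) (Real.sqrt_le_one.2 ht1)
      have : 0 ≤ perturbConst * (d : ℝ) := by positivity
      linarith
    | succ k ih =>
      have e2 : (fun u => iterOp (fun _ => stepOp Ld t) (k + 1) h (√t • u))
          = fun u => ∫ ξ, Ld (iterOp (fun _ => stepOp Ld t) k h) (√t • (u + ξ))
              ∂stdGaussian (Space d) := by
        funext u
        simp only [iterOp, stepOp, smul_add]
      have hl2 : LipE κ (fun u => iterOp (fun _ => stepOp Ld t) (k + 1) h (√t • u)) := by
        rw [e2]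
        have hF2 : Test fun v : Space d => Ld (iterOp (fun _ => stepOp Ld t) k h) (√t • v) :=
          ⟨(hLd _ (htest k)).meas.comp (measurable_const_smul _), fun _ => (hLd _ (htest k)).nonneg _,
            fun _ => (hLd _ (htest k)).le_one _⟩
        exact lipE_mono (lipE_smooth hF2) (le_add_of_nonneg_right (by positivity))
      refine ⟨?_, hl2⟩
      show A (iterOp (fun _ => A) k fun u => h (√t • u)) = _
      rw [ih.1, e2]
      simp only [hAdef, if_pos ih.2, hop, smul_inv_smul₀ hs'.ne']
  have hhu : Test fun u : Space d => h (√t • u) :=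
    ⟨th.meas.comp (measurable_const_smul _), fun _ => th.nonneg _, fun _ => th.le_one _⟩
  have h1 := hS.outer_close A hA hδ0 hsmall hr hL hc (ℓ := √L / √t) (by positivity)
    (fun K g hK hg hl => mix_unit hV ht hL hK hg hl) hhu N
  rw [(hiter (N + 1)).1, hV.unit_law ht, Real.sq_sqrt ht.le] at h1
  simp only [smul_zero, smul_inv_smul₀ hs'.ne'] at h1
  rw [show 1 + 3 / 2 * t - t / 2 = 1 + t by ring] at h1
  push_cast at h1
  exact (abs_sub_le _ (∫ x, h x ∂gibbs V) _).trans
    ((add_le_add h1 (smoothed_close hV hd hf tf hσ.le hRc hL)).trans (le_of_eq (by ring)))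

end

end P347.Zero
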