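import Vale.Agent.P347.Zero.Transport
import Vale.Agent.P347.Zero.Heat
import Vale.Agent.P347.Quarter.Pick

/-!
# P347: the pair field as a cut-off divergence-free flux

On `Space (d + d)`, with blocks `w` and `U`, the density is the Gaussian weight times the smoothed
target at `y + q • w`. The field of the flow satisfies the continuity equation by the heat equation;
the part in `U` is the divergence of an antisymmetric matrix, cut off by a bump, so it changes
nothing in the equation and is bounded with bounded derivative.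
-/

namespace P347.Zero

open MeasureTheory ProbabilityTheory Finset P347.Quarter
open scoped RealInnerProductSpace Topology

noncomputable section

variable {d : ℕ} {V : Space d → ℝ}

attribute [local irreducible] ld sd smooth

/-- The first block. -/
def pA (d : ℕ) : Space (d + d) →L[ℝ] Space d := pickL (Fin.castAdd d)

/-- The second block. -/
def pU (d : ℕ) : Space (d + d) →L[ℝ] Space d := pickL (Fin.natAdd d)

/-- A direction in the first block. -/
def eA (i : Fin d) : Space (d + d) := bv (Fin.castAdd d i)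

/-- A direction in the second block. -/
def eU (i : Fin d) : Space (d + d) := bv (Fin.natAdd d i)

@[simp] theorem pA_eA (i : Fin d) : pA d (eA i) = bv i := by
  ext k
  simp [pA, eA, bv, EuclideanSpace.basisFun_apply, Pi.single_apply]

@[simp] theorem pU_eU (i : Fin d) : pU d (eU i) = bv i := by
  ext k
  simp [pU, eU, bv, EuclideanSpace.basisFun_apply, Pi.single_apply]

theorem castAdd_ne_natAdd (i j : Fin d) : Fin.castAdd d i ≠ Fin.natAdd d j :=
  Fin.ne_of_lt (by simp [Fin.lt_def]; omega)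

@[simp] theorem pA_eU (i : Fin d) : pA d (eU i) = 0 := by
  ext k
  simp [pA, eU, bv, EuclideanSpace.basisFun_apply, Fin.ext_iff]
  omega

@[simp] theorem pU_eA (i : Fin d) : pU d (eA i) = 0 := by
  ext k
  simp [pU, eA, bv, EuclideanSpace.basisFun_apply, Fin.ext_iff]
  omega

theorem inner_eA (x : Space (d + d)) (i : Fin d) : ⟪x, eA i⟫ = pA d x i := by
  simp [pA, eA, bv, EuclideanSpace.basisFun_apply, EuclideanSpace.inner_single_right]

theorem inner_eU (x : Space (d + d)) (i : Fin d) : ⟪x, eU i⟫ = pU d x i := by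
  simp [pU, eU, bv, EuclideanSpace.basisFun_apply, EuclideanSpace.inner_single_right]

theorem dtr_add (A B : Space (d + d) →L[ℝ] Space (d + d)) : dtr (A + B) = dtr A + dtr B := by
  simp [dtr]

theorem dtr_sum {ι : Type} (s : Finset ι) (A : ι → Space (d + d) →L[ℝ] Space (d + d)) :
    dtr (∑ i ∈ s, A i) = ∑ i ∈ s, dtr (A i) := by
  simp [dtr]

theorem dtr_smul (c : ℝ) (A : Space (d + d) →L[ℝ] Space (d + d)) :
    dtr (c • A) = c * dtr A := by
  simp [dtr]

theorem dtr_smulRight (l : Space (d + d) →L[ℝ] ℝ) (u : Space (d + d)) :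
    dtr (l.smulRight u) = l u :=
  LinearMap.trace_smulRight (l : Space (d + d) →ₗ[ℝ] ℝ) u

/-! ## Derivatives of the logarithm -/

theorem fderiv_ld (hV : InClass V) (L : List (Fin d)) {p : ℝ × Space d} (hp : 0 < p.1) (a : ℝ)
    (c : Space d) :
    fderiv ℝ (ld V L) p (a, c) = a * (1 / 2 * (∑ i, ld V (i :: i :: L) p + quadSum V L p))
      + ∑ i, c i * ld V (i :: L) p := by
  obtain ⟨r, z⟩ := p
  have hd := ((contDiffAt_ld hV L 1 (p := (r, z)) hp).differentiableAt one_ne_zero).hasFDerivAt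
  have h1 : fderiv ℝ (ld V L) (r, z) (1, 0)
      = 1 / 2 * (∑ i, ld V (i :: i :: L) (r, z) + quadSum V L (r, z)) := by
    have g0 : HasDerivAt (fun r' : ℝ => (r', z)) ((1 : ℝ), (0 : Space d)) r :=
      (hasDerivAt_id' r).prodMk (hasDerivAt_const r z)
    exact (HasFDerivAt.comp_hasDerivAt (l := ld V L) (f := fun r' : ℝ => (r', z)) r hd g0).unique
      (hasDerivAt_ld hV L hp z)
  have h2 : (fderiv ℝ (ld V L) (r, z)).comp (ContinuousLinearMap.inr ℝ ℝ (Space d))
      = ∑ i, ld V (i :: L) (r, z) • (EuclideanSpace.proj i : Space d →L[ℝ] ℝ) :=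
    (HasFDerivAt.comp (g := ld V L) (f := fun z' => (r, z')) z hd
      (hasFDerivAt_prodMk_right (𝕜 := ℝ) r z)).unique (hasDerivAt_ld_space hV L hp z).2
  have h2' := congrArg (fun A : Space d →L[ℝ] ℝ => A c) h2
  simp only [ContinuousLinearMap.comp_apply, ContinuousLinearMap.inr_apply, _root_.sum_apply,
    _root_.smul_apply, smul_eq_mul] at h2'
  rw [show (a, c) = a • ((1 : ℝ), (0 : Space d)) + (0, c) by simp, map_add, map_smul, h1, h2',
    smul_eq_mul]
  exact congrArg _ (sum_congr rfl fun i _ => mul_comm _ _)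

theorem quadSum_nil (p : ℝ × Space d) : quadSum V [] p = ∑ l, ld V [l] p * ld V [l] p := by
  simp [quadSum, pats, contract, pickT, pickF]

theorem quadSum_single (p : ℝ × Space d) (j : Fin d) :
    quadSum V [j] p = 2 * ∑ l, ld V [l] p * ld V [l, j] p := by
  simp [quadSum, pats, contract, pickT, pickF, mul_sum, ← sum_add_distrib]
  exact sum_congr rfl fun l _ => by ring

/-! ## The density -/

/-- Variance and point seen by a state at time `q`. -/
def pt (y : Space d) (t : ℝ) (z : ℝ × Space (d + d)) : ℝ × Space d :=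
  (t - z.1 ^ 2, y + z.1 • pA d z.2)

/-- The times allowed. -/
def slab (d : ℕ) (t : ℝ) : Set (ℝ × Space (d + d)) := {z | z.1 ^ 2 < t}

theorem isOpen_slab' (t : ℝ) : IsOpen (slab d t) :=
  isOpen_lt (continuous_fst.pow 2) continuous_const

theorem pt_pos {y : Space d} {t : ℝ} {z : ℝ × Space (d + d)} (hz : z ∈ slab d t) :
    0 < (pt y t z).1 := sub_pos.2 hz

/-- The derivative of `pt`. -/
def ptD (z : ℝ × Space (d + d)) : ℝ × Space (d + d) →L[ℝ] ℝ × Space d :=
  ((-(2 * z.1)) • ContinuousLinearMap.fst ℝ ℝ (Space (d + d))).prod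
    (z.1 • (pA d).comp (ContinuousLinearMap.snd ℝ ℝ (Space (d + d)))
      + (ContinuousLinearMap.fst ℝ ℝ (Space (d + d))).smulRight (pA d z.2))

theorem contDiff_pt (y : Space d) (t : ℝ) (n : ℕ) : ContDiff ℝ n (pt y t) := by
  unfold pt
  exact (contDiff_const.sub (contDiff_fst.pow 2)).prodMk
    (contDiff_const.add (contDiff_fst.smul ((pA d).contDiff.comp contDiff_snd)))

theorem hasFDerivAt_pt (y : Space d) (t : ℝ) (z : ℝ × Space (d + d)) :
    HasFDerivAt (pt y t) (ptD z) z := by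
  have h1 : HasFDerivAt (fun u : ℝ × Space (d + d) => t - u.1 ^ 2)
      ((-(2 * z.1)) • ContinuousLinearMap.fst ℝ ℝ (Space (d + d))) z := by
    refine ((hasFDerivAt_fst.pow 2).const_sub t).congr_fderiv ?_
    ext <;> simp
  have h2 : HasFDerivAt (fun u : ℝ × Space (d + d) => y + u.1 • pA d u.2)
      (z.1 • (pA d).comp (ContinuousLinearMap.snd ℝ ℝ (Space (d + d)))
        + (ContinuousLinearMap.fst ℝ ℝ (Space (d + d))).smulRight (pA d z.2)) z :=
    (hasFDerivAt_fst.smul ((pA d).hasFDerivAt.comp z hasFDerivAt_snd)).const_add y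
  exact h1.prodMk h2

/-- The Gaussian weight. -/
def gE (z : ℝ × Space (d + d)) : ℝ := Real.exp (-halfSq (d + d) z.2)

/-- The density of the pair law at time `q`, up to a constant. -/
def dens (V : Space d → ℝ) (y : Space d) (t : ℝ) (z : ℝ × Space (d + d)) : ℝ :=
  gE z * sd V [] (pt y t z)

theorem pair_sd_nil (V : Space d → ℝ) (p : ℝ × Space d) : sd V [] p = smooth V p.1 p.2 := by
  unfold sd; rfl

theorem ld_nil (V : Space d → ℝ) (p : ℝ × Space d) : ld V [] p = Real.log (smooth V p.1 p.2) := by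
  unfold ld; rfl

theorem dens_pos (hV : InClass V) (y : Space d) (t : ℝ) (z : ℝ × Space (d + d)) :
    0 < dens V y t z :=
  mul_pos (Real.exp_pos _) (by rw [pair_sd_nil]; exact smooth_pos' hV _ _)

theorem contDiff_gE (n : ℕ) : ContDiff ℝ n (gE (d := d)) :=
  (((contDiff_norm_sq ℝ).comp contDiff_snd).div_const 2).neg.exp

theorem contDiffAt_dens (hV : InClass V) (y : Space d) {t : ℝ} (n : ℕ)
    {z : ℝ × Space (d + d)} (hz : z ∈ slab d t) : ContDiffAt ℝ n (dens V y t) z := by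
  have h : ContDiffAt ℝ n (sd V []) (pt y t z) :=
    (contDiffOn_sd hV n []).contDiffAt (isOpen_times.mem_nhds ⟨pt_pos hz, trivial⟩)
  exact (contDiff_gE n).contDiffAt.mul (h.comp z (contDiff_pt y t n).contDiffAt)

theorem hasFDerivAt_gE (z : ℝ × Space (d + d)) :
    HasFDerivAt gE (gE z • -((innerSL ℝ z.2).comp (ContinuousLinearMap.snd ℝ ℝ (Space (d + d))))) z := by
  have h1 : HasFDerivAt (fun u : ℝ × Space (d + d) => -(‖u.2‖ ^ 2 / 2))
      (-((innerSL ℝ z.2).comp (ContinuousLinearMap.snd ℝ ℝ (Space (d + d))))) z := by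
    refine ((hasFDerivAt_snd.norm_sq.mul_const (2⁻¹ : ℝ)).neg).congr_fderiv ?_ |>.congr_of_eventuallyEq ?_
    · ext <;> simp
    · exact Filter.Eventually.of_forall fun u => by simp [div_eq_mul_inv]
  exact h1.exp

/-- The derivative of the density along a direction. -/
theorem fderiv_dens (hV : InClass V) (y : Space d) {t : ℝ} {z : ℝ × Space (d + d)}
    (hz : z ∈ slab d t) (s : ℝ) (e : Space (d + d)) :
    fderiv ℝ (dens V y t) z (s, e) = dens V y t z * (-⟪z.2, e⟫
      + (-(2 * z.1) * s) * (1 / 2 * (∑ i, ld V [i, i] (pt y t z)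
          + ∑ l, ld V [l] (pt y t z) * ld V [l] (pt y t z)))
      + ∑ i, (z.1 * pA d e i + s * pA d z.2 i) * ld V [i] (pt y t z)) := by
  set p := pt y t z with hpdef
  have hp : 0 < p.1 := pt_pos hz
  have hl := (contDiffAt_ld hV [] 1 hp).differentiableAt one_ne_zero
  have hs : HasFDerivAt (sd V []) (sd V [] p • fderiv ℝ (ld V []) p) p := by
    have h2 := hl.hasFDerivAt.exp
    have e1 : ∀ u : ℝ × Space d, Real.exp (ld V [] u) = sd V [] u := fun u => by
      rw [ld_nil, pair_sd_nil, Real.exp_log (smooth_pos' hV _ _)]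
    rw [e1] at h2
    exact h2.congr_of_eventuallyEq (Filter.Eventually.of_forall fun u => (e1 u).symm)
  have h : HasFDerivAt (dens V y t) _ z :=
    (hasFDerivAt_gE z).mul (hs.comp z (hasFDerivAt_pt y t z))
  rw [h.fderiv]
  simp only [_root_.add_apply, _root_.smul_apply, ContinuousLinearMap.comp_apply,
    _root_.neg_apply, ContinuousLinearMap.coe_snd', innerSL_apply_apply, smul_eq_mul,
    Function.comp_apply, dens]
  rw [show ptD z (s, e) = (-(2 * z.1) * s, z.1 • pA d e + s • pA d z.2) by simp [ptD],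
    fderiv_ld hV [] hp, quadSum_nil]
  simp only [PiLp.add_apply, PiLp.smul_apply, smul_eq_mul, ← hpdef]
  ring

theorem dens_dom (hV : InClass V) (y : Space d) {t T : ℝ} (hT : T ^ 2 < t) :
    ∃ C : ℝ, ∀ z : ℝ × Space (d + d), |z.1| ≤ |T| →
      |dens V y t z| + ‖fderiv ℝ (dens V y t) z‖ * (1 + ‖z.2‖)
        ≤ C * Real.exp (-(‖z.2‖ ^ 2 / 8)) := by
  have hr₀ : 0 < t - T ^ 2 := by linarith
  have hb : ∀ L : List (Fin d), ∃ B : ℝ, 0 ≤ B ∧
      ∀ p : ℝ × Space d, t - T ^ 2 ≤ p.1 → |sd V L p| ≤ B := by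
    intro L
    obtain ⟨B, hB⟩ := (reg_smooth hV hr₀).bdd L
    refine ⟨B, hB.nonneg, fun p hp => ?_⟩
    have e : sd V L p = gav √(p.1 - (t - T ^ 2)) (pd L (smooth V (t - T ^ 2))) p.2 := by
      unfold sd; exact congrFun (pd_smooth_eq hV hr₀ hp L) p.2
    rw [e]
    exact (hB.gav _).bound p.2
  choose B hB0 hB using hb
  set A : ℝ := ∑ i : Fin d, B [i]
  set D : ℝ := 1 / 2 * ∑ i : Fin d, B [i, i]
  have hA : 0 ≤ A := sum_nonneg fun i _ => hB0 _
  have hD : 0 ≤ D := mul_nonneg (by norm_num) (sum_nonneg fun i _ => hB0 _)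
  set K : ℝ := B [] + (2 * |T| + 1) * D + (|T| + 1) * A
  refine ⟨3 * (B [] + K) * Real.exp 3, fun z hzT => ?_⟩
  have hz : z ∈ slab d t := by
    show z.1 ^ 2 < t
    calc z.1 ^ 2 = |z.1| ^ 2 := (sq_abs _).symm
      _ ≤ |T| ^ 2 := pow_le_pow_left₀ (abs_nonneg _) hzT 2
      _ < t := by rwa [sq_abs]
  have hp : t - T ^ 2 ≤ (pt y t z).1 := by
    have : z.1 ^ 2 ≤ T ^ 2 := sq_le_sq.2 hzT
    simp [pt]; linarith
  have hg : HasFDerivAt (dens V y t) _ z :=
    (hasFDerivAt_gE z).mul ((hasFDerivAt_sd hV [] (pt_pos hz)).comp z (hasFDerivAt_pt y t z))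
  have hn0 : (0 : ℝ) ≤ ‖z.2‖ := norm_nonneg _
  have hB00 := hB0 []
  have hK : 0 ≤ K := by positivity
  have hop : ‖fderiv ℝ (dens V y t) z‖ ≤ gE z * (K * (1 + ‖z.2‖)) := by
    rw [hg.fderiv]
    refine ContinuousLinearMap.opNorm_le_bound _ (mul_nonneg (Real.exp_pos _).le
      (by positivity)) fun u => ?_
    simp only [_root_.add_apply, _root_.smul_apply, ContinuousLinearMap.comp_apply,
      _root_.neg_apply, ContinuousLinearMap.coe_snd', innerSL_apply_apply, smul_eq_mul,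
      Function.comp_apply, ContinuousLinearMap.coprod_apply,
      ContinuousLinearMap.toSpanSingleton_apply, _root_.sum_apply]
    set a := (ptD z u).1
    set c := (ptD z u).2
    have hu1 : |u.1| ≤ ‖u‖ := (Real.norm_eq_abs _).symm.trans_le (norm_fst_le u)
    have hu2 : ‖u.2‖ ≤ ‖u‖ := norm_snd_le u
    have ha : |a| ≤ (2 * |T| + 1) * (1 + ‖z.2‖) * ‖u‖ := by
      have : a = -(2 * z.1) * u.1 := by simp [a, ptD]
      rw [this, abs_mul, abs_neg, abs_mul, abs_two]
      exact mul_le_mul (by nlinarith [abs_nonneg T]) hu1 (abs_nonneg _) (by positivity)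
    have hc : ∀ i, |c i| ≤ (|T| + 1) * (1 + ‖z.2‖) * ‖u‖ := by
      intro i
      have : c = z.1 • pA d u.2 + u.1 • pA d z.2 := by simp [c, ptD]
      refine ((Real.norm_eq_abs _).symm.trans_le (PiLp.norm_apply_le c i)).trans ?_
      rw [this]
      refine (norm_add_le _ _).trans ?_
      rw [norm_smul, norm_smul, Real.norm_eq_abs, Real.norm_eq_abs]
      have h1 : ‖pA d u.2‖ ≤ ‖u‖ :=
        (norm_pickL_le (Fin.castAdd_injective _ _) _).trans hu2
      have h2 : ‖pA d z.2‖ ≤ ‖z.2‖ := norm_pickL_le (Fin.castAdd_injective _ _) _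
      have h3 := mul_le_mul hzT h1 (norm_nonneg _) (abs_nonneg T)
      have h4 := mul_le_mul hu1 h2 (norm_nonneg _) (norm_nonneg u)
      nlinarith [mul_nonneg (abs_nonneg T) (mul_nonneg hn0 (norm_nonneg u)), norm_nonneg u]
    have e1 : |∑ i, c i * sd V [i] (pt y t z)| ≤ (|T| + 1) * (1 + ‖z.2‖) * ‖u‖ * A := by
      rw [mul_sum]
      refine (abs_sum_le_sum_abs _ _).trans (sum_le_sum fun i _ => ?_)
      rw [abs_mul]
      exact mul_le_mul (hc i) (hB _ _ hp) (abs_nonneg _) (by positivity)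
    have e2 : |a * (1 / 2 * ∑ i, sd V [i, i] (pt y t z))|
        ≤ (2 * |T| + 1) * (1 + ‖z.2‖) * ‖u‖ * D := by
      rw [abs_mul]
      refine mul_le_mul ha ?_ (abs_nonneg _) (by positivity)
      rw [abs_mul, abs_of_nonneg (show (0 : ℝ) ≤ 1 / 2 by norm_num)]
      exact mul_le_mul_of_nonneg_left
        ((abs_sum_le_sum_abs _ _).trans (sum_le_sum fun i _ => hB _ _ hp)) (by norm_num)
    have e3 : |⟪z.2, u.2⟫ * sd V [] (pt y t z)| ≤ (1 + ‖z.2‖) * ‖u‖ * B [] := by
      rw [abs_mul]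
      refine mul_le_mul ((abs_real_inner_le_norm _ _).trans ?_) (hB _ _ hp) (abs_nonneg _)
        (by positivity)
      exact mul_le_mul (by linarith) hu2 (norm_nonneg _) (by positivity)
    have e4 : ∑ i, sd V [i] (pt y t z) * c i = ∑ i, c i * sd V [i] (pt y t z) :=
      sum_congr rfl fun i _ => mul_comm _ _
    simp only [EuclideanSpace.coe_proj, PiLp.proj_apply] at *
    rw [e4, Real.norm_eq_abs]
    have hgn : 0 ≤ gE z := (Real.exp_pos _).le
    calc |gE z * (a * (1 / 2 * ∑ i, sd V [i, i] (pt y t z)) + ∑ i, c i * sd V [i] (pt y t z))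
          + sd V [] (pt y t z) * (gE z * -⟪z.2, u.2⟫)|
        = gE z * |a * (1 / 2 * ∑ i, sd V [i, i] (pt y t z)) + ∑ i, c i * sd V [i] (pt y t z)
            + -(⟪z.2, u.2⟫ * sd V [] (pt y t z))| := by
          rw [← abs_of_nonneg hgn, ← abs_mul, abs_of_nonneg hgn]; congr 1; ring
      _ ≤ gE z * ((2 * |T| + 1) * (1 + ‖z.2‖) * ‖u‖ * D + (|T| + 1) * (1 + ‖z.2‖) * ‖u‖ * A
            + (1 + ‖z.2‖) * ‖u‖ * B []) := by
          refine mul_le_mul_of_nonneg_left ((abs_add_le _ _).trans (add_le_add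
            ((abs_add_le _ _).trans (add_le_add e2 e1)) ?_)) hgn
          rwa [abs_neg]
      _ = gE z * (K * (1 + ‖z.2‖)) * ‖u‖ := by simp only [K]; ring
  have hexp : gE z * (1 + ‖z.2‖) ^ 2 ≤ 3 * Real.exp 3 * Real.exp (-(‖z.2‖ ^ 2 / 8)) := by
    have h1 : (1 + ‖z.2‖) ^ 2 ≤ Real.exp (2 * ‖z.2‖) := by
      rw [show 2 * ‖z.2‖ = ‖z.2‖ + ‖z.2‖ by ring, Real.exp_add, sq]
      have := Real.add_one_le_exp ‖z.2‖
      exact mul_le_mul (by linarith) (by linarith) (by positivity) (Real.exp_pos _).le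
    refine (mul_le_mul_of_nonneg_left h1 (Real.exp_pos _).le).trans ?_
    show Real.exp (-halfSq (d + d) z.2) * Real.exp (2 * ‖z.2‖) ≤ _
    rw [mul_assoc, ← Real.exp_add, ← Real.exp_add]
    refine le_trans ?_ (le_mul_of_one_le_left (Real.exp_pos _).le (by norm_num : (1 : ℝ) ≤ 3))
    rw [Real.exp_le_exp, halfSq]
    nlinarith [sq_nonneg (‖z.2‖ - 8 / 3)]
  have h0 : |dens V y t z| ≤ gE z * (1 + ‖z.2‖) ^ 2 * B [] := by
    rw [dens, abs_mul, abs_of_pos (show 0 < gE z from Real.exp_pos _)]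
    refine mul_le_mul (le_mul_of_one_le_right (Real.exp_pos _).le ?_) (hB _ _ hp) (abs_nonneg _)
      (mul_nonneg (Real.exp_pos _).le (sq_nonneg _))
    nlinarith
  have h4 : gE z * (1 + ‖z.2‖) ^ 2 ≤ 3 * Real.exp 3 * Real.exp (-(‖z.2‖ ^ 2 / 8)) := hexp
  calc |dens V y t z| + ‖fderiv ℝ (dens V y t) z‖ * (1 + ‖z.2‖)
      ≤ gE z * (1 + ‖z.2‖) ^ 2 * B [] + gE z * (K * (1 + ‖z.2‖)) * (1 + ‖z.2‖) :=
        add_le_add h0 (mul_le_mul_of_nonneg_right hop (by positivity))
    _ = gE z * (1 + ‖z.2‖) ^ 2 * (B [] + K) := by ring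
    _ ≤ 3 * Real.exp 3 * Real.exp (-(‖z.2‖ ^ 2 / 8)) * (B [] + K) :=
        mul_le_mul_of_nonneg_right h4 (by linarith)
    _ = _ := by ring

/-! ## The field -/

variable {y : Space d} {t ρ : ℝ} {φ : Space (d + d) → ℝ}

/-- The entries of the antisymmetric matrix. -/
def fluxG (V : Space d → ℝ) (y : Space d) (t ρ : ℝ) (φ : Space (d + d) → ℝ) (i j : Fin d)
    (z : ℝ × Space (d + d)) : ℝ :=
  φ z.2 * dens V y t z * ld V [i, j] (pt y t z) * ρ⁻¹

/-- A derivative in space. -/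
def pdx (G : ℝ × Space (d + d) → ℝ) (e : Space (d + d)) (z : ℝ × Space (d + d)) : ℝ :=
  fderiv ℝ G z (0, e)

/-- Its divergence. -/
def fluxZ (V : Space d → ℝ) (y : Space d) (t ρ : ℝ) (φ : Space (d + d) → ℝ)
    (z : ℝ × Space (d + d)) : Space (d + d) :=
  ∑ i, ∑ j, ((-pdx (fluxG V y t ρ φ i j) (eU j) z) • eA i
    + pdx (fluxG V y t ρ φ i j) (eA i) z • eU j)

/-- The field of the flow, in the first block. -/
def baseV (V : Space d → ℝ) (y : Space d) (t : ℝ) (z : ℝ × Space (d + d)) : Space (d + d) :=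
  ∑ i, ld V [i] (pt y t z) • eA i

/-- The whole field. -/
def vel (V : Space d → ℝ) (y : Space d) (t ρ : ℝ) (φ : Space (d + d) → ℝ)
    (z : ℝ × Space (d + d)) : Space (d + d) :=
  baseV V y t z + (dens V y t z)⁻¹ • fluxZ V y t ρ φ z

theorem contDiffAt_ld_pt (hV : InClass V) (L : List (Fin d)) (n : ℕ) {z : ℝ × Space (d + d)}
    (hz : z ∈ slab d t) : ContDiffAt ℝ n (fun u => ld V L (pt y t u)) z :=
  (contDiffAt_ld hV L n (pt_pos hz)).comp z (contDiff_pt y t n).contDiffAt

theorem contDiffAt_fluxG (hV : InClass V) (hφ : ∀ n : ℕ, ContDiff ℝ n φ) (i j : Fin d) (n : ℕ)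
    {z : ℝ × Space (d + d)} (hz : z ∈ slab d t) :
    ContDiffAt ℝ n (fluxG V y t ρ φ i j) z :=
  ((((hφ n).comp contDiff_snd).contDiffAt.mul (contDiffAt_dens hV y n hz)).mul
    (contDiffAt_ld_pt hV [i, j] n hz)).mul contDiffAt_const

theorem contDiffAt_pdx_fluxG (hV : InClass V) (hφ : ∀ n : ℕ, ContDiff ℝ n φ) (i j : Fin d)
    (e : Space (d + d)) {z : ℝ × Space (d + d)} (hz : z ∈ slab d t) :
    ContDiffAt ℝ 1 (pdx (fluxG V y t ρ φ i j) e) z :=
  ((contDiffAt_fluxG hV hφ i j 2 hz).fderiv_right (m := 1) (by norm_num)).clm_apply contDiffAt_const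

theorem contDiffAt_fluxZ (hV : InClass V) (hφ : ∀ n : ℕ, ContDiff ℝ n φ)
    {z : ℝ × Space (d + d)} (hz : z ∈ slab d t) :
    ContDiffAt ℝ 1 (fluxZ V y t ρ φ) z :=
  ContDiffAt.sum fun i _ => ContDiffAt.sum fun j _ =>
    (((contDiffAt_pdx_fluxG hV hφ i j _ hz).neg).smul contDiffAt_const).add
      ((contDiffAt_pdx_fluxG hV hφ i j _ hz).smul contDiffAt_const)

theorem contDiffAt_baseV (hV : InClass V) {z : ℝ × Space (d + d)} (hz : z ∈ slab d t) :
    ContDiffAt ℝ 1 (baseV V y t) z :=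
  ContDiffAt.sum fun i _ => (contDiffAt_ld_pt hV [i] 1 hz).smul contDiffAt_const

theorem contDiffAt_vel (hV : InClass V) (hφ : ∀ n : ℕ, ContDiff ℝ n φ)
    {z : ℝ × Space (d + d)} (hz : z ∈ slab d t) :
    ContDiffAt ℝ 1 (vel V y t ρ φ) z :=
  (contDiffAt_baseV hV hz).add (((contDiffAt_dens hV y 1 hz).inv (dens_pos hV y t z).ne').smul
    (contDiffAt_fluxZ hV hφ hz))

theorem fderiv_pdx_symm {G : ℝ × Space (d + d) → ℝ} {z : ℝ × Space (d + d)}
    (hG : ContDiffAt ℝ 2 G z) (a b : Space (d + d)) :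
    fderiv ℝ (pdx G a) z (0, b) = fderiv ℝ (pdx G b) z (0, a) := by
  have hd : DifferentiableAt ℝ (fderiv ℝ G) z :=
    (hG.fderiv_right (m := 1) (by norm_num)).differentiableAt one_ne_zero
  unfold pdx
  rw [fderiv_clm_apply hd (differentiableAt_const _),
    fderiv_clm_apply hd (differentiableAt_const _)]
  simp only [fderiv_fun_const, Pi.zero_apply, ContinuousLinearMap.comp_zero, zero_add,
    ContinuousLinearMap.flip_apply]
  exact (hG.isSymmSndFDerivAt (by simp)).eq _ _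

/-- The flux has no divergence. -/
theorem dtr_fluxZ (hV : InClass V) (hφ : ∀ n : ℕ, ContDiff ℝ n φ)
    {z : ℝ × Space (d + d)} (hz : z ∈ slab d t) :
    dtr ((fderiv ℝ (fluxZ V y t ρ φ) z).comp (ContinuousLinearMap.inr ℝ ℝ (Space (d + d)))) = 0 := by
  have hd : ∀ i j e, HasFDerivAt (pdx (fluxG V y t ρ φ i j) e)
      (fderiv ℝ (pdx (fluxG V y t ρ φ i j) e) z) z := fun i j e =>
    ((contDiffAt_pdx_fluxG hV hφ i j e hz).differentiableAt one_ne_zero).hasFDerivAt
  have h : HasFDerivAt (fluxZ V y t ρ φ)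
      (∑ i, ∑ j, ((-fderiv ℝ (pdx (fluxG V y t ρ φ i j) (eU j)) z).smulRight (eA i)
        + (fderiv ℝ (pdx (fluxG V y t ρ φ i j) (eA i)) z).smulRight (eU j))) z :=
    HasFDerivAt.fun_sum fun i _ => HasFDerivAt.fun_sum fun j _ =>
      ((hd i j _).neg.smul_const (eA i)).add ((hd i j _).smul_const (eU j))
  rw [h.fderiv]
  have e : ∀ (l : ℝ × Space (d + d) →L[ℝ] ℝ) (u : Space (d + d)),
      (l.smulRight u).comp (ContinuousLinearMap.inr ℝ ℝ (Space (d + d)))
        = (l.comp (ContinuousLinearMap.inr ℝ ℝ (Space (d + d)))).smulRight u := fun l u => rfl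
  simp only [ContinuousLinearMap.finsetSum_comp, ContinuousLinearMap.add_comp, e, dtr_sum, dtr_add,
    dtr_smulRight]
  refine sum_eq_zero fun i _ => sum_eq_zero fun j _ => ?_
  simp only [ContinuousLinearMap.comp_apply, ContinuousLinearMap.inr_apply, _root_.neg_apply]
  rw [fderiv_pdx_symm (contDiffAt_fluxG hV hφ i j 2 hz) (eU j) (eA i)]
  ring

theorem dtr_baseV (hV : InClass V) {z : ℝ × Space (d + d)} (hz : z ∈ slab d t) :
    dtr ((fderiv ℝ (baseV V y t) z).comp (ContinuousLinearMap.inr ℝ ℝ (Space (d + d))))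
      = z.1 * ∑ i, ld V [i, i] (pt y t z) := by
  have hd : ∀ i : Fin d, HasFDerivAt (fun u => ld V [i] (pt y t u))
      ((fderiv ℝ (ld V [i]) (pt y t z)).comp (ptD z)) z := fun i =>
    (((contDiffAt_ld hV [i] 1 (pt_pos hz)).differentiableAt one_ne_zero).hasFDerivAt).comp z
      (hasFDerivAt_pt y t z)
  have h : HasFDerivAt (baseV V y t)
      (∑ i, ((fderiv ℝ (ld V [i]) (pt y t z)).comp (ptD z)).smulRight (eA i)) z :=
    HasFDerivAt.fun_sum fun i _ => (hd i).smul_const (eA i)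
  rw [h.fderiv]
  have e : ∀ (l : ℝ × Space (d + d) →L[ℝ] ℝ) (u : Space (d + d)),
      (l.smulRight u).comp (ContinuousLinearMap.inr ℝ ℝ (Space (d + d)))
        = (l.comp (ContinuousLinearMap.inr ℝ ℝ (Space (d + d)))).smulRight u := fun l u => rfl
  simp only [ContinuousLinearMap.finsetSum_comp, e, dtr_sum, dtr_smulRight, mul_sum]
  refine sum_congr rfl fun i _ => ?_
  have hp : ptD z (0, eA i) = (0, z.1 • bv i) := by simp [ptD]
  simp only [ContinuousLinearMap.comp_apply, ContinuousLinearMap.inr_apply, hp,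
    fderiv_ld hV [i] (pt_pos hz)]
  simp [bv, EuclideanSpace.basisFun_apply, Pi.single_apply]

/-- The continuity equation. -/
theorem eqn_vel (hV : InClass V) (hφ : ∀ n : ℕ, ContDiff ℝ n φ)
    {z : ℝ × Space (d + d)} (hz : z ∈ slab d t) :
    fderiv ℝ (dens V y t) z (1, vel V y t ρ φ z)
      + dens V y t z * dtr ((fderiv ℝ (vel V y t ρ φ) z).comp
          (ContinuousLinearMap.inr ℝ ℝ (Space (d + d)))) = 0 := by
  have hpos := dens_pos hV y t z
  have hb := ((contDiffAt_baseV (y := y) hV hz).differentiableAt one_ne_zero).hasFDerivAt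
  have hi : HasFDerivAt (fun u => (dens V y t u)⁻¹) _ z :=
    (hasDerivAt_inv hpos.ne').comp_hasFDerivAt z
      ((contDiffAt_dens hV y 1 hz).differentiableAt one_ne_zero).hasFDerivAt
  have hZ := ((contDiffAt_fluxZ (y := y) (ρ := ρ) hV hφ hz).differentiableAt one_ne_zero).hasFDerivAt
  have h : HasFDerivAt (vel V y t ρ φ) _ z := hb.add (hi.smul hZ)
  rw [h.fderiv]
  have e : ∀ (l : ℝ × Space (d + d) →L[ℝ] ℝ) (u : Space (d + d)),
      (l.smulRight u).comp (ContinuousLinearMap.inr ℝ ℝ (Space (d + d)))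
        = (l.comp (ContinuousLinearMap.inr ℝ ℝ (Space (d + d)))).smulRight u := fun l u => rfl
  simp only [ContinuousLinearMap.add_comp, ContinuousLinearMap.smul_comp, e, dtr_add, dtr_smul,
    dtr_smulRight, dtr_baseV hV hz, dtr_fluxZ hV hφ hz, mul_zero, zero_add]
  simp only [ContinuousLinearMap.comp_apply, ContinuousLinearMap.inr_apply, _root_.smul_apply,
    smul_eq_mul]
  have hsplit : fderiv ℝ (dens V y t) z (1, vel V y t ρ φ z)
      = fderiv ℝ (dens V y t) z (1, baseV V y t z)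
        + (dens V y t z)⁻¹ * fderiv ℝ (dens V y t) z (0, fluxZ V y t ρ φ z) := by
    rw [← smul_eq_mul, ← map_smul, ← map_add]
    simp [vel]
  have hbase : fderiv ℝ (dens V y t) z (1, baseV V y t z)
      = -(dens V y t z * (z.1 * ∑ i, ld V [i, i] (pt y t z))) := by
    rw [fderiv_dens hV y hz]
    have hA : ∀ i, pA d (baseV V y t z) i = ld V [i] (pt y t z) := fun i => by
      simp [baseV, bv, EuclideanSpace.basisFun_apply, Pi.single_apply]
    have hI : ⟪z.2, baseV V y t z⟫ = ∑ i, ld V [i] (pt y t z) * pA d z.2 i := by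
      simp [baseV, inner_sum, real_inner_smul_right, inner_eA]
    simp only [hA, hI, mul_one, one_mul, add_mul, sum_add_distrib]
    rw [show (∑ i, z.1 * ld V [i] (pt y t z) * ld V [i] (pt y t z))
        = z.1 * ∑ i, ld V [i] (pt y t z) * ld V [i] (pt y t z) by
      rw [mul_sum]; exact sum_congr rfl fun i _ => by ring,
      show (∑ i, pA d z.2 i * ld V [i] (pt y t z)) = ∑ i, ld V [i] (pt y t z) * pA d z.2 i from
        sum_congr rfl fun i _ => mul_comm _ _]
    ring
  rw [hsplit, hbase]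
  field_simp
  ring

/-! ## Where the cut-off is one or zero -/

theorem vel_of_zero {z : ℝ × Space (d + d)} (h0 : φ =ᶠ[𝓝 z.2] 0) :
    vel V y t ρ φ z = baseV V y t z := by
  have hG : ∀ i j, fderiv ℝ (fluxG V y t ρ φ i j) z = 0 := by
    intro i j
    have : fluxG V y t ρ φ i j =ᶠ[𝓝 z] fun _ => (0 : ℝ) := by
      filter_upwards [continuous_snd.continuousAt.preimage_mem_nhds h0] with u hu
      have : φ u.2 = 0 := hu
      simp [fluxG, this]
    rw [this.fderiv_eq]; simp
  simp [vel, fluxZ, pdx, hG]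

theorem vel_of_one (hV : InClass V) {z : ℝ × Space (d + d)} (hz : z ∈ slab d t)
    (h1 : φ =ᶠ[𝓝 z.2] 1) :
    vel V y t ρ φ z = ∑ i, (ld V [i] (pt y t z)
        + ρ⁻¹ * ∑ j, pU d z.2 j * ld V [i, j] (pt y t z)) • eA i
      + ∑ j, (ρ⁻¹ * ∑ i, ((-pA d z.2 i + z.1 * ld V [i] (pt y t z)) * ld V [i, j] (pt y t z)
          + z.1 * ld V [i, i, j] (pt y t z))) • eU j := by
  set D := dens V y t z
  have hD : D ≠ 0 := (dens_pos hV y t z).ne'
  have key : ∀ i j (e : Space (d + d)), pdx (fluxG V y t ρ φ i j) e z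
      = D * ρ⁻¹ * ((-⟪z.2, e⟫ + z.1 * ∑ l, pA d e l * ld V [l] (pt y t z)) * ld V [i, j] (pt y t z)
          + z.1 * ∑ l, pA d e l * ld V [l, i, j] (pt y t z)) := by
    intro i j e
    have hG : fluxG V y t ρ φ i j
        =ᶠ[𝓝 z] fun u => dens V y t u * ld V [i, j] (pt y t u) * ρ⁻¹ := by
      filter_upwards [continuous_snd.continuousAt.preimage_mem_nhds h1] with u hu
      have : φ u.2 = 1 := hu
      simp [fluxG, this]
    have hd : HasFDerivAt (fun u => dens V y t u * ld V [i, j] (pt y t u) * ρ⁻¹) _ z :=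
      (((contDiffAt_dens hV y 1 hz).differentiableAt one_ne_zero).hasFDerivAt.mul
        ((((contDiffAt_ld hV [i, j] 1 (pt_pos hz)).differentiableAt one_ne_zero).hasFDerivAt).comp z
          (hasFDerivAt_pt y t z))).mul_const ρ⁻¹
    have hp : ptD z (0, e) = (0, z.1 • pA d e) := by simp [ptD]
    rw [pdx, hG.fderiv_eq, hd.fderiv]
    simp only [_root_.add_apply, _root_.smul_apply, ContinuousLinearMap.comp_apply, hp,
      fderiv_ld hV [i, j] (pt_pos hz), fderiv_dens hV y hz, smul_eq_mul, Function.comp_apply,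
      PiLp.smul_apply, mul_zero, zero_mul, zero_add, add_zero, mul_assoc, ← mul_sum]
    ring
  have kU : ∀ i j, pdx (fluxG V y t ρ φ i j) (eU j) z
      = -(D * ρ⁻¹ * (pU d z.2 j * ld V [i, j] (pt y t z))) := by
    intro i j
    rw [key, inner_eU]; simp
  have kA : ∀ i j, pdx (fluxG V y t ρ φ i j) (eA i) z
      = D * ρ⁻¹ * ((-pA d z.2 i + z.1 * ld V [i] (pt y t z)) * ld V [i, j] (pt y t z)
          + z.1 * ld V [i, i, j] (pt y t z)) := by
    intro i j
    rw [key, inner_eA]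
    simp [bv, EuclideanSpace.basisFun_apply, Pi.single_apply]
  have hZ : fluxZ V y t ρ φ z = D • (∑ i, (ρ⁻¹ * ∑ j, pU d z.2 j * ld V [i, j] (pt y t z)) • eA i
      + ∑ j, (ρ⁻¹ * ∑ i, ((-pA d z.2 i + z.1 * ld V [i] (pt y t z)) * ld V [i, j] (pt y t z)
          + z.1 * ld V [i, i, j] (pt y t z))) • eU j) := by
    simp only [fluxZ, kU, kA, neg_neg, sum_add_distrib]
    rw [sum_comm (f := fun i j => (D * ρ⁻¹ * ((-pA d z.2 i + z.1 * ld V [i] (pt y t z))
        * ld V [i, j] (pt y t z) + z.1 * ld V [i, i, j] (pt y t z))) • eU j)]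
    simp only [← sum_add_distrib, smul_add, smul_sum, smul_smul, mul_sum, sum_smul, mul_assoc]
  rw [vel, hZ, smul_smul, inv_mul_cancel₀ hD, one_smul, baseV, ← add_assoc, ← sum_add_distrib]
  simp only [add_smul]

end

end P347.Zero
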