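import Vale.Agent.P347.Zero.Assembly
import Vale.Agent.P347.Zero.NodeBlock
import Vale.Agent.P347.Zero.Analysis

/-!
# P347: the upward pass
-/

namespace P347.Zero

/-- The upward pass along the pair field gives a score oracle. -/
theorem pass : PassSpec :=
  pass_of_main (passMain_of_nodeBlock fun n M k K hM =>
    node_block analysis.time analysis.tan n M k K hM)

end P347.Zero
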