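import Vale.Agent.P347.Zero.Rec
import Mathlib.Analysis.SpecialFunctions.Pow.Asymptotics

/-!
# P347: the parameters of the upward pass

All losses are powers of `d` with exponents that are small multiples of the slack `η`. `G` bounds
the loss of one window together with the copies, `pw a` is `d ^ a`.
-/

namespace P347.Zero

open Filter Topology

noncomputable section

/-- A constant and a logarithm are below every positive power, eventually. -/
theorem exists_big (C a : ℝ) (ha : 0 < a) :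
    ∃ d₀ : ℕ, 2 ≤ d₀ ∧ ∀ d : ℕ, d₀ ≤ d → C * (1 + Real.log d) ≤ (d : ℝ) ^ a := by
  have h2 := (tendsto_rpow_atTop (half_pos ha)).comp
    (tendsto_natCast_atTop_atTop (R := ℝ))
  obtain ⟨d₁, hd₁⟩ := eventually_atTop.1 ((h2.eventually_ge_atTop (|C| * (1 + 2 / a))))
  refine ⟨max d₁ 2, le_max_right _ _, fun d hd => ?_⟩
  have hd2 : (2 : ℝ) ≤ d := by exact_mod_cast (le_of_max_le_right hd)
  have hb := hd₁ d (le_of_max_le_left hd)
  simp only [Function.comp] at hb
  set B := (d : ℝ) ^ (a / 2)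
  have hB1 : 1 ≤ B := Real.one_le_rpow (by linarith) (by linarith)
  have hlog : Real.log d ≤ B / (a / 2) := Real.log_le_rpow_div (by linarith) (half_pos ha)
  have h0 : 0 ≤ Real.log (d : ℝ) := Real.log_nonneg (by linarith)
  have e : (d : ℝ) ^ a = B * B := by
    simp only [B]
    rw [← Real.rpow_add (by linarith), add_halves]
  rw [e]
  calc C * (1 + Real.log d) ≤ |C| * (1 + Real.log d) :=
        mul_le_mul_of_nonneg_right (le_abs_self C) (by linarith)
    _ ≤ |C| * ((1 + 2 / a) * B) := by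
        refine mul_le_mul_of_nonneg_left ?_ (abs_nonneg C)
        have : B / (a / 2) = 2 / a * B := by field_simp
        nlinarith
    _ = |C| * (1 + 2 / a) * B := by ring
    _ ≤ B * B := mul_le_mul_of_nonneg_right hb (by linarith)

/-- A constant is below every positive power, eventually. -/
theorem exists_big_const (C a : ℝ) (ha : 0 < a) :
    ∃ d₀ : ℕ, 2 ≤ d₀ ∧ ∀ d : ℕ, d₀ ≤ d → C ≤ (d : ℝ) ^ a := by
  obtain ⟨d₀, h2, h⟩ := exists_big |C| a ha
  refine ⟨d₀, h2, fun d hd => ?_⟩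
  have hl : 0 ≤ Real.log (d : ℝ) := Real.log_natCast_nonneg d
  calc C ≤ |C| := le_abs_self C
    _ ≤ |C| * (1 + Real.log d) := le_mul_of_one_le_right (abs_nonneg C) (by linarith)
    _ ≤ _ := h d hd

/-- Enough steps for a decay of `d ^ (-R)`. -/
theorem exists_steps (R e : ℝ) (he : 0 < e) : ∃ n : ℕ, R ≤ n * e :=
  ⟨⌈R / e⌉₊, (div_le_iff₀ he).1 (Nat.le_ceil _)⟩

variable {d : ℕ}

theorem pow_decay (hd : 1 ≤ (d : ℝ)) {g R e : ℝ} {n : ℕ} (hg : 0 ≤ g) (hg' : g ≤ (d : ℝ) ^ (-e))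
    (hn : R ≤ n * e) : g ^ n ≤ (d : ℝ) ^ (-R) := by
  refine (pow_le_pow_left₀ hg hg' n).trans ?_
  rw [← Real.rpow_natCast, ← Real.rpow_mul (by linarith)]
  exact Real.rpow_le_rpow_of_exponent_le hd (by linarith)

variable {t r G ρ ε η α β κ xβ yβ : ℝ}

/-- The blur of a point on the path is below the tolerance of the oracles: from the centre, from
the scores and from the first derivative. -/
theorem blur_z (hd : 1 ≤ (d : ℝ)) (ht : 0 < t) (htε : t ≤ (d : ℝ) ^ (-ε)) (hr : 0 ≤ r)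
    (hrt : r ≤ t) (hρ : √t * (d : ℝ) ^ β ≤ 2 * ρ) (hη : 0 ≤ η) (hG : 0 ≤ G)
    (hG' : G ≤ (d : ℝ) ^ (η / 8)) (hx : xβ + α + η ≤ κ) (hκ : κ + η ≤ β) (hβ : β + η ≤ ε) :
    G * (r / t * (√t * (d : ℝ) ^ (-(α + η)))) + G * (r * √r * (d : ℝ) ^ xβ)
        + G * (r * ((d : ℝ) ^ xβ / ρ))
      ≤ 4 * (√r * (d : ℝ) ^ (-(α + η / 2))) := by
  have hd0 : (0 : ℝ) < d := by linarith
  obtain ⟨h1, -⟩ := sqrt_div_le hd0 ht hρ
  have hρ0 : 0 < ρ := by
    nlinarith [mul_pos (Real.sqrt_pos.2 ht) (Real.rpow_pos_of_pos hd0 β)]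
  set P : ℝ → ℝ := fun a => (d : ℝ) ^ a
  have hP : ∀ a, 0 ≤ P a := fun a => Real.rpow_nonneg hd0.le a
  have pw : ∀ a b, P a * P b = P (a + b) := fun a b => (Real.rpow_add hd0 a b).symm
  set T := P (-(α + η / 2))
  have hmono : ∀ a, a ≤ -(α + η / 2) → P a ≤ T := fun a ha =>
    Real.rpow_le_rpow_of_exponent_le hd ha
  have hsr : √r ≤ √t := Real.sqrt_le_sqrt hrt
  have ht' := Real.sqrt_pos.2 ht
  have hrr : r = √r * √r := (Real.mul_self_sqrt hr).symm
  have a1 : G * (r / t * (√t * P (-(α + η)))) ≤ √r * T := by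
    have e : r / t * √t ≤ √r := by
      have : r / t * √t = √r * (√r / √t) := by
        rw [mul_div_assoc', ← hrr]
        field_simp
        rw [Real.sq_sqrt ht.le]
      rw [this]
      exact mul_le_of_le_one_right (Real.sqrt_nonneg r) ((div_le_one ht').2 hsr)
    calc G * (r / t * (√t * P (-(α + η)))) = (r / t * √t) * (G * P (-(α + η))) := by ring
      _ ≤ √r * (P (η / 8) * P (-(α + η))) :=
          mul_le_mul e (mul_le_mul_of_nonneg_right hG' (hP _)) (mul_nonneg hG (hP _))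
            (Real.sqrt_nonneg r)
      _ ≤ √r * T := by
          rw [pw]; exact mul_le_mul_of_nonneg_left (hmono _ (by linarith)) (Real.sqrt_nonneg r)
  have a2 : G * (r * √r * P xβ) ≤ √r * T := by
    calc G * (r * √r * P xβ) = √r * (G * r * P xβ) := by ring
      _ ≤ √r * (P (η / 8) * P (-ε) * P xβ) := by
          refine mul_le_mul_of_nonneg_left (mul_le_mul_of_nonneg_right ?_ (hP _))
            (Real.sqrt_nonneg r)
          exact mul_le_mul hG' (hrt.trans htε) hr (hP _)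
      _ ≤ √r * T := by
          rw [pw, pw]; exact mul_le_mul_of_nonneg_left (hmono _ (by linarith)) (Real.sqrt_nonneg r)
  have a3 : G * (r * (P xβ / ρ)) ≤ 2 * (√r * T) := by
    have e : √r / ρ ≤ 2 * P (-β) := le_trans (div_le_div_of_nonneg_right hsr hρ0.le) h1
    calc G * (r * (P xβ / ρ)) = √r * (√r / ρ * (G * P xβ)) := by
          nth_rewrite 1 [hrr]; ring
      _ ≤ √r * (2 * P (-β) * (P (η / 8) * P xβ)) := by
          refine mul_le_mul_of_nonneg_left ?_ (Real.sqrt_nonneg r)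
          exact mul_le_mul e (mul_le_mul_of_nonneg_right hG' (hP _)) (mul_nonneg hG (hP _))
            (mul_nonneg zero_le_two (hP _))
      _ ≤ √r * (2 * T) := by
          refine mul_le_mul_of_nonneg_left ?_ (Real.sqrt_nonneg r)
          rw [mul_assoc, pw, pw]
          exact mul_le_mul_of_nonneg_left (hmono _ (by linarith)) zero_le_two
      _ = 2 * (√r * T) := by ring
  show G * (r / t * (√t * P (-(α + η)))) + G * (r * √r * P xβ) + G * (r * (P xβ / ρ)) ≤ _
  linarith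

/-- The blur of `U` and of the rows. -/
theorem blur_u (hd : 1 ≤ (d : ℝ)) (ht : 0 < t) (hρ : √t * (d : ℝ) ^ β ≤ 2 * ρ) (hη : 0 ≤ η)
    (hG : 0 ≤ G) (hG' : G ≤ (d : ℝ) ^ (η / 8)) (hx : xβ + α + η ≤ κ) (hκ : κ + η ≤ β)
    (hy : yβ + κ + α + η ≤ 2 * β) :
    G * (t / ρ ^ 2 * ((d : ℝ) ^ κ * (d : ℝ) ^ yβ)) + G * (√t / ρ * (d : ℝ) ^ xβ)
        + G * ((d : ℝ) ^ (-κ) * (d : ℝ) ^ xβ)
      ≤ 7 * (d : ℝ) ^ (-(α + η / 2)) := by
  have hd0 : (0 : ℝ) < d := by linarith
  obtain ⟨h1, h2⟩ := sqrt_div_le hd0 ht hρ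
  have hρ0 : 0 < ρ := by
    nlinarith [mul_pos (Real.sqrt_pos.2 ht) (Real.rpow_pos_of_pos hd0 β)]
  set P : ℝ → ℝ := fun a => (d : ℝ) ^ a
  have hP : ∀ a, 0 ≤ P a := fun a => Real.rpow_nonneg hd0.le a
  have pw : ∀ a b, P a * P b = P (a + b) := fun a b => (Real.rpow_add hd0 a b).symm
  set T := P (-(α + η / 2))
  have hmono : ∀ a, a ≤ -(α + η / 2) → P a ≤ T := fun a ha =>
    Real.rpow_le_rpow_of_exponent_le hd ha
  have a1 : G * (t / ρ ^ 2 * (P κ * P yβ)) ≤ 4 * T := by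
    calc G * (t / ρ ^ 2 * (P κ * P yβ)) ≤ P (η / 8) * (4 * P (-(2 * β)) * (P κ * P yβ)) :=
          mul_le_mul hG' (mul_le_mul_of_nonneg_right h2 (mul_nonneg (hP _) (hP _)))
            (by positivity) (hP _)
      _ = 4 * (P (η / 8) * (P (-(2 * β)) * (P κ * P yβ))) := by ring
      _ ≤ 4 * T := by
          rw [pw, pw, pw]; exact mul_le_mul_of_nonneg_left (hmono _ (by linarith)) (by norm_num)
  have a2 : G * (√t / ρ * P xβ) ≤ 2 * T := by
    calc G * (√t / ρ * P xβ) ≤ P (η / 8) * (2 * P (-β) * P xβ) :=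
          mul_le_mul hG' (mul_le_mul_of_nonneg_right h1 (hP _)) (by positivity) (hP _)
      _ = 2 * (P (η / 8) * (P (-β) * P xβ)) := by ring
      _ ≤ 2 * T := by
          rw [pw, pw]; exact mul_le_mul_of_nonneg_left (hmono _ (by linarith)) zero_le_two
  have a3 : G * (P (-κ) * P xβ) ≤ T := by
    calc G * (P (-κ) * P xβ) ≤ P (η / 8) * (P (-κ) * P xβ) :=
          mul_le_mul_of_nonneg_right hG' (mul_nonneg (hP _) (hP _))
      _ ≤ T := by rw [pw, pw]; exact hmono _ (by linarith)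
  show G * (t / ρ ^ 2 * (P κ * P yβ)) + G * (√t / ρ * P xβ) + G * (P (-κ) * P xβ) ≤ _
  linarith

/-- The accuracy left at the coarse end: the sampler, the raw terminal, a sweep and what the
iterations and the quadrature leave. -/
theorem final_error (hd : 1 ≤ (d : ℝ)) (ht : 0 < t) (htε : t ≤ (d : ℝ) ^ (-ε)) (hη : 0 ≤ η)
    {K pD D₀ S : ℝ} (hβ0 : 0 ≤ β) (hβ : β + η ≤ ε) (hS : S ≤ (d : ℝ) ^ (-(D₀ + β) + η / 4))
    {R : ℝ} (hR : R ≤ (d : ℝ) ^ (-K)) {C : ℝ} (hC : 0 ≤ C) (hCd : 3 * C ≤ (d : ℝ) ^ (η / 2)) :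
    C * (t * (d : ℝ) ^ (-pD) + S + R)
      ≤ (d : ℝ) ^ (-(min K (min pD D₀ + β) - η)) := by
  have hd0 : (0 : ℝ) < d := by linarith
  set m := min K (min pD D₀ + β)
  set M := (d : ℝ) ^ (-m + η / 4)
  have hm : m ≤ K ∧ m ≤ pD + β ∧ m ≤ D₀ + β :=
    ⟨min_le_left _ _, (min_le_right _ _).trans (by linarith [min_le_left pD D₀]),
      (min_le_right _ _).trans (by linarith [min_le_right pD D₀])⟩
  have h1 : t * (d : ℝ) ^ (-pD) ≤ M := by
    refine (mul_le_mul_of_nonneg_right htε (Real.rpow_nonneg hd0.le _)).trans ?_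
    rw [← Real.rpow_add hd0]
    exact Real.rpow_le_rpow_of_exponent_le hd (by linarith)
  have h2 : S ≤ M := hS.trans (Real.rpow_le_rpow_of_exponent_le hd (by linarith))
  have h3 : R ≤ M := hR.trans (Real.rpow_le_rpow_of_exponent_le hd (by linarith))
  calc C * (t * (d : ℝ) ^ (-pD) + S + R) ≤ C * (3 * M) :=
        mul_le_mul_of_nonneg_left (by linarith) hC
    _ = 3 * C * M := by ring
    _ ≤ (d : ℝ) ^ (η / 2) * M := mul_le_mul_of_nonneg_right hCd (Real.rpow_nonneg hd0.le _)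
    _ ≤ _ := by
        simp only [M]
        rw [← Real.rpow_add hd0]
        exact Real.rpow_le_rpow_of_exponent_le hd (by linarith)

end

end P347.Zero
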