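import Vale.Agent.P347.Zero.PassDefs
import Vale.Agent.P347.Zero.Plan
import Vale.Agent.P347.Zero.Steps

/-!
# P347: the numbers of one pass from the exponents

With `e = η / 100` cells and windows have relative length `d ^ (-e)`, the budget of gates is
`d ^ (3 * e)` and the loss of a window is `d ^ (η / 16)`.
-/

namespace P347.Zero

open MeasureTheory ProbabilityTheory Filter Topology

noncomputable section

/-- The hypotheses of `PassSpec` on the exponents. -/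
structure PassHyp (ε η K α β κ : ℝ) (p x y : Expo) : Prop where
  η_pos : 0 < η
  pa : 0 ≤ p.α
  xa : 0 ≤ x.α
  ya : 0 ≤ y.α
  pa_le : p.α ≤ α
  xa_le : x.α ≤ α
  ya_le : y.α ≤ α
  xb : 0 ≤ x.β
  yb : 0 ≤ y.β
  pl : 0 ≤ p.ℓ
  xl : 0 ≤ x.ℓ
  yl : 0 ≤ y.ℓ
  pq : 0 ≤ p.q
  xq : 0 ≤ x.q
  yq : 0 ≤ y.q
  pD : p.D ≤ K
  xD : x.D ≤ K
  yD : y.D ≤ K
  hβ : β + α + η ≤ ε
  hxκ : x.β + α + η ≤ κ
  hpl : p.ℓ + η ≤ κ
  hxl : x.ℓ + η ≤ κ
  hyl : y.ℓ + η ≤ κ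
  hκ : κ + p.ℓ + x.ℓ + y.ℓ + η ≤ β
  hyβ : y.β + κ + α + η ≤ 2 * β
  hyle : y.β ≤ β

/-- The exponent of what quadrature, windows and rows leave. -/
def passR (K β κ : ℝ) : ℝ := 2 * |K| + 4 * |β| + 4 * |κ| + 40

/-- The variance at the fine end. -/
def passS (d : ℕ) (K : ℝ) : ℝ := (d : ℝ) ^ (-(2 * K + 20))

/-- The number of gates. -/
def passT (d : ℕ) (η : ℝ) : ℕ := ⌊(d : ℝ) ^ (3 * (η / 100))⌋₊

/-- The queries of one gate. -/
def passQb (d : ℕ) (x y : Expo) : ℕ := ⌊(d : ℝ) ^ max x.q y.q⌋₊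

/-- The numbers of a pass. -/
def passPar (d : ℕ) (t η K α β κ : ℝ) (x y : Expo) : Par where
  t := t
  s := passS d K
  ρ := √t * (d : ℝ) ^ β / √2
  h := (d : ℝ) ^ (-(η / 100))
  G := (d : ℝ) ^ (η / 16)
  θ := (d : ℝ) ^ (-κ)
  ν := (d : ℝ) ^ (-α)
  sx := (d : ℝ) ^ (-x.D)
  sy := (d : ℝ) ^ (-y.D)
  Lx := (d : ℝ) ^ x.ℓ
  Ly := (d : ℝ) ^ y.ℓ
  bx := (d : ℝ) ^ x.β
  by' := (d : ℝ) ^ y.β
  def0 := (d : ℝ) ^ (-passR K β κ)

/-! ## Powers -/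

/-- A constant times a smaller power is below a larger power, eventually. -/
theorem ev_pow {a b : ℝ} (h : a < b) (C : ℝ) :
    ∀ᶠ d : ℕ in atTop, C * (d : ℝ) ^ a ≤ (d : ℝ) ^ b := by
  obtain ⟨d₀, h2, hd₀⟩ := exists_big_const C (b - a) (by linarith)
  filter_upwards [eventually_ge_atTop d₀] with d hd
  have hd0 : (0 : ℝ) < d := by exact_mod_cast (show 0 < d by omega)
  refine (mul_le_mul_of_nonneg_right (hd₀ d hd) (Real.rpow_nonneg hd0.le a)).trans (le_of_eq ?_)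
  rw [← Real.rpow_add hd0, sub_add_cancel]

theorem ev_two : ∀ᶠ d : ℕ in atTop, (2 : ℝ) ≤ d := by
  filter_upwards [eventually_ge_atTop 2] with d hd
  exact_mod_cast hd

variable {ε η K α β κ : ℝ} {p x y : Expo} {d : ℕ} {t : ℝ}

namespace PassHyp

variable (H : PassHyp ε η K α β κ p x y)
include H

theorem α_nn : 0 ≤ α := H.pa.trans H.pa_le

theorem κ_ge : η ≤ κ := by linarith [H.hpl, H.pl]

theorem β_ge : κ + η ≤ β := by linarith [H.hκ, H.pl, H.xl, H.yl]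

theorem ε_ge : β + η ≤ ε := by linarith [H.hβ, H.α_nn]

theorem t_facts (hd : (2 : ℝ) ≤ d) (hts : 2 * passS d K < t) (hte : t ≤ (d : ℝ) ^ (-ε)) :
    0 < passS d K ∧ 0 < t ∧ t ≤ 1 := by
  have hs : 0 < passS d K := Real.rpow_pos_of_pos (by linarith) _
  exact ⟨hs, by linarith, hte.trans (Real.rpow_le_one_of_one_le_of_nonpos (by linarith)
    (by linarith [H.ε_ge, H.β_ge, H.κ_ge, H.η_pos]))⟩

/-- `ρ` is large against `√t`. -/
theorem rho_facts : ∀ᶠ d : ℕ in atTop, ∀ t : ℝ, 0 ≤ t →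
    √t ≤ √t * (d : ℝ) ^ β / √2 ∧ √t * (d : ℝ) ^ β ≤ 2 * (√t * (d : ℝ) ^ β / √2) := by
  filter_upwards [ev_pow (a := 0) (b := β) (by linarith [H.β_ge, H.κ_ge, H.η_pos]) √2] with d hd t ht
  rw [Real.rpow_zero, mul_one] at hd
  refine ⟨?_, ?_⟩
  · rw [le_div_iff₀ (by positivity)]
    exact mul_le_mul_of_nonneg_left hd (Real.sqrt_nonneg t)
  · rw [mul_div_assoc', le_div_iff₀ (by positivity)]
    have h2 : √2 ≤ 2 := Real.sqrt_le_iff.2 ⟨by norm_num, by norm_num⟩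
    nlinarith [mul_nonneg (Real.sqrt_nonneg t) (Real.rpow_nonneg d.cast_nonneg β)]

/-- The gains of a sweep. -/
theorem gains : ∀ᶠ d : ℕ in atTop, ∀ t : ℝ, 0 < t → t ≤ (d : ℝ) ^ (-ε) →
    Gains t (√t * (d : ℝ) ^ β / √2) ((d : ℝ) ^ (η / 16)) ((d : ℝ) ^ (-κ)) ((d : ℝ) ^ x.ℓ)
      ((d : ℝ) ^ y.ℓ) (4 * (d : ℝ) ^ (-(η / 2))) := by
  filter_upwards [ev_two, H.rho_facts] with d hd hρ t ht hte
  refine gains_of_expo (by linarith) ht hte (hρ t ht.le).2 H.η_pos.le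
    (Real.rpow_nonneg (by linarith) _) (Real.rpow_le_rpow_of_exponent_le (by linarith)
      (by linarith [H.η_pos])) (by linarith [H.κ_ge, H.η_pos]) H.xl H.yl ?_ ?_
  · linarith [H.hxl, H.β_ge, H.ε_ge, H.η_pos]
  · linarith [H.hκ, H.pl]

theorem gain_small (C : ℝ) : ∀ᶠ d : ℕ in atTop, C * (4 * (d : ℝ) ^ (-(η / 2))) ≤ 1 := by
  filter_upwards [ev_pow (a := -(η / 2)) (b := 0) (by linarith [H.η_pos]) (C * 4)] with d hd
  rw [Real.rpow_zero] at hd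
  linarith

/-- The oracles of the two classes. -/
theorem orcs (hX : HasVal d ε x) (hY : HasVal d ε y) (hd : (2 : ℝ) ≤ d)
    (hte : t ≤ (d : ℝ) ^ (-ε)) : ∀ r, 0 < r → r ≤ t →
    HasOrc d (passQb d x y) r ((d : ℝ) ^ (-α)) ((d : ℝ) ^ x.β) ((d : ℝ) ^ (-x.D)) ((d : ℝ) ^ x.ℓ) ∧
    HasOrc d (passQb d x y) r ((d : ℝ) ^ (-α)) ((d : ℝ) ^ y.β) ((d : ℝ) ^ (-y.D))
      ((d : ℝ) ^ y.ℓ) := by
  intro r hr hrt
  have hd1 : (1 : ℝ) ≤ d := by linarith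
  have one : ∀ z : Expo, HasVal d ε z → z.α ≤ α → z.q ≤ max x.q y.q →
      HasOrc d (passQb d x y) r ((d : ℝ) ^ (-α)) ((d : ℝ) ^ z.β) ((d : ℝ) ^ (-z.D))
        ((d : ℝ) ^ z.ℓ) := by
    intro z hz hα hq
    obtain ⟨Ω, mΩ, P, A, h1, h2, h3, h4, h5⟩ := hz r hr (hrt.trans hte)
    refine ⟨⟨Ω, mΩ, P, h2, h1, A, h3⟩, √r * (d : ℝ) ^ (-z.α), √r * (d : ℝ) ^ z.β, ?_, ?_, ?_,
      Nat.le_floor (h4.trans (Real.rpow_le_rpow_of_exponent_le hd1 hq)), h5⟩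
    · rw [mul_comm]
      exact mul_le_mul_of_nonneg_left (Real.rpow_le_rpow_of_exponent_le hd1 (by linarith))
        (Real.sqrt_nonneg r)
    · exact mul_pos (Real.sqrt_pos.2 hr) (Real.rpow_pos_of_pos (by linarith) _)
    · rw [abs_of_nonneg (mul_nonneg (Real.sqrt_nonneg r) (Real.rpow_nonneg (by linarith) _)),
        mul_comm]
  exact ⟨one x hX H.xa_le (le_max_left _ _), one y hY H.ya_le (le_max_right _ _)⟩

/-- Everything that is assumed about the numbers of a pass. -/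
theorem par_ok (C₀ : ℝ) (hC₀ : 0 ≤ C₀) : ∀ᶠ d : ℕ in atTop, HasVal d ε x → HasVal d ε y →
    ∀ t : ℝ, 2 * passS d K < t → t ≤ (d : ℝ) ^ (-ε) →
      (passPar d t η K α β κ x y).Ok d (passT d η) (passQb d x y) C₀ := by
  set e := η / 100 with he
  have he0 : 0 < e := by linarith [H.η_pos]
  have hbd := H.β_ge
  have hkd := H.κ_ge
  have hed := H.ε_ge
  have hη := H.η_pos
  filter_upwards [ev_two, H.rho_facts, H.gains, H.gain_small 1,
    ev_pow (a := 3 * e / 2 + e) (b := η / 16) (by linarith) C₀,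
    ev_pow (a := -e) (b := 0) (by linarith) 4,
    ev_pow (a := -κ + η / 16 + x.ℓ) (b := 0) (by linarith [H.hxl]) (2 * C₀),
    ev_pow (a := x.ℓ + (-(2 * e) + -ε)) (b := 0) (by linarith [H.hxl]) (2 * C₀),
    ev_pow (a := y.ℓ + (-(2 * e) + -ε)) (b := 0) (by linarith [H.hyl]) (2 * C₀),
    ev_pow (a := -κ + η / 16 + x.β) (b := -α) (by linarith [H.hxκ]) C₀,
    ev_pow (a := 3 * e / 2 + (-ε + x.β)) (b := -α) (by linarith [H.hxκ]) C₀,
    ev_pow (a := 3 * e / 2 + (-ε + y.β)) (b := -α) (by linarith [H.hyle, H.hβ]) C₀,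
    ev_pow (a := 3 * e / 2 + x.β + α) (b := β) (by linarith [H.hxκ]) (2 * C₀)]
    with d hd hρ hg hg1 e1 e2 e3 e4 e5 e6 e7 e8 e9 hX hY t hts hte
  obtain ⟨hs, ht, ht1⟩ := H.t_facts hd hts hte
  have hd0 : (0 : ℝ) < d := by linarith
  have hd1 : (1 : ℝ) ≤ d := by linarith
  have pw : ∀ a b : ℝ, (d : ℝ) ^ a * (d : ℝ) ^ b = (d : ℝ) ^ (a + b) := fun a b =>
    (Real.rpow_add hd0 a b).symm
  have P0 : ∀ a : ℝ, 0 ≤ (d : ℝ) ^ a := fun a => Real.rpow_nonneg hd0.le a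
  have hT : √(passT d η : ℝ) ≤ (d : ℝ) ^ (3 * e / 2) := by
    rw [show 3 * e / 2 = 3 * e * (1 / 2) by ring, Real.rpow_mul hd0.le, ← Real.sqrt_eq_rpow]
    exact Real.sqrt_le_sqrt (Nat.floor_le (P0 _))
  simp only [Real.rpow_zero] at e2 e3 e4 e5
  have hT0 : 0 ≤ √(passT d η : ℝ) := Real.sqrt_nonneg _
  obtain ⟨hρ1, hρ2⟩ := hρ t ht.le
  have hh : (((d : ℝ) ^ (-e)) ^ 2) = (d : ℝ) ^ (-(2 * e)) := by
    rw [sq, pw]; ring_nf
  refine ⟨ht1, hs, hts.le, hρ1, Real.rpow_pos_of_pos hd0 _, ?_, ?_, Real.rpow_pos_of_pos hd0 _,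
    Real.rpow_le_one_of_one_le_of_nonpos hd1 (by linarith), Real.rpow_pos_of_pos hd0 _, P0 _,
    P0 _, Real.one_le_rpow hd1 H.xl, Real.one_le_rpow hd1 H.yl, P0 _, P0 _, P0 _, ?_, ?_, ?_, ?_,
    ?_, ?_, ?_, ⟨_, by linarith, hg t ht hte⟩, fun r hr hrt => (H.orcs hX hY hd hte r hr hrt).1,
    fun r hr hrt => (H.orcs hX hY hd hte r hr hrt).2⟩ <;> simp only [passPar]
  · show (d : ℝ) ^ (-e) ≤ 1 / 4
    linarith
  · show C₀ * (√(passT d η : ℝ) / (d : ℝ) ^ (-e)) ≤ _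
    rw [Real.rpow_neg hd0.le, div_inv_eq_mul]
    refine le_trans (mul_le_mul_of_nonneg_left ?_ hC₀) e1
    rw [← pw]
    exact mul_le_mul_of_nonneg_right hT (P0 _)
  · rw [pw, pw]; linarith
  · show C₀ * (d : ℝ) ^ x.ℓ * (((d : ℝ) ^ (-e)) ^ 2 * t) ≤ 1 / 2
    rw [hh]
    refine le_trans (mul_le_mul_of_nonneg_left (mul_le_mul_of_nonneg_left hte (P0 _))
      (mul_nonneg hC₀ (P0 _))) ?_
    rw [pw, mul_assoc, pw]
    linarith
  · show C₀ * (d : ℝ) ^ y.ℓ * (((d : ℝ) ^ (-e)) ^ 2 * t) ≤ 1 / 2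
    rw [hh]
    refine le_trans (mul_le_mul_of_nonneg_left (mul_le_mul_of_nonneg_left hte (P0 _))
      (mul_nonneg hC₀ (P0 _))) ?_
    rw [pw, mul_assoc, pw]
    linarith
  · rw [pw, pw]; exact e6
  · refine le_trans (mul_le_mul_of_nonneg_left ?_ hC₀) e7
    rw [← pw (3 * e / 2), ← pw (-ε)]
    exact mul_le_mul hT (mul_le_mul_of_nonneg_right hte (P0 _))
      (mul_nonneg ht.le (P0 _)) (P0 _)
  · refine le_trans (mul_le_mul_of_nonneg_left ?_ hC₀) e8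
    rw [← pw (3 * e / 2), ← pw (-ε)]
    exact mul_le_mul hT (mul_le_mul_of_nonneg_right hte (P0 _))
      (mul_nonneg ht.le (P0 _)) (P0 _)
  · have h1 : C₀ * (√(passT d η : ℝ) * (√t * (d : ℝ) ^ x.β))
        ≤ √t * (C₀ * (d : ℝ) ^ (3 * e / 2 + x.β)) := by
      rw [← pw]
      calc C₀ * (√(passT d η : ℝ) * (√t * (d : ℝ) ^ x.β))
          = √t * (C₀ * (√(passT d η : ℝ) * (d : ℝ) ^ x.β)) := by ring
        _ ≤ _ := mul_le_mul_of_nonneg_left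
            (mul_le_mul_of_nonneg_left (mul_le_mul_of_nonneg_right hT (P0 _)) hC₀)
            (Real.sqrt_nonneg t)
    refine h1.trans ?_
    have h2 : C₀ * (d : ℝ) ^ (3 * e / 2 + x.β) ≤ (d : ℝ) ^ (-α) * ((d : ℝ) ^ β / 2) := by
      refine le_of_mul_le_mul_right ?_ (Real.rpow_pos_of_pos hd0 α)
      have : (d : ℝ) ^ (-α) * (d : ℝ) ^ α = 1 := by rw [pw, neg_add_cancel, Real.rpow_zero]
      calc C₀ * (d : ℝ) ^ (3 * e / 2 + x.β) * (d : ℝ) ^ α = C₀ * (d : ℝ) ^ (3 * e / 2 + x.β + α) := by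
            rw [mul_assoc, pw]
        _ ≤ (d : ℝ) ^ β / 2 := by linarith
        _ = _ := by rw [mul_right_comm, this, one_mul]
    calc √t * (C₀ * (d : ℝ) ^ (3 * e / 2 + x.β)) ≤ √t * ((d : ℝ) ^ (-α) * ((d : ℝ) ^ β / 2)) :=
          mul_le_mul_of_nonneg_left h2 (Real.sqrt_nonneg t)
      _ = (d : ℝ) ^ (-α) * (√t * (d : ℝ) ^ β / 2) := by ring
      _ ≤ _ := mul_le_mul_of_nonneg_left (by linarith) (P0 _)

/-- Cells, gates and queries. -/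
theorem budget (c : ℕ) : ∀ᶠ d : ℕ in atTop, ∀ t : ℝ, 2 * passS d K < t → t ≤ (d : ℝ) ^ (-ε) →
    ∃ J : ℕ, t * (1 - (d : ℝ) ^ (-(η / 100))) ^ J ≤ passS d K ∧ c * (J + 1) ≤ passT d η ∧
      (J : ℝ) ≤ (d : ℝ) ^ (3 * (η / 100)) := by
  set e := η / 100 with he
  have he0 : 0 < e := by linarith [H.η_pos]
  obtain ⟨d₁, -, hd₁⟩ := exists_big |2 * K + 20| e he0
  filter_upwards [ev_two, eventually_ge_atTop d₁,
    ev_pow (a := 2 * e) (b := 3 * e) (by linarith) (2 * (c + 1) * 2)] with d hd hdd e1 t hts hte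
  obtain ⟨hs, ht, ht1⟩ := H.t_facts hd hts hte
  have hd0 : (0 : ℝ) < d := by linarith
  have hd1 : (1 : ℝ) ≤ d := by linarith
  have hh : 0 < (d : ℝ) ^ (-e) := Real.rpow_pos_of_pos hd0 _
  obtain ⟨J, hJ, hJ'⟩ := exists_cells hs (by linarith : passS d K ≤ t) hh
    (Real.rpow_le_one_of_one_le_of_nonpos hd1 (by linarith))
  have hlog : Real.log (t / passS d K) ≤ |2 * K + 20| * (1 + Real.log d) := by
    have hl : 0 ≤ Real.log (d : ℝ) := Real.log_nonneg hd1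
    rw [Real.log_div ht.ne' hs.ne', passS, Real.log_rpow hd0]
    have h1 : Real.log t ≤ 0 := Real.log_nonpos ht.le ht1
    nlinarith [le_abs_self (2 * K + 20), abs_nonneg (2 * K + 20)]
  have h1e : 1 ≤ (d : ℝ) ^ (2 * e) := Real.one_le_rpow hd1 (by linarith)
  have hJb : (J : ℝ) + 1 ≤ 3 * (d : ℝ) ^ (2 * e) := by
    have h2 : Real.log (t / passS d K) / (d : ℝ) ^ (-e) ≤ (d : ℝ) ^ (2 * e) := by
      rw [div_le_iff₀ hh, ← Real.rpow_add hd0]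
      refine (hlog.trans (hd₁ d hdd)).trans (le_of_eq ?_)
      ring_nf
    linarith
  have h3 : ((c : ℝ) + 1) * ((J : ℝ) + 1) ≤ (d : ℝ) ^ (3 * e) := by
    refine le_trans ?_ e1
    have := mul_le_mul_of_nonneg_left hJb (by positivity : (0 : ℝ) ≤ (c : ℝ) + 1)
    nlinarith [Real.rpow_nonneg hd0.le (2 * e)]
  refine ⟨J, hJ', Nat.le_floor ?_, ?_⟩
  · refine le_trans ?_ h3
    push_cast
    exact mul_le_mul_of_nonneg_right (by linarith) (by positivity)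
  · nlinarith [Nat.cast_nonneg (α := ℝ) c, Nat.cast_nonneg (α := ℝ) J]

/-- The queries of the whole pass. -/
theorem size_le : ∀ᶠ d : ℕ in atTop, ∀ n : ℕ, (n : ℝ) ≤ (d : ℝ) ^ p.q →
    ((n + 1 + passT d η * passQb d x y : ℕ) : ℝ) ≤ (d : ℝ) ^ (max p.q (max x.q y.q) + η) := by
  set q := max p.q (max x.q y.q)
  filter_upwards [ev_two,
    ev_pow (a := q + 3 * (η / 100)) (b := q + η) (by linarith [H.η_pos]) 3] with d hd e1 n hn
  have hd1 : (1 : ℝ) ≤ d := by linarith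
  have hd0 : (0 : ℝ) < d := by linarith
  refine le_trans ?_ e1
  have hq : 0 ≤ q := H.pq.trans (le_max_left _ _)
  have h1 : (1 : ℝ) ≤ (d : ℝ) ^ (3 * (η / 100)) := Real.one_le_rpow hd1 (by linarith [H.η_pos])
  have h2 : (d : ℝ) ^ p.q ≤ (d : ℝ) ^ q := Real.rpow_le_rpow_of_exponent_le hd1 (le_max_left _ _)
  have h3 : (passQb d x y : ℝ) ≤ (d : ℝ) ^ q :=
    (Nat.floor_le (Real.rpow_nonneg hd0.le _)).trans
      (Real.rpow_le_rpow_of_exponent_le hd1 (le_max_right _ _))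
  have h4 : (passT d η : ℝ) ≤ (d : ℝ) ^ (3 * (η / 100)) :=
    Nat.floor_le (Real.rpow_nonneg hd0.le _)
  have h5 : (1 : ℝ) ≤ (d : ℝ) ^ q := Real.one_le_rpow hd1 hq
  rw [Real.rpow_add hd0]
  push_cast
  have h6 := mul_le_mul h4 h3 (Nat.cast_nonneg _) (by positivity)
  nlinarith

/-- One order is enough for every tail, whatever the constants. -/
theorem tails (a : ℕ) : ∃ N : ℕ, ∀ n, N ≤ n → ∀ C : ℝ, 0 ≤ C → ∀ᶠ d : ℕ in atTop,
    ∀ b : ℝ, 0 ≤ b →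
      (b ≤ C * ((d : ℝ) ^ (-(η / 100))) ^ 2 ∨ b ≤ C * (d : ℝ) ^ (-(η / 100)) ∨
        b ≤ C * √((d : ℝ) ^ (-(η / 100))) ∨ b ≤ C * (d : ℝ) ^ (-κ) ∨
        b ≤ C * ((d : ℝ) ^ (-κ) * (d : ℝ) ^ (η / 16)) ∨
        b ≤ C * ((d : ℝ) ^ (-κ) * (d : ℝ) ^ (η / 16) * (d : ℝ) ^ x.ℓ) ∨
        b ≤ C * (4 * (d : ℝ) ^ (-(η / 2)))) →
      C * ((d : ℝ) ^ (η / 16) * (d : ℝ) ^ κ * (d : ℝ) ^ (3 * (η / 100))) ^ a * b ^ n
        ≤ (d : ℝ) ^ (-passR K β κ) := by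
  set e := η / 100 with he
  have he0 : 0 < e := by linarith [H.η_pos]
  set A := (a : ℝ) * (η / 16 + κ + 3 * e)
  obtain ⟨N, hN⟩ := exists_steps (A + passR K β κ + 1) (e / 2) (by linarith)
  refine ⟨N, fun n hn C hC => ?_⟩
  have hlt : A + -((n : ℝ) * (e / 2)) < -passR K β κ := by
    have : (N : ℝ) ≤ n := by exact_mod_cast hn
    nlinarith
  filter_upwards [ev_two, ev_pow hlt (C * (4 * C) ^ n)] with d hd e1 b hb hcase
  have hd0 : (0 : ℝ) < d := by linarith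
  have hd1 : (1 : ℝ) ≤ d := by linarith
  have P0 : ∀ z : ℝ, 0 ≤ (d : ℝ) ^ z := fun z => Real.rpow_nonneg hd0.le z
  have low : ∀ z : ℝ, z ≤ -(e / 2) → C * (d : ℝ) ^ z ≤ 4 * C * (d : ℝ) ^ (-(e / 2)) :=
    fun z hz => by
      have := mul_le_mul_of_nonneg_left (Real.rpow_le_rpow_of_exponent_le hd1 hz) hC
      nlinarith [mul_nonneg hC (P0 (-(e / 2)))]
  have hb' : b ≤ 4 * C * (d : ℝ) ^ (-(e / 2)) := by
    have hk := H.κ_ge
    have hη := H.η_pos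
    rcases hcase with h | h | h | h | h | h | h
    · refine h.trans ?_
      rw [sq, ← Real.rpow_add hd0]
      exact low _ (by linarith)
    · exact h.trans (low _ (by linarith))
    · refine h.trans ?_
      rw [Real.sqrt_eq_rpow, ← Real.rpow_mul hd0.le]
      exact low _ (by linarith)
    · exact h.trans (low _ (by linarith))
    · refine h.trans ?_
      rw [← Real.rpow_add hd0]
      exact low _ (by linarith)
    · refine h.trans ?_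
      rw [← Real.rpow_add hd0, ← Real.rpow_add hd0]
      exact low _ (by linarith [H.hxl])
    · refine h.trans ?_
      rw [show C * (4 * (d : ℝ) ^ (-(η / 2))) = 4 * C * (d : ℝ) ^ (-(η / 2)) by ring]
      exact mul_le_mul_of_nonneg_left (Real.rpow_le_rpow_of_exponent_le hd1 (by linarith))
        (by positivity)
  refine le_trans ?_ e1
  rw [← Real.rpow_add hd0, ← Real.rpow_add hd0, ← Real.rpow_natCast _ a,
    ← Real.rpow_mul hd0.le]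
  calc C * (d : ℝ) ^ ((η / 16 + κ + 3 * e) * (a : ℝ)) * b ^ n
      ≤ C * (d : ℝ) ^ ((η / 16 + κ + 3 * e) * (a : ℝ)) * (4 * C * (d : ℝ) ^ (-(e / 2))) ^ n := by
        gcongr
    _ = _ := by
        rw [mul_pow, Real.rpow_add hd0, ← Real.rpow_natCast ((d : ℝ) ^ (-(e / 2))) n,
          ← Real.rpow_mul hd0.le]
        simp only [A]
        ring_nf

/-- What the oracles' own accuracy leaves in a sweep. -/
theorem src_le : ∀ᶠ d : ℕ in atTop, ∀ t : ℝ, 0 < t → t ≤ (d : ℝ) ^ (-ε) →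
    sweepSrc t (√t * (d : ℝ) ^ β / √2) ((d : ℝ) ^ (η / 16)) ((d : ℝ) ^ (-κ)) ((d : ℝ) ^ (-x.D))
        ((d : ℝ) ^ (-y.D)) ((d : ℝ) ^ x.ℓ) ((d : ℝ) ^ y.ℓ)
      ≤ 60 * (d : ℝ) ^ (-(min (x.D - x.ℓ - y.ℓ) (y.D - κ) + β) + η / 4) := by
  filter_upwards [ev_two, H.rho_facts] with d hd hρ t ht hte
  exact sweepSrc_le_expo (by linarith) ht hte (hρ t ht.le).2 H.η_pos.le
    (Real.rpow_nonneg (by linarith) _) (Real.rpow_le_rpow_of_exponent_le (by linarith)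
      (by linarith [H.η_pos])) (by linarith [H.κ_ge, H.η_pos]) H.xl H.yl H.ε_ge
    (by linarith [H.hκ, H.pl]) (min_le_left _ _) (min_le_right _ _)

/-- What quadrature, windows and rows leave in a sweep. -/
theorem def_le : ∀ᶠ d : ℕ in atTop, (d : ℝ) ^ (-passR K β κ) ≤ (d : ℝ) ^ (-(|K| + 15)) ∧
    ∀ t : ℝ, 0 < t → t ≤ (d : ℝ) ^ (-ε) →
      sweepSrc t (√t * (d : ℝ) ^ β / √2) ((d : ℝ) ^ (η / 16)) ((d : ℝ) ^ (-κ))
          ((d : ℝ) ^ (-passR K β κ)) ((d : ℝ) ^ (-passR K β κ)) 2 2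
        ≤ (d : ℝ) ^ (-(|K| + 15)) := by
  have hη := H.η_pos
  have hk := H.κ_ge
  have hb := H.β_ge
  have hR : |K| + 16 + 4 * β + 4 * κ ≤ passR K β κ := by
    unfold passR
    linarith [abs_nonneg K, le_abs_self β, le_abs_self κ]
  filter_upwards [ev_two, H.rho_facts, ev_pow (a := 0) (b := η / 8) (by linarith) 2,
    ev_pow (a := -(|K| + 16)) (b := -(|K| + 15)) (by linarith) 60] with d hd hρ e2 e60
  have hd1 : (1 : ℝ) ≤ d := by linarith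
  have hd0 : (0 : ℝ) < d := by linarith
  refine ⟨Real.rpow_le_rpow_of_exponent_le hd1 (by linarith), fun t ht hte => ?_⟩
  rw [Real.rpow_zero, mul_one] at e2
  set R := passR K β κ
  have h := sweepSrc_le_expo (κ := κ) (η := η / 2) (xl := η / 8) (yl := η / 8) (xD := R) (yD := R)
    (D := R - κ - η) hd1 ht hte (hρ t ht.le).2 (by linarith)
    (Real.rpow_nonneg hd0.le (η / 16)) (Real.rpow_le_rpow_of_exponent_le hd1 (by linarith))
    (by linarith) (by linarith) (by linarith) (by linarith [H.ε_ge]) (by linarith) (by linarith)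
    (by linarith)
  refine le_trans (le_trans ?_ h) (le_trans (mul_le_mul_of_nonneg_left
    (Real.rpow_le_rpow_of_exponent_le hd1 (by linarith)) (by norm_num)) e60)
  simp only [sweepSrc, sweepOut, tanP, tanQ, sqP, sqQ, uPart]
  gcongr

/-- The distances at the start are small, also seen from `U`. -/
theorem small (C : ℝ) : ∀ᶠ d : ℕ in atTop, ∀ t : ℝ, 2 * passS d K < t → t ≤ (d : ℝ) ^ (-ε) →
    C * ((d : ℝ) ^ (-(|K| + 15)) + √(passS d K) + passS d K + t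
        + t / (√t * (d : ℝ) ^ β / √2)) ≤ 1 ∧
      C * ((d : ℝ) ^ (-(|K| + 15)) + √(passS d K) + passS d K + t
        + t / (√t * (d : ℝ) ^ β / √2)) ≤ √t * (d : ℝ) ^ β / √2 := by
  have hη := H.η_pos
  have hbη : η ≤ β := by linarith [H.β_ge, H.κ_ge]
  filter_upwards [ev_two, H.rho_facts, ev_pow (a := -η) (b := 0) (by linarith) (16 * |C|),
    ev_pow (a := -(η / 2)) (b := 0) (by linarith) (16 * |C|)]
    with d hd hρ e1 e2 t hts hte
  obtain ⟨hs, ht, ht1⟩ := H.t_facts hd hts hte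
  have hd1 : (1 : ℝ) ≤ d := by linarith
  have hd0 : (0 : ℝ) < d := by linarith
  obtain ⟨hρ1, hρ2⟩ := hρ t ht.le
  rw [Real.rpow_zero] at e1 e2
  set ρ := √t * (d : ℝ) ^ β / √2
  have hst := Real.sqrt_pos.2 ht
  have hρ0 : 0 < ρ := lt_of_lt_of_le hst hρ1
  obtain ⟨hr1, -⟩ := sqrt_div_le hd0 ht hρ2
  have hsq : √t * √t = t := Real.mul_self_sqrt ht.le
  set B := 2 * (d : ℝ) ^ (-η) with hB
  have hB0 : 0 ≤ B := by positivity
  have hrB : √t / ρ ≤ B :=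
    hr1.trans (mul_le_mul_of_nonneg_left (Real.rpow_le_rpow_of_exponent_le hd1 (by linarith))
      (by norm_num))
  have hsr : √t ≤ B * ρ := (div_le_iff₀ hρ0).1 hrB
  have hK' : (d : ℝ) ^ (-(|K| + 15)) ≤ √t := by
    refine le_trans ?_ (Real.sqrt_le_sqrt (by linarith : passS d K ≤ t))
    rw [passS, Real.sqrt_eq_rpow, ← Real.rpow_mul hd0.le]
    exact Real.rpow_le_rpow_of_exponent_le hd1 (by linarith [le_abs_self K])
  have hss : √(passS d K) ≤ √t := Real.sqrt_le_sqrt (by linarith)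
  have htt : t ≤ √t := Real.le_sqrt_of_sq_le (by nlinarith)
  have hs' : passS d K ≤ √t := by linarith
  have htr : t / ρ ≤ √t := (div_le_iff₀ hρ0).2 (by nlinarith)
  have hsum : (d : ℝ) ^ (-(|K| + 15)) + √(passS d K) + passS d K + t + t / ρ ≤ 5 * √t := by
    linarith
  have hnn : 0 ≤ (d : ℝ) ^ (-(|K| + 15)) + √(passS d K) + passS d K + t + t / ρ := by positivity
  have hst1 : √t ≤ (d : ℝ) ^ (-(η / 2)) := by
    refine (Real.sqrt_le_sqrt hte).trans ?_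
    rw [Real.sqrt_eq_rpow, ← Real.rpow_mul hd0.le]
    exact Real.rpow_le_rpow_of_exponent_le hd1 (by linarith [H.ε_ge])
  have hC : C * ((d : ℝ) ^ (-(|K| + 15)) + √(passS d K) + passS d K + t + t / ρ)
      ≤ 5 * |C| * √t :=
    le_trans (mul_le_mul (le_abs_self C) hsum hnn (abs_nonneg C)) (le_of_eq (by ring))
  refine ⟨hC.trans ?_, hC.trans ?_⟩
  · nlinarith [mul_le_mul_of_nonneg_left hst1 (abs_nonneg C),
      mul_nonneg (abs_nonneg C) (Real.rpow_nonneg hd0.le (-(η / 2)))]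
  · calc 5 * |C| * √t ≤ 5 * |C| * (B * ρ) := mul_le_mul_of_nonneg_left hsr (by positivity)
      _ = (10 * |C| * (d : ℝ) ^ (-η)) * ρ := by rw [hB]; ring
      _ ≤ 1 * ρ := by
          refine mul_le_mul_of_nonneg_right ?_ hρ0.le
          nlinarith [mul_nonneg (abs_nonneg C) (Real.rpow_nonneg hd0.le (-η))]
      _ = ρ := one_mul ρ

/-- The blurs made outside the nodes. -/
theorem blurs (C : ℝ) (hC : 0 ≤ C) : ∀ᶠ d : ℕ in atTop, ∀ t : ℝ, 0 < t → t ≤ (d : ℝ) ^ (-ε) →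
    √2 * (√t * (d : ℝ) ^ (-(α + η))) ≤ √t * (d : ℝ) ^ (-p.α) ∧
    C * (√2 * (√t * (d : ℝ) ^ (-(α + η))) * √(passT d η : ℝ) / √t) ≤ (d : ℝ) ^ (-α) ∧
    C * ((d : ℝ) ^ x.β * (t * √(passT d η : ℝ)
      + (d : ℝ) ^ (η / 16) * (√t / (√t * (d : ℝ) ^ β / √2)))) ≤ (d : ℝ) ^ (-α) ∧
    C * (((d : ℝ) ^ (-κ))⁻¹ * (d : ℝ) ^ (η / 16) * (d : ℝ) ^ y.β
      * (t / (√t * (d : ℝ) ^ β / √2) ^ 2)) ≤ (d : ℝ) ^ (-α) ∧
    C * (t / (√t * (d : ℝ) ^ β / √2) * ((d : ℝ) ^ (-κ))⁻¹ * (d : ℝ) ^ (η / 16) * (d : ℝ) ^ y.β)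
      ≤ (d : ℝ) ^ (-α) * (√t * (d : ℝ) ^ β / √2) := by
  set e := η / 100 with he
  have hη := H.η_pos
  filter_upwards [ev_two, H.rho_facts,
    ev_pow (a := 0) (b := η) (by linarith) √2,
    ev_pow (a := -(α + η) + 3 * e / 2) (b := -α) (by linarith) (2 * C),
    ev_pow (a := x.β + (-ε + 3 * e / 2)) (b := -α) (by linarith [H.hxκ, H.β_ge, H.ε_ge]) (2 * C),
    ev_pow (a := x.β + (η / 16 + -β)) (b := -α) (by linarith [H.hxκ, H.β_ge]) (4 * C),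
    ev_pow (a := κ + η / 16 + y.β + -(2 * β)) (b := -α) (by linarith [H.hyβ]) (4 * C)]
    with d hd hρ e0 e1 e2 e3 e4 t ht hte
  have hd1 : (1 : ℝ) ≤ d := by linarith
  have hd0 : (0 : ℝ) < d := by linarith
  obtain ⟨hρ1, hρ2⟩ := hρ t ht.le
  obtain ⟨hr1, hr2⟩ := sqrt_div_le hd0 ht hρ2
  have hst := Real.sqrt_pos.2 ht
  have pw : ∀ a b : ℝ, (d : ℝ) ^ a * (d : ℝ) ^ b = (d : ℝ) ^ (a + b) := fun a b =>
    (Real.rpow_add hd0 a b).symm
  have P0 : ∀ a : ℝ, 0 ≤ (d : ℝ) ^ a := fun a => Real.rpow_nonneg hd0.le a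
  have hs2 : √2 ≤ 2 := Real.sqrt_le_iff.2 ⟨by norm_num, by norm_num⟩
  have hT : √(passT d η : ℝ) ≤ (d : ℝ) ^ (3 * e / 2) := by
    rw [show 3 * e / 2 = 3 * e * (1 / 2) by ring, Real.rpow_mul hd0.le, ← Real.sqrt_eq_rpow]
    exact Real.sqrt_le_sqrt (Nat.floor_le (P0 _))
  rw [Real.rpow_zero, mul_one] at e0
  have hθ : ((d : ℝ) ^ (-κ))⁻¹ = (d : ℝ) ^ κ := by rw [Real.rpow_neg hd0.le, inv_inv]
  rw [hθ]
  set ρ := √t * (d : ℝ) ^ β / √2
  have hρ0 : 0 < ρ := lt_of_lt_of_le hst hρ1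
  have hy4 : C * ((d : ℝ) ^ κ * (d : ℝ) ^ (η / 16) * (d : ℝ) ^ y.β * (t / ρ ^ 2))
      ≤ (d : ℝ) ^ (-α) := by
    refine le_trans (mul_le_mul_of_nonneg_left (mul_le_mul_of_nonneg_left hr2
      (by positivity)) hC) (le_trans (le_of_eq ?_) e4)
    rw [← pw (κ + η / 16 + y.β), ← pw (κ + η / 16), ← pw κ]
    ring
  refine ⟨?_, ?_, ?_, hy4, ?_⟩
  · calc √2 * (√t * (d : ℝ) ^ (-(α + η))) = √t * (√2 * (d : ℝ) ^ (-(α + η))) := by ring
      _ ≤ √t * (d : ℝ) ^ (-p.α) := by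
          refine mul_le_mul_of_nonneg_left ?_ hst.le
          refine (mul_le_mul_of_nonneg_right e0 (P0 _)).trans ?_
          rw [pw]
          exact Real.rpow_le_rpow_of_exponent_le hd1 (by linarith [H.pa_le])
  · have : √2 * (√t * (d : ℝ) ^ (-(α + η))) * √(passT d η : ℝ) / √t
        = √2 * ((d : ℝ) ^ (-(α + η)) * √(passT d η : ℝ)) := by field_simp
    rw [this]
    refine le_trans (mul_le_mul_of_nonneg_left (mul_le_mul hs2
      (mul_le_mul_of_nonneg_left hT (P0 _)) (by positivity) (by norm_num)) hC) ?_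
    rw [pw]
    linarith
  · have h1 : (d : ℝ) ^ x.β * (t * √(passT d η : ℝ))
        ≤ (d : ℝ) ^ (x.β + (-ε + 3 * e / 2)) := by
      rw [← pw x.β, ← pw (-ε)]
      exact mul_le_mul_of_nonneg_left (mul_le_mul hte hT (Real.sqrt_nonneg _) (P0 _)) (P0 _)
    have h2 : (d : ℝ) ^ x.β * ((d : ℝ) ^ (η / 16) * (√t / ρ))
        ≤ 2 * (d : ℝ) ^ (x.β + (η / 16 + -β)) := by
      rw [← pw x.β, ← pw (η / 16)]
      calc (d : ℝ) ^ x.β * ((d : ℝ) ^ (η / 16) * (√t / ρ))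
          ≤ (d : ℝ) ^ x.β * ((d : ℝ) ^ (η / 16) * (2 * (d : ℝ) ^ (-β))) :=
            mul_le_mul_of_nonneg_left (mul_le_mul_of_nonneg_left hr1 (P0 _)) (P0 _)
        _ = _ := by ring
    have h3 := mul_le_mul_of_nonneg_left (add_le_add h1 h2) hC
    rw [← mul_add] at h3
    linarith
  · have : t / ρ * (d : ℝ) ^ κ * (d : ℝ) ^ (η / 16) * (d : ℝ) ^ y.β
        = (d : ℝ) ^ κ * (d : ℝ) ^ (η / 16) * (d : ℝ) ^ y.β * (t / ρ ^ 2) * ρ := by
      field_simp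
    rw [this, ← mul_assoc]
    exact mul_le_mul_of_nonneg_right hy4 hρ0.le

/-- The accuracy at the coarse end: sampler, oracles, and what is left. -/
theorem final (C : ℝ) (hC : 0 ≤ C) : ∀ᶠ d : ℕ in atTop, ∀ t : ℝ, 2 * passS d K < t →
    t ≤ (d : ℝ) ^ (-ε) →
    C * (t * (d : ℝ) ^ (-p.D)
      + sweepSrc t (√t * (d : ℝ) ^ β / √2) ((d : ℝ) ^ (η / 16)) ((d : ℝ) ^ (-κ))
          ((d : ℝ) ^ (-x.D)) ((d : ℝ) ^ (-y.D)) ((d : ℝ) ^ x.ℓ) ((d : ℝ) ^ y.ℓ)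
      + ((d : ℝ) ^ (-(|K| + 15)) + √(passS d K) + passS d K))
      ≤ (d : ℝ) ^ (-(min K (min (min p.D (x.D - x.ℓ - y.ℓ)) (y.D - κ) + β) - η)) := by
  have hη := H.η_pos
  have hb : η ≤ β := by linarith [H.β_ge, H.κ_ge]
  filter_upwards [ev_two, H.src_le, ev_pow (a := 0) (b := η / 2) (by linarith) (3 * (60 * C)),
    ev_pow (a := -(K + 10)) (b := -K) (by linarith) 3] with d hd hsrc e1 e2 t hts hte
  obtain ⟨hs, ht, ht1⟩ := H.t_facts hd hts hte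
  have hd1 : (1 : ℝ) ≤ d := by linarith
  have hd0 : (0 : ℝ) < d := by linarith
  rw [Real.rpow_zero, mul_one] at e1
  have hsK : √(passS d K) = (d : ℝ) ^ (-(K + 10)) := by
    rw [passS, Real.sqrt_eq_rpow, ← Real.rpow_mul hd0.le]; ring_nf
  have hs1 : passS d K ≤ √(passS d K) := Real.le_sqrt_of_sq_le (by nlinarith)
  have hR : (d : ℝ) ^ (-(|K| + 15)) + √(passS d K) + passS d K ≤ (d : ℝ) ^ (-K) := by
    have : (d : ℝ) ^ (-(|K| + 15)) ≤ √(passS d K) := by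
      rw [hsK]; exact Real.rpow_le_rpow_of_exponent_le hd1 (by linarith [le_abs_self K])
    rw [hsK] at hs1 this ⊢
    linarith
  have hfe := final_error (C := 60 * C) (pD := p.D) (D₀ := min (x.D - x.ℓ - y.ℓ) (y.D - κ))
    (β := β) (S := (d : ℝ) ^ (-(min (x.D - x.ℓ - y.ℓ) (y.D - κ) + β) + η / 4)) hd1 ht hte hη.le
    (by linarith) H.ε_ge le_rfl hR (by linarith) e1
  rw [← min_assoc] at hfe
  refine le_trans ?_ hfe
  have h0 : 0 ≤ t * (d : ℝ) ^ (-p.D) := by positivity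
  have h1 : 0 ≤ (d : ℝ) ^ (-(|K| + 15)) + √(passS d K) + passS d K := by positivity
  have h2 := mul_le_mul_of_nonneg_left (hsrc t ht hte) hC
  nlinarith [mul_nonneg hC h0, mul_nonneg hC h1]

/-- The Lipschitz constant at the coarse end. -/
theorem lip_final (C : ℝ) : ∀ᶠ d : ℕ in atTop,
    C * (1 + (d : ℝ) ^ p.ℓ) ≤ (d : ℝ) ^ (p.ℓ + η) := by
  filter_upwards [ev_two, ev_pow (a := p.ℓ) (b := p.ℓ + η) (by linarith [H.η_pos]) (2 * |C|)]
    with d hd e1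
  have h1 : (1 : ℝ) ≤ (d : ℝ) ^ p.ℓ := Real.one_le_rpow (by linarith) H.pl
  refine le_trans ?_ e1
  calc C * (1 + (d : ℝ) ^ p.ℓ) ≤ |C| * (1 + (d : ℝ) ^ p.ℓ) :=
        mul_le_mul_of_nonneg_right (le_abs_self C) (by linarith)
    _ ≤ |C| * (2 * (d : ℝ) ^ p.ℓ) := mul_le_mul_of_nonneg_left (by linarith) (abs_nonneg C)
    _ = 2 * |C| * (d : ℝ) ^ p.ℓ := by ring

end PassHyp

end

end P347.Zero
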