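import Mathlib

/-!
# P347: fixed order rules on a cell

A linear functional on polynomials gives a rule at `M` nodes which is exact below degree `M`; its
error on a function with `M` derivatives is at most the width to the power `M - 1` times the
integral of the norm of the top derivative (applied to quadrature and to extraction of a first
derivative).
-/

namespace P347.Zero

open MeasureTheory Set Polynomial

noncomputable section

/-- `M` distinct nodes in `(0, 1]`. -/
def node (M : ℕ) (i : Fin M) : ℝ := ((i : ℕ) + 1 : ℝ) / M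

lemma node_mem (M : ℕ) (i : Fin M) : node M i ∈ Ioc (0 : ℝ) 1 := by
  have hM : (0 : ℝ) < M := by exact_mod_cast i.pos
  refine ⟨by unfold node; positivity, ?_⟩
  rw [node, div_le_one hM]
  exact_mod_cast i.isLt

lemma node_injective (M : ℕ) : Function.Injective (node M) := by
  intro i j h
  have hM : (M : ℝ) ≠ 0 := by exact_mod_cast i.pos.ne'
  unfold node at h
  rw [div_left_inj' hM, add_left_inj, Nat.cast_inj] at h
  exact Fin.ext h

/-- The weights which reproduce `φ` below degree `M`. -/
def ruleWeight (M : ℕ) (φ : ℝ[X] →ₗ[ℝ] ℝ) (i : Fin M) : ℝ :=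
  φ (Lagrange.basis Finset.univ (node M) i)

lemma rule_exact {M : ℕ} (φ : ℝ[X] →ₗ[ℝ] ℝ) {p : ℝ[X]} (hp : p.degree < M) :
    ∑ i, ruleWeight M φ i * p.eval (node M i) = φ p := by
  have h := Lagrange.eq_interpolate (s := Finset.univ) (node_injective M).injOn
    (f := p) (by simpa using hp)
  conv_rhs => rw [h]
  rw [Lagrange.interpolate_apply, map_sum]
  refine Finset.sum_congr rfl fun i _ => ?_
  rw [← Polynomial.smul_eq_C_mul, map_smul, smul_eq_mul, ruleWeight, mul_comm]

variable {F : Type} [NormedAddCommGroup F] [NormedSpace ℝ F] [CompleteSpace F]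

/-- The Taylor polynomial of a sequence of derivatives. -/
def jetEval (D : ℕ → ℝ → F) (n : ℕ) (a x : ℝ) : F :=
  ∑ k ∈ Finset.range n, ((x - a) ^ k / (k.factorial : ℝ)) • D k a

/-- `D (k + 1)` is the derivative of `D k` on the interval for all `k < n`, and `D n` is continuous. -/
structure IsJet (D : ℕ → ℝ → F) (n : ℕ) (a b : ℝ) : Prop where
  deriv : ∀ k < n, ∀ x ∈ Icc a b, HasDerivWithinAt (D k) (D (k + 1) x) (Icc a b) x
  cont : ContinuousOn (D n) (Icc a b)

omit [CompleteSpace F] in
lemma IsJet.continuousOn {D : ℕ → ℝ → F} {n : ℕ} {a b : ℝ} (h : IsJet D n a b) {k : ℕ}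
    (hk : k ≤ n) : ContinuousOn (D k) (Icc a b) := by
  rcases hk.eq_or_lt with rfl | hk
  · exact h.cont
  · exact fun x hx => (h.deriv k hk x hx).continuousWithinAt

omit [CompleteSpace F] in
lemma hasDerivAt_jetEval (D : ℕ → ℝ → F) (n : ℕ) (a x : ℝ) :
    HasDerivAt (jetEval D (n + 1) a) (jetEval (fun k => D (k + 1)) n a x) x := by
  induction n with
  | zero =>
    have e : jetEval D 1 a = fun _ => D 0 a := by
      funext y; simp [jetEval]
    rw [e]
    simpa [jetEval] using hasDerivAt_const x (D 0 a)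
  | succ m ih =>
    have e : jetEval D (m + 1 + 1) a = fun y => jetEval D (m + 1) a y +
        ((y - a) ^ (m + 1) / ((m + 1).factorial : ℝ)) • D (m + 1) a := by
      funext y; simp only [jetEval, Finset.sum_range_succ _ (m + 1)]
    rw [e, jetEval, Finset.sum_range_succ, ← jetEval]
    refine ih.add ?_
    have h1 : HasDerivAt (fun y => (y - a) ^ (m + 1) / ((m + 1).factorial : ℝ))
        ((x - a) ^ m / (m.factorial : ℝ)) x := by
      have h2 := (((hasDerivAt_id x).sub_const a).pow (m + 1)).div_const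
        ((m + 1).factorial : ℝ)
      convert! h2 using 1
      rw [Nat.factorial_succ, add_tsub_cancel_right, mul_one]
      simp only [id_eq]
      push_cast
      field_simp
    exact h1.smul_const _

/-- Taylor's bound with the integral of the top derivative. -/
theorem norm_sub_jetEval_le {a b : ℝ} (hab : a ≤ b) (n : ℕ) :
    ∀ (D : ℕ → ℝ → F), IsJet D (n + 1) a b → ∀ x ∈ Icc a b,
      ‖D 0 x - jetEval D (n + 1) a x‖ ≤ (b - a) ^ n * ∫ s in a..b, ‖D (n + 1) s‖ := by
  induction n with
  | zero =>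
    intro D hD x hx
    have hsub : Icc a x ⊆ Icc a b := Icc_subset_Icc_right hx.2
    have hint : IntervalIntegrable (D 1) volume a x :=
      (hD.cont.mono hsub).intervalIntegrable_of_Icc hx.1
    have hftc : ∫ s in a..x, D 1 s = D 0 x - D 0 a :=
      intervalIntegral.integral_eq_sub_of_hasDerivAt_of_le hx.1
        ((hD.continuousOn (by norm_num)).mono hsub)
        (fun s hs => (hD.deriv 0 (by norm_num) s ⟨hs.1.le, hs.2.le.trans hx.2⟩).hasDerivAt
          (Icc_mem_nhds hs.1 (hs.2.trans_le hx.2))) hint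
    have hj : jetEval D (0 + 1) a x = D 0 a := by simp [jetEval]
    rw [hj, ← hftc, pow_zero, one_mul]
    refine (intervalIntegral.norm_integral_le_integral_norm hx.1).trans ?_
    exact intervalIntegral.integral_mono_interval le_rfl hx.1 hx.2
      (Filter.Eventually.of_forall fun _ => norm_nonneg _)
      (hD.cont.norm.intervalIntegrable_of_Icc hab)
  | succ m ih =>
    intro D hD x hx
    have hsub : Icc a x ⊆ Icc a b := Icc_subset_Icc_right hx.2
    have hD' : IsJet (fun k => D (k + 1)) (m + 1) a b :=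
      ⟨fun k hk => hD.deriv (k + 1) (by omega), hD.cont⟩
    set I := ∫ s in a..b, ‖D (m + 1 + 1) s‖
    have hI : 0 ≤ I := intervalIntegral.integral_nonneg hab fun _ _ => norm_nonneg _
    have hj : Continuous (jetEval (fun k => D (k + 1)) (m + 1) a) := by
      unfold jetEval; fun_prop
    have hftc : ∫ s in a..x, (D 1 s - jetEval (fun k => D (k + 1)) (m + 1) a s) =
        (D 0 x - jetEval D (m + 1 + 1) a x) - (D 0 a - jetEval D (m + 1 + 1) a a) :=
      intervalIntegral.integral_eq_sub_of_hasDerivAt_of_le hx.1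
        (((hD.continuousOn (by omega)).mono hsub).sub
          (by unfold jetEval; fun_prop))
        (fun s hs => ((hD.deriv 0 (by omega) s ⟨hs.1.le, hs.2.le.trans hx.2⟩).hasDerivAt
          (Icc_mem_nhds hs.1 (hs.2.trans_le hx.2))).sub (hasDerivAt_jetEval D (m + 1) a s))
        ((((hD.continuousOn (by omega)).mono hsub).sub
          hj.continuousOn).intervalIntegrable_of_Icc hx.1)
    have ha0 : jetEval D (m + 1 + 1) a a = D 0 a := by
      simp only [jetEval, sub_self]
      rw [Finset.sum_eq_single 0]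
      · simp
      · intro k _ hk; simp [zero_pow hk]
      · intro h; simp at h
    rw [ha0, sub_self, sub_zero] at hftc
    rw [← hftc]
    refine (intervalIntegral.norm_integral_le_of_norm_le_const
      (C := (b - a) ^ m * I) fun s hs => ?_).trans ?_
    · rw [uIoc_of_le hx.1] at hs
      exact ih _ hD' s ⟨hs.1.le, hs.2.trans hx.2⟩
    · rw [abs_of_nonneg (sub_nonneg.2 hx.1), pow_succ]
      calc (b - a) ^ m * I * (x - a) ≤ (b - a) ^ m * I * (b - a) :=
            mul_le_mul_of_nonneg_left (by linarith [hx.2])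
              (mul_nonneg (pow_nonneg (sub_nonneg.2 hab) m) hI)
        _ = (b - a) ^ m * (b - a) * I := by ring

omit [CompleteSpace F] in
/-- Applying a rule to a scaled Taylor polynomial is exact. -/
lemma rule_jetEval (φ : ℝ[X] →ₗ[ℝ] ℝ) (D : ℕ → ℝ → F) (M : ℕ) (a h : ℝ) :
    ∑ i, ruleWeight M φ i • jetEval D M a (a + h * node M i) =
      ∑ k ∈ Finset.range M, (h ^ k / (k.factorial : ℝ) * φ (X ^ k)) • D k a := by
  simp only [jetEval, Finset.smul_sum, smul_smul, add_sub_cancel_left]
  rw [Finset.sum_comm]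
  refine Finset.sum_congr rfl fun k hk => ?_
  rw [← Finset.sum_smul, ← rule_exact φ (M := M) (p := X ^ k)
    (by rw [degree_X_pow]; exact_mod_cast Finset.mem_range.1 hk), Finset.mul_sum]
  congr 1
  refine Finset.sum_congr rfl fun i _ => ?_
  rw [eval_pow, eval_X, mul_pow]
  ring

/-- The integral over the unit interval. -/
def intFun : ℝ[X] →ₗ[ℝ] ℝ where
  toFun p := ∫ s in (0 : ℝ)..1, p.eval s
  map_add' p q := by
    simp only [eval_add]
    exact intervalIntegral.integral_add (p.continuous.intervalIntegrable 0 1)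
      (q.continuous.intervalIntegrable 0 1)
  map_smul' c p := by
    simp only [eval_smul, smul_eq_mul, RingHom.id_apply]
    exact intervalIntegral.integral_const_mul c _

/-- The first derivative at zero. -/
def derFun : ℝ[X] →ₗ[ℝ] ℝ where
  toFun p := p.derivative.eval 0
  map_add' p q := by simp
  map_smul' c p := by simp

/-- The size of a rule. -/
def ruleSize (M : ℕ) (φ : ℝ[X] →ₗ[ℝ] ℝ) : ℝ := ∑ i, |ruleWeight M φ i|

omit [CompleteSpace F] in
lemma norm_rule_le {M : ℕ} (φ : ℝ[X] →ₗ[ℝ] ℝ) (v : Fin M → F) {e : ℝ} (hv : ∀ i, ‖v i‖ ≤ e) :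
    ‖∑ i, ruleWeight M φ i • v i‖ ≤ ruleSize M φ * e := by
  refine (norm_sum_le _ _).trans ?_
  rw [ruleSize, Finset.sum_mul]
  exact Finset.sum_le_sum fun i _ => by
    rw [norm_smul, Real.norm_eq_abs]; exact mul_le_mul_of_nonneg_left (hv i) (abs_nonneg _)

lemma intFun_X_pow (k : ℕ) : intFun (X ^ k : ℝ[X]) = ((k : ℝ) + 1)⁻¹ := by
  show ∫ s in (0 : ℝ)..1, ((X : ℝ[X]) ^ k).eval s = _
  simp [integral_pow]

lemma derFun_X_pow (k : ℕ) : derFun (X ^ k : ℝ[X]) = if k = 1 then 1 else 0 := by
  show ((X : ℝ[X]) ^ k).derivative.eval 0 = _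
  rcases k with _ | _ | k <;> simp [zero_pow]

lemma integral_jetEval (D : ℕ → ℝ → F) (M : ℕ) (a b : ℝ) :
    ∫ s in a..b, jetEval D M a s =
      (b - a) • ∑ k ∈ Finset.range M, ((b - a) ^ k / (k.factorial : ℝ) * intFun (X ^ k)) • D k a := by
  unfold jetEval
  rw [intervalIntegral.integral_finsetSum fun k _ =>
    (by fun_prop : Continuous fun s : ℝ => ((s - a) ^ k / (k.factorial : ℝ)) • D k a).intervalIntegrable a b,
    Finset.smul_sum]
  refine Finset.sum_congr rfl fun k _ => ?_
  rw [intervalIntegral.integral_smul_const, intervalIntegral.integral_div, smul_smul, intFun_X_pow]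
  congr 1
  rw [intervalIntegral.integral_comp_sub_right (fun s => s ^ k), sub_self, integral_pow]
  simp only [zero_pow (Nat.succ_ne_zero k), sub_zero, pow_succ]
  field_simp

lemma mem_cell {a b : ℝ} (hab : a ≤ b) {M : ℕ} (i : Fin M) :
    a + (b - a) * node M i ∈ Icc a b := by
  have h := node_mem M i
  constructor <;> nlinarith [h.1, h.2]

/-- Quadrature of order `n + 1` on one cell. -/
theorem cell_quadrature {a b : ℝ} (hab : a ≤ b) (n : ℕ) (D : ℕ → ℝ → F)
    (hD : IsJet D (n + 1) a b) :
    ‖(∫ s in a..b, D 0 s) -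
        (b - a) • ∑ i, ruleWeight (n + 1) intFun i • D 0 (a + (b - a) * node (n + 1) i)‖ ≤
      (1 + ruleSize (n + 1) intFun) * (b - a) ^ (n + 1) * ∫ s in a..b, ‖D (n + 1) s‖ := by
  set I := ∫ s in a..b, ‖D (n + 1) s‖
  have hh : 0 ≤ b - a := sub_nonneg.2 hab
  have hJ : Continuous (jetEval D (n + 1) a) := by unfold jetEval; fun_prop
  have hT := norm_sub_jetEval_le hab n D hD
  have e : (∫ s in a..b, D 0 s) -
      (b - a) • ∑ i, ruleWeight (n + 1) intFun i • D 0 (a + (b - a) * node (n + 1) i) =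
      (∫ s in a..b, (D 0 s - jetEval D (n + 1) a s)) -
      (b - a) • ∑ i, ruleWeight (n + 1) intFun i •
        (D 0 (a + (b - a) * node (n + 1) i) -
          jetEval D (n + 1) a (a + (b - a) * node (n + 1) i)) := by
    simp only [smul_sub, Finset.sum_sub_distrib, rule_jetEval]
    rw [intervalIntegral.integral_sub ((hD.continuousOn (by omega)).intervalIntegrable_of_Icc hab)
      (hJ.intervalIntegrable a b), integral_jetEval]
    abel
  rw [e]
  refine (norm_sub_le _ _).trans ?_
  have h1 : ‖∫ s in a..b, (D 0 s - jetEval D (n + 1) a s)‖ ≤ (b - a) ^ n * I * (b - a) := by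
    refine (intervalIntegral.norm_integral_le_of_norm_le_const fun s hs => ?_).trans
      (le_of_eq (by rw [abs_of_nonneg hh]))
    rw [uIoc_of_le hab] at hs
    exact hT s ⟨hs.1.le, hs.2⟩
  have h2 := norm_rule_le intFun
    (fun i => D 0 (a + (b - a) * node (n + 1) i) -
      jetEval D (n + 1) a (a + (b - a) * node (n + 1) i))
    fun i => hT _ (mem_cell hab i)
  rw [norm_smul, Real.norm_eq_abs, abs_of_nonneg hh]
  calc _ ≤ (b - a) ^ n * I * (b - a) + (b - a) * (ruleSize (n + 1) intFun * ((b - a) ^ n * I)) :=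
        add_le_add h1 (mul_le_mul_of_nonneg_left h2 hh)
    _ = (1 + ruleSize (n + 1) intFun) * (b - a) ^ (n + 1) * I := by ring

/-- Extraction of a first derivative from values at `n + 2` nodes in `(0, l]`. -/
theorem extract_deriv {l : ℝ} (hl : 0 < l) (n : ℕ) (D : ℕ → ℝ → F)
    (hD : IsJet D (n + 2) 0 l) :
    ‖l⁻¹ • (∑ i, ruleWeight (n + 2) derFun i • D 0 (l * node (n + 2) i)) - D 1 0‖ ≤
      ruleSize (n + 2) derFun * l ^ n * ∫ s in (0 : ℝ)..l, ‖D (n + 2) s‖ := by
  set I := ∫ s in (0 : ℝ)..l, ‖D (n + 2) s‖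
  have hT := norm_sub_jetEval_le hl.le (n + 1) D hD
  have hx : ∑ i, ruleWeight (n + 2) derFun i • jetEval D (n + 2) 0 (l * node (n + 2) i) =
      l • D 1 0 := by
    have := rule_jetEval derFun D (n + 2) 0 l
    simp only [zero_add] at this
    rw [this, Finset.sum_eq_single 1]
    · simp [show derFun (X : ℝ[X]) = 1 by simpa using derFun_X_pow 1]
    · intro k _ hk; simp [derFun_X_pow, hk]
    · intro h; simp at h
  have e : l⁻¹ • (∑ i, ruleWeight (n + 2) derFun i • D 0 (l * node (n + 2) i)) - D 1 0 =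
      l⁻¹ • ∑ i, ruleWeight (n + 2) derFun i •
        (D 0 (l * node (n + 2) i) - jetEval D (n + 2) 0 (l * node (n + 2) i)) := by
    simp only [smul_sub, Finset.sum_sub_distrib, hx, inv_smul_smul₀ hl.ne']
  rw [e, norm_smul, Real.norm_eq_abs, abs_of_pos (inv_pos.2 hl)]
  have h2 := norm_rule_le derFun
    (fun i => D 0 (l * node (n + 2) i) - jetEval D (n + 2) 0 (l * node (n + 2) i))
    fun i => hT _ (by simpa using mem_cell hl.le i)
  refine (mul_le_mul_of_nonneg_left h2 (inv_nonneg.2 hl.le)).trans (le_of_eq ?_)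
  simp only [sub_zero]
  change l⁻¹ * (ruleSize (n + 2) derFun * (l ^ (n + 1) * I)) = _
  field_simp
  ring

/-- Cauchy-Schwarz for the integral of a continuous function over an interval. -/
lemma sq_intervalIntegral_le {a b : ℝ} (hab : a ≤ b) {f : ℝ → ℝ} (hf : ContinuousOn f (Icc a b)) :
    (∫ s in a..b, f s) ^ 2 ≤ (b - a) * ∫ s in a..b, f s ^ 2 := by
  rcases hab.eq_or_lt with rfl | h
  · simp
  set m := (b - a)⁻¹ * ∫ s in a..b, f s
  have hfi := hf.intervalIntegrable_of_Icc (μ := volume) hab
  have hf2 : IntervalIntegrable (fun s => f s ^ 2) volume a b :=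
    (hf.pow 2).intervalIntegrable_of_Icc hab
  have h0 : 0 ≤ ∫ s in a..b, (f s - m) ^ 2 :=
    intervalIntegral.integral_nonneg hab fun _ _ => sq_nonneg _
  have e : ∫ s in a..b, (f s - m) ^ 2 =
      (∫ s in a..b, f s ^ 2) - 2 * m * (∫ s in a..b, f s) + (b - a) * m ^ 2 := by
    have : (fun s => (f s - m) ^ 2) = fun s => f s ^ 2 - 2 * m * f s + m ^ 2 := by
      funext s; ring
    rw [this, intervalIntegral.integral_add (hf2.sub (hfi.const_mul _)) intervalIntegrable_const,
      intervalIntegral.integral_sub hf2 (hfi.const_mul _), intervalIntegral.integral_const_mul,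
      intervalIntegral.integral_const, smul_eq_mul]
  rw [e] at h0
  have hm : (b - a) * m = ∫ s in a..b, f s := by
    simp only [m]; field_simp [(sub_pos.2 h).ne']
  have key : (b - a) * m ^ 2 ≤ ∫ s in a..b, f s ^ 2 := by rw [← hm] at h0; nlinarith
  calc (∫ s in a..b, f s) ^ 2 = (b - a) * ((b - a) * m ^ 2) := by rw [← hm]; ring
    _ ≤ _ := mul_le_mul_of_nonneg_left key (sub_nonneg.2 hab)

end

end P347.Zero
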