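import Mathlib

/-!
# P347: the exact algebra of the absorber

Blocks `ξ i` (the outputs in the moving frame) and differences `Δ k` of the values at consecutive
seed levels; `mult k` is the multiplier of level `k`, free of a common shift of the blocks. One
rotation pair gives a field which is tangent to spheres and free of divergence.
-/

namespace P347.Zero

open Set
open scoped RealInnerProductSpace

noncomputable section

/-- The coefficient of block `i` in the multiplier of level `k`. -/
def multCoef (i k : ℕ) : ℝ := if i ≤ k then 1 else if i = k + 1 then -((k : ℝ) + 1) else 0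

lemma multCoef_eq_zero {i k : ℕ} (h : k + 1 < i) : multCoef i k = 0 := by
  rw [multCoef, if_neg (by omega), if_neg (by omega)]

lemma multCoef_of_le {i k : ℕ} (h : i ≤ k) : multCoef i k = 1 := if_pos h

lemma multCoef_succ (k : ℕ) : multCoef (k + 1) k = -((k : ℝ) + 1) := by
  rw [multCoef, if_neg (by omega), if_pos rfl]

lemma abs_multCoef_le {n i k : ℕ} (hk : k < n) : |multCoef i k| ≤ n := by
  have h1 : (k : ℝ) + 1 ≤ n := by exact_mod_cast hk
  have h0 : (0 : ℝ) ≤ (k : ℝ) := Nat.cast_nonneg k
  unfold multCoef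
  split_ifs with a b
  · rw [abs_one]; linarith
  · rw [abs_neg, abs_of_nonneg (by linarith)]; exact h1
  · rw [abs_zero]; linarith

lemma sum_multCoef {n k : ℕ} (hk : k < n) : ∑ i ∈ Finset.range (n + 1), multCoef i k = 0 := by
  have hsub : Finset.range (k + 2) ⊆ Finset.range (n + 1) := by
    simp only [Finset.range_subset_range]; omega
  rw [← Finset.sum_subset hsub fun i _ hi => multCoef_eq_zero (by simp at hi; omega),
    Finset.sum_range_succ, multCoef_succ,
    Finset.sum_congr rfl fun i hi => multCoef_of_le (by simp at hi; omega)]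
  simp

variable {E : Type} [NormedAddCommGroup E] [InnerProductSpace ℝ E]

/-- The multiplier of level `k`. -/
def mult (n : ℕ) (ξ : ℕ → E) (k : ℕ) : E :=
  ∑ i ∈ Finset.range (n + 1), multCoef i k • ξ i

/-- The velocity of block `i` in the moving frame. -/
def blockVel (n : ℕ) (Δ : ℕ → E) (i : ℕ) : E :=
  ∑ k ∈ Finset.range n, multCoef i k • Δ k

/-- A common shift of all blocks does not change a multiplier. -/
lemma mult_add_const {n k : ℕ} (hk : k < n) (ξ : ℕ → E) (c : E) :
    mult n (fun i => ξ i + c) k = mult n ξ k := by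
  simp only [mult, smul_add, Finset.sum_add_distrib, ← Finset.sum_smul, sum_multCoef hk, zero_smul,
    add_zero]

/-- The velocities in terms of the values: `f n = 0` stands for the exact mean at the last level. -/
lemma blockVel_eq {n i : ℕ} (hi : i ≤ n) (f : ℕ → E) (hf : f n = 0) :
    blockVel n (fun k => f k - f (k + 1)) i =
      f i - (if i = 0 then 0 else (i : ℝ) • (f (i - 1) - f i)) := by
  have tail : ∀ j ≤ n, ∑ k ∈ Finset.Ico j n, (f k - f (k + 1)) = f j := by
    intro j hj
    have h1 : (fun k => f k - f (k + 1)) = fun k => -(f (k + 1) - f k) := by funext k; abel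
    rw [h1, Finset.sum_neg_distrib, Finset.sum_Ico_sub f hj, hf, zero_sub, neg_neg]
  unfold blockVel
  rw [← Finset.sum_range_add_sum_Ico _ hi]
  have h2 : ∑ k ∈ Finset.Ico i n, multCoef i k • (f k - f (k + 1)) = f i := by
    rw [Finset.sum_congr rfl fun k hk => by rw [multCoef_of_le (Finset.mem_Ico.1 hk).1, one_smul],
      tail i hi]
  rw [h2]
  rcases i with _ | j
  · simp
  · rw [Finset.sum_range_succ, Finset.sum_eq_zero fun k hk => by
        rw [multCoef_eq_zero (by simp at hk; omega), zero_smul], zero_add, multCoef_succ,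
      if_neg (by omega)]
    simp only [Nat.add_sub_cancel, Nat.cast_add, Nat.cast_one, neg_smul]
    abel

/-- Block `i` only feels levels `k ≥ i - 1`. -/
lemma blockVel_congr {n i : ℕ} {Δ Δ' : ℕ → E} (h : ∀ k < n, i ≤ k + 1 → Δ k = Δ' k) :
    blockVel n Δ i = blockVel n Δ' i := by
  refine Finset.sum_congr rfl fun k hk => ?_
  rcases le_or_gt i (k + 1) with hik | hik
  · rw [h k (Finset.mem_range.1 hk) hik]
  · rw [multCoef_eq_zero hik, zero_smul, zero_smul]

/-- What the blocks push is what the multipliers absorb. -/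
theorem sum_inner_blockVel (n : ℕ) (ξ Δ : ℕ → E) :
    ∑ i ∈ Finset.range (n + 1), ⟪ξ i, blockVel n Δ i⟫ =
      ∑ k ∈ Finset.range n, ⟪mult n ξ k, Δ k⟫ := by
  simp only [blockVel, mult, inner_sum, sum_inner, inner_smul_left, inner_smul_right,
    RCLike.conj_to_real]
  rw [Finset.sum_comm]

/-! ## The curve between two seeds with the same unknown centre -/

/-- The first coefficient. -/
def curveA (φ : ℝ) : ℝ := Real.sin φ ^ 2

/-- The second coefficient. -/
def curveB (φ : ℝ) : ℝ := Real.cos φ ^ 2

/-- The coefficient of the pure part. -/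
def curveP (φ : ℝ) : ℝ := √2 * (Real.sin φ * Real.cos φ)

lemma curve_centre (φ : ℝ) : curveA φ + curveB φ = 1 := Real.sin_sq_add_cos_sq φ

lemma curve_unit (φ : ℝ) : curveA φ ^ 2 + curveB φ ^ 2 + curveP φ ^ 2 = 1 := by
  have h2 : √2 ^ 2 = (2 : ℝ) := Real.sq_sqrt (by norm_num)
  have := Real.sin_sq_add_cos_sq φ
  unfold curveA curveB curveP
  linear_combination (Real.sin φ * Real.cos φ) ^ 2 * h2 +
    (Real.sin φ ^ 2 + Real.cos φ ^ 2 + 1) * this

lemma curve_start : curveA 0 = 0 ∧ curveB 0 = 1 ∧ curveP 0 = 0 := by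
  simp [curveA, curveB, curveP]

lemma curve_end : curveA (Real.pi / 2) = 1 ∧ curveB (Real.pi / 2) = 0 ∧ curveP (Real.pi / 2) = 0 := by
  simp [curveA, curveB, curveP]

/-- The derivatives of the three coefficients. -/
def curveA' (φ : ℝ) : ℝ := 2 * Real.sin φ * Real.cos φ

/-- The derivative of the pure coefficient. -/
def curveP' (φ : ℝ) : ℝ := √2 * (Real.cos φ ^ 2 - Real.sin φ ^ 2)

lemma hasDerivAt_curveA (φ : ℝ) : HasDerivAt curveA (curveA' φ) φ := by
  have h : HasDerivAt (fun x => Real.sin x ^ 2) (curveA' φ) φ := by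
    convert! (Real.hasDerivAt_sin φ).pow 2 using 1
    simp [curveA']
  exact h

lemma hasDerivAt_curveB (φ : ℝ) : HasDerivAt curveB (-curveA' φ) φ := by
  have h : HasDerivAt (fun x => Real.cos x ^ 2) (-curveA' φ) φ := by
    convert! (Real.hasDerivAt_cos φ).pow 2 using 1
    simp [curveA']; ring
  exact h

lemma hasDerivAt_curveP (φ : ℝ) : HasDerivAt curveP (curveP' φ) φ := by
  have h : HasDerivAt (fun x => √2 * (Real.sin x * Real.cos x)) (curveP' φ) φ := by
    convert! ((Real.hasDerivAt_sin φ).mul (Real.hasDerivAt_cos φ)).const_mul √2 using 1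
    simp [curveP']; ring
  exact h

lemma curve_orth (φ : ℝ) :
    curveA φ * curveA' φ + curveB φ * (-curveA' φ) + curveP φ * curveP' φ = 0 := by
  have h2 : √2 ^ 2 = (2 : ℝ) := Real.sq_sqrt (by norm_num)
  unfold curveA curveB curveP curveA' curveP'
  linear_combination (Real.sin φ * Real.cos φ * (Real.cos φ ^ 2 - Real.sin φ ^ 2)) * h2

lemma curve_speed (φ : ℝ) : curveA' φ ^ 2 + (-curveA' φ) ^ 2 + curveP' φ ^ 2 = 2 := by
  have h2 : √2 ^ 2 = (2 : ℝ) := Real.sq_sqrt (by norm_num)
  have := Real.sin_sq_add_cos_sq φ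
  unfold curveA' curveP'
  linear_combination (Real.cos φ ^ 2 - Real.sin φ ^ 2) ^ 2 * h2 +
    2 * (Real.sin φ ^ 2 + Real.cos φ ^ 2 + 1) * this

/-- The point of the curve. -/
def curvePt (S S' P : E) (φ : ℝ) : E := curveA φ • S + curveB φ • S' + curveP φ • P

/-- The direction of the curve. -/
def curveDir (S S' P : E) (φ : ℝ) : E :=
  curveA' φ • S + (-curveA' φ) • S' + curveP' φ • P

lemma hasDerivAt_curvePt (S S' P : E) (φ : ℝ) :
    HasDerivAt (curvePt S S' P) (curveDir S S' P φ) φ :=
  (((hasDerivAt_curveA φ).smul_const S).add ((hasDerivAt_curveB φ).smul_const S')).add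
    ((hasDerivAt_curveP φ).smul_const P)

/-- The difference of the values at two seeds is the integral along the curve. -/
theorem integral_curve {G : Type} [NormedAddCommGroup G] [NormedSpace ℝ G] [CompleteSpace G]
    {F : E → G} (hF : ContDiff ℝ 1 F) (S S' P : E) :
    ∫ φ in (0 : ℝ)..Real.pi / 2, fderiv ℝ F (curvePt S S' P φ) (curveDir S S' P φ) = F S - F S' := by
  have h0 : curvePt S S' P 0 = S' := by
    obtain ⟨a, b, c⟩ := curve_start; simp [curvePt, a, b, c]
  have h1 : curvePt S S' P (Real.pi / 2) = S := by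
    obtain ⟨a, b, c⟩ := curve_end; simp [curvePt, a, b, c]
  have hc : Continuous fun φ => fderiv ℝ F (curvePt S S' P φ) (curveDir S S' P φ) := by
    have hp : Continuous (curvePt S S' P) := by
      unfold curvePt curveA curveB curveP; fun_prop
    have hd : Continuous (curveDir S S' P) := by
      unfold curveDir curveA' curveP'; fun_prop
    exact ((hF.continuous_fderiv one_ne_zero).comp hp).clm_apply hd
  rw [intervalIntegral.integral_eq_sub_of_hasDerivAt (f := fun φ => F (curvePt S S' P φ))
    (fun φ _ => ((hF.differentiable one_ne_zero _).hasFDerivAt.comp_hasDerivAt φ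
      (hasDerivAt_curvePt S S' P φ))) (hc.intervalIntegrable _ _), h0, h1]

/-! ## One rotation pair -/

variable [FiniteDimensional ℝ E]
variable {H : Type} [NormedAddCommGroup H] [InnerProductSpace ℝ H] [FiniteDimensional ℝ H]

/-- The field of one pair: multiplier slot `C`, direction slot `B`, point slot `A`. -/
def pairField (A B C : H →L[ℝ] E) (G G' : E → E →L[ℝ] E) (z : H) : H :=
  ContinuousLinearMap.adjoint C (G (A z) (B z)) - ContinuousLinearMap.adjoint B (G' (A z) (C z))

lemma pairField_tangent {A B C : H →L[ℝ] E} {G G' : E → E →L[ℝ] E}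
    (hG : ∀ a u v, ⟪u, G a v⟫ = ⟪G' a u, v⟫) (z : H) : ⟪z, pairField A B C G G' z⟫ = 0 := by
  rw [pairField, inner_sub_right, ContinuousLinearMap.adjoint_inner_right,
    ContinuousLinearMap.adjoint_inner_right, hG, real_inner_comm]
  ring

lemma trace_adjoint_comp {A C : H →L[ℝ] E} (h : A ∘L ContinuousLinearMap.adjoint C = 0)
    (L : E →L[ℝ] E) :
    LinearMap.trace ℝ H (ContinuousLinearMap.adjoint C ∘L L ∘L A).toLinearMap = 0 := by
  rw [ContinuousLinearMap.toLinearMap_comp, LinearMap.trace_comp_comm',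
    ← ContinuousLinearMap.toLinearMap_comp, ContinuousLinearMap.comp_assoc, h]
  simp

/-- The pair field is free of divergence when the three slots are orthogonal. -/
theorem pairField_trace {A B C : H →L[ℝ] E} {G G' : E → E →L[ℝ] E}
    (hAB : A ∘L ContinuousLinearMap.adjoint B = 0) (hAC : A ∘L ContinuousLinearMap.adjoint C = 0)
    (hBC : B ∘L ContinuousLinearMap.adjoint C = 0) (hCB : C ∘L ContinuousLinearMap.adjoint B = 0)
    (hd : Differentiable ℝ G) (hd' : Differentiable ℝ G') (z : H) :
    LinearMap.trace ℝ H (fderiv ℝ (pairField A B C G G') z).toLinearMap = 0 := by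
  have key : ∀ (P Q : H →L[ℝ] E) (K : E → E →L[ℝ] E) (C' : E →L[ℝ] H), Differentiable ℝ K →
      HasFDerivAt (fun z => C' (K (P z) (Q z)))
        (C' ∘L (K (P z) ∘L Q) + C' ∘L ((fderiv ℝ K (P z)).flip (Q z) ∘L P)) z := by
    intro P Q K C' hK
    have h1 : HasFDerivAt (fun z => K (P z)) (fderiv ℝ K (P z) ∘L P) z :=
      (hK (P z)).hasFDerivAt.comp z P.hasFDerivAt
    have h2 := C'.hasFDerivAt.comp z (h1.clm_apply (Q.hasFDerivAt (x := z)))
    convert! h2 using 1
    · ext h; simp
  have h := (key A B G (ContinuousLinearMap.adjoint C) hd).sub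
    (key A C G' (ContinuousLinearMap.adjoint B) hd')
  have e : fderiv ℝ (pairField A B C G G') z = _ := h.fderiv
  rw [e]
  simp only [ContinuousLinearMap.toLinearMap_sub, ContinuousLinearMap.toLinearMap_add, map_sub,
    map_add, trace_adjoint_comp hAC, trace_adjoint_comp hBC, trace_adjoint_comp hAB,
    trace_adjoint_comp hCB]
  norm_num

end

end P347.Zero
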