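import Vale.Agent.P347.Zero.Rows
import Vale.Agent.P347.Zero.Picard

/-!
# P347: the error of the fixed point for the square

The powers of the pair map are computed from approximate values of that map at truncated rows. The
start may be off, every value may be off, and a value at a wrong row is off in proportion to the
row. Everything is in mean square. The own error of the last application and the error of the start
are paid `th⁻¹`; the inner error is not.
-/

namespace P347.Zero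

open MeasureTheory Filter Topology
open scoped ENNReal RealInnerProductSpace

noncomputable section

/-- The start of the fixed point. -/
def powInit {H : Type} [Zero H] (z : H) : ℕ → H
  | 0 => z
  | _ + 1 => 0

section Hilbert

variable {K : Type} [NormedAddCommGroup K] [InnerProductSpace ℝ K] [CompleteSpace K]
  {Ω : Type} [MeasurableSpace Ω] {μ : Measure Ω}

omit [CompleteSpace K] in
theorem aestronglyMeasurable_iterate {A : Ω → K →L[ℝ] K}
    (hA : ∀ g : Ω → K, AEStronglyMeasurable g μ → AEStronglyMeasurable (fun w => A w (g w)) μ)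
    {z : Ω → K} (hz : AEStronglyMeasurable z μ) :
    ∀ j : ℕ, AEStronglyMeasurable (fun w => (A w ^ j) (z w)) μ
  | 0 => by simpa using hz
  | j + 1 => by
    simp only [pow_succ', mul_apply_eq_comp]
    exact hA _ (aestronglyMeasurable_iterate hA hz j)

theorem aestronglyMeasurable_rotExp {A : Ω → K →L[ℝ] K}
    (hA : ∀ g : Ω → K, AEStronglyMeasurable g μ → AEStronglyMeasurable (fun w => A w (g w)) μ)
    {z : Ω → K} (hz : AEStronglyMeasurable z μ) (c : ℝ) :
    AEStronglyMeasurable (fun w => rotExp (A w) c (z w)) μ := by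
  refine aestronglyMeasurable_of_tendsto_ae atTop
    (f := fun n w => ∑ j ∈ Finset.range n, ((j.factorial : ℝ)⁻¹ * c ^ j) • (A w ^ j) (z w))
    (fun n => Finset.aestronglyMeasurable_fun_sum _ fun j _ =>
      (aestronglyMeasurable_iterate hA hz j).const_smul _)
    (Eventually.of_forall fun w => ?_)
  have h := ((NormedSpace.exp_series_hasSum_exp' (𝕂 := ℝ) (c • A w)).mapL
    (ContinuousLinearMap.apply ℝ K (z w))).tendsto_sum_nat
  refine h.congr fun n => Finset.sum_congr rfl fun j _ => ?_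
  simp [_root_.smul_pow, smul_smul]

/-- Adding in mean square. -/
theorem eLp_le_of_norm_le {F : Type} [NormedAddCommGroup F] {f : Ω → F} {g₁ g₂ : Ω → ℝ}
    (h₁ : AEStronglyMeasurable g₁ μ) (h₂ : AEStronglyMeasurable g₂ μ) {a b : ℝ} (ha : 0 ≤ a)
    (hb : 0 ≤ b) (e₁ : eLpNorm g₁ 2 μ ≤ ENNReal.ofReal a) (e₂ : eLpNorm g₂ 2 μ ≤ ENNReal.ofReal b)
    (h : ∀ w, ‖f w‖ ≤ g₁ w + g₂ w) : eLpNorm f 2 μ ≤ ENNReal.ofReal (a + b) := by
  rw [ENNReal.ofReal_add ha hb]
  exact (eLpNorm_mono_real (g := g₁ + g₂) h).trans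
    ((eLpNorm_add_le h₁ h₂ one_le_two).trans (add_le_add e₁ e₂))

theorem eLp_const_mul_le {g : Ω → ℝ} {c a : ℝ} (hc : 0 ≤ c)
    (e : eLpNorm g 2 μ ≤ ENNReal.ofReal a) :
    eLpNorm (fun w => c * g w) 2 μ ≤ ENNReal.ofReal (c * a) := by
  rw [show (fun w => c * g w) = c • g from rfl, eLpNorm_const_smul, ENNReal.ofReal_mul hc,
    ← ofReal_norm, Real.norm_eq_abs, abs_of_nonneg hc]
  exact mul_le_mul' le_rfl e

theorem eLp_sum_norm_le {ι F : Type} [NormedAddCommGroup F] (s : Finset ι) {f : ι → Ω → F}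
    (hf : ∀ i ∈ s, AEStronglyMeasurable (f i) μ) {a : ℝ}
    (h : ∀ i ∈ s, eLpNorm (f i) 2 μ ≤ ENNReal.ofReal a) :
    eLpNorm (fun w => ∑ i ∈ s, ‖f i w‖) 2 μ ≤ ENNReal.ofReal (s.card * a) := by
  have e : (fun w => ∑ i ∈ s, ‖f i w‖) = ∑ i ∈ s, fun w => ‖f i w‖ := by
    funext w; simp [Finset.sum_apply]
  rw [e]
  refine (eLpNorm_sum_le (fun i hi => (hf i hi).norm) one_le_two).trans ?_
  refine (Finset.sum_le_card_nsmul s _ (ENNReal.ofReal a) fun i hi => ?_).trans_eq ?_
  · rw [eLpNorm_norm]; exact h i hi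
  · rw [nsmul_eq_mul, ENNReal.ofReal_mul (Nat.cast_nonneg _), ENNReal.ofReal_natCast]

variable {A : Ω → K →L[ℝ] K} {z zh : Ω → K} {th : ℝ} {M : ℕ}

/-- The error of a row against the rotation. -/
theorem eLp_row_sub_rotExp_le
    (hA : ∀ g : Ω → K, AEStronglyMeasurable g μ → AEStronglyMeasurable (fun w => A w (g w)) μ)
    (hb : ∀ w, ‖A w‖ ≤ 2) (hz : AEStronglyMeasurable z μ) {G : ℝ} (hG : 0 ≤ G)
    (hzG : eLpNorm z 2 μ ≤ ENNReal.ofReal G) (hth : 0 ≤ th) (hth1 : th ≤ 1)
    {P : Ω → ℕ → K} (hP : ∀ j < M, AEStronglyMeasurable (fun w => P w j) μ) {D : ℝ} (hD : 0 ≤ D)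
    (hPD : ∀ j < M, eLpNorm (fun w => P w j - th ^ j • (A w ^ j) (z w)) 2 μ ≤ ENNReal.ofReal D)
    (i : Fin M) :
    eLpNorm (fun w => row M (node M i) (P w) - rotExp (A w) (node M i * th) (z w)) 2 μ ≤
      ENNReal.ofReal (M * D + 2 ^ M * Real.exp 2 * th ^ M * G) := by
  have hm : ∀ j < M, AEStronglyMeasurable (fun w => P w j - th ^ j • (A w ^ j) (z w)) μ :=
    fun j hj => (hP j hj).sub ((aestronglyMeasurable_iterate hA hz j).const_smul _)
  have hmem := node_mem M i
  have hc : |node M i| ≤ 1 := abs_le.2 ⟨by linarith [hmem.1], hmem.2⟩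
  refine eLp_le_of_norm_le
    (g₁ := fun w => ∑ j ∈ Finset.range M, ‖P w j - th ^ j • (A w ^ j) (z w)‖)
    (g₂ := fun w => 2 ^ M * Real.exp 2 * th ^ M * ‖z w‖)
    (Finset.aestronglyMeasurable_fun_sum _ fun j hj => (hm j (Finset.mem_range.1 hj)).norm)
    (hz.norm.const_mul _) (by positivity) (by positivity) ?_ ?_ fun w => ?_
  · have := eLp_sum_norm_le (Finset.range M) (fun j hj => hm j (Finset.mem_range.1 hj))
      (fun j hj => hPD j (Finset.mem_range.1 hj))
    rwa [Finset.card_range] at this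
  · exact eLp_const_mul_le (by positivity) (by rwa [eLpNorm_norm])
  · have h1 := norm_row_sub_le (M := M) hc (P w) (fun j => th ^ j • (A w ^ j) (z w))
    have h2 := norm_rotExp_sub_row_le (A w) (hb w) M (node M i) th (z w)
    have hx0 : 0 ≤ |node M i * th| * 2 := by positivity
    have hx : |node M i * th| * 2 ≤ 2 * th := by
      rw [abs_mul, abs_of_nonneg hth]
      nlinarith
    have h3 : (|node M i * th| * 2) ^ M * Real.exp (|node M i * th| * 2) ≤
        2 ^ M * Real.exp 2 * th ^ M := by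
      calc _ ≤ (2 * th) ^ M * Real.exp 2 := by
            refine mul_le_mul (pow_le_pow_left₀ hx0 hx M) (Real.exp_le_exp.2 (by linarith))
              (Real.exp_nonneg _) (by positivity)
        _ = _ := by rw [mul_pow]; ring
    calc ‖row M (node M i) (P w) - rotExp (A w) (node M i * th) (z w)‖
        ≤ ‖row M (node M i) (P w) - row M (node M i) (fun j => th ^ j • (A w ^ j) (z w))‖ +
          ‖row M (node M i) (fun j => th ^ j • (A w ^ j) (z w)) -
            rotExp (A w) (node M i * th) (z w)‖ := norm_sub_le_norm_sub_add_norm_sub _ _ _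
      _ ≤ _ := by
          refine add_le_add h1 ?_
          rw [norm_sub_rev]
          exact h2.trans (mul_le_mul_of_nonneg_right h3 (norm_nonneg _))

/-- One application of the pair map at the rows: the error of the next power. -/
theorem eLp_powStep_le
    (hA : ∀ g : Ω → K, AEStronglyMeasurable g μ → AEStronglyMeasurable (fun w => A w (g w)) μ)
    (hb : ∀ w, ‖A w‖ ≤ 2) (hz : AEStronglyMeasurable z μ) {G : ℝ} (hG : 0 ≤ G)
    (hzG : eLpNorm z 2 μ ≤ ENNReal.ofReal G) (hth : 0 ≤ th) (hth1 : th ≤ 1)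
    {P : Ω → ℕ → K} (hP : ∀ j < M, AEStronglyMeasurable (fun w => P w j) μ) {D : ℝ} (hD : 0 ≤ D)
    (hPD : ∀ j < M, eLpNorm (fun w => P w j - th ^ j • (A w ^ j) (z w)) 2 μ ≤ ENNReal.ofReal D)
    {T : Fin M → Ω → K} (hT : ∀ i, AEStronglyMeasurable (T i) μ) {e L : ℝ} (he : 0 ≤ e)
    (hL : 0 ≤ L)
    (hTe : ∀ i, eLpNorm (fun w => T i w - A w (rotExp (A w) (node M i * th) (z w))) 2 μ ≤
      ENNReal.ofReal e + ENNReal.ofReal L *
        eLpNorm (fun w => row M (node M i) (P w) - rotExp (A w) (node M i * th) (z w)) 2 μ)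
    {j : ℕ} (hj : j < M) {Dj : ℝ} (hDj : 0 ≤ Dj)
    (hPj : eLpNorm (fun w => P w j - th ^ j • (A w ^ j) (z w)) 2 μ ≤ ENNReal.ofReal Dj)
    (v : Ω → K) :
    eLpNorm (fun w => powStep M th (v w) (fun i => T i w) (j + 1)
        - th ^ (j + 1) • (A w ^ (j + 1)) (z w)) 2 μ ≤
      ENNReal.ofReal (th * 2 * Dj + th * (j.factorial : ℝ) * ruleSize M (coefFun j) *
        (M * (e + (L + 2) * (M * D + 2 ^ M * Real.exp 2 * th ^ M * G)))) := by
  set R : ℝ := M * D + 2 ^ M * Real.exp 2 * th ^ M * G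
  have hR : 0 ≤ R := by positivity
  have hrow := eLp_row_sub_rotExp_le hA hb hz hG hzG hth hth1 hP hD hPD
  have hrm : ∀ i : Fin M, AEStronglyMeasurable (fun w => row M (node M i) (P w)) μ := fun i =>
    Finset.aestronglyMeasurable_fun_sum _ fun j hj => (hP j (Finset.mem_range.1 hj)).const_smul _
  have hxm : ∀ i : Fin M, AEStronglyMeasurable (fun w => rotExp (A w) (node M i * th) (z w)) μ :=
    fun i => aestronglyMeasurable_rotExp hA hz _
  have hdm : ∀ i, AEStronglyMeasurable (fun w => T i w - A w (row M (node M i) (P w))) μ :=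
    fun i => (hT i).sub (hA _ (hrm i))
  have hd : ∀ i, eLpNorm (fun w => T i w - A w (row M (node M i) (P w))) 2 μ ≤
      ENNReal.ofReal (e + (L + 2) * R) := by
    intro i
    have h1 : eLpNorm (fun w => T i w - A w (rotExp (A w) (node M i * th) (z w))) 2 μ ≤
        ENNReal.ofReal (e + L * R) := by
      refine (hTe i).trans ?_
      rw [ENNReal.ofReal_add he (mul_nonneg hL hR), ENNReal.ofReal_mul hL]
      exact add_le_add le_rfl (mul_le_mul' le_rfl (hrow i))
    rw [show e + (L + 2) * R = (e + L * R) + 2 * R by ring]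
    refine eLp_le_of_norm_le
      (g₁ := fun w => ‖T i w - A w (rotExp (A w) (node M i * th) (z w))‖)
      (g₂ := fun w => 2 * ‖row M (node M i) (P w) - rotExp (A w) (node M i * th) (z w)‖)
      ((hT i).sub (hA _ (hxm i))).norm (((hrm i).sub (hxm i)).norm.const_mul _)
      (by positivity) (by positivity) (by rwa [eLpNorm_norm])
      (eLp_const_mul_le two_pos.le (by rw [eLpNorm_norm]; exact hrow i)) fun w => ?_
    refine (norm_sub_le_norm_sub_add_norm_sub (T i w) (A w (rotExp (A w) (node M i * th) (z w)))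
      (A w (row M (node M i) (P w)))).trans (add_le_add le_rfl ?_)
    rw [← map_sub, norm_sub_rev (row M (node M i) (P w))]
    exact ((A w).le_opNorm _).trans (mul_le_mul_of_nonneg_right (hb w) (norm_nonneg _))
  have hS : 0 ≤ ruleSize M (coefFun j) := Finset.sum_nonneg fun _ _ => abs_nonneg _
  refine eLp_le_of_norm_le
    (g₁ := fun w => th * 2 * ‖P w j - th ^ j • (A w ^ j) (z w)‖)
    (g₂ := fun w => th * (j.factorial : ℝ) * ruleSize M (coefFun j) *
      ∑ i, ‖T i w - A w (row M (node M i) (P w))‖)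
    (((hP j hj).sub ((aestronglyMeasurable_iterate hA hz j).const_smul _)).norm.const_mul _)
    ((Finset.aestronglyMeasurable_fun_sum _ fun i _ => (hdm i).norm).const_mul _)
    (by positivity) (by positivity) (eLp_const_mul_le (by positivity) (by rwa [eLpNorm_norm]))
    (eLp_const_mul_le (by positivity) ?_) fun w => ?_
  · have := eLp_sum_norm_le Finset.univ (fun i _ => hdm i) (a := e + (L + 2) * R)
      fun i _ => hd i
    simpa using this
  · have h := norm_powStep_iter_le hj hth (A w) (hb w) (z w) (P w) (fun i => T i w)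
      (e := ∑ i, ‖T i w - A w (row M (node M i) (P w))‖)
      (fun i => Finset.single_le_sum (f := fun i => ‖T i w - A w (row M (node M i) (P w))‖)
        (fun _ _ => norm_nonneg _) (Finset.mem_univ i))
    simpa only [powStep] using h

/-- The numbers of one step of the fixed point. -/
theorem rows_step_num {M : ℕ} {th L e δ G Dm S Q C₁ : ℝ} (hth : 0 ≤ th) (hL : 1 ≤ L) (he : 0 ≤ e)
    (hδ : 0 ≤ δ) (hG : 0 ≤ G) (hD : 0 ≤ Dm) (hS : 0 ≤ S) (hQ : (M : ℝ) + 2 ^ M * Real.exp 2 ≤ Q)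
    (hC : 2 + S * M * (1 + 3 * Q) ≤ C₁) {f : ℝ} (hf : f ≤ S) :
    th * 2 * (δ + Dm) + th * f * (M * (e + (L + 2) *
        ((M : ℝ) * (δ + Dm) + 2 ^ M * Real.exp 2 * th ^ M * G))) ≤
      C₁ * th * L * Dm + C₁ * th * (e + L * δ + L * th ^ M * G) := by
  set X : ℝ := δ + Dm + th ^ M * G with hX
  have hT : 0 ≤ th ^ M * G := by positivity
  have hX0 : 0 ≤ X := by linarith
  have hE : 0 ≤ 2 ^ M * Real.exp 2 := by positivity
  have hQ0 : 0 ≤ Q := le_trans (by positivity) hQ
  have hLX : X ≤ L * X := le_mul_of_one_le_left hX0 hL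
  have hR : (M : ℝ) * (δ + Dm) + 2 ^ M * Real.exp 2 * th ^ M * G ≤ Q * X := by
    calc _ ≤ (M : ℝ) * X + 2 ^ M * Real.exp 2 * X := by
          rw [mul_assoc _ (th ^ M) G]
          exact add_le_add (mul_le_mul_of_nonneg_left (by linarith) (Nat.cast_nonneg _))
            (mul_le_mul_of_nonneg_left (by linarith) hE)
      _ = ((M : ℝ) + 2 ^ M * Real.exp 2) * X := by ring
      _ ≤ _ := mul_le_mul_of_nonneg_right hQ hX0
  have h1 : e + (L + 2) * ((M : ℝ) * (δ + Dm) + 2 ^ M * Real.exp 2 * th ^ M * G) ≤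
      (1 + 3 * Q) * (e + L * X) := by
    have a := mul_le_mul (by linarith : L + 2 ≤ 3 * L) hR (by positivity) (by positivity)
    have b : 0 ≤ Q * e := mul_nonneg hQ0 he
    have c : 0 ≤ L * X := mul_nonneg (by linarith) hX0
    linear_combination a + 3 * b + c
  have hp : 0 ≤ e + L * X := add_nonneg he (mul_nonneg (by linarith) hX0)
  calc _ ≤ th * 2 * (e + L * X) + th * S * (M * ((1 + 3 * Q) * (e + L * X))) := by
        refine add_le_add (mul_le_mul_of_nonneg_left (by linarith) (by positivity))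
          (mul_le_mul (mul_le_mul_of_nonneg_left hf hth)
            (mul_le_mul_of_nonneg_left h1 (Nat.cast_nonneg _)) (by positivity) (by positivity))
    _ = (2 + S * M * (1 + 3 * Q)) * (th * (e + L * X)) := by ring
    _ ≤ C₁ * (th * (e + L * X)) := mul_le_mul_of_nonneg_right hC (by positivity)
    _ = _ := by rw [hX]; ring

/-- The inner iterations: the start is off by `δ`, every further power by a multiple of `th`. -/
theorem rows_inner (M : ℕ) (hM : 2 ≤ M) :
    ∃ C : ℝ, 1 ≤ C ∧ ∀ (K : Type) [NormedAddCommGroup K] [InnerProductSpace ℝ K] [CompleteSpace K]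
      (Ω : Type) [MeasurableSpace Ω] (μ : Measure Ω) (A : Ω → K →L[ℝ] K),
      (∀ g : Ω → K, AEStronglyMeasurable g μ → AEStronglyMeasurable (fun w => A w (g w)) μ) →
      (∀ w, ‖A w‖ ≤ 2) →
      ∀ z zh : Ω → K, AEStronglyMeasurable z μ → AEStronglyMeasurable zh μ →
      ∀ (G δ e L th : ℝ), 0 ≤ G → 0 ≤ δ → 0 ≤ e → 1 ≤ L → 0 < th → C * th * L ≤ 1 / 2 →
        eLpNorm z 2 μ ≤ ENNReal.ofReal G →
        eLpNorm (fun w => zh w - z w) 2 μ ≤ ENNReal.ofReal δ →
      ∀ (P : ℕ → Ω → ℕ → K) (Tin : ℕ → Fin M → Ω → K) (k : ℕ),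
        (∀ m < k, ∀ i, AEStronglyMeasurable (Tin m i) μ) →
        (∀ w j, j < M → P 0 w j = powInit (zh w) j) →
        (∀ m < k, ∀ w j, j < M → P (m + 1) w j = powStep M th (zh w) (fun i => Tin m i w) j) →
        (∀ m < k, ∀ i, eLpNorm (fun w => Tin m i w - A w (rotExp (A w) (node M i * th) (z w))) 2 μ ≤
          ENNReal.ofReal e + ENNReal.ofReal L *
            eLpNorm (fun w => row M (node M i) (P m w) - rotExp (A w) (node M i * th) (z w)) 2 μ) →
      ∀ m ≤ k,
        (∀ j < M, AEStronglyMeasurable (fun w => P m w j) μ) ∧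
        eLpNorm (fun w => P m w 0 - z w) 2 μ ≤ ENNReal.ofReal δ ∧
        ∀ j, 1 ≤ j → j < M → eLpNorm (fun w => P m w j - th ^ j • (A w ^ j) (z w)) 2 μ ≤
          ENNReal.ofReal (th * C * ((C * th * L) ^ m * G + (e + L * δ + L * th ^ M * G))) := by
  have hrs : ∀ j, 0 ≤ ruleSize M (coefFun j) := fun j =>
    Finset.sum_nonneg fun _ _ => abs_nonneg _
  set S : ℝ := ∑ j ∈ Finset.range M, (j.factorial : ℝ) * ruleSize M (coefFun j)
  have hS0 : 0 ≤ S := Finset.sum_nonneg fun j _ => mul_nonneg (Nat.cast_nonneg _) (hrs j)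
  have hSj : ∀ j < M, (j.factorial : ℝ) * ruleSize M (coefFun j) ≤ S := fun j hj =>
    Finset.single_le_sum (fun i _ => mul_nonneg (Nat.cast_nonneg _) (hrs i))
      (Finset.mem_range.2 hj)
  set Q : ℝ := (M : ℝ) + 2 ^ M * Real.exp 2
  have hQ0 : 0 ≤ Q := by positivity
  have h2M : (0 : ℝ) ≤ 2 ^ M := by positivity
  have hSQ : 0 ≤ S * M * (1 + 3 * Q) := by positivity
  set C₁ : ℝ := 2 + 2 ^ M + S * M * (1 + 3 * Q) with hC₁
  have hC₁1 : 1 ≤ C₁ := by linarith
  refine ⟨2 * C₁, by linarith, fun K _ _ _ Ω _ μ A hA hb z zh hz hzh G δ e L th hG hδ he hL hth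
    hsmall hzG hzd P Tin k hTin hP0 hP hTe => ?_⟩
  have hth1 : th ≤ 1 := by
    have h1 : 0 ≤ (2 * C₁ * L - 1) * th := mul_nonneg (by nlinarith) hth.le
    linarith
  set F : ℝ := e + L * δ + L * th ^ M * G with hF
  have hF0 : 0 ≤ F := by positivity
  set D : ℕ → ℝ := fun m => th * (2 * C₁) * ((2 * C₁ * th * L) ^ m * G + F) with hD
  have hD0 : ∀ m, 0 ≤ D m := fun m => by simp only [hD]; positivity
  intro m
  induction m with
  | zero =>
    refine fun _ => ⟨fun j hj => ?_, by simpa [hP0 _ 0 (by omega : 0 < M), powInit] using hzd,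
      fun j hj1 hj => ?_⟩
    · simp only [hP0 _ _ hj]
      cases j with
      | zero => simpa [powInit] using hzh
      | succ j => simpa [powInit] using aestronglyMeasurable_const
    · obtain ⟨j, rfl⟩ := Nat.exists_eq_add_of_le' hj1
      simp only [hP0 _ _ hj, powInit]
      refine le_trans (eLpNorm_mono_real (g := fun w => C₁ * th * ‖z w‖) fun w => ?_)
        ((eLp_const_mul_le (by positivity) (by rwa [eLpNorm_norm])).trans
          (ENNReal.ofReal_le_ofReal ?_))
      · rw [zero_sub, norm_neg, norm_smul, Real.norm_eq_abs, abs_of_nonneg (by positivity)]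
        have h1 : ‖(A w ^ (j + 1)) (z w)‖ ≤ 2 ^ (j + 1) * ‖z w‖ :=
          ((A w ^ (j + 1)).le_opNorm _).trans (mul_le_mul_of_nonneg_right
            ((norm_pow_le' (A w) (Nat.succ_pos j)).trans
              (pow_le_pow_left₀ (norm_nonneg _) (hb w) _)) (norm_nonneg _))
        have h2 : th ^ (j + 1) ≤ th := pow_le_of_le_one hth.le hth1 (Nat.succ_ne_zero j)
        have h3 : (2 : ℝ) ^ (j + 1) ≤ C₁ := by
          have : (2 : ℝ) ^ (j + 1) ≤ 2 ^ M := pow_le_pow_right₀ one_le_two hj.le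
          linarith
        calc th ^ (j + 1) * ‖(A w ^ (j + 1)) (z w)‖ ≤ th * (C₁ * ‖z w‖) :=
              mul_le_mul h2 (h1.trans (mul_le_mul_of_nonneg_right h3 (norm_nonneg _)))
                (norm_nonneg _) hth.le
          _ = _ := by ring
      · simp only [pow_zero, one_mul]
        have : 0 ≤ C₁ * th * (G + 2 * F) := by positivity
        linarith
  | succ m ih =>
    intro hm
    obtain ⟨hmeas, h0, hj⟩ := ih (by omega)
    refine ⟨fun j hjM => ?_, by simpa [hP m (by omega) _ 0 (by omega : 0 < M), powStep] using hzd,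
      fun j hj1 hjM => ?_⟩
    · simp only [hP m (by omega) _ _ hjM]
      cases j with
      | zero => simpa [powStep] using hzh
      | succ j =>
        simp only [powStep]
        exact (Finset.aestronglyMeasurable_fun_sum _ fun i _ =>
          (hTin m (by omega) i).const_smul _).const_smul _
    obtain ⟨j, rfl⟩ := Nat.exists_eq_add_of_le' hj1
    simp only [hP m (by omega) _ _ hjM]
    have hall : ∀ i < M, eLpNorm (fun w => P m w i - th ^ i • (A w ^ i) (z w)) 2 μ ≤
        ENNReal.ofReal (δ + D m) := by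
      intro i hi
      rcases Nat.eq_zero_or_pos i with rfl | hi0
      · simpa using h0.trans (ENNReal.ofReal_le_ofReal (le_add_of_nonneg_right (hD0 m)))
      · exact (hj i hi0 hi).trans (ENNReal.ofReal_le_ofReal (le_add_of_nonneg_left hδ))
    have hδD : 0 ≤ δ + D m := add_nonneg hδ (hD0 m)
    refine (eLp_powStep_le hA hb hz hG hzG hth.le hth1 hmeas hδD hall
      (hTin m (by omega)) he (zero_le_one.trans hL) (hTe m (by omega)) (Nat.lt_of_succ_lt hjM) hδD
      (hall j (Nat.lt_of_succ_lt hjM)) zh).trans (ENNReal.ofReal_le_ofReal ?_)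
    rw [mul_assoc th (j.factorial : ℝ)]
    refine (rows_step_num (Q := Q) (C₁ := C₁) hth.le hL he hδ hG (hD0 m) hS0 le_rfl (by linarith)
      (hSj j (Nat.lt_of_succ_lt hjM))).trans ?_
    have h2 : C₁ * th * L * D m ≤ th * (2 * C₁) * (C₁ * th * L * (2 * C₁ * th * L) ^ m * G)
        + C₁ * th * F := by
      have h3 : (2 * C₁ * th * L) * (th * C₁ * F) ≤ 1 / 2 * (th * C₁ * F) :=
        mul_le_mul_of_nonneg_right hsmall (by positivity)
      have h4 : 0 ≤ th * C₁ * F := by positivity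
      simp only [hD]
      linear_combination h3 + (1 / 2 : ℝ) * h4
    have h5 : 0 ≤ th * (2 * C₁) * (C₁ * th * L * (2 * C₁ * th * L) ^ m * G) := by positivity
    rw [pow_succ]
    linear_combination h2 + h5

/-- The numbers of the last application. -/
theorem rows_final_num {M : ℕ} (hM : 1 ≤ M) {th L' e e' δ G Dk S Q C₀ p : ℝ} (hth : 0 < th)
    (hth1 : th ≤ 1) (hL' : 1 ≤ L') (he : 0 ≤ e) (he' : 0 ≤ e') (hδ : 0 ≤ δ) (hG : 0 ≤ G)
    (hp : 0 ≤ p) (hS : 0 ≤ S) (hQ : (M : ℝ) + 2 ^ M * Real.exp 2 ≤ Q) (hC₀ : 0 ≤ C₀)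
    (hDk0 : 0 ≤ Dk) (hD : th⁻¹ * Dk ≤ C₀ * (th⁻¹ * δ + e + (p + th ^ (M - 1)) * G)) :
    (th ^ 2)⁻¹ * (th * 2 * Dk + th * S * (M * (e' + (L' + 2) *
        ((M : ℝ) * (δ + Dk) + 2 ^ M * Real.exp 2 * th ^ M * G)))) ≤
      (2 * C₀ + S * M * (1 + 3 * Q * (2 + C₀))) *
        (th⁻¹ * e' + L' * (th⁻¹ * δ + e + (p + th ^ (M - 1)) * G)) := by
  set W : ℝ := th⁻¹ * δ + e + (p + th ^ (M - 1)) * G with hW
  have hiδ : δ ≤ th⁻¹ * δ := le_mul_of_one_le_left hδ (one_le_inv_iff₀.2 ⟨hth, hth1⟩)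
  have h4 : 0 ≤ th⁻¹ * δ := by positivity
  have h5 : 0 ≤ th ^ (M - 1) * G := by positivity
  have h6 : 0 ≤ p * G := by positivity
  have hW0 : 0 ≤ W := by positivity
  have hQ0 : 0 ≤ Q := le_trans (by positivity) hQ
  have hpM : th ^ M = th * th ^ (M - 1) := by
    rw [← pow_succ']; congr 1; omega
  have e4 : th⁻¹ * ((M : ℝ) * (δ + Dk) + 2 ^ M * Real.exp 2 * th ^ M * G) =
      (M : ℝ) * (th⁻¹ * δ + th⁻¹ * Dk) + 2 ^ M * Real.exp 2 * (th ^ (M - 1) * G) := by
    rw [hpM]; field_simp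
  have hR : th⁻¹ * ((M : ℝ) * (δ + Dk) + 2 ^ M * Real.exp 2 * th ^ M * G) ≤
      Q * ((2 + C₀) * W) := by
    have hCW : 0 ≤ C₀ * W := mul_nonneg hC₀ hW0
    have hWe : W = th⁻¹ * δ + e + p * G + th ^ (M - 1) * G := by rw [hW]; ring
    rw [e4]
    calc _ ≤ (M : ℝ) * ((2 + C₀) * W) + 2 ^ M * Real.exp 2 * ((2 + C₀) * W) :=
          add_le_add (mul_le_mul_of_nonneg_left (by linarith) (Nat.cast_nonneg _))
            (mul_le_mul_of_nonneg_left (by linarith) (by positivity))
      _ = ((M : ℝ) + 2 ^ M * Real.exp 2) * ((2 + C₀) * W) := by ring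
      _ ≤ _ := mul_le_mul_of_nonneg_right hQ (by positivity)
  calc _ = 2 * (th⁻¹ * Dk) + S * (M * (th⁻¹ * e' + (L' + 2) *
        (th⁻¹ * ((M : ℝ) * (δ + Dk) + 2 ^ M * Real.exp 2 * th ^ M * G)))) := by field_simp
    _ ≤ 2 * (C₀ * W) + S * (M * (th⁻¹ * e' + 3 * L' * (Q * ((2 + C₀) * W)))) :=
        add_le_add (mul_le_mul_of_nonneg_left hD two_pos.le) (mul_le_mul_of_nonneg_left
          (mul_le_mul_of_nonneg_left (add_le_add le_rfl (mul_le_mul (by linarith) hR
            (by positivity) (by positivity))) (Nat.cast_nonneg _)) hS)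
    _ ≤ _ := by
        have a1 : 2 * (C₀ * W) ≤ 2 * (C₀ * (L' * W)) :=
          mul_le_mul_of_nonneg_left (mul_le_mul_of_nonneg_left
            (le_mul_of_one_le_left hW0 hL') hC₀) two_pos.le
        have a2 : 0 ≤ C₀ * (th⁻¹ * e') := by positivity
        have a3 : 0 ≤ S * M * (3 * Q * (2 + C₀)) * (th⁻¹ * e') := by positivity
        have a4 : 0 ≤ S * M * (L' * W) := by positivity
        linear_combination a1 + 2 * a2 + a3 + a4

/-- The fixed point, read back at the first coefficient, gives the square. -/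
theorem rows_error (M : ℕ) (hM : 2 ≤ M) :
    ∃ C : ℝ, 1 ≤ C ∧ ∀ (K : Type) [NormedAddCommGroup K] [InnerProductSpace ℝ K] [CompleteSpace K]
      (Ω : Type) [MeasurableSpace Ω] (μ : Measure Ω) (A : Ω → K →L[ℝ] K),
      (∀ g : Ω → K, AEStronglyMeasurable g μ → AEStronglyMeasurable (fun w => A w (g w)) μ) →
      (∀ w, ‖A w‖ ≤ 2) →
      ∀ z zh : Ω → K, AEStronglyMeasurable z μ → AEStronglyMeasurable zh μ →
      ∀ (G δ e e' L L' th : ℝ), 0 ≤ G → 0 ≤ δ → 0 ≤ e → 0 ≤ e' → 1 ≤ L → 1 ≤ L' → 0 < th →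
        C * th * L ≤ 1 / 2 →
        eLpNorm z 2 μ ≤ ENNReal.ofReal G →
        eLpNorm (fun w => zh w - z w) 2 μ ≤ ENNReal.ofReal δ →
      ∀ (P : ℕ → Ω → ℕ → K) (Tin : ℕ → Fin M → Ω → K) (k : ℕ),
        (∀ m < k, ∀ i, AEStronglyMeasurable (Tin m i) μ) →
        (∀ w j, j < M → P 0 w j = powInit (zh w) j) →
        (∀ m < k, ∀ w j, j < M → P (m + 1) w j = powStep M th (zh w) (fun i => Tin m i w) j) →
        (∀ m < k, ∀ i, eLpNorm (fun w => Tin m i w - A w (rotExp (A w) (node M i * th) (z w))) 2 μ ≤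
          ENNReal.ofReal e + ENNReal.ofReal L *
            eLpNorm (fun w => row M (node M i) (P m w) - rotExp (A w) (node M i * th) (z w)) 2 μ) →
      ∀ Tout : Fin M → Ω → K, (∀ i, AEStronglyMeasurable (Tout i) μ) →
        (∀ i, eLpNorm (fun w => Tout i w - A w (rotExp (A w) (node M i * th) (z w))) 2 μ ≤
          ENNReal.ofReal e' + ENNReal.ofReal L' *
            eLpNorm (fun w => row M (node M i) (P k w) - rotExp (A w) (node M i * th) (z w)) 2 μ) →
        eLpNorm (fun w => th⁻¹ • ∑ i, ruleWeight M (coefFun 1) i • Tout i w - A w (A w (z w))) 2 μ ≤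
          ENNReal.ofReal (C * (th⁻¹ * (e' + L' * δ) +
            L' * (e + ((C * th * L) ^ k + th ^ (M - 1)) * G))) := by
  obtain ⟨C₀, hC₀, hinner⟩ := rows_inner M hM
  set S : ℝ := ((1 : ℕ).factorial : ℝ) * ruleSize M (coefFun 1)
  have hS0 : 0 ≤ S := mul_nonneg (Nat.cast_nonneg _) (Finset.sum_nonneg fun _ _ => abs_nonneg _)
  set Q : ℝ := (M : ℝ) + 2 ^ M * Real.exp 2
  have hQ0 : 0 ≤ Q := by positivity
  set C : ℝ := 2 * C₀ + S * M * (1 + 3 * Q * (2 + C₀))
  have hCC : C₀ ≤ C := by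
    have : 0 ≤ S * M * (1 + 3 * Q * (2 + C₀)) := by positivity
    linarith
  refine ⟨C, hC₀.trans hCC, fun K _ _ _ Ω _ μ A hA hb z zh hz hzh G δ e e' L L' th hG hδ he he' hL
    hL' hth hsmall hzG hzd P Tin k hTin hP0 hP hTe Tout hTout hTe' => ?_⟩
  have hsm0 : C₀ * th * L ≤ C * th * L := by gcongr
  have hthL : th * L ≤ 1 := by
    have : 0 ≤ (C - 1) * (th * L) := mul_nonneg (by linarith) (by positivity)
    linarith
  have hth1 : th ≤ 1 := le_trans (le_mul_of_one_le_right hth.le hL) hthL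
  obtain ⟨hmeas, h0, hj⟩ := hinner K Ω μ A hA hb z zh hz hzh G δ e L th hG hδ he hL hth
    (hsm0.trans hsmall) hzG hzd P Tin k hTin hP0 hP hTe k le_rfl
  set Dk : ℝ := th * C₀ * ((C₀ * th * L) ^ k * G + (e + L * δ + L * th ^ M * G)) with hDk
  have hDk0 : 0 ≤ Dk := by positivity
  have hall : ∀ i < M, eLpNorm (fun w => P k w i - th ^ i • (A w ^ i) (z w)) 2 μ ≤
      ENNReal.ofReal (δ + Dk) := by
    intro i hi
    rcases Nat.eq_zero_or_pos i with rfl | hi0
    · simpa using h0.trans (ENNReal.ofReal_le_ofReal (le_add_of_nonneg_right hDk0))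
    · exact (hj i hi0 hi).trans (ENNReal.ofReal_le_ofReal (le_add_of_nonneg_left hδ))
  have last := eLp_powStep_le hA hb hz hG hzG hth.le hth1 hmeas (add_nonneg hδ hDk0)
    hall hTout he' (zero_le_one.trans hL') hTe' (j := 1) (by omega) hDk0
    (hj 1 le_rfl (by omega)) zh
  have e2 : (fun w => th⁻¹ • ∑ i, ruleWeight M (coefFun 1) i • Tout i w - A w (A w (z w))) =
      (th ^ 2)⁻¹ • fun w => powStep M th (zh w) (fun i => Tout i w) (1 + 1)
        - th ^ (1 + 1) • (A w ^ (1 + 1)) (z w) := by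
    funext w
    simp only [Pi.smul_apply, powStep, Nat.factorial_one, Nat.cast_one, mul_one, smul_sub,
      smul_smul, one_add_one_eq_two, pow_two, mul_apply_eq_comp]
    congr 1
    · congr 1; field_simp
    · rw [inv_mul_cancel₀ (mul_ne_zero hth.ne' hth.ne'), one_smul]
  rw [e2, eLpNorm_const_smul, Real.enorm_eq_ofReal_abs, abs_of_nonneg (by positivity)]
  refine (mul_le_mul' le_rfl last).trans ?_
  rw [← ENNReal.ofReal_mul (by positivity)]
  refine ENNReal.ofReal_le_ofReal ?_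
  rw [mul_assoc th ((1 : ℕ).factorial : ℝ)]
  refine (rows_final_num (M := M) (Q := Q) (C₀ := C₀) (p := (C * th * L) ^ k) (by omega) hth hth1
    hL' he he' hδ hG (by positivity) hS0 le_rfl (by linarith) hDk0 ?_).trans (le_of_eq (by ring))
  have h1 : L * δ ≤ th⁻¹ * δ := mul_le_mul_of_nonneg_right
    (by rw [← one_div, le_div_iff₀ hth, mul_comm]; exact hthL) hδ
  have h2 : L * th ^ M * G ≤ th ^ (M - 1) * G := by
    rw [show th ^ M = th * th ^ (M - 1) by rw [← pow_succ']; congr 1; omega, ← mul_assoc]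
    refine mul_le_mul_of_nonneg_right (mul_le_of_le_one_left (by positivity) ?_) hG
    rw [mul_comm]; exact hthL
  have h3 : (C₀ * th * L) ^ k * G ≤ (C * th * L) ^ k * G :=
    mul_le_mul_of_nonneg_right (pow_le_pow_left₀ (by positivity) hsm0 k) hG
  calc th⁻¹ * Dk = C₀ * ((C₀ * th * L) ^ k * G + (e + L * δ + L * th ^ M * G)) := by
        rw [hDk]; field_simp
    _ ≤ _ := mul_le_mul_of_nonneg_left (by linarith) (by linarith)

end Hilbert

section Pair

variable {E : Type} [NormedAddCommGroup E] [InnerProductSpace ℝ E] [FiniteDimensional ℝ E]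
  {Ω : Type} [MeasurableSpace Ω] {μ : Measure Ω}

omit [FiniteDimensional ℝ E] in
/-- Measurability of the pair map. -/
theorem aestronglyMeasurable_skewPair {B : Ω → E →L[ℝ] E}
    (hB : ∀ g : Ω → E, AEStronglyMeasurable g μ → AEStronglyMeasurable (fun w => B w (g w)) μ)
    {g : Ω → WithLp 2 (E × E)} (hg : AEStronglyMeasurable g μ) :
    AEStronglyMeasurable (fun w => skewPair (B w) (g w)) μ := by
  have h1 : AEStronglyMeasurable (fun w => (g w).ofLp.1) μ :=
    (continuous_fst.comp (WithLp.prodContinuousLinearEquiv 2 ℝ E E).continuous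
      ).comp_aestronglyMeasurable hg
  have h2 : AEStronglyMeasurable (fun w => (g w).ofLp.2) μ :=
    (continuous_snd.comp (WithLp.prodContinuousLinearEquiv 2 ℝ E E).continuous
      ).comp_aestronglyMeasurable hg
  simp only [skewPair_apply]
  exact (WithLp.prodContinuousLinearEquiv 2 ℝ E E).symm.continuous.comp_aestronglyMeasurable
    ((hB _ h2).prodMk (hB _ h1).neg)

omit [FiniteDimensional ℝ E] in
/-- The first component read back with a sign is the square of `B` at the first component. -/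
theorem norm_square_fst_le (B : E →L[ℝ] E) (v z : WithLp 2 (E × E)) :
    ‖-v.ofLp.1 - B (B z.ofLp.1)‖ ≤ ‖v - skewPair B (skewPair B z)‖ := by
  have h : ‖(v - skewPair B (skewPair B z)).ofLp.1‖ ≤ ‖v - skewPair B (skewPair B z)‖ := by
    refine le_of_pow_le_pow_left₀ two_ne_zero (norm_nonneg _) ?_
    rw [WithLp.prod_norm_sq_eq_of_L2]
    exact le_add_of_nonneg_right (sq_nonneg _)
  rw [WithLp.ofLp_sub, Prod.fst_sub, skewPair_skewPair] at h
  rw [skewPair_skewPair, ← norm_neg]
  simpa [neg_sub, sub_neg_eq_add, add_comm] using h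

omit [FiniteDimensional ℝ E] in
/-- The square of `B` at the first component, in mean square. -/
theorem eLp_square_fst_le {B : Ω → E →L[ℝ] E} {v z : Ω → WithLp 2 (E × E)} :
    eLpNorm (fun w => -(v w).ofLp.1 - B w (B w (z w).ofLp.1)) 2 μ ≤
      eLpNorm (fun w => v w - skewPair (B w) (skewPair (B w) (z w))) 2 μ :=
  eLpNorm_mono fun w => norm_square_fst_le (B w) (v w) (z w)

end Pair

end

end P347.Zero
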