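import Vale.Agent.P347.Zero.BuildNear
import Vale.Agent.P347.Zero.RowsErr
import Vale.Agent.P347.Zero.Truth

/-!
# P347: the square of the derivative of the score, as a block of a circuit

A block for the derivative of the score applied to a seed is used twice per node of the rotation
and per iteration; the last application is read back with `th⁻¹`. The blur, the error, the
Lipschitz constant and the distance to the truth go through the same recursion.
-/

namespace P347.Zero

open MeasureTheory ProbabilityTheory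
open scoped ENNReal

noncomputable section

variable {d : ℕ} {En : Env d}

namespace Bld

/-- Under the law of `T` Gaussians and the random ideal, `Fξ` is a standard Gaussian independent
of `Fz`. -/
def SeedAt (En : Env d) (T : ℕ) (Fz Fξ : Truth En) : Prop :=
  ∀ V : Space d → ℝ, Quarter.InClass V → ∀ c : Space d, ∃ ν : Measure (Space d),
    IsProbabilityMeasure ν ∧ MeasurePreserving
      (fun p : En.X × (Fin T → Space d) =>
        (Fz V c p.1 (extFun p.2), Fξ V c p.1 (extFun p.2)))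
      (En.law.prod (famLaw d (Fin T))) (ν.prod (stdGaussian (Space d)))

/-- The derivative of the score at `Fz`, applied to `Fξ`. -/
def tanTruth (r : ℝ) (Fz Fξ : Truth En) : Truth En :=
  fun V c x ξ => scoreD V r (Fz V c x ξ) (Fξ V c x ξ)

/-- Sizes of a block for the derivative of the score. -/
structure TanNum where
  /-- The number of gates. -/
  K : ℕ
  /-- The blur it tolerates. -/
  tol : ℝ
  /-- The blur it hands on. -/
  out : ℝ
  /-- Its own error. -/
  src : ℝ
  /-- Its own Lipschitz constant. -/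
  srcL : ℝ
  /-- Its own distance to the truth. -/
  srcD : ℝ
  /-- Its slope in the seed, for the error and the Lipschitz constant. -/
  L : ℝ
  /-- Its slope in the seed, for the distance. -/
  Ld : ℝ
  /-- The largest distance of a seed to its truth that it takes. -/
  Dmax : ℝ
  out_nonneg : 0 ≤ out
  src_nonneg : 0 ≤ src
  srcL_nonneg : 0 ≤ srcL
  srcD_nonneg : 0 ≤ srcD
  one_le_L : 1 ≤ L
  one_le_Ld : 1 ≤ Ld

/-- A block for the derivative of the score at `Fz` with sizes `N`, available in every extension. -/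
def TanStep (S : Bld En) (r : ℝ) (Fz : Truth En) (N : TanNum) : Prop :=
  ∀ (A : Bld En), S.Ext A → A.Ok → A.len + N.K ≤ A.circ.T →
    ∀ (φ : Form) (nz e lp D : ℝ) (Fξ : Truth En), 0 ≤ e → 0 ≤ lp → 0 ≤ D →
      A.Has φ nz e lp → nz ≤ N.tol → D ≤ N.Dmax → TMeas Fξ → SeedAt En A.circ.T Fz Fξ → A.Near φ Fξ D →
      ∃ (B : Bld En) (ψ : Form), A.Ext B ∧ B.Ok ∧ B.len ≤ A.len + N.K ∧
        B.Has ψ N.out (N.src + N.L * e) (N.srcL + N.L * lp) ∧
        B.Near ψ (tanTruth r Fz Fξ) (N.srcD + N.Ld * D)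

theorem TanStep.ext {S S' : Bld En} {r : ℝ} {Fz : Truth En} {N : TanNum} (h : S.TanStep r Fz N)
    (he : S.Ext S') : S'.TanStep r Fz N :=
  fun A hA => h A (he.trans hA)

theorem eval_sum_smul {ι : Type} (S : Bld En) (V : Space d → ℝ) (c : Space d) (x : En.X)
    (ξ : ℕ → Space d) (s : Finset ι) (a : ι → ℝ) (φ : ι → Form) :
    S.eval V c x ξ (∑ i ∈ s, a i • φ i) = ∑ i ∈ s, a i • S.eval V c x ξ (φ i) := by
  classical
  induction s using Finset.induction_on with
  | empty => simp [eval_zero]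
  | insert i s hi ih => simp only [Finset.sum_insert hi, eval_add, eval_smul, ih]

/-! ## The truths of the rows -/

/-- A component of a pair. -/
def pick (k : Fin 2) (u : Space d × Space d) : Space d := if k = 0 then u.1 else u.2

/-- A component of the rotated seed. -/
def rotTruth (r a : ℝ) (Fz Fu Fg : Truth En) (k : Fin 2) : Truth En :=
  fun V c x ξ => pick k (seedRot V r a (Fz V c x ξ) (Fu V c x ξ) (Fg V c x ξ))

/-- The square of the derivative of the score at `Fz`, applied to `Fu`. -/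
def sqTruth (r : ℝ) (Fz Fu : Truth En) : Truth En :=
  fun V c x ξ => scoreD V r (Fz V c x ξ) (scoreD V r (Fz V c x ξ) (Fu V c x ξ))

/-- Under the law of `T` Gaussians and the random ideal, `Fu` and `Fg` are independent standard
Gaussians independent of `Fz`. -/
def PairSeedAt (En : Env d) (T : ℕ) (Fz Fu Fg : Truth En) : Prop :=
  ∀ V : Space d → ℝ, Quarter.InClass V → ∀ c : Space d, ∃ ν : Measure (Space d),
    IsProbabilityMeasure ν ∧ MeasurePreserving
      (fun p : En.X × (Fin T → Space d) => (Fz V c p.1 (extFun p.2),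
        (Fu V c p.1 (extFun p.2), Fg V c p.1 (extFun p.2))))
      (En.law.prod (famLaw d (Fin T)))
      (ν.prod ((stdGaussian (Space d)).prod (stdGaussian (Space d))))

theorem continuous_pick (k : Fin 2) : Continuous (pick (d := d) k) := by
  unfold pick; split_ifs <;> fun_prop

section
attribute [local irreducible] seedRot pick extFun

theorem tmeas_rotTruth {r : ℝ} (hr : 0 < r) (a : ℝ) {Fz Fu Fg : Truth En} (hz : TMeas Fz)
    (hu : TMeas Fu) (hg : TMeas Fg) (k : Fin 2) : TMeas (rotTruth r a Fz Fu Fg k) :=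
  fun V hV c => by
    have h1 : Measurable fun q : Space d × (Space d × Space d) =>
        pick k (seedRot V r a q.1 q.2.1 q.2.2) :=
      (continuous_pick k).measurable.comp (continuous_seedRot hV hr a).measurable
    have h2 := (hz V hV c).prodMk ((hu V hV c).prodMk (hg V hV c))
    simp only [rotTruth]
    exact h1.comp h2

end

theorem measurable_scoreD_apply {V : Space d → ℝ} (hV : Quarter.InClass V) {r : ℝ} (hr : 0 < r) :
    Measurable fun q : Space d × Space d => scoreD V r q.1 q.2 :=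
  (((continuous_scoreD hV hr).comp continuous_fst).clm_apply continuous_snd).measurable

theorem tmeas_tanTruth {r : ℝ} (hr : 0 < r) {Fz Fξ : Truth En} (hz : TMeas Fz) (hξ : TMeas Fξ) :
    TMeas (tanTruth r Fz Fξ) :=
  fun V hV c => (measurable_scoreD_apply hV hr).comp ((hz V hV c).prodMk (hξ V hV c))

theorem tmeas_sqTruth {r : ℝ} (hr : 0 < r) {Fz Fu : Truth En} (hz : TMeas Fz) (hu : TMeas Fu) :
    TMeas (sqTruth r Fz Fu) :=
  tmeas_tanTruth hr hz (tmeas_tanTruth hr hz hu)

theorem seedAt_rotTruth {T : ℕ} {r : ℝ} (hr : 0 < r) (a : ℝ) {Fz Fu Fg : Truth En}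
    (h : PairSeedAt En T Fz Fu Fg) (k : Fin 2) : SeedAt En T Fz (rotTruth r a Fz Fu Fg k) := by
  intro V hV c
  obtain ⟨ν, hν, hlaw⟩ := h V hV c
  refine ⟨ν, hν, ?_⟩
  have hR : MeasurePreserving
      (fun x : Space d × (Space d × Space d) => (x.1, seedRot V r a x.1 x.2.1 x.2.2))
      (ν.prod ((stdGaussian (Space d)).prod (stdGaussian (Space d))))
      (ν.prod ((stdGaussian (Space d)).prod (stdGaussian (Space d)))) :=
    (MeasurePreserving.id ν).skew_product (g := fun z (p : Space d × Space d) =>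
      seedRot V r a z p.1 p.2) (continuous_seedRot hV hr a).measurable
      (Filter.Eventually.of_forall fun z => map_seedRot hV hr a z)
  have hp : MeasurePreserving (pick (d := d) k)
      ((stdGaussian (Space d)).prod (stdGaussian (Space d))) (stdGaussian (Space d)) := by
    unfold pick
    split_ifs
    · exact measurePreserving_fst
    · exact measurePreserving_snd
  exact (((MeasurePreserving.id ν).prod hp).comp hR).comp hlaw

/-! ## The recursion -/

variable (M : ℕ)

/-- The bound of a rule. -/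
def powBound : ℝ := 1 + ∑ j ∈ Finset.range M, (j.factorial : ℝ) * ruleSize M (coefFun j)

/-- The constant of the block. -/
def rowsConst : ℝ :=
  4 * (2 + 2 ^ M + powBound M * (M + 1) * (1 + 3 * ((M : ℝ) + 2 ^ M * Real.exp 2))) +
    powBound M * (M + 1) * (1 + 3 * ((M : ℝ) + 2 ^ M * Real.exp 2) *
      (2 + 2 * (2 + 2 ^ M + powBound M * (M + 1) * (1 + 3 * ((M : ℝ) + 2 ^ M * Real.exp 2)))))

theorem one_le_powBound : 1 ≤ powBound M :=
  le_add_of_nonneg_right (Finset.sum_nonneg fun _ _ =>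
    mul_nonneg (Nat.cast_nonneg _) (Finset.sum_nonneg fun _ _ => abs_nonneg _))

theorem le_powBound {j : ℕ} (hj : j < M) :
    (j.factorial : ℝ) * ruleSize M (coefFun j) ≤ powBound M :=
  (Finset.single_le_sum (f := fun j => (j.factorial : ℝ) * ruleSize M (coefFun j))
    (fun _ _ => mul_nonneg (Nat.cast_nonneg _) (Finset.sum_nonneg fun _ _ => abs_nonneg _))
    (Finset.mem_range.2 hj)).trans (le_add_of_nonneg_left zero_le_one)

theorem rowsConst_bounds :
    (M + 1 : ℝ) * powBound M * 4 ≤ rowsConst M ∧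
      2 * (2 + 2 ^ M + powBound M * M * (1 + 3 * ((M : ℝ) + 2 ^ M * Real.exp 2))) ≤ rowsConst M ∧
      1 ≤ rowsConst M := by
  have h1 := one_le_powBound M
  have hP : 0 ≤ powBound M := by linarith
  have hM : (0 : ℝ) ≤ M := Nat.cast_nonneg M
  have h2 : (0 : ℝ) ≤ 2 ^ M := by positivity
  set Q : ℝ := (M : ℝ) + 2 ^ M * Real.exp 2
  have hQ : 0 ≤ Q := by positivity
  have hA : powBound M * (M + 1) ≤ powBound M * (M + 1) * (1 + 3 * Q) :=
    le_mul_of_one_le_right (by positivity) (by linarith)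
  have hB : powBound M * M * (1 + 3 * Q) ≤ powBound M * (M + 1) * (1 + 3 * Q) :=
    mul_le_mul_of_nonneg_right (mul_le_mul_of_nonneg_left (by linarith) hP) (by linarith)
  have hC : 0 ≤ powBound M * (M + 1) *
      (1 + 3 * Q * (2 + 2 * (2 + 2 ^ M + powBound M * (M + 1) * (1 + 3 * Q)))) := by positivity
  have hD : 0 ≤ powBound M * (M + 1) * (1 + 3 * Q) := by positivity
  refine ⟨?_, ?_, ?_⟩ <;> unfold rowsConst <;> simp only [Q] at * <;> linarith

variable {M}

/-- The ideal values of a pair of forms. -/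
def pairVal (S : Bld En) (V : Space d → ℝ) (c : Space d) (φ : Fin 2 → Form)
    (p : En.X × (Fin S.circ.T → Space d)) : WithLp 2 (Space d × Space d) :=
  WithLp.toLp 2 (S.evalFun V c (φ 0) p, S.evalFun V c (φ 1) p)

/-- A pair of forms is within `D` of the pair of truths. -/
def NearPair (S : Bld En) (φ : Fin 2 → Form) (j : ℕ) (th r : ℝ) (Fz Fu Fg : Truth En) (D : ℝ) :
    Prop :=
  ∀ V : Space d → ℝ, Quarter.InClass V → ∀ c : Space d,
    eLpNorm (fun p : En.X × (Fin S.circ.T → Space d) => S.pairVal V c φ p -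
        th ^ j • ((skewPair (scoreD V r (S.truthFun Fz V c p))) ^ j)
          (WithLp.toLp 2 (S.truthFun Fu V c p, S.truthFun Fg V c p))) 2 S.idealLaw
      ≤ ENNReal.ofReal (D * (√d + ‖c‖))

theorem Ext.nearPair {S S' : Bld En} (h : S.Ext S') {φ : Fin 2 → Form}
    (hb : ∀ k, (φ k).Below S.len) {j : ℕ} {th r : ℝ} {Fz Fu Fg : Truth En} {D : ℝ}
    (hn : S.NearPair φ j th r Fz Fu Fg D) : S'.NearPair φ j th r Fz Fu Fg D := by
  intro V hV c
  simp only [pairVal, truthFun, evalFun, idealLaw]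
  rw [h.T]
  simp only [h.eval V c _ _ (hb 0), h.eval V c _ _ (hb 1)]
  exact hn V hV c

theorem norm_toLp_le (a b : Space d) : ‖WithLp.toLp 2 (a, b)‖ ≤ ‖a‖ + ‖b‖ := by
  refine le_of_pow_le_pow_left₀ two_ne_zero (by positivity) ?_
  rw [WithLp.prod_norm_sq_eq_of_L2]
  simp only [WithLp.toLp_fst, WithLp.toLp_snd]
  nlinarith [norm_nonneg a, norm_nonneg b]

theorem norm_pick_le (k : Fin 2) (v : WithLp 2 (Space d × Space d)) : ‖pick k v.ofLp‖ ≤ ‖v‖ := by
  refine le_of_pow_le_pow_left₀ two_ne_zero (norm_nonneg _) ?_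
  rw [WithLp.prod_norm_sq_eq_of_L2]
  unfold pick
  split_ifs
  · exact le_add_of_nonneg_right (sq_nonneg _)
  · exact le_add_of_nonneg_left (sq_nonneg _)

theorem pick_row (k : Fin 2) (m : ℕ) (a : ℝ) (P : ℕ → WithLp 2 (Space d × Space d)) :
    pick k (row m a P).ofLp =
      ∑ j ∈ Finset.range m, (a ^ j / (j.factorial : ℝ)) • pick k (P j).ofLp := by
  unfold pick
  split_ifs <;> simp [row, WithLp.ofLp_sum, Prod.fst_sum, Prod.snd_sum]

/-- The two rows at a node. -/
def rowForm (M : ℕ) (φ : ℕ → Fin 2 → Form) (i : Fin M) (k : Fin 2) : Form :=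
  ∑ j ∈ Finset.range M, (node M i ^ j / (j.factorial : ℝ)) • φ j k

theorem has_rowForm {S : Bld En} (hok : S.Ok) {φ : ℕ → Fin 2 → Form} {k : Fin 2}
    {n0 e0 l0 np ep lp : ℝ} (h0 : S.Has (φ 0 k) n0 e0 l0) (hn : 0 ≤ np) (he : 0 ≤ ep) (hl : 0 ≤ lp)
    (h : ∀ j, 1 ≤ j → j < M → S.Has (φ j k) np ep lp) (hM : 1 ≤ M) (i : Fin M) :
    S.Has (rowForm M φ i k) (n0 + M * np) (e0 + M * ep) (l0 + M * lp) := by
  have hs := Has.sum hok (Finset.range M) (fun j => node M i ^ j / (j.factorial : ℝ))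
    (fun j => φ j k) (fun j => if j = 0 then n0 else np) (fun j => if j = 0 then e0 else ep)
    (fun j => if j = 0 then l0 else lp) fun j hj => by
      rcases Nat.eq_zero_or_pos j with rfl | hj0
      · simpa using h0
      · simpa [hj0.ne'] using h j hj0 (Finset.mem_range.1 hj)
  have hc : ∀ j, |node M i ^ j / (j.factorial : ℝ)| ≤ 1 := fun j => by
    have hm := node_mem M i
    rw [abs_div, abs_pow, Nat.abs_cast, div_le_one (by exact_mod_cast j.factorial_pos)]
    exact (pow_le_one₀ (abs_nonneg _) (abs_le.2 ⟨by linarith [hm.1], hm.2⟩)).trans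
      (by exact_mod_cast j.factorial_pos)
  have key : ∀ a b : ℝ, 0 ≤ b →
      ∑ j ∈ Finset.range M, |node M i ^ j / (j.factorial : ℝ)| * (if j = 0 then a else b) ≤
        a + M * b := by
    intro a b hb
    obtain ⟨m, rfl⟩ : ∃ m, M = m + 1 := ⟨M - 1, by omega⟩
    rw [Finset.sum_range_succ']
    simp only [Nat.succ_ne_zero, if_false, if_true, pow_zero, Nat.factorial_zero, Nat.cast_one,
      div_one, abs_one, one_mul]
    have : ∑ j ∈ Finset.range m, |node (m + 1) i ^ (j + 1) / ((j + 1).factorial : ℝ)| * b ≤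
        ∑ _j ∈ Finset.range m, b :=
      Finset.sum_le_sum fun j _ => mul_le_of_le_one_left hb (hc _)
    rw [Finset.sum_const, Finset.card_range, nsmul_eq_mul] at this
    push_cast
    linarith
  exact hs.mono (key n0 np hn) (key e0 ep he) (key l0 lp hl)

section Block

variable {r th : ℝ} {Fz Fu Fg : Truth En}

/-- The seeds of the pair, as a function on the probability space. -/
def seedVal (S : Bld En) (Fu Fg : Truth En) (V : Space d → ℝ) (c : Space d)
    (p : En.X × (Fin S.circ.T → Space d)) : WithLp 2 (Space d × Space d) :=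
  WithLp.toLp 2 (S.truthFun Fu V c p, S.truthFun Fg V c p)

theorem measurable_toLp2 {α : Type} [MeasurableSpace α] {f g : α → Space d} (hf : Measurable f)
    (hg : Measurable g) : Measurable fun a => WithLp.toLp 2 (f a, g a) :=
  (WithLp.prod_continuous_toLp 2 (Space d) (Space d)).measurable.comp (hf.prodMk hg)

theorem eLpNorm_seedVal_le (S : Bld En) (h : PairSeedAt En S.circ.T Fz Fu Fg) {V : Space d → ℝ}
    (hV : Quarter.InClass V) (c : Space d) :
    eLpNorm (S.seedVal Fu Fg V c) 2 S.idealLaw ≤ ENNReal.ofReal (2 * (√d + ‖c‖)) := by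
  obtain ⟨ν, hν, hlaw⟩ := h V hV c
  have h1 := (measurePreserving_fst.comp measurePreserving_snd).comp hlaw
  have h2 := (measurePreserving_snd.comp measurePreserving_snd).comp hlaw
  have hb : ∀ {f : En.X × (Fin S.circ.T → Space d) → Space d},
      MeasurePreserving f S.idealLaw (stdGaussian (Space d)) →
      eLpNorm (fun p => ‖f p‖) 2 S.idealLaw ≤ ENNReal.ofReal (√d + ‖c‖) := fun {f} hf => by
    have e := eLpNorm_comp_measurePreserving (g := fun x : Space d => x) (p := 2)
      aestronglyMeasurable_id hf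
    rw [Function.comp_def] at e
    rw [eLpNorm_norm]
    exact e.trans_le ((eLpNorm_gauss d).trans (ENNReal.ofReal_le_ofReal (by linarith [norm_nonneg c])))
  rw [show (2 : ℝ) * (√d + ‖c‖) = (√d + ‖c‖) + (√d + ‖c‖) by ring]
  exact eLp_le_of_norm_le (g₁ := fun p => ‖S.truthFun Fu V c p‖)
    (g₂ := fun p => ‖S.truthFun Fg V c p‖) h1.measurable.norm.aestronglyMeasurable
    h2.measurable.norm.aestronglyMeasurable (by positivity) (by positivity) (hb h1) (hb h2)
    fun p => norm_toLp_le _ _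

theorem aesm_skew (hr : 0 < r) (hz : TMeas Fz) (S : Bld En) {V : Space d → ℝ}
    (hV : Quarter.InClass V) (c : Space d)
    (g : En.X × (Fin S.circ.T → Space d) → WithLp 2 (Space d × Space d))
    (hg : AEStronglyMeasurable g S.idealLaw) :
    AEStronglyMeasurable (fun p => skewPair (scoreD V r (S.truthFun Fz V c p)) (g p)) S.idealLaw :=
  aestronglyMeasurable_skewPair (B := fun p => scoreD V r (S.truthFun Fz V c p))
    (fun _ hg => ((continuous_scoreD hV hr).comp continuous_fst).clm_apply continuous_snd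
      |>.comp_aestronglyMeasurable ((hz.measurable hV c).aestronglyMeasurable.prodMk hg)) hg

theorem norm_skew_le (hr : 0 < r) {V : Space d → ℝ} (hV : Quarter.InClass V) (z : Space d) :
    ‖skewPair (scoreD V r z)‖ ≤ 2 :=
  norm_skewPair_le (norm_scoreD_le hV hr.le z)

/-- The powers held by a state of the iteration. -/
structure Rows (S : Bld En) (M : ℕ) (φ : ℕ → Fin 2 → Form) (r th : ℝ) (Fz Fu Fg : Truth En)
    (nu eu lu np ep lp du dp : ℝ) : Prop where
  seed : ∀ k, S.Has (φ 0 k) nu eu lu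
  seedNear : S.NearPair (φ 0) 0 th r Fz Fu Fg du
  pow : ∀ j, 1 ≤ j → j < M → ∀ k, S.Has (φ j k) np ep lp
  powNear : ∀ j, 1 ≤ j → j < M → S.NearPair (φ j) j th r Fz Fu Fg dp

/-- The bound of a row against the rotation. -/
def rowGap (M : ℕ) (th du dp : ℝ) : ℝ := M * (du + dp) + 2 ^ M * Real.exp 2 * th ^ M * 2

theorem rows_near_all {S : Bld En} {φ : ℕ → Fin 2 → Form} {nu eu lu np ep lp du dp : ℝ}
    (h : S.Rows M φ r th Fz Fu Fg nu eu lu np ep lp du dp) (hdu : 0 ≤ du) (hdp : 0 ≤ dp)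
    {V : Space d → ℝ} (hV : Quarter.InClass V) (c : Space d) {j : ℕ} (hj : j < M) :
    eLpNorm (fun p => S.pairVal V c (φ j) p - th ^ j •
        ((skewPair (scoreD V r (S.truthFun Fz V c p))) ^ j) (S.seedVal Fu Fg V c p)) 2 S.idealLaw
      ≤ ENNReal.ofReal ((du + dp) * (√d + ‖c‖)) := by
  rcases Nat.eq_zero_or_pos j with rfl | hj0
  · exact (h.seedNear V hV c).trans (ENNReal.ofReal_le_ofReal
      (mul_le_mul_of_nonneg_right (by linarith) (by positivity)))
  · exact (h.powNear j hj0 hj V hV c).trans (ENNReal.ofReal_le_ofReal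
      (mul_le_mul_of_nonneg_right (by linarith) (by positivity)))

theorem measurable_pairVal (S : Bld En) {V : Space d → ℝ} (hV : Quarter.InClass V) (c : Space d)
    (φ : Fin 2 → Form) : Measurable (S.pairVal V c φ) :=
  measurable_toLp2 (S.measurable_evalFun c hV (φ 0)) (S.measurable_evalFun c hV (φ 1))

theorem pairVal_pick (S : Bld En) (V : Space d → ℝ) (c : Space d) (φ : Fin 2 → Form) (k : Fin 2)
    (p : En.X × (Fin S.circ.T → Space d)) :
    pick k (S.pairVal V c φ p).ofLp = S.evalFun V c (φ k) p := by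
  fin_cases k <;> simp [pick, pairVal]

theorem eval_rowForm (S : Bld En) (V : Space d → ℝ) (c : Space d) (φ : ℕ → Fin 2 → Form)
    (i : Fin M) (k : Fin 2) (p : En.X × (Fin S.circ.T → Space d)) :
    S.evalFun V c (rowForm M φ i k) p =
      pick k (row M (node M i) (fun j => S.pairVal V c (φ j) p)).ofLp := by
  simp only [evalFun, rowForm, eval_sum_smul, pick_row, pairVal_pick]

/-- Each component of a row is near its rotated seed. -/
theorem near_rowForm {S : Bld En} {φ : ℕ → Fin 2 → Form} {nu eu lu np ep lp du dp : ℝ}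
    (h : S.Rows M φ r th Fz Fu Fg nu eu lu np ep lp du dp) (hr : 0 < r) (hth : 0 ≤ th)
    (hth1 : th ≤ 1) (hdu : 0 ≤ du) (hdp : 0 ≤ dp) (hz : TMeas Fz)
    (hu : TMeas Fu) (hg : TMeas Fg) (hlaw : PairSeedAt En S.circ.T Fz Fu Fg) (i : Fin M)
    (k : Fin 2) :
    S.Near (rowForm M φ i k) (rotTruth r (node M i * th) Fz Fu Fg k) (rowGap M th du dp) := by
  intro V hV c
  have hN : 0 ≤ √d + ‖c‖ := by positivity
  have hb := eLp_row_sub_rotExp_le (μ := S.idealLaw) (M := M) (th := th)
    (A := fun p => skewPair (scoreD V r (S.truthFun Fz V c p))) (z := S.seedVal Fu Fg V c)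
    (fun g hg' => aesm_skew hr hz S hV c g hg') (fun p => norm_skew_le hr hV _)
    (measurable_toLp2 (hu.measurable hV c) (hg.measurable hV c)).aestronglyMeasurable
    (by positivity) (eLpNorm_seedVal_le S hlaw hV c) hth hth1
    (P := fun p j => S.pairVal V c (φ j) p)
    (fun j _ => (measurable_pairVal S hV c (φ j)).aestronglyMeasurable)
    (D := (du + dp) * (√d + ‖c‖)) (by positivity)
    (fun j hj => rows_near_all h hdu hdp hV c hj) i
  refine le_trans (eLpNorm_mono fun p => ?_) (hb.trans (le_of_eq ?_))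
  · have e : S.evalFun V c (rowForm M φ i k) p -
        rotTruth r (node M i * th) Fz Fu Fg k V c p.1 (extFun p.2) =
        pick k (row M (node M i) (fun j => S.pairVal V c (φ j) p) -
          rotExp (skewPair (scoreD V r (S.truthFun Fz V c p))) (node M i * th)
            (S.seedVal Fu Fg V c p)).ofLp := by
      rw [eval_rowForm]
      simp only [rotTruth, seedRot, seedVal, truthFun, pick]
      split_ifs <;> simp
    rw [e]
    exact norm_pick_le k _
  · rw [rowGap]
    congr 1
    ring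

/-- The values of the pair map at a row, from the two applications. -/
theorem eLpNorm_pairTan_le {S : Bld En} {a : ℝ} {ψ : Fin 2 → Form} {D : ℝ} (hD : 0 ≤ D)
    (hr : 0 < r) (hz : TMeas Fz) (hu : TMeas Fu) (hg : TMeas Fg)
    (h : ∀ k, S.Near (ψ k) (tanTruth r Fz (rotTruth r a Fz Fu Fg k)) D) {V : Space d → ℝ}
    (hV : Quarter.InClass V) (c : Space d) :
    eLpNorm (fun p => WithLp.toLp 2 (S.evalFun V c (ψ 1) p, -S.evalFun V c (ψ 0) p) -
        skewPair (scoreD V r (S.truthFun Fz V c p))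
          (rotExp (skewPair (scoreD V r (S.truthFun Fz V c p))) a (S.seedVal Fu Fg V c p))) 2
        S.idealLaw ≤ ENNReal.ofReal (2 * D * (√d + ‖c‖)) := by
  have hm : ∀ k, Measurable (fun p : En.X × (Fin S.circ.T → Space d) =>
      S.evalFun V c (ψ k) p - S.truthFun (tanTruth r Fz (rotTruth r a Fz Fu Fg k)) V c p) := fun k =>
    (S.measurable_evalFun c hV (ψ k)).sub
      ((tmeas_tanTruth hr hz (tmeas_rotTruth hr a hz hu hg k)).measurable hV c)
  rw [show 2 * D * (√d + ‖c‖) = D * (√d + ‖c‖) + D * (√d + ‖c‖) by ring]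
  refine eLp_le_of_norm_le
    (g₁ := fun p => ‖S.evalFun V c (ψ 1) p -
      S.truthFun (tanTruth r Fz (rotTruth r a Fz Fu Fg 1)) V c p‖)
    (g₂ := fun p => ‖S.evalFun V c (ψ 0) p -
      S.truthFun (tanTruth r Fz (rotTruth r a Fz Fu Fg 0)) V c p‖)
    (hm 1).norm.aestronglyMeasurable (hm 0).norm.aestronglyMeasurable (by positivity)
    (by positivity) (by rw [eLpNorm_norm]; exact h 1 V hV c)
    (by rw [eLpNorm_norm]; exact h 0 V hV c) fun p => ?_
  rw [skewPair_apply, ← WithLp.toLp_sub, Prod.mk_sub_mk]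
  refine (norm_toLp_le _ _).trans (add_le_add (le_of_eq ?_) (le_of_eq ?_))
  · simp [tanTruth, rotTruth, seedRot, seedVal, truthFun, pick]
  · rw [← norm_neg]
    simp [tanTruth, rotTruth, seedRot, seedVal, truthFun, pick, sub_eq_add_neg, add_comm]

/-- The bound on the error of the powers. -/
def rowsSize (M : ℕ) (th src L e0 : ℝ) : ℝ := rowsConst M * th * (src + L * e0)

theorem rowsSize_nonneg {th src L e0 : ℝ} (hth : 0 ≤ th) (hsrc : 0 ≤ src) (hL : 0 ≤ L)
    (he : 0 ≤ e0) : 0 ≤ rowsSize M th src L e0 := by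
  have := (rowsConst_bounds M).2.2
  unfold rowsSize
  positivity

theorem rowsSize_step {th src L e0 : ℝ} (hth : 0 ≤ th) (hsrc : 0 ≤ src) (hL : 0 ≤ L) (he : 0 ≤ e0)
    (hsmall : rowsConst M * th * L ≤ 1 / 2) {f : ℝ} (hf : f ≤ powBound M) :
    th * f * (src + L * (e0 + M * rowsSize M th src L e0)) ≤ rowsSize M th src L e0 := by
  obtain ⟨h1, -, h3⟩ := rowsConst_bounds M
  have hP := one_le_powBound M
  have hM : (0 : ℝ) ≤ M := Nat.cast_nonneg M
  set R := rowsSize M th src L e0
  have hR : 0 ≤ R := rowsSize_nonneg hth hsrc hL he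
  have hX : 0 ≤ src + L * (e0 + M * R) := by positivity
  have h4 : powBound M * 4 ≤ rowsConst M := le_trans (by nlinarith) h1
  have h5 : th * powBound M * (src + L * e0) ≤ R / 4 := by
    simp only [R, rowsSize]
    have : 0 ≤ th * (src + L * e0) := by positivity
    nlinarith [mul_le_mul_of_nonneg_right h4 this]
  have h6 : th * powBound M * L * M ≤ 1 / 8 := by
    have : 0 ≤ th * L := by positivity
    nlinarith [mul_le_mul_of_nonneg_right h1 this, mul_nonneg (mul_nonneg (le_trans zero_le_one hP) hM) this]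
  calc th * f * (src + L * (e0 + M * R)) ≤ th * powBound M * (src + L * (e0 + M * R)) :=
        mul_le_mul_of_nonneg_right (mul_le_mul_of_nonneg_left hf hth) hX
    _ = th * powBound M * (src + L * e0) + th * powBound M * L * M * R := by ring
    _ ≤ R / 4 + 1 / 8 * R := add_le_add h5 (mul_le_mul_of_nonneg_right h6 hR)
    _ ≤ R := by linarith

/-- The bound on the distance of the powers to the truth after `m` iterations. -/
def rowsDist (M : ℕ) (th : ℝ) (N : TanNum) (du : ℝ) (m : ℕ) : ℝ :=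
  th * rowsConst M * ((rowsConst M * th * (2 * N.Ld)) ^ m * 2
    + (2 * N.srcD + 2 * N.Ld * du + 2 * N.Ld * th ^ M * 2))

theorem rowsDist_nonneg (hth : 0 ≤ th) (N : TanNum) {du : ℝ} (hdu : 0 ≤ du) (m : ℕ) :
    0 ≤ rowsDist M th N du m := by
  have := (rowsConst_bounds M).2.2
  have h1 := N.srcD_nonneg
  have h2 : 0 ≤ N.Ld := zero_le_one.trans N.one_le_Ld
  unfold rowsDist
  positivity

theorem rowsDist_step {N : TanNum} {du : ℝ} (hth : 0 < th) (hdu : 0 ≤ du)
    (hsmall : rowsConst M * th * (2 * N.Ld) ≤ 1 / 2) (m : ℕ) {f : ℝ} (hf : f ≤ powBound M) :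
    th * 2 * (du + rowsDist M th N du m) + th * f * (M * (2 * N.srcD + (2 * N.Ld + 2) *
        rowGap M th du (rowsDist M th N du m))) ≤ rowsDist M th N du (m + 1) := by
  obtain ⟨-, h2, h1c⟩ := rowsConst_bounds M
  set Cc := rowsConst M
  set C₁ : ℝ := 2 + 2 ^ M + powBound M * M * (1 + 3 * ((M : ℝ) + 2 ^ M * Real.exp 2))
  set F : ℝ := 2 * N.srcD + 2 * N.Ld * du + 2 * N.Ld * th ^ M * 2 with hF
  have hD := rowsDist_nonneg (M := M) hth.le N hdu m
  have hs := N.srcD_nonneg
  have hLd : 1 ≤ 2 * N.Ld := by linarith [N.one_le_Ld]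
  have hF0 : 0 ≤ F := by positivity
  have hP : 0 ≤ powBound M := zero_le_one.trans (one_le_powBound M)
  refine (rows_step_num (M := M) (S := powBound M) (C₁ := C₁)
    (Q := (M : ℝ) + 2 ^ M * Real.exp 2) hth.le hLd (by positivity) hdu two_pos.le hD hP le_rfl
    (by simp only [C₁]; linarith [pow_nonneg (zero_le_two : (0:ℝ) ≤ 2) M]) hf).trans ?_
  have h3 : C₁ ≤ Cc / 2 := by simp only [C₁]; linarith
  calc C₁ * th * (2 * N.Ld) * rowsDist M th N du m + C₁ * th * F
      ≤ Cc / 2 * th * (2 * N.Ld) * rowsDist M th N du m + Cc / 2 * th * F := by gcongr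
    _ = th * Cc * (1 / 2 * ((Cc * th * (2 * N.Ld)) ^ (m + 1) * 2)
          + (1 / 2 * (Cc * th * (2 * N.Ld)) + 1 / 2) * F) := by
        simp only [rowsDist, pow_succ, Cc, F]; ring
    _ ≤ th * Cc * ((Cc * th * (2 * N.Ld)) ^ (m + 1) * 2 + F) := by
        refine mul_le_mul_of_nonneg_left (add_le_add ?_ ?_) (by positivity)
        · exact mul_le_of_le_one_left (by positivity) (by norm_num)
        · exact mul_le_of_le_one_left hF0 (by linarith)
    _ = _ := by simp only [rowsDist, Cc, F]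

/-- The rows are closest to the rotation after the first iteration. -/
theorem rowGap_rowsDist_le {N : TanNum} {du : ℝ} (hth : 0 ≤ th)
    (hsmall : rowsConst M * th * (2 * N.Ld) ≤ 1 / 2) (m : ℕ) :
    rowGap M th du (rowsDist M th N du m) ≤ rowGap M th du (rowsDist M th N du 0) := by
  have hC := (rowsConst_bounds M).2.2
  have hLd := N.one_le_Ld
  have h0 : 0 ≤ rowsConst M * th * (2 * N.Ld) := by positivity
  have hp : (rowsConst M * th * (2 * N.Ld)) ^ m ≤ 1 := pow_le_one₀ h0 (by linarith)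
  have h2 : rowsDist M th N du m ≤ rowsDist M th N du 0 := by
    unfold rowsDist
    rw [pow_zero, one_mul]
    exact mul_le_mul_of_nonneg_left
      (add_le_add (mul_le_of_le_one_left two_pos.le hp) le_rfl) (by positivity)
  unfold rowGap
  gcongr

/-- The next powers from the values at the rows. -/
def powForms (M : ℕ) (th : ℝ) (φ : ℕ → Fin 2 → Form) (ψ : Fin 2 → Fin M → Form) :
    ℕ → Fin 2 → Form
  | 0 => φ 0
  | j + 1 => fun k => (if k = 0 then 1 else -1 : ℝ) •
      ((th * (j.factorial : ℝ)) • ∑ i, ruleWeight M (coefFun j) i • ψ (1 - k) i)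

theorem pairVal_powForms (S : Bld En) (V : Space d → ℝ) (c : Space d) (φ : ℕ → Fin 2 → Form)
    (ψ : Fin 2 → Fin M → Form) (j : ℕ) (p : En.X × (Fin S.circ.T → Space d)) :
    S.pairVal V c (powForms M th φ ψ j) p = powStep M th (S.pairVal V c (φ 0) p)
      (fun i => WithLp.toLp 2 (S.evalFun V c (ψ 1 i) p, -S.evalFun V c (ψ 0 i) p)) j := by
  cases j with
  | zero => rfl
  | succ j =>
    apply WithLp.ofLp_injective
    simp [pairVal, powForms, powStep, evalFun, eval_sum_smul, WithLp.ofLp_sum,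
      Prod.ext_iff, Prod.fst_sum, Prod.snd_sum, Finset.smul_sum, smul_smul]

/-- The tolerances of the block. -/
structure RowsFit (M : ℕ) (th : ℝ) (N : TanNum) (nu tol : ℝ) : Prop where
  small : rowsConst M * th * N.L ≤ 1 / 2
  smallD : rowsConst M * th * (2 * N.Ld) ≤ 1 / 2
  blur : nu + M * (th * powBound M * N.out) ≤ tol

/-- The applications at all rows. -/
theorem rows_apply {S : Bld En} {N : TanNum} (hT : S.TanStep r Fz N) (hok : S.Ok)
    (hlen : S.len + 2 * (M * N.K) ≤ S.circ.T) {φ : ℕ → Fin 2 → Form}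
    {nu eu lu np ep lp du dp : ℝ} (hM : 1 ≤ M)
    (hR : S.Rows M φ r th Fz Fu Fg nu eu lu np ep lp du dp) (hr : 0 < r) (hth : 0 ≤ th)
    (hth1 : th ≤ 1) (hn : 0 ≤ np) (he0 : 0 ≤ eu) (he : 0 ≤ ep) (hl0 : 0 ≤ lu) (hl : 0 ≤ lp)
    (hdu : 0 ≤ du) (hdp : 0 ≤ dp) (htol : nu + M * np ≤ N.tol) (hmax : rowGap M th du dp ≤ N.Dmax)
    (hz : TMeas Fz) (hu : TMeas Fu)
    (hg : TMeas Fg) (hlaw : PairSeedAt En S.circ.T Fz Fu Fg) :
    ∃ (B : Bld En) (ψ : Fin 2 → Fin M → Form), S.Ext B ∧ B.Ok ∧ B.len ≤ S.len + 2 * (M * N.K) ∧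
      ∀ k i, B.Has (ψ k i) N.out (N.src + N.L * (eu + M * ep)) (N.srcL + N.L * (lu + M * lp)) ∧
        B.Near (ψ k i) (tanTruth r Fz (rotTruth r (node M i * th) Fz Fu Fg k))
          (N.srcD + N.Ld * rowGap M th du dp) := by
  have hgap : 0 ≤ rowGap M th du dp := by unfold rowGap; positivity
  have inst : Inhabited Form := ⟨0⟩
  have main : ∀ (k : Fin 2) (A : Bld En), S.Ext A → A.Ok → A.len + M * N.K ≤ A.circ.T →
      ∃ (B : Bld En) (ψ : Fin M → Form), A.Ext B ∧ B.Ok ∧ B.len ≤ A.len + M * N.K ∧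
        ∀ i, B.Has (ψ i) N.out (N.src + N.L * (eu + M * ep)) (N.srcL + N.L * (lu + M * lp)) ∧
          B.Near (ψ i) (tanTruth r Fz (rotTruth r (node M i * th) Fz Fu Fg k))
            (N.srcD + N.Ld * rowGap M th du dp) := by
    intro k A hA hAok hAlen
    refine push_all (S := A) M N.K (fun i B b =>
      B.Has b N.out (N.src + N.L * (eu + M * ep)) (N.srcL + N.L * (lu + M * lp)) ∧
        B.Near b (tanTruth r Fz (rotTruth r (node M i * th) Fz Fu Fg k))
          (N.srcD + N.Ld * rowGap M th du dp))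
      (fun i {A B} b hAB h => ⟨hAB.has h.1, hAB.near h.1.below h.2⟩) ?_ hAok hAlen
    intro i A' hA' hA'ok hA'len
    have hSA := hA.trans hA'
    have hrow := has_rowForm hok (hR.seed k) hn he hl (fun j h1 h2 => hR.pow j h1 h2 k) hM i
    obtain ⟨B, ψ, h1, h2, h3, h4, h5⟩ := hT A' hSA hA'ok hA'len (rowForm M φ i k) _ _ _
      (rowGap M th du dp) (rotTruth r (node M i * th) Fz Fu Fg k) (by positivity) (by positivity)
      hgap (hSA.has hrow) htol hmax (tmeas_rotTruth hr _ hz hu hg k)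
      (seedAt_rotTruth hr _ (by rw [hSA.T]; exact hlaw) k)
      (hSA.near hrow.below (near_rowForm hR hr hth hth1 hdu hdp hz hu hg hlaw i k))
    exact ⟨B, ψ, h1, h2, h3, h4, h5⟩
  obtain ⟨B0, ψ0, h0a, h0b, h0c, h0d⟩ := main 0 S (Ext.refl S) hok (by omega)
  obtain ⟨B1, ψ1, h1a, h1b, h1c, h1d⟩ := main 1 B0 h0a h0b (by rw [h0a.T]; omega)
  refine ⟨B1, fun k => if k = 0 then ψ0 else ψ1, h0a.trans h1a, h1b, by omega, fun k i => ?_⟩
  fin_cases k
  · exact ⟨h1a.has (h0d i).1, h1a.near (h0d i).1.below (h0d i).2⟩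
  · exact h1d i

theorem abs_pm (k : Fin 2) : |(if k = 0 then 1 else -1 : ℝ)| = 1 := by split_ifs <;> norm_num

/-- One iteration. -/
theorem rows_iter {S : Bld En} {N : TanNum} (hT : S.TanStep r Fz N) (hok : S.Ok)
    (hlen : S.len + 2 * (M * N.K) ≤ S.circ.T) {φ : ℕ → Fin 2 → Form} {nu eu lu du : ℝ} {m : ℕ}
    (hM : 2 ≤ M) (hfit : RowsFit M th N nu N.tol) (hr : 0 < r) (hth : 0 < th)
    (hmax : rowGap M th du (rowsDist M th N du 0) ≤ N.Dmax)
    (he0 : 0 ≤ eu) (hl0 : 0 ≤ lu) (hdu : 0 ≤ du) (hz : TMeas Fz)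
    (hu : TMeas Fu) (hg : TMeas Fg) (hlaw : PairSeedAt En S.circ.T Fz Fu Fg)
    (hR : S.Rows M φ r th Fz Fu Fg nu eu lu (th * powBound M * N.out)
      (rowsSize M th N.src N.L eu) (rowsSize M th N.srcL N.L lu) du (rowsDist M th N du m)) :
    ∃ (B : Bld En) (φ' : ℕ → Fin 2 → Form), S.Ext B ∧ B.Ok ∧ B.len ≤ S.len + 2 * (M * N.K) ∧
      B.Rows M φ' r th Fz Fu Fg nu eu lu (th * powBound M * N.out)
        (rowsSize M th N.src N.L eu) (rowsSize M th N.srcL N.L lu) du
        (rowsDist M th N du (m + 1)) := by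
  have hP : 0 ≤ powBound M := zero_le_one.trans (one_le_powBound M)
  have hC1 := (rowsConst_bounds M).2.2
  have hLd := N.one_le_Ld
  have hth1 : th ≤ 1 := by nlinarith [hfit.smallD, mul_le_mul hC1 hLd zero_le_one (by linarith)]
  have hL : 0 ≤ N.L := zero_le_one.trans N.one_le_L
  have hn : 0 ≤ th * powBound M * N.out := by have := N.out_nonneg; positivity
  have hd := rowsDist_nonneg (M := M) hth.le N hdu m
  obtain ⟨B, ψ, hSB, hBok, hBlen, hψ⟩ := rows_apply hT hok hlen (by omega) hR hr hth.le hth1 hn he0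
    (rowsSize_nonneg hth.le N.src_nonneg hL he0) hl0
    (rowsSize_nonneg hth.le N.srcL_nonneg hL hl0) hdu hd hfit.blur
    ((rowGap_rowsDist_le hth.le hfit.smallD m).trans hmax) hz hu hg hlaw
  have hlawB : PairSeedAt En B.circ.T Fz Fu Fg := by rw [hSB.T]; exact hlaw
  refine ⟨B, powForms M th φ ψ, hSB, hBok, hBlen, fun k => hSB.has (hR.seed k),
    hSB.nearPair (fun k => (hR.seed k).below) hR.seedNear, ?_, ?_⟩
  · intro j hj1 hjM k
    obtain ⟨j, rfl⟩ := Nat.exists_eq_add_of_le' hj1
    have hs := ((Has.sum hBok Finset.univ (fun i => ruleWeight M (coefFun j) i) (fun i => ψ (1 - k) i)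
      (fun _ => N.out) _ _ (fun i _ => (hψ (1 - k) i).1)).smul (th * (j.factorial : ℝ))).smul
        (if k = 0 then 1 else -1 : ℝ)
    have hsum : ∀ x : ℝ, |(if k = 0 then 1 else -1 : ℝ)| * (|th * (j.factorial : ℝ)| *
        ∑ i, |ruleWeight M (coefFun j) i| * x) =
          th * ((j.factorial : ℝ) * ruleSize M (coefFun j)) * x := fun x => by
      rw [abs_pm, one_mul, ← Finset.sum_mul, abs_of_nonneg (by positivity), ruleSize]
      ring
    have hf := le_powBound M (Nat.lt_of_succ_lt hjM)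
    refine hs.mono ?_ ?_ ?_ <;> rw [hsum]
    · exact mul_le_mul_of_nonneg_right (mul_le_mul_of_nonneg_left hf hth.le) N.out_nonneg
    · exact rowsSize_step hth.le N.src_nonneg hL he0 hfit.small hf
    · exact rowsSize_step hth.le N.srcL_nonneg hL hl0 hfit.small hf
  · intro j hj1 hjM V hV c
    obtain ⟨j, rfl⟩ := Nat.exists_eq_add_of_le' hj1
    have hN : 0 ≤ √d + ‖c‖ := by positivity
    have hRB : B.Rows M φ r th Fz Fu Fg nu eu lu (th * powBound M * N.out)
        (rowsSize M th N.src N.L eu) (rowsSize M th N.srcL N.L lu) du (rowsDist M th N du m) :=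
      ⟨fun k => hSB.has (hR.seed k), hSB.nearPair (fun k => (hR.seed k).below) hR.seedNear,
        fun j h1 h2 k => hSB.has (hR.pow j h1 h2 k),
        fun j h1 h2 => hSB.nearPair (fun k => (hR.pow j h1 h2 k).below) (hR.powNear j h1 h2)⟩
    set R := rowGap M th du (rowsDist M th N du m)
    have hR0 : 0 ≤ R := by simp only [R, rowGap]; positivity
    have hs := N.srcD_nonneg
    have hstep := eLp_powStep_le (μ := B.idealLaw) (M := M) (th := th)
      (A := fun p => skewPair (scoreD V r (B.truthFun Fz V c p))) (z := B.seedVal Fu Fg V c)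
      (fun g hg' => aesm_skew hr hz B hV c g hg') (fun p => norm_skew_le hr hV _)
      (measurable_toLp2 (hu.measurable hV c) (hg.measurable hV c)).aestronglyMeasurable
      (G := 2 * (√d + ‖c‖)) (by positivity) (eLpNorm_seedVal_le B hlawB hV c) hth.le hth1
      (P := fun p i => B.pairVal V c (φ i) p)
      (fun i _ => (measurable_pairVal B hV c (φ i)).aestronglyMeasurable)
      (D := (du + rowsDist M th N du m) * (√d + ‖c‖)) (by positivity)
      (fun i hi => rows_near_all hRB hdu hd hV c hi)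
      (T := fun i p => WithLp.toLp 2 (B.evalFun V c (ψ 1 i) p, -B.evalFun V c (ψ 0 i) p))
      (fun i => (measurable_toLp2 (B.measurable_evalFun c hV _)
        (B.measurable_evalFun c hV _).neg).aestronglyMeasurable)
      (e := 2 * (N.srcD + N.Ld * R) * (√d + ‖c‖)) (L := 0) (by positivity) le_rfl
      (fun i => by
        rw [ENNReal.ofReal_zero, zero_mul, add_zero]
        exact eLpNorm_pairTan_le (by positivity) hr hz hu hg (fun k => (hψ k i).2) hV c)
      (j := j) (Nat.lt_of_succ_lt hjM) (Dj := (du + rowsDist M th N du m) * (√d + ‖c‖))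
      (by positivity) (rows_near_all hRB hdu hd hV c (Nat.lt_of_succ_lt hjM))
      (fun p => B.pairVal V c (φ 0) p)
    simp only [← pairVal_powForms B V c φ ψ] at hstep
    refine hstep.trans (ENNReal.ofReal_le_ofReal ?_)
    refine le_trans (le_of_eq ?_) (mul_le_mul_of_nonneg_right
      (rowsDist_step (N := N) hth hdu hfit.smallD m
        (le_powBound M (Nat.lt_of_succ_lt hjM))) hN)
    simp only [R, rowGap]
    ring

/-- The start of the iteration. -/
theorem rows_init {S : Bld En} {N : TanNum} {φu φg : Form} {nu eu lu du : ℝ} (hth : 0 < th)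
    (hth1 : th ≤ 1) (hr : 0 < r) (hdu : 0 ≤ du) (he0 : 0 ≤ eu) (hl0 : 0 ≤ lu) (hu : S.Has φu nu eu lu)
    (hg : S.Has φg nu eu lu) (hFu : TMeas Fu) (hFg : TMeas Fg) (hnu : S.Near φu Fu du)
    (hng : S.Near φg Fg du)
    (hlaw : PairSeedAt En S.circ.T Fz Fu Fg) :
    S.Rows M (fun j => if j = 0 then ![φu, φg] else fun _ => 0) r th Fz Fu Fg nu eu lu
      (th * powBound M * N.out) (rowsSize M th N.src N.L eu) (rowsSize M th N.srcL N.L lu)
      (2 * du) (rowsDist M th N (2 * du) 0) := by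
  have hL : 0 ≤ N.L := zero_le_one.trans N.one_le_L
  refine ⟨fun k => ?_, fun V hV c => ?_, fun j hj _ k => ?_, fun j hj hjM V hV c => ?_⟩
  · fin_cases k
    · simpa using hu
    · simpa using hg
  · rw [show 2 * du * (√d + ‖c‖) = du * (√d + ‖c‖) + du * (√d + ‖c‖) by ring]
    refine eLp_le_of_norm_le (g₁ := fun p => ‖S.evalFun V c φu p - S.truthFun Fu V c p‖)
      (g₂ := fun p => ‖S.evalFun V c φg p - S.truthFun Fg V c p‖)
      ((S.measurable_evalFun c hV φu).sub (hFu.measurable hV c)).norm.aestronglyMeasurable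
      ((S.measurable_evalFun c hV φg).sub (hFg.measurable hV c)).norm.aestronglyMeasurable
      (by positivity) (by positivity) (by rw [eLpNorm_norm]; exact hnu V hV c)
      (by rw [eLpNorm_norm]; exact hng V hV c) fun p => ?_
    simp only [pow_zero, one_smul, one_apply_eq_self, pairVal, if_true, ← WithLp.toLp_sub,
      Prod.mk_sub_mk, Matrix.cons_val_zero, Matrix.cons_val_one]
    exact norm_toLp_le _ _
  · rw [if_neg (by omega)]
    exact has_zero.mono (by have := N.out_nonneg; have := one_le_powBound M; positivity)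
      (rowsSize_nonneg hth.le N.src_nonneg hL he0) (rowsSize_nonneg hth.le N.srcL_nonneg hL hl0)
  · have hle : th ^ j * 2 ^ j * 2 ≤ rowsDist M th N (2 * du) 0 := by
      obtain ⟨-, h2, -⟩ := rowsConst_bounds M
      have hP : 0 ≤ powBound M * M * (1 + 3 * ((M : ℝ) + 2 ^ M * Real.exp 2)) := by
        have := one_le_powBound M; positivity
      have h2M : (2 : ℝ) ^ j ≤ 2 ^ M := pow_le_pow_right₀ one_le_two hjM.le
      have h3 : (2 : ℝ) ^ j * 2 ≤ rowsConst M * 2 := by linarith [pow_nonneg (zero_le_two : (0:ℝ) ≤ 2) M]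
      have h4 : th ^ j ≤ th := pow_le_of_le_one hth.le hth1 (by omega)
      have hs := N.srcD_nonneg
      have hLd : 0 ≤ N.Ld := zero_le_one.trans N.one_le_Ld
      have h5 : 0 ≤ th * rowsConst M * (2 * N.srcD + 2 * N.Ld * (2 * du) + 2 * N.Ld * th ^ M * 2) := by
        have := (rowsConst_bounds M).2.2
        positivity
      calc th ^ j * 2 ^ j * 2 = th ^ j * (2 ^ j * 2) := by ring
        _ ≤ th * (rowsConst M * 2) := mul_le_mul h4 h3 (by positivity) hth.le
        _ ≤ _ := by simp only [rowsDist, pow_zero, one_mul]; linarith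
    have hb := eLp_const_mul_le (μ := S.idealLaw) (c := th ^ j * 2 ^ j)
      (g := fun p => ‖S.seedVal Fu Fg V c p‖) (a := 2 * (√d + ‖c‖)) (by positivity)
      (by rw [eLpNorm_norm]; exact eLpNorm_seedVal_le S hlaw hV c)
    refine (eLpNorm_mono_real fun p => ?_).trans (hb.trans (ENNReal.ofReal_le_ofReal ?_))
    · simp only [show ¬ j = 0 by omega, if_false]
      rw [show S.pairVal V c (fun _ => (0 : Form)) p = 0 by simp [pairVal, evalFun, eval_zero],
        zero_sub, norm_neg, norm_smul, Real.norm_eq_abs, abs_of_nonneg (by positivity), mul_assoc]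
      refine mul_le_mul_of_nonneg_left ((ContinuousLinearMap.le_opNorm _ _).trans
        (mul_le_mul_of_nonneg_right ((norm_pow_le' _ (by omega)).trans
          (pow_le_pow_left₀ (norm_nonneg _) (norm_skew_le hr hV _) j)) (norm_nonneg _)))
        (by positivity)
    · calc th ^ j * 2 ^ j * (2 * (√d + ‖c‖)) = th ^ j * 2 ^ j * 2 * (√d + ‖c‖) := by ring
        _ ≤ _ := mul_le_mul_of_nonneg_right hle (by positivity)

/-- All iterations. -/
theorem rows_iters {S : Bld En} {N : TanNum} (hT : S.TanStep r Fz N) (hok : S.Ok) {k : ℕ}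
    (hlen : S.len + k * (2 * (M * N.K)) ≤ S.circ.T) {φu φg : Form} {nu eu lu du : ℝ} (hM : 2 ≤ M)
    (hfit : RowsFit M th N nu N.tol) (hr : 0 < r) (hth : 0 < th)
    (hmax : rowGap M th (2 * du) (rowsDist M th N (2 * du) 0) ≤ N.Dmax) (he0 : 0 ≤ eu)
    (hl0 : 0 ≤ lu) (hdu : 0 ≤ du) (hu : S.Has φu nu eu lu) (hg : S.Has φg nu eu lu) (hFz : TMeas Fz)
    (hFu : TMeas Fu) (hFg : TMeas Fg) (hnu : S.Near φu Fu du) (hng : S.Near φg Fg du)
    (hlaw : PairSeedAt En S.circ.T Fz Fu Fg) :
    ∃ (B : Bld En) (φ : ℕ → Fin 2 → Form), S.Ext B ∧ B.Ok ∧ B.len ≤ S.len + k * (2 * (M * N.K)) ∧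
      B.Rows M φ r th Fz Fu Fg nu eu lu (th * powBound M * N.out)
        (rowsSize M th N.src N.L eu) (rowsSize M th N.srcL N.L lu) (2 * du)
        (rowsDist M th N (2 * du) k) := by
  have hth1 : th ≤ 1 := by
    nlinarith [hfit.smallD, mul_le_mul (rowsConst_bounds M).2.2 N.one_le_Ld zero_le_one
      (le_trans zero_le_one (rowsConst_bounds M).2.2)]
  induction k with
  | zero => exact ⟨S, _, Ext.refl S, hok, by omega,
      rows_init hth hth1 hr hdu he0 hl0 hu hg hFu hFg hnu hng hlaw⟩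
  | succ k ih =>
    rw [Nat.succ_mul] at hlen
    obtain ⟨A, φ, hA, hAok, hAlen, hAR⟩ := ih (by omega)
    obtain ⟨B, φ', hB, hBok, hBlen, hBR⟩ := rows_iter (hT.ext hA) hAok
      (by rw [hA.T]; omega) hM hfit hr hth hmax he0 hl0 (by linarith) hFz hFu hFg
      (by rw [hA.T]; exact hlaw) hAR
    exact ⟨B, φ', hA.trans hB, hBok, by rw [Nat.succ_mul]; omega, hBR⟩

/-- The last application, read back at the first coefficient. -/
theorem rows_final {S : Bld En} {N : TanNum} (hT : S.TanStep r Fz N) (hok : S.Ok)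
    (hlen : S.len + M * N.K ≤ S.circ.T) {φ : ℕ → Fin 2 → Form}
    {nu eu lu np ep lp du dp : ℝ} (hM : 2 ≤ M)
    (hR : S.Rows M φ r th Fz Fu Fg nu eu lu np ep lp du dp) (hr : 0 < r) (hth : 0 < th)
    (hth1 : th ≤ 1) (hn : 0 ≤ np) (he0 : 0 ≤ eu) (he : 0 ≤ ep) (hl0 : 0 ≤ lu) (hl : 0 ≤ lp)
    (hdu : 0 ≤ du) (hdp : 0 ≤ dp) (htol : nu + M * np ≤ N.tol) (hmax : rowGap M th du dp ≤ N.Dmax)
    (hz : TMeas Fz) (hu : TMeas Fu)
    (hg : TMeas Fg) (hlaw : PairSeedAt En S.circ.T Fz Fu Fg) :
    ∃ (B : Bld En) (χ : Form), S.Ext B ∧ B.Ok ∧ B.len ≤ S.len + M * N.K ∧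
      B.Has χ (th⁻¹ * powBound M * N.out) (th⁻¹ * powBound M * (N.src + N.L * (eu + M * ep)))
        (th⁻¹ * powBound M * (N.srcL + N.L * (lu + M * lp))) ∧
      B.Near χ (sqTruth r Fz Fu) ((th ^ 2)⁻¹ * (th * 2 * dp + th * powBound M *
        (M * (N.srcD + (N.Ld + 2) * rowGap M th du dp)))) := by
  have hgap : 0 ≤ rowGap M th du dp := by unfold rowGap; positivity
  have inst : Inhabited Form := ⟨0⟩
  obtain ⟨B, ψ, hSB, hBok, hBlen, hψ⟩ : ∃ (B : Bld En) (ψ : Fin M → Form), S.Ext B ∧ B.Ok ∧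
      B.len ≤ S.len + M * N.K ∧ ∀ i,
        B.Has (ψ i) N.out (N.src + N.L * (eu + M * ep)) (N.srcL + N.L * (lu + M * lp)) ∧
        B.Near (ψ i) (tanTruth r Fz (rotTruth r (node M i * th) Fz Fu Fg 1))
          (N.srcD + N.Ld * rowGap M th du dp) := by
    refine push_all (S := S) M N.K (fun i B b =>
      B.Has b N.out (N.src + N.L * (eu + M * ep)) (N.srcL + N.L * (lu + M * lp)) ∧
        B.Near b (tanTruth r Fz (rotTruth r (node M i * th) Fz Fu Fg 1))
          (N.srcD + N.Ld * rowGap M th du dp))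
      (fun i {A B} b hAB h => ⟨hAB.has h.1, hAB.near h.1.below h.2⟩) ?_ hok hlen
    intro i A hA hAok hAlen
    have hrow := has_rowForm hok (hR.seed 1) hn he hl (fun j h1 h2 => hR.pow j h1 h2 1)
      (by omega) i
    obtain ⟨B, ψ, h1, h2, h3, h4, h5⟩ := hT A hA hAok hAlen (rowForm M φ i 1) _ _ _
      (rowGap M th du dp) (rotTruth r (node M i * th) Fz Fu Fg 1) (by positivity) (by positivity)
      hgap (hA.has hrow) htol hmax (tmeas_rotTruth hr _ hz hu hg 1)
      (seedAt_rotTruth hr _ (by rw [hA.T]; exact hlaw) 1)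
      (hA.near hrow.below (near_rowForm hR hr hth.le hth1 hdu hdp hz hu hg hlaw i 1))
    exact ⟨B, ψ, h1, h2, h3, h4, h5⟩
  refine ⟨B, (-th⁻¹) • ∑ i, ruleWeight M (coefFun 1) i • ψ i, hSB, hBok, hBlen, ?_, ?_⟩
  · have hs := (Has.sum hBok Finset.univ (fun i => ruleWeight M (coefFun 1) i) ψ
      (fun _ => N.out) _ _ (fun i _ => (hψ i).1)).smul (-th⁻¹)
    have hf : ruleSize M (coefFun 1) ≤ powBound M := by
      simpa using le_powBound M (j := 1) (by omega)
    have hsum : ∀ x : ℝ, 0 ≤ x →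
        |(-th⁻¹)| * ∑ i, |ruleWeight M (coefFun 1) i| * x ≤ th⁻¹ * powBound M * x := fun x hx => by
      rw [abs_neg, abs_of_nonneg (inv_nonneg.2 hth.le), ← Finset.sum_mul, mul_assoc _ (powBound M)]
      exact mul_le_mul_of_nonneg_left (mul_le_mul_of_nonneg_right hf hx) (inv_nonneg.2 hth.le)
    have hL : 0 ≤ N.L := zero_le_one.trans N.one_le_L
    have h1 := N.src_nonneg
    have h2 := N.srcL_nonneg
    exact hs.mono (hsum _ N.out_nonneg) (hsum _ (by positivity)) (hsum _ (by positivity))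
  · intro V hV c
    have hN : 0 ≤ √d + ‖c‖ := by positivity
    have hlawB : PairSeedAt En B.circ.T Fz Fu Fg := by rw [hSB.T]; exact hlaw
    have hs := N.srcD_nonneg
    have hLd : 0 ≤ N.Ld := zero_le_one.trans N.one_le_Ld
    have hRB : B.Rows M φ r th Fz Fu Fg nu eu lu np ep lp du dp :=
      ⟨fun k => hSB.has (hR.seed k), hSB.nearPair (fun k => (hR.seed k).below) hR.seedNear,
        fun j h1 h2 k => hSB.has (hR.pow j h1 h2 k),
        fun j h1 h2 => hSB.nearPair (fun k => (hR.pow j h1 h2 k).below) (hR.powNear j h1 h2)⟩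
    set z := B.seedVal Fu Fg V c
    set A := fun p => skewPair (scoreD V r (B.truthFun Fz V c p))
    set T : Fin M → En.X × (Fin B.circ.T → Space d) → WithLp 2 (Space d × Space d) := fun i p =>
      WithLp.toLp 2 (B.evalFun V c (ψ i) p,
        -B.truthFun (tanTruth r Fz (rotTruth r (node M i * th) Fz Fu Fg 0)) V c p)
    have hTm : ∀ i, Measurable (T i) := fun i => measurable_toLp2 (B.measurable_evalFun c hV _)
      ((tmeas_tanTruth hr hz (tmeas_rotTruth hr _ hz hu hg 0)).measurable hV c).neg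
    have hTe : ∀ i, eLpNorm (fun p => T i p - A p (rotExp (A p) (node M i * th) (z p))) 2
        B.idealLaw ≤ ENNReal.ofReal ((N.srcD + N.Ld * rowGap M th du dp) * (√d + ‖c‖)) := by
      intro i
      refine le_trans (eLpNorm_mono fun p => ?_) ((hψ i).2 V hV c)
      simp only [T, A, z, skewPair_apply, ← WithLp.toLp_sub, Prod.mk_sub_mk]
      refine (norm_toLp_le _ _).trans (le_of_eq ?_)
      simp [tanTruth, rotTruth, seedRot, seedVal, truthFun, pick]
    have hstep := eLp_powStep_le (μ := B.idealLaw) (M := M) (th := th) (A := A) (z := z)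
      (fun g hg' => aesm_skew hr hz B hV c g hg') (fun p => norm_skew_le hr hV _)
      (measurable_toLp2 (hu.measurable hV c) (hg.measurable hV c)).aestronglyMeasurable
      (G := 2 * (√d + ‖c‖)) (by positivity) (eLpNorm_seedVal_le B hlawB hV c) hth.le hth1
      (P := fun p i => B.pairVal V c (φ i) p)
      (fun i _ => (measurable_pairVal B hV c (φ i)).aestronglyMeasurable)
      (D := (du + dp) * (√d + ‖c‖)) (by positivity)
      (fun i hi => rows_near_all hRB hdu hdp hV c hi) (T := T)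
      (fun i => (hTm i).aestronglyMeasurable)
      (e := (N.srcD + N.Ld * rowGap M th du dp) * (√d + ‖c‖)) (L := 0) (by positivity) le_rfl
      (fun i => by rw [ENNReal.ofReal_zero, zero_mul, add_zero]; exact hTe i)
      (j := 1) (by omega) (Dj := dp * (√d + ‖c‖)) (by positivity)
      (hRB.powNear 1 le_rfl (by omega) V hV c)
      (fun p => B.pairVal V c (φ 0) p)
    set v := fun p => th⁻¹ • ∑ i, ruleWeight M (coefFun 1) i • T i p
    have e1 : ∀ p, B.evalFun V c ((-th⁻¹) • ∑ i, ruleWeight M (coefFun 1) i • ψ i) p =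
        -(v p).ofLp.1 := fun p => by
      simp [v, T, evalFun, eval_smul, eval_sum_smul, WithLp.ofLp_sum, Prod.fst_sum]
    have e2 : (fun p => v p - A p (A p (z p))) = (th ^ 2)⁻¹ • fun p =>
        powStep M th (B.pairVal V c (φ 0) p) (fun i => T i p) (1 + 1)
          - th ^ (1 + 1) • (A p ^ (1 + 1)) (z p) := by
      funext p
      simp only [v, Pi.smul_apply, powStep, Nat.factorial_one, Nat.cast_one, mul_one, smul_sub,
        smul_smul, one_add_one_eq_two, pow_two, mul_apply_eq_comp]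
      congr 1
      · congr 1; field_simp
      · rw [inv_mul_cancel₀ (mul_ne_zero hth.ne' hth.ne'), one_smul]
    calc eLpNorm (fun p => B.evalFun V c ((-th⁻¹) • ∑ i, ruleWeight M (coefFun 1) i • ψ i) p -
          sqTruth r Fz Fu V c p.1 (extFun p.2)) 2 B.idealLaw
        = eLpNorm (fun p => -(v p).ofLp.1 - scoreD V r (B.truthFun Fz V c p)
            (scoreD V r (B.truthFun Fz V c p) (z p).ofLp.1)) 2 B.idealLaw := by
          congr 1; funext p; rw [e1]; rfl
      _ ≤ eLpNorm (fun p => v p - A p (A p (z p))) 2 B.idealLaw := eLp_square_fst_le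
      _ ≤ _ := by
          rw [e2, eLpNorm_const_smul, Real.enorm_eq_ofReal_abs, abs_of_nonneg (by positivity)]
          refine (mul_le_mul' le_rfl hstep).trans ?_
          rw [← ENNReal.ofReal_mul (by positivity)]
          refine ENNReal.ofReal_le_ofReal ?_
          rw [mul_assoc ((th ^ 2)⁻¹), mul_assoc th ((1 : ℕ).factorial : ℝ)]
          refine mul_le_mul_of_nonneg_left ?_ (by positivity)
          rw [zero_add, add_mul (th * 2 * dp)]
          refine add_le_add (le_of_eq (by ring)) ?_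
          rw [show th * powBound M * (M * (N.srcD + (N.Ld + 2) * rowGap M th du dp)) * (√d + ‖c‖) =
            th * powBound M * (M * ((N.srcD + (N.Ld + 2) * rowGap M th du dp) * (√d + ‖c‖))) by ring]
          refine mul_le_mul (mul_le_mul_of_nonneg_left (le_powBound M (by omega)) hth.le)
            (le_of_eq ?_) (by positivity) (by have := one_le_powBound M; positivity)
          simp only [rowGap]
          ring

/-- The numbers of the readback. -/
theorem final_dist_le {th du : ℝ} {Nin Nout : TanNum} {k : ℕ} (hM : 2 ≤ M) (hth : 0 < th)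
    (hdu : 0 ≤ du) (hsmall : rowsConst M * th * (2 * Nin.Ld) ≤ 1 / 2) :
    (th ^ 2)⁻¹ * (th * 2 * rowsDist M th Nin du k + th * powBound M *
        (M * (Nout.srcD + (Nout.Ld + 2) * rowGap M th du (rowsDist M th Nin du k)))) ≤
      4 * rowsConst M ^ 2 * (th⁻¹ * (Nout.srcD + Nout.Ld * du) + Nout.Ld *
        (Nin.srcD + (rowsConst M * th * (2 * Nin.Ld)) ^ k + th ^ (M - 1))) := by
  obtain ⟨-, -, hC1⟩ := rowsConst_bounds M
  set Cc := rowsConst M with hCc
  set Q : ℝ := (M : ℝ) + 2 ^ M * Real.exp 2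
  set p : ℝ := (Cc * th * (2 * Nin.Ld)) ^ k
  have hLd := Nin.one_le_Ld
  have hs := Nin.srcD_nonneg
  have hLo := Nout.one_le_Ld
  have hso := Nout.srcD_nonneg
  have hth1' : th * (2 * Nin.Ld) ≤ 1 := by nlinarith
  have hth1 : th ≤ 1 := by nlinarith
  have hp : 0 ≤ p := by positivity
  have hD := rowsDist_nonneg (M := M) hth.le Nin hdu k
  have hDD : th⁻¹ * rowsDist M th Nin du k ≤
      Cc * (th⁻¹ * du + 2 * Nin.srcD + (p + th ^ (M - 1)) * 2) := by
    have h1 : 2 * Nin.Ld * du ≤ th⁻¹ * du := mul_le_mul_of_nonneg_right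
      (by rw [← one_div, le_div_iff₀ hth, mul_comm]; exact hth1') hdu
    have h2 : 2 * Nin.Ld * th ^ M * 2 ≤ th ^ (M - 1) * 2 := by
      rw [show th ^ M = th * th ^ (M - 1) by rw [← pow_succ']; congr 1; omega, ← mul_assoc]
      refine mul_le_mul_of_nonneg_right (mul_le_of_le_one_left (by positivity) ?_) two_pos.le
      rw [mul_comm]; exact hth1'
    calc th⁻¹ * rowsDist M th Nin du k
        = Cc * (p * 2 + (2 * Nin.srcD + 2 * Nin.Ld * du + 2 * Nin.Ld * th ^ M * 2)) := by
          simp only [rowsDist, p, Cc]; field_simp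
      _ ≤ _ := mul_le_mul_of_nonneg_left (by linarith) (by linarith)
  refine (rows_final_num (M := M) (Q := Q) (C₀ := Cc) (G := 2) (p := p) (e := 2 * Nin.srcD)
    (S := powBound M) (δ := du) (by omega) hth hth1 hLo (by positivity) hso hdu two_pos.le hp
    (zero_le_one.trans (one_le_powBound M)) le_rfl (by linarith) hD hDD).trans ?_
  have hQ : 0 ≤ Q := by positivity
  have hP := one_le_powBound M
  have hMnn : (0 : ℝ) ≤ M := Nat.cast_nonneg M
  have hKC : 2 * Cc + powBound M * M * (1 + 3 * Q * (2 + Cc)) ≤ 2 * Cc ^ 2 := by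
    have hX : powBound M * (M + 1) * (1 + 3 * Q) * 4 ≤ Cc := by
      rw [hCc]; unfold rowsConst
      have : 0 ≤ powBound M * (M + 1) * (1 + 3 * Q * (2 + 2 * (2 + 2 ^ M +
        powBound M * (M + 1) * (1 + 3 * Q)))) := by positivity
      simp only [Q] at this ⊢
      linarith [pow_nonneg (zero_le_two : (0 : ℝ) ≤ 2) M]
    have h3 : powBound M * M * (1 + 3 * Q * (2 + Cc)) ≤
        powBound M * (M + 1) * (1 + 3 * Q) * (3 * Cc) := by
      rw [mul_assoc (powBound M * (M + 1))]
      exact mul_le_mul (mul_le_mul_of_nonneg_left (by linarith) (by linarith))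
        (by nlinarith) (by positivity) (by positivity)
    have h4 : 2 ≤ Cc := by
      have h := (rowsConst_bounds M).2.1
      have h0 : 0 ≤ powBound M * M * (1 + 3 * Q) := by positivity
      simp only [Q] at h0
      linarith [pow_nonneg (zero_le_two : (0 : ℝ) ≤ 2) M]
    nlinarith [mul_le_mul_of_nonneg_right hX (show (0 : ℝ) ≤ 3 * Cc by linarith)]
  refine (mul_le_mul_of_nonneg_right hKC (by positivity)).trans ?_
  have h1 : th⁻¹ * Nout.srcD + Nout.Ld * (th⁻¹ * du + 2 * Nin.srcD + (p + th ^ (M - 1)) * 2) ≤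
      2 * (th⁻¹ * (Nout.srcD + Nout.Ld * du) + Nout.Ld * (Nin.srcD + p + th ^ (M - 1))) := by
    have a : 0 ≤ th⁻¹ * Nout.srcD := by positivity
    have b : 0 ≤ Nout.Ld * (th⁻¹ * du) := by positivity
    nlinarith
  exact (mul_le_mul_of_nonneg_left h1 (by positivity)).trans (le_of_eq (by ring))

/-- The square of the derivative of the score at `Fz`, applied to the seed `Fu`: the inner block
at all rows `k` times, then the outer block once per node, read back with `th⁻¹`. -/
theorem rowsBlock {S : Bld En} {Nin Nout : TanNum} (hin : S.TanStep r Fz Nin)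
    (hout : S.TanStep r Fz Nout) (hok : S.Ok) {k : ℕ}
    (hlen : S.len + (k * (2 * (M * Nin.K)) + M * Nout.K) ≤ S.circ.T) {φu φg : Form}
    {nu eu lu du : ℝ} (hM : 2 ≤ M) (hfit : RowsFit M th Nin nu Nin.tol)
    (hblur : nu + M * (th * powBound M * Nin.out) ≤ Nout.tol) (hr : 0 < r) (hth : 0 < th)
    (hmax : rowGap M th (2 * du) (rowsDist M th Nin (2 * du) 0) ≤ Nin.Dmax)
    (hmax' : rowGap M th (2 * du) (rowsDist M th Nin (2 * du) 0) ≤ Nout.Dmax)
    (he0 : 0 ≤ eu) (hl0 : 0 ≤ lu) (hdu : 0 ≤ du) (hu : S.Has φu nu eu lu) (hg : S.Has φg nu eu lu)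
    (hFz : TMeas Fz) (hFu : TMeas Fu) (hFg : TMeas Fg) (hnu : S.Near φu Fu du)
    (hng : S.Near φg Fg du) (hlaw : PairSeedAt En S.circ.T Fz Fu Fg) :
    ∃ (B : Bld En) (χ : Form), S.Ext B ∧ B.Ok ∧
      B.len ≤ S.len + (k * (2 * (M * Nin.K)) + M * Nout.K) ∧
      B.Has χ (th⁻¹ * powBound M * Nout.out)
        (th⁻¹ * powBound M * (Nout.src + Nout.L * (eu + M * rowsSize M th Nin.src Nin.L eu)))
        (th⁻¹ * powBound M * (Nout.srcL + Nout.L * (lu + M * rowsSize M th Nin.srcL Nin.L lu))) ∧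
      B.Near χ (sqTruth r Fz Fu)
        (4 * rowsConst M ^ 2 * (th⁻¹ * (Nout.srcD + Nout.Ld * (2 * du)) + Nout.Ld *
          (Nin.srcD + (rowsConst M * th * (2 * Nin.Ld)) ^ k + th ^ (M - 1)))) := by
  have hth1 : th ≤ 1 := by
    nlinarith [hfit.smallD, mul_le_mul (rowsConst_bounds M).2.2 Nin.one_le_Ld zero_le_one
      (le_trans zero_le_one (rowsConst_bounds M).2.2)]
  obtain ⟨A, φ, hA, hAok, hAlen, hAR⟩ := rows_iters hin hok (k := k) (by omega) hM hfit hr hth hmax he0
    hl0 hdu hu hg hFz hFu hFg hnu hng hlaw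
  have hL : 0 ≤ Nin.L := zero_le_one.trans Nin.one_le_L
  have hn : 0 ≤ th * powBound M * Nin.out := by
    have := Nin.out_nonneg; have := one_le_powBound M; positivity
  obtain ⟨B, χ, hB, hBok, hBlen, hBH, hBN⟩ := rows_final (hout.ext hA) hAok (by rw [hA.T]; omega)
    hM hAR hr hth hth1 hn he0 (rowsSize_nonneg hth.le Nin.src_nonneg hL he0) hl0
    (rowsSize_nonneg hth.le Nin.srcL_nonneg hL hl0) (by linarith)
    (rowsDist_nonneg hth.le Nin (by linarith) k) hblur
    ((rowGap_rowsDist_le hth.le hfit.smallD k).trans hmax') hFz hFu hFg (by rw [hA.T]; exact hlaw)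
  exact ⟨B, χ, hA.trans hB, hBok, by omega, hBH,
    hBN.mono (final_dist_le hM hth (by linarith) hfit.smallD)⟩

end Block

end Bld

end

end P347.Zero
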