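import Vale.Agent.P347.Zero.Delta

/-!
# P347: how the derivative along the flow passes through the operators
-/

namespace P347.Zero

open MeasureTheory ProbabilityTheory Filter Topology Finset P347.Quarter
open scoped RealInnerProductSpace

noncomputable section

variable {d : ℕ}

theorem length_merge : ∀ (p : List Bool) (A B : List (Fin d)), A.length = numT p →
    B.length = numF p → (merge' p A B).length = p.length
  | [], _, _, _, _ => rfl
  | true :: p, A, B, hA, hB => by
    cases A with
    | nil => simp [numT] at hA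
    | cons i A =>
      simp only [numT, List.length_cons, Nat.add_right_cancel_iff] at hA
      simp [merge', length_merge p A B hA hB]
  | false :: p, A, B, hA, hB => by
    cases B with
    | nil => simp [numF] at hB
    | cons i B =>
      simp only [numF, List.length_cons, Nat.add_right_cancel_iff] at hB
      cases A <;> simp [merge', length_merge p _ B hA hB]

namespace Ctx

variable (X : Ctx d)

/-- The derivative along the flow, entry by entry. -/
def DT (Y : Fld d) : Fld d := fun L => X.dT (Y L)

/-- Multiplication by one contraction of two derivatives. -/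
def MulC (a s : ℕ) (π : List Bool) (Y : Fld d) : Fld d := fun L q w u =>
  tsum' s fun S => contract (fun A => X.coef A q w u) (fun A => X.coef A q w u) π (L.take a ++ S)
    * Y (S ++ L.drop a) q w u

/-- Multiplication by all the lower contractions. -/
def MulP (a s : ℕ) (Y : Fld d) : Fld d := fun L q w u =>
  tsum' s fun S => proper X.V (L.take a ++ S) (X.t - q ^ 2, X.y + q • w)
    * Y (S ++ L.drop a) q w u

variable {X}

theorem alg_DT {n : ℕ} {Y : Fld d} (h : X.A n Y) : X.A n (X.DT Y) := fun L hL => (h L hL).dT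

theorem alg_MulC {a s m : ℕ} (π : List Bool) {Y : Fld d} (h : X.A (s + m) Y) :
    X.A (a + m) (X.MulC a s π Y) := fun L hL =>
  Alg.tsum s fun S hS => (X.alg_contract π _).mul (h _ (by simp [hS]; omega))

theorem alg_MulP {a s m : ℕ} {Y : Fld d} (ha : 1 ≤ a) (h : X.A (s + m) Y) :
    X.A (a + m) (X.MulP a s Y) := fun L hL =>
  Alg.tsum s fun S hS => (X.alg_proper _ (by simp; omega)).mul (h _ (by simp [hS]; omega))

theorem coef_perm {A B : List (Fin d)} (h : A.Perm B) {q : ℝ} (hq : q ^ 2 < X.t) (w u : Space d) :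
    X.coef A q w u = X.coef B q w u :=
  ld_perm X.hV (by linarith) h _

theorem dT_sum {κ : Type} (s : Finset κ) {f : κ → Fn d} (h : ∀ k, X.Alg (f k))
    {q : ℝ} (hq : q ^ 2 < X.t) (w u : Space d) :
    X.dT (fun q w u => ∑ k ∈ s, f k q w u) q w u = ∑ k ∈ s, X.dT (f k) q w u := by
  simp only [Ctx.dT, dW_sum s h _ hq w u, mul_sum]
  rw [deriv_fun_sum fun k _ => (h k).differentiableAt_q hq w u, sum_comm, ← sum_add_distrib]

theorem dT_tsum {q : ℝ} (hq : q ^ 2 < X.t) (w u : Space d) :
    ∀ (s : ℕ) {F : List (Fin d) → Fn d}, (∀ L, L.length = s → X.Alg (F L)) →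
      X.dT (fun q w u => tsum' s fun L => F L q w u) q w u = tsum' s fun L => X.dT (F L) q w u
  | 0, _, _ => rfl
  | s + 1, F, h => by
    simp only [tsum']
    rw [dT_sum _ (fun j => Alg.tsum s (F := fun L => F (j :: L)) fun L hL => h _ (by simp [hL]))
      hq w u]
    exact sum_congr rfl fun j _ =>
      dT_tsum hq w u s (F := fun L => F (j :: L)) fun L hL => h _ (by simp [hL])

theorem dT_const (c : ℝ) (q : ℝ) (w u : Space d) : X.dT (fun _ _ _ => c) q w u = 0 := by
  simp [Ctx.dT, Ctx.dW]

theorem dT_time (q : ℝ) (w u : Space d) : X.dT (fun q _ _ => q) q w u = 1 := by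
  simp [Ctx.dT, Ctx.dW]

theorem dT_coordU (l : Fin d) (q : ℝ) (w u : Space d) : X.dT (fun _ _ u => u l) q w u = 0 := by
  simp [Ctx.dT, Ctx.dW]

theorem dT_coordW (l : Fin d) (q : ℝ) (w u : Space d) :
    X.dT (fun _ w _ => w l) q w u = X.coef [l] q w u := by
  have h : ∀ j, Ctx.dW j (fun _ w _ => w l : Fn d) q w u = bv j l := fun j => by
    simp only [Ctx.dW]
    rw [show (fun w' : Space d => w' l) = ⇑(EuclideanSpace.proj l : Space d →L[ℝ] ℝ) from rfl,
      ContinuousLinearMap.fderiv]
    rfl
  simp [Ctx.dT, h, bv, EuclideanSpace.basisFun_apply]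

theorem proper_single (l : Fin d) (p : ℝ × Space d) : proper X.V [l] p = 0 := by
  rw [proper_eq [l] (mid := []) (by simp [pats, List.replicate_succ])]
  simp

/-- The time derivative commutes with a space derivative. -/
theorem deriv_dW {f : Fn d} (hf : X.Alg f) (i : Fin d) {q : ℝ} (hq : q ^ 2 < X.t) (w u : Space d) :
    deriv (fun q' => dW i f q' w u) q
      = fderiv ℝ (fun w' => deriv (fun q' => f q' w' u) q) w (bv i) ∧
    deriv (fun q' => dU i f q' w u) q
      = fderiv ℝ (fun u' => deriv (fun q' => f q' w u') q) u (bv i) := by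
  set g : ℝ × Space d × Space d → ℝ := fun p => f p.1 p.2.1 p.2.2
  set p₀ : ℝ × Space d × Space d := (q, w, u)
  have h2 : ContDiffAt ℝ 2 g p₀ := hf.contDiffAt 2 hq w u
  have hdd : DifferentiableAt ℝ (fderiv ℝ g) p₀ :=
    (h2.fderiv_right (m := 1) (by norm_num)).differentiableAt one_ne_zero
  set H := fderiv ℝ (fderiv ℝ g) p₀
  have hd : ∀ q', q' ^ 2 < X.t → ∀ w' u', HasFDerivAt g (fderiv ℝ g (q', w', u')) (q', w', u') :=
    fun q' hq' w' u' => ((hf.contDiffAt 1 hq' w' u').differentiableAt one_ne_zero).hasFDerivAt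
  set eT : ℝ × Space d × Space d := (1, 0, 0)
  set eW : ℝ × Space d × Space d := (0, bv i, 0)
  set eU : ℝ × Space d × Space d := (0, 0, bv i)
  have gW : ∀ q', q' ^ 2 < X.t → dW i f q' w u = fderiv ℝ g (q', w, u) eW := by
    intro q' hq'
    have : HasFDerivAt (fun w' => f q' w' u) _ w := (hd q' hq' w u).comp w
      (f := fun w' => (q', w', u))
      ((hasFDerivAt_const q' w).prodMk ((hasFDerivAt_id w).prodMk (hasFDerivAt_const u w)))
    simp only [Ctx.dW]
    rw [this.fderiv]; simp [eW]
  have gU : ∀ q', q' ^ 2 < X.t → dU i f q' w u = fderiv ℝ g (q', w, u) eU := by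
    intro q' hq'
    have : HasFDerivAt (fun u' => f q' w u') _ u := (hd q' hq' w u).comp u
      (f := fun u' => (q', w, u'))
      ((hasFDerivAt_const q' u).prodMk ((hasFDerivAt_const w u).prodMk (hasFDerivAt_id u)))
    simp only [Ctx.dU]
    rw [this.fderiv]; simp [eU]
  have gT : ∀ w' u', deriv (fun q' => f q' w' u') q = fderiv ℝ g (q, w', u') eT := by
    intro w' u'
    have : HasDerivAt (fun q' => f q' w' u') (fderiv ℝ g (q, w', u') eT) q :=
      (hd q hq w' u').comp_hasDerivAt q (f := fun q' : ℝ => (q', w', u'))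
        ((hasDerivAt_id' q).prodMk ((hasDerivAt_const q w').prodMk (hasDerivAt_const q u')))
    exact this.deriv
  have hline : HasDerivAt (fun q' => fderiv ℝ g (q', w, u)) (H eT) q :=
    hdd.hasFDerivAt.comp_hasDerivAt q (f := fun q' : ℝ => (q', w, u))
      ((hasDerivAt_id' q).prodMk ((hasDerivAt_const q w).prodMk (hasDerivAt_const q u)))
  have hsym := h2.isSymmSndFDerivAt (by simp)
  have hev : ∀ᶠ q' in 𝓝 q, q' ^ 2 < X.t :=
    ((continuous_pow 2).tendsto q).eventually (Iio_mem_nhds hq)
  constructor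
  · have a : HasDerivAt (fun q' => dW i f q' w u) (H eT eW) q := by
      have h : HasDerivAt (fun q' => fderiv ℝ g (q', w, u) eW) (H eT eW) q := by
        simpa using hline.clm_apply (hasDerivAt_const q eW)
      exact h.congr_of_eventuallyEq (hev.mono fun q' hq' => gW q' hq')
    have b : HasFDerivAt (fun w' => fderiv ℝ g (q, w', u) eT) _ w :=
      (hdd.hasFDerivAt.comp w (f := fun w' : Space d => (q, w', u))
        ((hasFDerivAt_const q w).prodMk ((hasFDerivAt_id w).prodMk (hasFDerivAt_const u w)))).clm_apply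
        (hasFDerivAt_const eT w)
    rw [a.deriv, show (fun w' => deriv (fun q' => f q' w' u) q)
      = fun w' => fderiv ℝ g (q, w', u) eT from funext fun w' => gT w' u, b.fderiv]
    simpa [eW, eT, H] using hsym.eq eT eW
  · have a : HasDerivAt (fun q' => dU i f q' w u) (H eT eU) q := by
      have h : HasDerivAt (fun q' => fderiv ℝ g (q', w, u) eU) (H eT eU) q := by
        simpa using hline.clm_apply (hasDerivAt_const q eU)
      exact h.congr_of_eventuallyEq (hev.mono fun q' hq' => gU q' hq')
    have b : HasFDerivAt (fun u' => fderiv ℝ g (q, w, u') eT) _ u :=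
      (hdd.hasFDerivAt.comp u (f := fun u' : Space d => (q, w, u'))
        ((hasFDerivAt_const q u).prodMk ((hasFDerivAt_const w u).prodMk (hasFDerivAt_id u)))).clm_apply
        (hasFDerivAt_const eT u)
    rw [a.deriv, show (fun u' => deriv (fun q' => f q' w u') q)
      = fun u' => fderiv ℝ g (q, w, u') eT from funext fun u' => gT w u', b.fderiv]
    simpa [eU, eT, H] using hsym.eq eT eU

theorem dT_dW {f : Fn d} (hf : X.Alg f) (i : Fin d) {q : ℝ} (hq : q ^ 2 < X.t) (w u : Space d) :
    X.dT (dW i f) q w u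
      = dW i (X.dT f) q w u - q * ∑ l, X.coef [i, l] q w u * dW l f q w u := by
  have hA : ∀ l, X.Alg fun q w u => X.coef [l] q w u * dW l f q w u :=
    fun l => (Alg.coef [l] (by simp)).mul (hf.dW l)
  have hsum := Alg.sum Finset.univ hA
  have hdT := hf.dT
  have hdt : Differentiable ℝ (fun w' => deriv (fun q' => f q' w' u) q) := fun w' => by
    have h := ((hdT.contDiff_w 1 hq u).differentiable one_ne_zero w').sub
      ((hsum.contDiff_w 1 hq u).differentiable one_ne_zero w')
    refine h.congr_of_eventuallyEq (Eventually.of_forall fun x => ?_)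
    simp [Ctx.dT]
  have e : dW i (X.dT f) q w u = fderiv ℝ (fun w' => deriv (fun q' => f q' w' u) q) w (bv i)
      + ∑ l, (q * X.coef [i, l] q w u * dW l f q w u
        + X.coef [l] q w u * dW i (dW l f) q w u) := by
    show fderiv ℝ (fun w' => deriv (fun q' => f q' w' u) q
      + ∑ l, X.coef [l] q w' u * dW l f q w' u) w (bv i) = _
    rw [fderiv_fun_add (hdt w) ((hsum.contDiff_w 1 hq u).differentiable one_ne_zero w),
      _root_.add_apply]
    congr 1
    refine (dW_sum Finset.univ hA i hq w u).trans (sum_congr rfl fun l _ => ?_)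
    rw [dW_mul (Alg.coef [l] (by simp)) (hf.dW l) i hq w u, dW_coef [l] i hq w u]
  show deriv (fun q' => dW i f q' w u) q + ∑ l, X.coef [l] q w u * dW l (dW i f) q w u = _
  rw [(deriv_dW hf i hq w u).1, e, sum_add_distrib, mul_sum,
    sum_congr rfl fun l _ => show X.coef [l] q w u * dW l (dW i f) q w u
      = X.coef [l] q w u * dW i (dW l f) q w u by rw [dW_comm hf l i hq w u]]
  simp only [mul_assoc]
  ring

theorem dT_dU {f : Fn d} (hf : X.Alg f) (i : Fin d) {q : ℝ} (hq : q ^ 2 < X.t) (w u : Space d) :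
    X.dT (dU i f) q w u = dU i (X.dT f) q w u := by
  have hA : ∀ l, X.Alg fun q w u => X.coef [l] q w u * dW l f q w u :=
    fun l => (Alg.coef [l] (by simp)).mul (hf.dW l)
  have hsum := Alg.sum Finset.univ hA
  have hdT := hf.dT
  have hdt : Differentiable ℝ (fun u' => deriv (fun q' => f q' w u') q) := fun u' => by
    have h := ((hdT.contDiff_u 1 hq w).differentiable one_ne_zero u').sub
      ((hsum.contDiff_u 1 hq w).differentiable one_ne_zero u')
    refine h.congr_of_eventuallyEq (Eventually.of_forall fun x => ?_)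
    simp [Ctx.dT]
  have e : dU i (X.dT f) q w u = fderiv ℝ (fun u' => deriv (fun q' => f q' w u') q) u (bv i)
      + ∑ l, X.coef [l] q w u * dU i (dW l f) q w u := by
    show fderiv ℝ (fun u' => deriv (fun q' => f q' w u') q
      + ∑ l, X.coef [l] q w u' * dW l f q w u') u (bv i) = _
    rw [fderiv_fun_add (hdt u) ((hsum.contDiff_u 1 hq w).differentiable one_ne_zero u),
      _root_.add_apply]
    congr 1
    refine (dU_sum Finset.univ hA i hq w u).trans (sum_congr rfl fun l _ => ?_)
    rw [dU_mul (Alg.coef [l] (by simp)) (hf.dW l) i hq w u, dU_coef [l] i q w u]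
    ring
  show deriv (fun q' => dU i f q' w u) q + ∑ l, X.coef [l] q w u * dW l (dU i f) q w u = _
  rw [(deriv_dW hf i hq w u).2, e,
    sum_congr rfl fun l _ => show X.coef [l] q w u * dW l (dU i f) q w u
      = X.coef [l] q w u * dU i (dW l f) q w u by rw [dW_dU_comm hf l i hq w u]]

theorem DT_DW {n : ℕ} {Y : Fld d} (hY : X.A n Y) {q : ℝ} (hq : q ^ 2 < X.t) (L : List (Fin d))
    (hL : L.length = n + 1) (w u : Space d) :
    X.DT (DW Y) L q w u
      = DW (X.DT Y) L q w u + (-1 : ℝ) * tim (X.Mul 1 1 (DW Y)) L q w u := by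
  cases L with
  | nil => simp at hL
  | cons i L =>
    simp only [List.length_cons, Nat.add_right_cancel_iff] at hL
    show X.dT (dW i (Y L)) q w u = _
    rw [dT_dW (hY L hL) i hq w u]
    simp only [DW, DT, Ctx.tim, Ctx.Mul, List.take_succ_cons, List.take_zero, List.drop_succ_cons,
      List.drop_zero, List.cons_append, List.nil_append, tsum'_one]
    ring

theorem DT_DU {n : ℕ} {Y : Fld d} (hY : X.A n Y) {q : ℝ} (hq : q ^ 2 < X.t) (L : List (Fin d))
    (hL : L.length = n + 1) (w u : Space d) :
    X.DT (DU Y) L q w u = DU (X.DT Y) L q w u := by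
  cases L with
  | nil => simp at hL
  | cons i L =>
    simp only [List.length_cons, Nat.add_right_cancel_iff] at hL
    exact dT_dU (hY L hL) i hq w u

theorem dT_beta (l : Fin d) {q : ℝ} (hq : q ^ 2 < X.t) (w u : Space d) :
    X.dT (X.beta l) q w u
      = -(q * ∑ m, (q * X.coef [m, m, l] q w u + X.beta m q w u * X.coef [m, l] q w u)) := by
  have h := dT_add (Alg.coordW l).neg (Alg.time.mul (Alg.coef (X := X) [l] (by simp))) hq w u
  have h1 : X.dT (fun q w u => -(w l) : Fn d) q w u = -X.coef [l] q w u := by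
    have e := dT_congr (X := X) (f := fun q w u => (-1 : ℝ) * w l) (g := fun _ w _ => -(w l))
      (fun q _ w u => by ring) q hq w u
    rw [e, dT_mul (Alg.const (-1)) (Alg.coordW l) hq w u, dT_const, dT_coordW]
    ring
  have h2 : X.dT (fun q w u => q * X.coef [l] q w u) q w u
      = X.coef [l] q w u + q * X.dT (X.coef [l]) q w u := by
    rw [dT_mul Alg.time (Alg.coef [l] (by simp)) hq w u, dT_time, one_mul]
  rw [h1, h2, dT_coef [l] hq w u, proper_single] at h
  refine Eq.trans ?_ (h.trans (by ring))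
  rfl

theorem DT_dlW {n : ℕ} {Y : Fld d} (hY : X.A (n + 1) Y) {q : ℝ} (hq : q ^ 2 < X.t)
    (L : List (Fin d)) (hL : L.length = n) (w u : Space d) :
    X.DT (X.dlW Y) L q w u
      = X.dlW (X.DT Y) L q w u + (-1 : ℝ) * tim (X.dlW (X.Mul 1 1 Y)) L q w u := by
  have hy : ∀ l, X.Alg (Y (l :: L)) := fun l => hY _ (by simp [hL])
  have hl : ∀ l, X.Alg fun q w u => dW l (Y (l :: L)) q w u + X.beta l q w u * Y (l :: L) q w u :=
    fun l => ((hy l).dW l).add ((X.alg_beta l).mul (hy l))
  show X.dT (fun q w u => ∑ l, (dW l (Y (l :: L)) q w u + X.beta l q w u * Y (l :: L) q w u))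
    q w u = _
  rw [dT_sum _ hl hq w u]
  have hlhs : ∀ l, X.dT (fun q w u => dW l (Y (l :: L)) q w u
      + X.beta l q w u * Y (l :: L) q w u) q w u
      = dW l (X.dT (Y (l :: L))) q w u + X.beta l q w u * X.dT (Y (l :: L)) q w u
        - q * ∑ m, (X.coef [l, m] q w u * dW m (Y (l :: L)) q w u
          + (q * X.coef [m, m, l] q w u + X.beta m q w u * X.coef [m, l] q w u)
            * Y (l :: L) q w u) := by
    intro l
    rw [dT_add ((hy l).dW l) ((X.alg_beta l).mul (hy l)) hq w u, dT_dW (hy l) l hq w u,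
      dT_mul (X.alg_beta l) (hy l) hq w u, dT_beta l hq w u]
    simp only [mul_add, add_mul, sum_add_distrib, mul_sum, sum_mul, mul_assoc, neg_mul]
    ring
  have hZ : ∀ m : Fin d, dW m (X.Mul 1 1 Y (m :: L)) q w u
      = ∑ l, (q * X.coef [m, m, l] q w u * Y (l :: L) q w u
        + X.coef [l, m] q w u * dW m (Y (l :: L)) q w u) := by
    intro m
    show dW m (fun q w u => tsum' 1 fun S =>
      X.coef ((m :: L).take 1 ++ S) q w u * Y (S ++ (m :: L).drop 1) q w u) q w u = _
    simp only [tsum'_one, List.take_succ_cons, List.take_zero, List.drop_succ_cons, List.drop_zero,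
      List.cons_append, List.nil_append]
    refine (dW_sum Finset.univ (fun l => (Alg.coef [m, l] (by simp)).mul (hy l)) m hq w u).trans
      (sum_congr rfl fun l _ => ?_)
    rw [dW_mul (Alg.coef [m, l] (by simp)) (hy l) m hq w u, dW_coef [m, l] m hq w u,
      coef_perm (List.Perm.swap m l []) hq w u]
  have hM : ∀ m : Fin d, X.Mul 1 1 Y (m :: L) q w u = ∑ l, X.coef [m, l] q w u * Y (l :: L) q w u :=
    fun m => by
      simp only [Ctx.Mul, tsum'_one, List.take_succ_cons, List.take_zero, List.drop_succ_cons,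
        List.drop_zero, List.cons_append, List.nil_append]
  simp only [hlhs, Ctx.dlW, DT, Ctx.tim, hZ, hM]
  simp only [sum_sub_distrib, sum_add_distrib, mul_sum, add_mul, mul_add]
  simp only [mul_assoc, sum_comm (f := fun x i => q * (q * (X.coef [i, i, x] q w u * Y (x :: L) q w u))),
    sum_comm (f := fun x i => q * (X.beta i q w u * (X.coef [i, x] q w u * Y (x :: L) q w u))),
    sum_comm (f := fun x i => q * (X.coef [x, i] q w u * dW i (Y (x :: L)) q w u))]
  simp only [mul_comm, mul_left_comm, mul_assoc]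
  ring_nf
  simp only [sum_neg_distrib]
  ring

theorem DT_dlU {n : ℕ} {Y : Fld d} (hY : X.A (n + 1) Y) {q : ℝ} (hq : q ^ 2 < X.t)
    (L : List (Fin d)) (hL : L.length = n) (w u : Space d) :
    X.DT (dlU Y) L q w u = dlU (X.DT Y) L q w u := by
  have hy : ∀ l, X.Alg (Y (l :: L)) := fun l => hY _ (by simp [hL])
  have hl : ∀ l, X.Alg fun q w u => dU l (Y (l :: L)) q w u - u l * Y (l :: L) q w u :=
    fun l => .congr (((hy l).dU l).add ((Alg.coordU l).mul (hy l)).neg) fun q _ w u => by ring
  show X.dT (fun q w u => ∑ l, (dU l (Y (l :: L)) q w u - u l * Y (l :: L) q w u)) q w u = _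
  rw [dT_sum _ hl hq w u]
  refine sum_congr rfl fun l _ => ?_
  have hm := (Alg.const (-1 : ℝ)).mul ((Alg.coordU l).mul (hy l))
  rw [dT_congr (X := X) (f := fun q w u => dU l (Y (l :: L)) q w u
      + (-1 : ℝ) * (u l * Y (l :: L) q w u)) (g := fun q w u => dU l (Y (l :: L)) q w u
      - u l * Y (l :: L) q w u) (fun q _ w u => by ring) q hq w u,
    dT_add ((hy l).dU l) hm hq w u, dT_dU (hy l) l hq w u,
    dT_mul (Alg.const (-1 : ℝ)) ((Alg.coordU l).mul (hy l)) hq w u, dT_const,
    dT_mul (Alg.coordU l) (hy l) hq w u, dT_coordU]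
  simp only [DT]
  ring

theorem DT_Mul {a s m : ℕ} {Y : Fld d} (ha : 1 ≤ a) (hY : X.A (s + m) Y) {q : ℝ} (hq : q ^ 2 < X.t)
    (L : List (Fin d)) (hL : L.length = a + m) (w u : Space d) :
    X.DT (X.Mul a s Y) L q w u = X.Mul a s (X.DT Y) L q w u
      + ((-1 : ℝ) * X.dlW (X.Mul (a + 1) s Y) L q w u
        + (X.Mul a (s + 1) (DW Y) L q w u + (-1 : ℝ) * tim (X.MulP a s Y) L q w u)) := by
  have hc : ∀ S : List (Fin d), S.length = s → X.Alg (X.coef (L.take a ++ S)) :=
    fun S _ => Alg.coef _ (by simp; omega)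
  have hy : ∀ S : List (Fin d), S.length = s → X.Alg (Y (S ++ L.drop a)) :=
    fun S hS => hY _ (by simp [hS]; omega)
  show X.dT (fun q w u => tsum' s fun S =>
    X.coef (L.take a ++ S) q w u * Y (S ++ L.drop a) q w u) q w u = _
  rw [dT_tsum hq w u s (F := fun S q w u =>
    X.coef (L.take a ++ S) q w u * Y (S ++ L.drop a) q w u) fun S hS => (hc S hS).mul (hy S hS)]
  have hdl : X.dlW (X.Mul (a + 1) s Y) L q w u = tsum' s fun S => ∑ l,
      (q * X.coef (l :: l :: (L.take a ++ S)) q w u * Y (S ++ L.drop a) q w u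
        + X.coef (l :: (L.take a ++ S)) q w u * dW l (Y (S ++ L.drop a)) q w u
        + X.beta l q w u * X.coef (l :: (L.take a ++ S)) q w u * Y (S ++ L.drop a) q w u) := by
    rw [tsum'_sum]
    refine sum_congr rfl fun l _ => ?_
    have hf : X.Mul (a + 1) s Y (l :: L) = fun q w u => tsum' s fun S =>
        X.coef (l :: (L.take a ++ S)) q w u * Y (S ++ L.drop a) q w u := by
      funext q w u
      simp only [Ctx.Mul, List.take_succ_cons, List.drop_succ_cons, List.cons_append]
    simp only [hf, ← tsum'_mul]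
    rw [dW_tsum l hq w u s (F := fun S q w u => X.coef (l :: (L.take a ++ S)) q w u *
      Y (S ++ L.drop a) q w u) fun S hS => (Alg.coef _ (by simp)).mul (hy S hS), ← tsum'_add]
    refine tsum'_congr fun S hS => ?_
    rw [dW_mul (Alg.coef _ (by simp)) (hy S hS) l hq w u, dW_coef _ l hq w u]
    ring
  have hM : X.Mul a (s + 1) (DW Y) L q w u = tsum' s fun S => ∑ l,
      X.coef (l :: (L.take a ++ S)) q w u * dW l (Y (S ++ L.drop a)) q w u := by
    rw [tsum'_sum]
    simp only [Ctx.Mul, tsum']
    refine sum_congr rfl fun l _ => tsum'_congr fun S _ => ?_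
    simp only [List.cons_append, DW]
    rw [coef_perm (List.perm_middle (a := l) (l₁ := L.take a) (l₂ := S)) hq w u]
  rw [hdl, hM]
  simp only [DT, Ctx.Mul, Ctx.tim, Ctx.MulP, ← tsum'_mul, ← tsum'_add]
  refine tsum'_congr fun S hS => ?_
  rw [dT_mul (hc S hS) (hy S hS) hq w u, dT_coef _ hq w u]
  simp only [sum_add_distrib, add_mul, sub_mul, neg_mul, sum_mul, mul_assoc]
  ring

/-- One contraction is a multiplication, a relabelling, and a multiplication. -/
theorem MulC_eq {p p' : List Bool} {m : ℕ} {Y : Fld d} {q : ℝ}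
    (hq : q ^ 2 < X.t) (L : List (Fin d)) (hL : L.length = p.length + m) (w u : Space d) :
    X.MulC p.length p'.length (p ++ p') Y L q w u
      = X.Mul (numT p) (numT p' + 1) (fun K => X.Mul (numF p + 1) (numF p')
          (fun K => Y (merge' p' ((K.drop (numF p')).take (numT p')) (K.take (numF p'))
            ++ K.drop (numF p' + numT p')))
          (K.head?.toList ++ ((K.drop (numT p' + 1)).take (numF p)
            ++ (K.tail.take (numT p') ++ K.drop (numT p' + 1 + numF p)))))
        (pickT p (L.take p.length) ++ (pickF p (L.take p.length) ++ L.drop p.length)) q w u := by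
  set A := L.take p.length
  set R := L.drop p.length
  have hA : A.length = p.length := by simp [A]; omega
  obtain ⟨hT, hF⟩ := length_pick p A hA.symm
  simp only [Ctx.MulC, contract, Ctx.Mul, sum_mul]
  rw [tsum'_sum]
  simp only [tsum']
  refine sum_congr rfl fun l _ => ?_
  rw [tsum'_merge p']
  refine tsum'_congr fun S1 hS1 => ?_
  have e1 : (pickT p A ++ (pickF p A ++ R)).take (numT p) = pickT p A := List.take_left' hT
  have e2 : (pickT p A ++ (pickF p A ++ R)).drop (numT p) = pickF p A ++ R := List.drop_left' hT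
  rw [e1, e2]
  have e3 : ((l :: S1) ++ (pickF p A ++ R)).drop (numT p' + 1) = pickF p A ++ R :=
    List.drop_left' (by simp [hS1])
  have e4 : ((l :: S1) ++ (pickF p A ++ R)).drop (numT p' + 1 + numF p) = R := by
    rw [← List.drop_drop, e3, List.drop_left' hF]
  simp only [List.head?_cons, Option.toList_some, List.cons_append, List.tail_cons] at *
  rw [e3, e4, List.take_left' hF, List.take_left' hS1]
  simp only [List.nil_append, List.take_succ_cons, List.drop_succ_cons, List.take_left' hF,
    List.drop_left' hF, List.cons_append]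
  rw [← tsum'_mul]
  refine tsum'_congr fun S2 hS2 => ?_
  have e5 : (S2 ++ (S1 ++ R)).drop (numF p' + numT p') = R := by
    rw [← List.drop_drop, List.drop_left' hS2, List.drop_left' hS1]
  rw [List.drop_left' hS2, List.take_left' hS2, List.take_left' hS1, e5]
  rw [pickT_append p p' _ _ hA.symm, pickF_append p p' _ _ hA.symm,
    pickT_merge p' S1 S2 hS1 hS2, pickF_merge p' S1 S2 hS1 hS2,
    coef_perm (List.perm_middle (a := l) (l₁ := pickT p A) (l₂ := S1)) hq w u]
  ring

theorem rx_g1 (p' : List Bool) (m : ℕ) :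
    RX (d := d) (numF p' + (numT p' + m)) (p'.length + m) fun K =>
      merge' p' ((K.drop (numF p')).take (numT p')) (K.take (numF p'))
        ++ K.drop (numF p' + numT p') := by
  refine ⟨fun K hK => ?_, fun S => le_of_eq ?_⟩
  · rw [List.length_append, length_merge p' _ _ (by simp; omega) (by simp; omega), List.length_drop]
    omega
  · unfold nsq
    rw [tsum'_append (numF p') (numT p' + m), tsum'_append p'.length m, tsum'_merge p', tsum'_comm]
    rw [tsum'_append (numT p') m]
    refine tsum'_congr fun S1 hS1 => ?_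
    rw [tsum'_comm]
    refine tsum'_congr fun S2 hS2 => tsum'_congr fun R _ => ?_
    have e5 : (S2 ++ (S1 ++ R)).drop (numF p' + numT p') = R := by
      rw [← List.drop_drop, List.drop_left' hS2, List.drop_left' hS1]
    beta_reduce
    rw [List.drop_left' hS2, List.take_left' hS2, List.take_left' hS1, e5]

theorem rx_g3 (a₂ s₁ m : ℕ) :
    RX (d := d) (s₁ + 1 + (a₂ + m)) (a₂ + 1 + (s₁ + m)) fun K =>
      K.head?.toList ++ ((K.drop (s₁ + 1)).take a₂ ++ (K.tail.take s₁ ++ K.drop (s₁ + 1 + a₂))) := by
  refine ⟨fun K hK => ?_, fun S => le_of_eq ?_⟩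
  · cases K with
    | nil => simp at hK; omega
    | cons h K => simp at hK ⊢; omega
  · unfold nsq
    rw [tsum'_append (s₁ + 1) (a₂ + m), tsum'_append (a₂ + 1) (s₁ + m)]
    simp only [tsum']
    refine sum_congr rfl fun h _ => ?_
    simp only [tsum'_append a₂ m, tsum'_append s₁ m]
    rw [tsum'_comm]
    refine tsum'_congr fun A hA => tsum'_congr fun B hB => tsum'_congr fun R _ => ?_
    have e3 : ((h :: B) ++ (A ++ R)).drop (s₁ + 1) = A ++ R := List.drop_left' (by simp [hB])
    have e4 : ((h :: B) ++ (A ++ R)).drop (s₁ + 1 + a₂) = R := by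
      rw [← List.drop_drop, e3, List.drop_left' hA]
    beta_reduce
    rw [e3, e4, List.take_left' hA]
    simp [List.take_left' hB]

theorem rx_g5 (p : List Bool) (m : ℕ) :
    RX (d := d) (p.length + m) (numT p + (numF p + m)) fun K =>
      pickT p (K.take p.length) ++ (pickF p (K.take p.length) ++ K.drop p.length) := by
  refine ⟨fun K hK => ?_, fun S => le_of_eq ?_⟩
  · obtain ⟨h1, h2⟩ := length_pick p (K.take p.length) (by simp; omega)
    simp [h1, h2]; omega
  · unfold nsq
    rw [tsum'_append p.length m, tsum'_merge p, tsum'_append (numT p) (numF p + m)]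
    refine tsum'_congr fun A hA => ?_
    rw [tsum'_append (numF p) m]
    refine tsum'_congr fun B hB => tsum'_congr fun R _ => ?_
    have hl := length_merge p A B hA hB
    beta_reduce
    rw [List.take_left' hl, List.drop_left' hl, pickT_merge p A B hA hB, pickF_merge p A B hA hB]

end Ctx

end

end P347.Zero
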