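import Vale.Agent.P347.Zero.BuildNear
import Vale.Agent.P347.Zero.Truth
import Vale.Agent.P347.Zero.Steps

/-!
# P347: from a built circuit and a sampler to an oracle

The centre is split into two independent copies: the sampler reads the first, the circuit the
second. The external vectors of the circuit are the sampled point and the gradient there.
-/

namespace P347.Zero

open MeasureTheory ProbabilityTheory
open scoped ENNReal Classical

noncomputable section

variable {d : ℕ}

/-- `((a, b), (c, d)) ↦ ((a, c), (b, d))` keeps product measures. -/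
theorem mp_mid {A B C D : Type} [MeasurableSpace A] [MeasurableSpace B] [MeasurableSpace C]
    [MeasurableSpace D] (a : Measure A) (b : Measure B) (c : Measure C) (e : Measure D) [SFinite a]
    [SFinite b] [SFinite c] [SFinite e] :
    MeasurePreserving (fun p : (A × B) × (C × D) => ((p.1.1, p.2.1), (p.1.2, p.2.2)))
      ((a.prod b).prod (c.prod e)) ((a.prod c).prod (b.prod e)) := by
  have h : MeasurePreserving (fun p : B × (C × D) => (p.2.1, (p.1, p.2.2)))
      (b.prod (c.prod e)) (c.prod (b.prod e)) :=
    (measurePreserving_prodAssoc c b e).comp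
      (((Measure.measurePreserving_swap (μ := b) (ν := c)).prod (MeasurePreserving.id e)).comp
        (measurePreserving_prodAssoc b c e).symm)
  exact (measurePreserving_prodAssoc a c (b.prod e)).symm.comp
    (((MeasurePreserving.id a).prod h).comp (measurePreserving_prodAssoc a b (c.prod e)))

section Post

variable {Ω : Type} [MeasurableSpace Ω] (P : Measure Ω) [IsProbabilityMeasure P]
  (A : Alg d (Ω × Space d) (Space d)) (r s τ δ L : ℝ)

/-- The sampled point and the score at variance `0` there. -/
def postVec (V : Space d → ℝ) (c : Space d) (x : Space d × Ω) : Fin 2 → Space d :=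
  if h : ValidPost P A V r s τ δ L then ![h.law.choose c x, -gradient V (h.law.choose c x)] else 0

omit [IsProbabilityMeasure P] in
theorem measurable_postVec {V : Space d → ℝ} (hV : Quarter.InClass V) :
    Measurable fun p : Space d × (Space d × Ω) => postVec P A r s τ δ L V p.1 p.2 := by
  by_cases h : ValidPost P A V r s τ δ L
  · have hZ : Measurable fun p : Space d × (Space d × Ω) => h.law.choose p.1 p.2 :=
      h.law.choose_spec.1
    have hg := (Quarter.contDiff_gradient hV.smooth).continuous.measurable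
    simp only [postVec, dif_pos h]
    refine measurable_pi_lambda _ fun k => ?_
    fin_cases k
    · simpa using hZ
    · simp; exact hg.comp hZ
  · simp only [postVec, dif_neg h]
    exact measurable_const

/-- The external vectors made by a sampler. -/
def postEnv (hδ : 0 ≤ δ) (hL : 0 ≤ L) : Env d where
  X := Space d × Ω
  ms := inferInstance
  law := (stdGaussian (Space d)).prod P
  prob := inferInstance
  vec := postVec P A r s τ δ L
  meas := fun _ hV c => (measurable_postVec P A r s τ δ L hV).comp measurable_prodMk_left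
  err := ![δ, 2 * δ]
  lip := ![L, 2 * L]
  err_nonneg := fun k => by fin_cases k <;> simp [hδ]
  lip_nonneg := fun k => by fin_cases k <;> simp [hL]

/-- The vectors handed in. -/
def postOut (V : Space d → ℝ) (c : Space d) (x : Space d × Ω) : Fin 2 → Space d :=
  ![A.eval (oracle V) (x.2, c + τ • x.1), -gradient V (A.eval (oracle V) (x.2, c + τ • x.1))]

theorem measurable_postOut (hA : A.Meas) {V : Space d → ℝ} (hV : Quarter.InClass V) (c : Space d) :
    Measurable (postOut A τ V c) := by
  have hev : Measurable fun z : Ω × Space d => A.eval (oracle V) z :=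
    hA.eval (O := fun _ => oracle V) ((Quarter.measurable_oracle hV.smooth).comp measurable_snd)
      measurable_id
  let q : Space d × Ω → Ω × Space d := fun x => (x.2, c + τ • x.1)
  have hq : Measurable q := by fun_prop
  have hz : Measurable fun x : Space d × Ω => A.eval (oracle V) (x.2, c + τ • x.1) := hev.comp hq
  have hg := (Quarter.contDiff_gradient hV.smooth).continuous.measurable
  refine measurable_pi_lambda _ fun k => ?_
  fin_cases k
  · simpa [postOut] using hz
  · simp [postOut]; exact hg.comp hz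

/-- The error of the vectors handed in. -/
theorem postOut_err (hA : A.Meas) (hδ : 0 ≤ δ) (hL : 0 ≤ L) {V : Space d → ℝ}
    (hV : Quarter.InClass V) (h : ValidPost P A V r s τ δ L) (c : Space d) (k : Fin 2) :
    eLpNorm (fun x => postOut A τ V c x k - postVec P A r s τ δ L V c x k) 2
        ((stdGaussian (Space d)).prod P)
      ≤ ENNReal.ofReal ((postEnv P A r s τ δ L hδ hL).err k * (√d + ‖c‖)) := by
  set f : Space d × Ω → Space d := fun x =>
    postOut A τ V c x 0 - postVec P A r s τ δ L V c x 0
  have hfm : Measurable f := ((measurable_pi_apply 0).comp (measurable_postOut A τ hA hV c)).sub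
    ((measurable_pi_apply 0).comp ((postEnv P A r s τ δ L hδ hL).meas V hV c))
  have e0 : ∀ x, f x = A.eval (oracle V) (x.2, c + τ • x.1) - h.law.choose c x := fun x => by
    simp [f, postOut, postVec, dif_pos h]
  have hb : (0 : ℝ) ≤ δ * (√d + ‖c‖) := by positivity
  have h0 : eLpNorm f 2 ((stdGaussian (Space d)).prod P) ≤ ENNReal.ofReal (δ * (√d + ‖c‖)) := by
    refine eLpNorm_le_of_sq_le hb ?_
    rw [lintegral_prod _ (by fun_prop)]
    refine le_of_eq_of_le (lintegral_congr fun N => lintegral_congr fun ω => ?_)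
      (h.law.choose_spec.2.2 c)
    rw [e0]
  fin_cases k
  · simpa [postEnv] using h0
  · have h1 : eLpNorm (fun x => postOut A τ V c x 1 - postVec P A r s τ δ L V c x 1) 2
        ((stdGaussian (Space d)).prod P) ≤ ENNReal.ofReal 2 * eLpNorm f 2
        ((stdGaussian (Space d)).prod P) := by
      refine eLpNorm_le_mul_eLpNorm_of_ae_le_mul (c := 2)
        (Filter.Eventually.of_forall fun x => ?_) 2
      rw [e0]
      simp only [postOut, postVec, dif_pos h, Matrix.cons_val_one, Matrix.cons_val_fin_one]
      rw [neg_sub_neg, norm_sub_rev]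
      set a := A.eval (oracle V) (x.2, c + τ • x.1)
      set b := h.law.choose c x
      have := hV.model.lip b (a - b)
      rwa [add_sub_cancel] at this
    refine (h1.trans (mul_le_mul' le_rfl h0)).trans (le_of_eq ?_)
    rw [← ENNReal.ofReal_mul zero_le_two]
    congr 1
    simp [postEnv]
    ring

end Post

namespace Bld

variable {En : Env d}

/-- Only the fixed gates. -/
def trim (S : Bld En) : Bld En :=
  { S with circ := { S.circ with
      gate := fun g => if g < S.len then S.circ.gate g else ⟨0, 0, 0, 1, none⟩ } }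

theorem ext_trim (S : Bld En) : S.Ext S.trim :=
  ⟨rfl, rfl, rfl, le_rfl, fun _ hg => if_pos hg, fun _ _ => rfl, fun _ _ => rfl, fun _ _ => rfl,
    fun _ _ => rfl⟩

theorem trim_gate (S : Bld En) (g : ℕ) :
    S.trim.circ.gate g = if g < S.len then S.circ.gate g else ⟨0, 0, 0, 1, none⟩ := rfl

theorem trim_tau (S : Bld En) : S.trim.circ.tau = S.circ.tau := rfl

theorem trim_T (S : Bld En) : S.trim.circ.T = S.circ.T := rfl

theorem trim_argVal (S : Bld En) (V : Space d → ℝ) (c : Inp d) (ξ : ℕ → Space d) {g : ℕ}
    (hg : g < S.len) : S.trim.circ.argVal V c ξ g = S.circ.argVal V c ξ g := by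
  simp only [Circuit.argVal, (ext_trim S).gate g hg]
  congr 1
  exact Finset.sum_congr rfl fun i _ => by rw [(ext_trim S).val V c ξ i (lt_trans i.isLt hg)]

theorem trim_sig_zero (S : Bld En) {g : ℕ} (hg : ¬ g < S.len) : S.trim.circ.sig g = 0 := by
  simp [Circuit.sig, trim_gate, if_neg hg]

variable {S : Bld En}

theorem Ok.trim_facts (hok : S.Ok) :
    (∀ g, g < S.trim.circ.T → 0 < (S.trim.circ.gate g).tgt) ∧
    (∀ g, g < S.trim.circ.T → √(S.trim.circ.T : ℝ) * (|(S.trim.circ.gate g).cen| * S.trim.circ.tau
      + ∑ i : Fin g, |(S.trim.circ.gate g).coef i| * |S.trim.circ.sig i|)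
        ≤ (S.trim.circ.gate g).tgt) ∧
    (∀ g r, (S.trim.circ.gate g).kind = some r → g < S.len ∧ (S.circ.gate g).kind = some r) ∧
    S.trim.circ.cost ≤ S.circ.T * S.qb := by
  have hx := ext_trim S
  have hsome : ∀ g r, (S.trim.circ.gate g).kind = some r →
      g < S.len ∧ (S.circ.gate g).kind = some r := by
    intro g r hr
    rw [trim_gate] at hr
    split_ifs at hr with h
    exact ⟨h, hr⟩
  refine ⟨fun g _ => ?_, fun g _ => ?_, hsome, ?_⟩
  · by_cases h : g < S.len
    · rw [hx.gate g h]; exact hok.tgt g h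
    · simp [trim_gate, if_neg h]
  · by_cases h : g < S.len
    · rw [hx.gate g h]
      refine le_of_eq_of_le ?_ (hok.blur g h)
      rw [trim_T, trim_tau]
      exact congrArg _ (congrArg _ (Finset.sum_congr rfl fun i _ => by
        rw [hx.sig (lt_trans i.isLt h)]))
    · simp [trim_gate, if_neg h]
  · refine (Finset.sum_le_card_nsmul _ _ S.qb fun g _ => ?_).trans (le_of_eq ?_)
    · cases hk : (S.trim.circ.gate g).kind with
      | none => simp
      | some r => exact hok.cheap g r (hsome g r hk).1 (hsome g r hk).2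
    · rw [Finset.card_range, smul_eq_mul, trim_T]

/-- The computed value of a reset gate against its ideal value at independent Gaussians. -/
theorem Ok.compile (hok : S.Ok) {V : Space d → ℝ} (hV : Quarter.InClass V) :
    ∃ Ξ : Inp d → Space d × S.trim.circ.Seeds S.trim.circ.T → Fin S.trim.circ.T → Space d,
      Measurable (Function.uncurry Ξ) ∧
      (∀ c, MeasurePreserving (Ξ c) (S.trim.circ.startLaw S.trim.circ.T)
        (famLaw d (Fin S.trim.circ.T))) ∧
      ∀ (c : Space d) (ox : En.X → Fin 2 → Space d), Measurable ox →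
        (∀ k, eLpNorm (fun x => ox x k - En.vec V c x k) 2 En.law
          ≤ ENNReal.ofReal (En.err k * (√d + ‖c‖))) →
        ∀ g, g < S.len → (S.circ.gate g).kind = none →
          eLpNorm (fun p => S.trim.circ.raw V S.trim.circ.T p.2.2
              (S.trim.circ.inp (En.inp V c) ox p.1 p.2.1) g
            - S.trim.circ.val V (En.inp V c p.1) (extFun (Ξ (En.inp V c p.1) p.2)) g) 2
            (En.law.prod (S.trim.circ.startLaw S.trim.circ.T))
          ≤ ENNReal.ofReal (S.err g * (√d + ‖c‖)) := by
  have hx := ext_trim S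
  obtain ⟨htgt, hblur, hsome, -⟩ := hok.trim_facts
  have hsc : ∀ r, Measurable (score V r) := fun r =>
    ((continuous_score hV).comp (Continuous.prodMk continuous_const continuous_id)).measurable
  obtain ⟨Ξ, hΞm, hΞ, hmain⟩ := Circuit.compile (C := S.trim.circ) hV hsc hok.pos hok.tau htgt hblur
    (δ := S.dlt) (L := S.lc) fun g r _ hr => by
      obtain ⟨h1, h2⟩ := hsome g r hr
      obtain ⟨h3, -, h5⟩ := hok.valid g r h1 h2
      rw [hx.gate g h1, hx.orc g h1, hx.rho g h1]
      exact ⟨h3, h5 V hV⟩
  refine ⟨Ξ, hΞm, hΞ, fun c ox hox herr g hg hk => ?_⟩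
  have hcx : Measurable (En.inp V c) := measurable_const.prodMk (En.meas V hV c)
  set Sc : ℝ := √d + ‖c‖ with hSc
  have hS0 : 0 ≤ Sc := by positivity
  let E : ℕ → ℝ≥0∞ := fun i => if i < S.len then ENNReal.ofReal (S.err i * Sc) else 0
  have hsum : ∀ g, g < S.len →
      ∑ k, ENNReal.ofReal |(S.circ.gate g).ext k| * eLpNorm (fun x => ox x k - En.vec V c x k) 2 En.law
        + ∑ i : Fin g, ENNReal.ofReal |(S.circ.gate g).coef i| * E i
      ≤ ENNReal.ofReal ((∑ k, |(S.circ.gate g).ext k| * En.err k
          + ∑ i : Fin g, |(S.circ.gate g).coef i| * S.err i) * Sc) := by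
    intro g hg
    have n1 : ∀ k, 0 ≤ |(S.circ.gate g).ext k| * En.err k := fun k =>
      mul_nonneg (abs_nonneg _) (En.err_nonneg k)
    have n2 : ∀ i : Fin g, 0 ≤ |(S.circ.gate g).coef i| * S.err i := fun i =>
      mul_nonneg (abs_nonneg _) (hok.err_nonneg i (lt_trans i.isLt hg))
    rw [add_mul, Finset.sum_mul, Finset.sum_mul, ENNReal.ofReal_add
      (Finset.sum_nonneg fun k _ => mul_nonneg (n1 k) hS0)
      (Finset.sum_nonneg fun i _ => mul_nonneg (n2 i) hS0),
      ENNReal.ofReal_sum_of_nonneg (fun k _ => mul_nonneg (n1 k) hS0),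
      ENNReal.ofReal_sum_of_nonneg (fun i _ => mul_nonneg (n2 i) hS0)]
    refine add_le_add (Finset.sum_le_sum fun k _ => ?_) (Finset.sum_le_sum fun i _ => ?_)
    · rw [mul_assoc, ENNReal.ofReal_mul (abs_nonneg _)]
      exact mul_le_mul' le_rfl (herr k)
    · simp only [E, if_pos (lt_trans i.isLt hg)]
      rw [mul_assoc, ENNReal.ofReal_mul (abs_nonneg _)]
  have h := hmain En.law (En.inp V c) ox hcx hox E ?_ ?_ g
    (lt_of_lt_of_le hg hok.le_T) (by rw [hx.gate g hg]; exact hk)
  · simpa only [E, if_pos hg] using h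
  · intro g r _ hr
    obtain ⟨h1, h2⟩ := hsome g r hr
    obtain ⟨hδ, hL, -⟩ := hok.valid g r h1 h2
    obtain ⟨sz, hsz0, hsz, hle⟩ := hok.err_some g r h1 h2
    simp only [E, if_pos h1, trim_argVal S _ _ _ h1, hx.gate g h1]
    refine (add_le_add (mul_le_mul' le_rfl (add_le_add
      (ENNReal.ofReal_le_ofReal (show √d ≤ Sc by simp [hSc])) (hsz V hV c)))
      (mul_le_mul' le_rfl (hsum g h1))).trans ?_
    have n0 : 0 ≤ ∑ k, |(S.circ.gate g).ext k| * En.err k
        + ∑ i : Fin g, |(S.circ.gate g).coef i| * S.err i :=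
      add_nonneg (Finset.sum_nonneg fun k _ => mul_nonneg (abs_nonneg _) (En.err_nonneg k))
        (Finset.sum_nonneg fun i _ =>
          mul_nonneg (abs_nonneg _) (hok.err_nonneg i (lt_trans i.isLt h1)))
    rw [← ENNReal.ofReal_add hS0 (mul_nonneg hsz0 hS0), ← ENNReal.ofReal_mul hδ,
      ← ENNReal.ofReal_mul hL,
      ← ENNReal.ofReal_add (by positivity) (mul_nonneg hL (mul_nonneg n0 hS0))]
    refine ENNReal.ofReal_le_ofReal ?_
    nlinarith [mul_le_mul_of_nonneg_right hle hS0]
  · intro g _ hr
    by_cases h1 : g < S.len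
    · rw [hx.gate g h1] at hr ⊢
      simp only [E, if_pos h1]
      exact (hsum g h1).trans
        (ENNReal.ofReal_le_ofReal (mul_le_mul_of_nonneg_right (hok.err_none g h1 hr) hS0))
    · simp [trim_gate, if_neg h1]

/-- The Lipschitz constants of the computed values. -/
theorem Ok.lipschitz (hok : S.Ok) {V : Space d → ℝ} (hV : Quarter.InClass V) {Y Y' : Inp d}
    {D : ℝ} (hD : 0 ≤ D) (h1 : ‖Y.1 - Y'.1‖ ≤ D) (h2 : ∀ k, ‖Y.2 k - Y'.2 k‖ ≤ En.lip k * D)
    (s : S.trim.circ.Seeds S.trim.circ.T) {g : ℕ} (hg : g < S.len) :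
    ‖S.trim.circ.raw V S.trim.circ.T s Y g - S.trim.circ.raw V S.trim.circ.T s Y' g‖
      ≤ S.lip g * D := by
  have hx := ext_trim S
  obtain ⟨-, -, hsome, -⟩ := hok.trim_facts
  let Lp : ℕ → ℝ := fun i => if i < S.len then S.lip i else 0
  have hsum : ∀ g, g < S.len → ∑ i : Fin g, |(S.circ.gate g).coef i| * Lp i
      = ∑ i : Fin g, |(S.circ.gate g).coef i| * S.lip i := fun g hg =>
    Finset.sum_congr rfl fun i _ => by simp only [Lp, if_pos (lt_trans i.isLt hg)]
  have h := S.trim.circ.lip_raw (V := V) (L := S.lc) (Lp := Lp) (u0 := 1) (u := En.lip)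
    (fun g r _ hr => by
      obtain ⟨a, b⟩ := hsome g r hr
      obtain ⟨-, hL, hv⟩ := hok.valid g r a b
      rw [hx.orc g a]
      exact ⟨hL, (hv V hV).lip⟩)
    (fun g r _ hr => by
      obtain ⟨a, b⟩ := hsome g r hr
      rw [hx.gate g a, hsum g a, mul_one]
      simp only [Lp, if_pos a]
      exact hok.lip_some g r a b)
    (fun g _ hr => by
      by_cases a : g < S.len
      · rw [hx.gate g a] at hr ⊢
        rw [hsum g a, mul_one]
        simp only [Lp, if_pos a]
        exact hok.lip_none g a hr
      · simp [trim_gate, Lp, if_neg a])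
    hD (by simpa using h1) h2 S.trim.circ.T le_rfl s g (lt_of_lt_of_le hg hok.le_T)
  simpa only [Lp, if_pos hg] using h

end Bld

/-- **Run.** A built circuit whose reset gate `g` is close to `score + ρ • G`, with `G` standard,
and the sampler that makes its external vectors give an oracle. -/
theorem valid_run {Ω : Type} [MeasurableSpace Ω] [StandardBorelSpace Ω] (P : Measure Ω)
    [IsProbabilityMeasure P] (A : Alg d (Ω × Space d) (Space d)) (hA : A.Meas)
    {t s τ τp δp Lp ρ : ℝ} (hτ : 0 ≤ τ) (hτp : 0 < τp) (hpad : √2 * τ ≤ τp) (hδ : 0 ≤ δp)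
    (hL : 0 ≤ Lp) (hp : ∀ V, Quarter.InClass V → ValidPost P A V t s τp δp Lp)
    (S : Bld (postEnv P A t s τp δp Lp hδ hL)) (hok : S.Ok) (htau : S.circ.tau = √2 * τ)
    {g : ℕ} (hg : g < S.len) (hk : (S.circ.gate g).kind = none) {nz e lp D : ℝ}
    (has : S.Has (Form.single g) nz e lp) (hD : 0 ≤ D)
    (G : Bld.Truth (postEnv P A t s τp δp Lp hδ hL))
    (hGm : ∀ V, Quarter.InClass V → Measurable
      fun p : Space d × ((Space d × Ω) × (ℕ → Space d)) => G V p.1 p.2.1 p.2.2)
    (hGlaw : ∀ V, Quarter.InClass V → ∀ c,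
      MeasurePreserving (S.truthFun G V c) S.idealLaw (stdGaussian (Space d)))
    (hnear : S.Near (Form.single g) (fun V c x ξ => score V t c + ρ • G V c x ξ) D) :
    ∃ (Ω' : Type) (_ : MeasurableSpace Ω') (P' : Measure Ω')
      (A' : Alg d (Ω' × Space d) (Space d)),
      StandardBorelSpace Ω' ∧ IsProbabilityMeasure P' ∧ A'.Meas ∧
      A'.size ≤ A.size + 1 + S.circ.T * S.qb ∧
      ∀ V, Quarter.InClass V → Valid P' A' V t τ ρ (e + D) lp := by
  set C := S.trim.circ
  obtain ⟨htgt, hblur, hsome, hcost⟩ := hok.trim_facts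
  set σ : ℝ := √2 * τ
  set b : ℝ := √(τp ^ 2 - σ ^ 2)
  have hσ : 0 ≤ σ := by positivity
  have : ∀ g : Fin C.T, StandardBorelSpace (C.orc g).Ω := fun g => (C.orc g).std
  have : StandardBorelSpace (Space d) := inferInstance
  let P' : Measure ((Fin 2 → Space d) × (Space d × (Ω × C.Seeds C.T))) :=
    (famLaw d (Fin 2)).prod ((stdGaussian (Space d)).prod (P.prod (C.seedLaw C.T)))
  let Y1 : ((Fin 2 → Space d) × (Space d × (Ω × C.Seeds C.T))) × Space d → Space d := fun w =>
    w.2 + σ • (w.1.1 0 - famMean w.1.1) + b • w.1.2.1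
  let Y2 : ((Fin 2 → Space d) × (Space d × (Ω × C.Seeds C.T))) × Space d → Space d := fun w => w.2 + σ • (w.1.1 1 - famMean w.1.1)
  have hmY1 : Measurable Y1 := by simp only [Y1, famMean]; fun_prop
  have hmY2 : Measurable Y2 := by simp only [Y2, famMean]; fun_prop
  let fA : ((Fin 2 → Space d) × (Space d × (Ω × C.Seeds C.T))) × Space d → Ω × Space d := fun w => (w.1.2.2.1, Y1 w)
  let fC : ((((Fin 2 → Space d) × (Space d × (Ω × C.Seeds C.T))) × Space d) × Space d) × (Fin 1 → Space d) → C.Seeds C.T × Inp d := fun u =>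
    (u.1.1.1.2.2.2, (Y2 u.1.1, ![u.1.2, -(u.2 0)]))
  let pg : Alg d (C.Seeds C.T × Inp d) (Space d) := (C.prog C.T).seq (Alg.pure d fun z => z.2 g)
  let A' : Alg d (((Fin 2 → Space d) × (Space d × (Ω × C.Seeds C.T))) × Space d) (Space d) :=
    (A.comap fA).seq ((Quarter.grads 1 fun z _ => z.2).seq (pg.comap fC))
  have heval : ∀ V w, A'.eval (oracle V) w = C.raw V C.T w.1.2.2.2
      (Y2 w, ![A.eval (oracle V) (fA w), -gradient V (A.eval (oracle V) (fA w))]) g := by
    intro V w
    simp only [A', pg, fC, Alg.seq_eval, Alg.comap_eval, Quarter.grads_eval, Alg.pure_eval]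
    rfl
  refine ⟨((Fin 2 → Space d) × (Space d × (Ω × C.Seeds C.T))), inferInstance, P', A', inferInstance, inferInstance, ?_, ?_, fun V hV => ?_⟩
  · have hfC : Measurable fC := by
      refine (measurable_snd.comp (measurable_snd.comp (measurable_snd.comp (measurable_fst.comp
        (measurable_fst.comp measurable_fst))))).prodMk ((hmY2.comp (measurable_fst.comp
          measurable_fst)).prodMk (measurable_pi_lambda _ fun k => ?_))
      fin_cases k
      · simp; exact measurable_snd.comp measurable_fst
      · simp; exact (measurable_pi_apply (X := fun _ : Fin 1 => Space d) 0).comp measurable_snd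
    exact Alg.seq_meas (Alg.comap_meas hA ((measurable_fst.comp (measurable_snd.comp
      (measurable_snd.comp measurable_fst))).prodMk hmY1))
      (Alg.seq_meas (Quarter.grads_meas (measurable_pi_lambda _ fun _ => measurable_snd))
        (Alg.comap_meas (Alg.seq_meas (C.prog_meas C.T)
          (Alg.pure_meas ((measurable_pi_apply g).comp measurable_snd))) hfC))
  · show A.size + (1 + ((C.prog C.T).size + 0)) ≤ A.size + 1 + S.circ.T * S.qb
    rw [C.prog_size_cost]
    have : C.cost ≤ S.circ.T * S.qb := hcost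
    omega
  have hvp := hp V hV
  refine ⟨?_, fun ω c c' => ?_⟩
  · obtain ⟨Ξ, hΞm, hΞ, hmain⟩ := hok.compile hV
    let En := postEnv P A t s τp δp Lp hδ hL
    let Ψ : Space d × ((Fin 2 → Space d) × (Space d × (Ω × C.Seeds C.T))) → (Space d × Ω) × (Space d × C.Seeds C.T) := fun z =>
      (((σ / τp) • copyN z.1 z.2.1 0 + (b / τp) • z.2.2.1, z.2.2.2.1),
        (copyN z.1 z.2.1 1, z.2.2.2.2))
    have hab : (σ / τp) ^ 2 + (b / τp) ^ 2 = 1 := by
      have : σ ^ 2 ≤ τp ^ 2 := pow_le_pow_left₀ hσ hpad 2
      rw [div_pow, div_pow, ← add_div, Real.sq_sqrt (by linarith),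
        div_eq_one_iff_eq (pow_ne_zero 2 hτp.ne')]
      ring
    have hΨ : MeasurePreserving Ψ ((stdGaussian (Space d)).prod P')
        (((stdGaussian (Space d)).prod P).prod ((stdGaussian (Space d)).prod (C.seedLaw C.T))) := by
      set γ := stdGaussian (Space d)
      have h1 : MeasurePreserving (fun z : Space d × ((Fin 2 → Space d) × (Space d × (Ω × C.Seeds C.T))) => ((z.1, z.2.1), z.2.2))
          (γ.prod P') ((γ.prod (famLaw d (Fin 2))).prod (γ.prod (P.prod (C.seedLaw C.T)))) :=
        (measurePreserving_prodAssoc γ (famLaw d (Fin 2)) (γ.prod (P.prod (C.seedLaw C.T)))).symm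
      have h2 : MeasurePreserving
          (fun p : Space d × (Fin 2 → Space d) => (copyN p.1 p.2 0, copyN p.1 p.2 1))
          (γ.prod (famLaw d (Fin 2))) (γ.prod γ) :=
        (measurePreserving_piFinTwo (fun _ : Fin 2 => γ)).comp (famLaw_copies (by norm_num))
      have h3 : MeasurePreserving (fun p : Space d × (Ω × C.Seeds C.T) => (p.2.1, (p.1, p.2.2)))
          (γ.prod (P.prod (C.seedLaw C.T))) (P.prod (γ.prod (C.seedLaw C.T))) :=
        (measurePreserving_prodAssoc P γ (C.seedLaw C.T)).comp
          (((Measure.measurePreserving_swap (μ := γ) (ν := P)).prod (MeasurePreserving.id _)).comp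
            (measurePreserving_prodAssoc γ P (C.seedLaw C.T)).symm)
      have hmix : MeasurePreserving (fun p : Space d × Space d => (σ / τp) • p.1 + (b / τp) • p.2)
          (γ.prod γ) γ := ⟨by fun_prop, map_mix hab⟩
      exact ((hmix.prod (MeasurePreserving.id P)).prod (MeasurePreserving.id _)).comp
        ((measurePreserving_prodAssoc (γ.prod γ) P (γ.prod (C.seedLaw C.T))).symm.comp
          (((MeasurePreserving.id (γ.prod γ)).prod h3).comp
            ((mp_mid γ γ γ (P.prod (C.seedLaw C.T))).comp ((h2.prod (MeasurePreserving.id _)).comp h1))))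
    let Zf : (Space d × ((Space d × Ω) × (Space d × C.Seeds C.T))) → Space d := fun q =>
      G V q.1 q.2.1 (extFun (Ξ (En.inp V q.1 q.2.1) q.2.2))
    have hinp : Measurable fun q : Space d × ((Space d × Ω) × (Space d × C.Seeds C.T)) =>
        En.inp V q.1 q.2.1 :=
      measurable_fst.prodMk ((measurable_postVec P A t s τp δp Lp hV).comp
        (measurable_fst.prodMk (measurable_fst.comp measurable_snd)))
    have hΞ' : Measurable fun q : Space d × ((Space d × Ω) × (Space d × C.Seeds C.T)) =>
        Ξ (En.inp V q.1 q.2.1) q.2.2 :=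
      hΞm.comp (hinp.prodMk (measurable_snd.comp measurable_snd))
    have hZf : Measurable Zf := by
      let q' : Space d × ((Space d × Ω) × (Space d × C.Seeds C.T)) →
          Space d × ((Space d × Ω) × (ℕ → Space d)) := fun q =>
        (q.1, (q.2.1, extFun (Ξ (En.inp V q.1 q.2.1) q.2.2)))
      have hq' : Measurable q' := measurable_fst.prodMk
        ((measurable_fst.comp measurable_snd).prodMk (measurable_extFun.comp hΞ'))
      show Measurable ((fun p : Space d × ((Space d × Ω) × (ℕ → Space d)) => G V p.1 p.2.1 p.2.2) ∘ q')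
      exact (hGm V hV).comp hq'
    let μ := (stdGaussian (Space d)).prod P
    have hφ : ∀ c, MeasurePreserving
        (fun q : (Space d × Ω) × (Space d × C.Seeds C.T) => (q.1, Ξ (En.inp V c q.1) q.2))
        (μ.prod (C.startLaw C.T)) (μ.prod (famLaw d (Fin S.circ.T))) := fun c =>
      (MeasurePreserving.id μ).skew_product (g := fun x z => Ξ (En.inp V c x) z)
        (hΞ'.comp measurable_prodMk_left)
        (Filter.Eventually.of_forall fun x => (hΞ (En.inp V c x)).map_eq)
    refine ⟨fun c z => Zf (c, Ψ z), hZf.comp (measurable_fst.prodMk (hΨ.measurable.comp measurable_snd)),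
      fun c => (((hGlaw V hV c).comp (hφ c)).comp hΨ).map_eq, fun c => ?_⟩
    set Sc : ℝ := √d + ‖c‖
    let ox : Space d × Ω → Fin 2 → Space d := postOut A τp V c
    have hox : Measurable ox := measurable_postOut A τp hA hV c
    let F1 : (Space d × Ω) × (Space d × C.Seeds C.T) → Space d := fun q =>
      C.raw V C.T q.2.2 (C.inp (En.inp V c) ox q.1 q.2.1) g
        - C.val V (En.inp V c q.1) (extFun (Ξ (En.inp V c q.1) q.2)) g
    let F2 : (Space d × Ω) × (Fin S.circ.T → Space d) → Space d := fun p =>
      S.evalFun V c (Form.single g) p - (score V t c + ρ • G V c p.1 (extFun p.2))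
    have herr : ∀ k, eLpNorm (fun x => ox x k - En.vec V c x k) 2 En.law
        ≤ ENNReal.ofReal (En.err k * (√d + ‖c‖)) := postOut_err P A t s τp δp Lp hA hδ hL hV hvp c
    have he : S.err g ≤ e := by
      have := has.error
      rwa [Form.semi_single hg] at this
    have h1 : eLpNorm F1 2 (μ.prod (C.startLaw C.T)) ≤ ENNReal.ofReal (e * Sc) :=
      (hmain c ox hox herr g hg hk).trans
        (ENNReal.ofReal_le_ofReal (mul_le_mul_of_nonneg_right he (by positivity)))
    have hGc : Measurable (S.truthFun G V c) := (hGlaw V hV c).measurable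
    have hF2 : Measurable F2 :=
      (S.measurable_evalFun c hV _).sub (measurable_const.add (Measurable.fun_const_smul hGc ρ))
    have h2 : eLpNorm (fun q => F2 (q.1, Ξ (En.inp V c q.1) q.2)) 2 (μ.prod (C.startLaw C.T))
        ≤ ENNReal.ofReal (D * Sc) := by
      refine le_of_eq_of_le ?_ (hnear V hV c)
      exact eLpNorm_comp_measurePreserving hF2.aestronglyMeasurable (hφ c)
    have hF1 : Measurable F1 := by
      have hY : Measurable fun q : (Space d × Ω) × (Space d × C.Seeds C.T) =>
          C.inp (En.inp V c) ox q.1 q.2.1 :=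
        Circuit.measurable_inp (measurable_const.prodMk (En.meas V hV c)) hox measurable_fst
          (measurable_fst.comp measurable_snd)
      let q' : (Space d × Ω) × (Space d × C.Seeds C.T) → Inp d × (ℕ → Space d) := fun q =>
        (En.inp V c q.1, extFun (Ξ (En.inp V c q.1) q.2))
      have hq' : Measurable q' :=
        ((measurable_const.prodMk (En.meas V hV c)).comp measurable_fst).prodMk
          (measurable_extFun.comp (hΞ'.comp measurable_prodMk_left))
      have hv : Measurable fun q => C.val V (q' q).1 (q' q).2 g :=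
        Measurable.comp (C.measurable_val V (fun _ r _ => ((continuous_score hV).comp
          (Continuous.prodMk continuous_const continuous_id)).measurable) g) hq'
      exact ((measurable_pi_apply g).comp
        (Circuit.measurable_raw hV C.T (measurable_snd.comp measurable_snd) hY)).sub hv
    let H : (Space d × Ω) × (Space d × C.Seeds C.T) → Space d := fun q =>
      F1 q + F2 (q.1, Ξ (En.inp V c q.1) q.2)
    have hHm : Measurable H := hF1.add (hF2.comp (hφ c).measurable)
    have hH : eLpNorm H 2 (μ.prod (C.startLaw C.T)) ≤ ENNReal.ofReal ((e + D) * Sc) := by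
      have he0 : 0 ≤ e := (hok.err_nonneg g hg).trans he
      rw [add_mul, ENNReal.ofReal_add (by positivity) (by positivity)]
      exact (eLpNorm_add_le hF1.aestronglyMeasurable (hF2.comp (hφ c).measurable).aestronglyMeasurable
        one_le_two).trans (add_le_add h1 h2)
    have key : ∀ N ω, A'.eval (oracle V) (ω, c + τ • N) - (score V t c + ρ • Zf (c, Ψ (N, ω)))
        = H (Ψ (N, ω)) := by
      intro N ω
      have ec : ∀ k, σ • copyN N ω.1 k = τ • N + σ • (ω.1 k - famMean ω.1) := by
        intro k
        have : σ * (√((2 : ℕ) : ℝ))⁻¹ = τ := by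
          simp only [σ, Nat.cast_ofNat]; field_simp
        simp only [copyN, add_sub_assoc, smul_add, smul_smul, this]
      have e1 : τp • ((σ / τp) • copyN N ω.1 0 + (b / τp) • ω.2.1)
          = σ • copyN N ω.1 0 + b • ω.2.1 := by
        simp only [smul_add, smul_smul, mul_div_cancel₀ _ hτp.ne']
      have e2 : fA (ω, c + τ • N)
          = (ω.2.2.1, c + τp • ((σ / τp) • copyN N ω.1 0 + (b / τp) • ω.2.1)) := by
        simp only [fA, Y1, e1, ec, add_assoc]
      have e3 : Y2 (ω, c + τ • N) = c + C.tau • copyN N ω.1 1 := by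
        rw [show C.tau = σ from htau, ec]
        simp only [Y2, add_assoc]
      have e4 : S.eval V c (Ψ (N, ω)).1 (extFun (Ξ (En.inp V c (Ψ (N, ω)).1) (Ψ (N, ω)).2))
          (Form.single g) = C.val V (En.inp V c (Ψ (N, ω)).1)
            (extFun (Ξ (En.inp V c (Ψ (N, ω)).1) (Ψ (N, ω)).2)) g := by
        exact (S.eval_single V c _ _ g).trans ((Bld.ext_trim S).val V _ _ g hg).symm
      simp only [H, F1, F2, Bld.evalFun, Zf]
      erw [e4]
      simp only [heval, e2, e3, Ψ, ox, postOut, Circuit.inp, Env.inp, En]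
      abel
    have hfin : eLpNorm (H ∘ Ψ) 2 ((stdGaussian (Space d)).prod P')
        ≤ ENNReal.ofReal ((e + D) * Sc) := by
      rw [eLpNorm_comp_measurePreserving hHm.aestronglyMeasurable hΨ]
      exact hH
    have hsq := pow_le_pow_left₀ zero_le hfin 2
    rw [eLpNorm_two_sq, ← ENNReal.ofReal_pow (by
      have := (hok.err_nonneg g hg).trans he
      positivity)] at hsq
    refine le_of_eq_of_le ?_ hsq
    have hm : Measurable fun z : Space d × ((Fin 2 → Space d) × (Space d × (Ω × C.Seeds C.T))) => ENNReal.ofReal (‖(H ∘ Ψ) z‖ ^ 2) :=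
      ((hHm.comp hΨ.measurable).norm.pow_const 2).ennreal_ofReal
    rw [lintegral_prod _ hm.aemeasurable]
    exact lintegral_congr fun N => lintegral_congr fun ω => by rw [key N ω]; rfl
  · rw [heval, heval]
    have hd1 : ∀ w, Y2 (ω, w) = w + σ • (ω.1 1 - famMean ω.1) := fun w => rfl
    have hd2 : ∀ w, fA (ω, w) = (ω.2.2.1, w + σ • (ω.1 0 - famMean ω.1) + b • ω.2.1) := fun w => rfl
    have hlp : S.lip g ≤ lp := by
      have := has.lips
      rwa [Form.semi_single hg] at this
    refine (hok.lipschitz hV (norm_nonneg (c - c')) ?_ ?_ _ hg).trans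
      (mul_le_mul_of_nonneg_right hlp (norm_nonneg _))
    · simp [hd1]
    · intro k
      have hz : ‖A.eval (oracle V) (fA (ω, c)) - A.eval (oracle V) (fA (ω, c'))‖ ≤ Lp * ‖c - c'‖ := by
        rw [hd2, hd2]
        refine (hvp.lip _ _ _).trans (le_of_eq ?_)
        congr 2
        abel
      fin_cases k
      · simpa [postEnv] using hz
      · simp only [postEnv]
        simp only [Fin.mk_one, Matrix.cons_val_one, Matrix.cons_val_fin_one]
        rw [neg_sub_neg, norm_sub_rev]
        set u := A.eval (oracle V) (fA (ω, c))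
        set v := A.eval (oracle V) (fA (ω, c'))
        have := hV.model.lip v (u - v)
        rw [add_sub_cancel] at this
        refine this.trans ?_
        rw [mul_assoc]
        exact mul_le_mul_of_nonneg_left hz zero_le_two

end

end P347.Zero
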