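import Vale.Agent.P347.Zero.Steps

/-!
# P347: the oracle with no query

The answer is noise alone; the error is the size of the score.
-/

namespace P347.Zero

open MeasureTheory ProbabilityTheory

noncomputable section

variable {d : ℕ}

theorem start (hS : ScoreSpec) : StartSpec := by
  intro ε α β hε
  refine ⟨4, fun d hd r hr hr1 => ?_⟩
  have hd1 : (1 : ℝ) ≤ d := by exact_mod_cast (by omega : 1 ≤ d)
  set ρ := √r * (d : ℝ) ^ β
  refine ⟨Space d, inferInstance, stdGaussian (Space d), Alg.pure d fun z => ρ • z.1, inferInstance,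
    inferInstance, Alg.pure_meas (measurable_fst.const_smul ρ), by simp [Alg.pure], fun V hV => ?_⟩
  obtain ⟨-, hlip, h0, -, -⟩ := hS d V hV
  have hr1' : r ≤ 1 := hr1.trans (Real.rpow_le_one_of_one_le_of_nonpos hd1 (by linarith))
  refine ⟨⟨fun _ z => z.2, measurable_snd.comp measurable_snd, fun c => ?_, fun c => ?_⟩,
    fun ω c c' => ?_⟩
  · exact measurePreserving_snd.map_eq
  · have hb : ‖score V r c‖ ≤ 4 * (√d + ‖c‖) := by
      have h1 := (hlip r hr.le).dist_le_mul c 0
      rw [dist_eq_norm, dist_eq_norm, sub_zero, NNReal.coe_ofNat] at h1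
      have h2 : √((d : ℝ) * r) ≤ √d := Real.sqrt_le_sqrt (mul_le_of_le_one_right (by positivity) hr1')
      linarith [norm_sub_norm_le (score V r c) (score V r 0), h0 r hr hr1', norm_nonneg c]
    have hpt : ‖score V r c‖ ≤ (d : ℝ) ^ (-(-1 : ℝ)) * (√d + ‖c‖) := by
      rw [neg_neg, Real.rpow_one]
      exact hb.trans (mul_le_mul_of_nonneg_right (by exact_mod_cast hd) (by positivity))
    simp only [Alg.pure_eval]
    rw [lintegral_congr fun N => lintegral_congr fun ω => ?_]
    rotate_left
    · exact fun _ _ => ENNReal.ofReal (‖score V r c‖ ^ 2)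
    · rw [sub_add_cancel_right, norm_neg]
    simp only [lintegral_const, measure_univ, mul_one]
    exact ENNReal.ofReal_le_ofReal (pow_le_pow_left₀ (norm_nonneg _) hpt 2)
  · simp only [Alg.pure_eval, sub_self, norm_zero]
    positivity

end

end P347.Zero
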