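import Vale.Agent.P347.Zero.Steps
import Vale.Agent.P347.Zero.Posterior
import Vale.Agent.P347.Quarter.QuadMain

/-!
# P347: the score oracle at very small variance

One gradient at the blurred point plus noise.
-/

namespace P347.Zero

open MeasureTheory ProbabilityTheory

noncomputable section

variable {d : ℕ}

/-- The gradient at the blurred point, with noise added, is a score oracle. -/
theorem tiny (r τ ρ δ : ℝ) (hr : 0 < r) (hr1 : r ≤ 1) (hτ : 0 ≤ τ) (hτr : τ ≤ √r)
    (hδ : 8 * √r ≤ δ) :
    ∃ A : Alg d (Space d × Space d) (Space d), A.Meas ∧ A.size = 1 ∧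
      ∀ V : Space d → ℝ, Quarter.InClass V →
        Valid (stdGaussian (Space d)) A V r τ ρ δ 2 := by
  refine ⟨(Quarter.grads 1 fun z _ => z.2).seq (Alg.pure d fun z => -(z.2 0) + ρ • z.1.1), ?_, rfl,
    fun V hV => ⟨⟨fun _ z => z.2, measurable_snd.comp measurable_snd, fun c => ?_, fun c => ?_⟩,
      fun ω c c' => ?_⟩⟩
  · exact Alg.seq_meas (Quarter.grads_meas (measurable_pi_lambda _ fun _ => measurable_snd))
      (Alg.pure_meas (by fun_prop))
  · exact measurePreserving_snd.map_eq
  · simp only [Alg.seq_eval, Quarter.grads_eval, Alg.pure_eval, add_sub_add_right_eq_sub]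
    set μ := stdGaussian (Space d)
    have hsr : r ≤ √r := Real.le_sqrt_of_sq_le (by nlinarith)
    set a := 2 * τ
    set b := 4 * √(d * r) + 4 * r * ‖c‖
    have ha : 0 ≤ a := by positivity
    have hb : 0 ≤ b := by positivity
    have hpt : ∀ N : Space d, ‖-gradient V (c + τ • N) - score V r c‖ ^ 2
        ≤ 2 * (a ^ 2 * ‖N‖ ^ 2 + b ^ 2) := by
      intro N
      have h1 : ‖gradient V (c + τ • N) - gradient V c‖ ≤ a * ‖N‖ := by
        refine (hV.model.lip c (τ • N)).trans (le_of_eq ?_)
        rw [norm_smul, Real.norm_eq_abs, abs_of_nonneg hτ]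
        ring
      have h2 : ‖score V r c + gradient V c‖ ≤ b := score_sub_gradient hV hr c
      have e : -gradient V (c + τ • N) - score V r c
          = -((gradient V (c + τ • N) - gradient V c) + (score V r c + gradient V c)) := by abel
      rw [e, norm_neg]
      have h3 := (norm_add_le _ _).trans (add_le_add h1 h2)
      refine (pow_le_pow_left₀ (norm_nonneg _) h3 2).trans ?_
      nlinarith [sq_nonneg (a * ‖N‖ - b)]
    have hi : Integrable (fun N : Space d => ‖N‖ ^ 2) μ :=
      ((IsGaussian.memLp_id μ 2 (by simp)).norm).integrable_sq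
    calc ∫⁻ N, ∫⁻ _ω, ENNReal.ofReal (‖-gradient V (c + τ • N) - score V r c‖ ^ 2) ∂μ ∂μ
        ≤ ∫⁻ N, ENNReal.ofReal (2 * (a ^ 2 * ‖N‖ ^ 2 + b ^ 2)) ∂μ := by
          refine lintegral_mono fun N => ?_
          simp only [lintegral_const, measure_univ, mul_one]
          exact ENNReal.ofReal_le_ofReal (hpt N)
      _ = ENNReal.ofReal (2 * (a ^ 2 * d + b ^ 2)) := by
          have hint : Integrable (fun N : Space d => 2 * (a ^ 2 * ‖N‖ ^ 2 + b ^ 2)) μ :=
            ((hi.const_mul _).add (integrable_const _)).const_mul 2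
          rw [← ofReal_integral_eq_lintegral_ofReal hint
            (Filter.Eventually.of_forall fun N => by positivity)]
          rw [integral_const_mul, integral_add (hi.const_mul _) (integrable_const _),
            integral_const_mul, Quarter.integral_norm_sq_gauss]
          simp
      _ ≤ _ := by
          refine ENNReal.ofReal_le_ofReal ?_
          have hd : √(d : ℝ) ^ 2 = d := Real.sq_sqrt (Nat.cast_nonneg d)
          have h2 : b ≤ 4 * √r * (√d + ‖c‖) := by
            simp only [b]
            rw [Real.sqrt_mul (Nat.cast_nonneg d)]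
            nlinarith [norm_nonneg c, mul_le_mul_of_nonneg_right hsr (norm_nonneg c)]
          have h3 : a * √d ≤ 2 * √r * (√d + ‖c‖) := by
            refine mul_le_mul (by simp only [a]; linarith) ?_ (Real.sqrt_nonneg _) (by positivity)
            linarith [norm_nonneg c]
          have h4 := mul_le_mul_of_nonneg_right hδ (by positivity : (0 : ℝ) ≤ √d + ‖c‖)
          have h5 : 8 * √r * (√d + ‖c‖) ≤ δ * (√d + ‖c‖) := h4
          have ea : a ^ 2 * d = (a * √d) ^ 2 := by rw [mul_pow a, hd]
          rw [ea]
          nlinarith [mul_self_le_mul_self (by positivity : (0 : ℝ) ≤ a * √d) h3,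
            mul_self_le_mul_self hb h2,
            mul_self_le_mul_self (by positivity : (0 : ℝ) ≤ 8 * √r * (√d + ‖c‖)) h5]
  · simp only [Alg.seq_eval, Quarter.grads_eval, Alg.pure_eval, add_sub_add_right_eq_sub]
    rw [neg_sub_neg, norm_sub_rev]
    have := hV.model.lip c' (c - c')
    rwa [add_sub_cancel] at this

end

end P347.Zero
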