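import Vale.Agent.P347.Zero.Ladder
import Vale.Agent.P347.Zero.Outer
import Vale.Agent.P347.Quarter.Pieces
import Vale.Agent.P347.Quarter.Step

/-!
# P347: the exponent zero from one cheap move to a finer scale

The chain runs at `t = d ^ (-e)`; each step descends to `d ^ (-20)` by a fixed number of moves.
Small dimensions use the quarter theorem.
-/

namespace P347.Zero

open MeasureTheory ProbabilityTheory Filter
open scoped RealInnerProductSpace

noncomputable section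

variable {d n : ℕ} {Ω : Fin n → Type}

/-- One step from queries. -/
def moveAlg (A : ∀ i, Alg d (Ω i × Space d) (Space d)) (t : ℝ) :
    Alg d (((Fin n → ∀ i, Ω i) × Space d) × Space d) (Space d) :=
  (ladderAlg A).comap fun z => (z.1.1, z.2 + √t • z.1.2)

/-- The seeds of the whole run. -/
abbrev TopSeed (d : ℕ) {n : ℕ} (Ω : Fin n → Type) (T : ℕ) : Type :=
  (Fin T → (Fin n → ∀ i, Ω i) × Space d) × Space d

/-- The whole run, padded by one query. -/
def topAlg (A : ∀ i, Alg d (Ω i × Space d) (Space d)) (t σ : ℝ) (T : ℕ) :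
    Alg d (TopSeed d Ω T) (Space d) :=
  ((Alg.loop (fun _ => moveAlg A t) T).comap fun ω => (ω.1, 0)).seq
    ((Alg.many fun _ (_ : Fin 1) => (0 : Space d)).seq
      (Alg.pure d fun a => a.1.2 + σ • a.1.1.2))

theorem topAlg_size {A : ∀ i, Alg d (Ω i × Space d) (Space d)} {s : ℕ}
    (h : ∀ i, (A i).size ≤ s) (t σ : ℝ) (T : ℕ) :
    0 < (topAlg A t σ T).size ∧ (topAlg A t σ T).size ≤ T * (n * s) + 1 := by
  have h1 : (moveAlg A t).size ≤ n * s := ladderAlg_size h
  have h2 := loop_size_le (A := fun _ => moveAlg A t) T fun _ _ => h1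
  simp only [topAlg, Alg.seq, Alg.comap, Alg.many, Alg.pure]
  omega

variable [∀ i, MeasurableSpace (Ω i)]

theorem moveAlg_meas {A : ∀ i, Alg d (Ω i × Space d) (Space d)} (hA : ∀ i, (A i).Meas) (t : ℝ) :
    (moveAlg A t).Meas :=
  Alg.comap_meas (ladderAlg_meas hA) (by fun_prop)

theorem topAlg_meas {A : ∀ i, Alg d (Ω i × Space d) (Space d)} (hA : ∀ i, (A i).Meas) (t σ : ℝ)
    (T : ℕ) : (topAlg A t σ T).Meas :=
  Alg.seq_meas (Alg.comap_meas (Alg.loop_meas (fun _ => moveAlg_meas hA t) T) (by fun_prop))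
    (Alg.seq_meas (Alg.many_meas measurable_const) (Alg.pure_meas (by fun_prop)))

/-- The law of the seeds. -/
def topLaw (P : ∀ i, Measure (Ω i)) (T : ℕ) : Measure (TopSeed d Ω T) :=
  (Measure.pi fun _ : Fin T => (Measure.pi fun _ : Fin n => Measure.pi P).prod
    (stdGaussian (Space d))).prod (stdGaussian (Space d))

instance (P : ∀ i, Measure (Ω i)) [∀ i, IsProbabilityMeasure (P i)] (T : ℕ) :
    IsProbabilityMeasure (topLaw (d := d) P T) := by unfold topLaw; infer_instance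

/-- The run as an iteration of steps. -/
theorem topAlg_mean {V : Space d → ℝ} (hV : Quarter.InClass V)
    {A : ∀ i, Alg d (Ω i × Space d) (Space d)} (hA : ∀ i, (A i).Meas) (P : ∀ i, Measure (Ω i))
    [∀ i, IsProbabilityMeasure (P i)] (t σ : ℝ) (T : ℕ) {f : Space d → ℝ} (hf : Test f) :
    ∫ ω, f ((topAlg A t σ T).eval (oracle V) ω) ∂topLaw P T
      = iterOp (fun _ => stepOp (fun g v => ∫ W, g ((ladderAlg A).eval (oracle V) (W, v))
          ∂Measure.pi fun _ : Fin n => Measure.pi P) t) T (Quarter.gav σ f) 0 := by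
  have hO : Measurable (oracle V) := Quarter.measurable_oracle hV.smooth
  set mv := fun (_ : ℕ) (w : (Fin n → ∀ i, Ω i) × Space d) (x : Space d) =>
    (ladderAlg A).eval (oracle V) (w.1, x + √t • w.2) with hmv
  have hm : ∀ k, Measurable fun z : ((Fin n → ∀ i, Ω i) × Space d) × Space d => mv k z.1 z.2 :=
    fun k => (ladderAlg_meas hA).eval (O := fun _ => oracle V) (hO.comp measurable_snd) (by fun_prop)
  have e : ∀ ω, (topAlg A t σ T).eval (oracle V) ω
      = loopFold mv T ω.1 0 + σ • ω.2 := fun ω => by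
    simp only [topAlg, Alg.seq_eval, Alg.comap_eval, Alg.pure_eval, Alg.loop_eval, moveAlg, hmv]
  have hT : Test fun ω : TopSeed d Ω T => f ((topAlg A t σ T).eval (oracle V) ω) :=
    ⟨hf.meas.comp ((topAlg_meas hA t σ T).eval (O := fun _ => oracle V) (hO.comp measurable_snd)
      measurable_id), fun _ => hf.nonneg _, fun _ => hf.le_one _⟩
  rw [topLaw, integral_prod _ (hT.integrable _)]
  simp only [e]
  rw [show (fun ω : Fin T → (Fin n → ∀ i, Ω i) × Space d =>
      ∫ ξ, f (loopFold mv T ω 0 + σ • ξ) ∂stdGaussian (Space d))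
      = fun ω => Quarter.gav σ f (loopFold mv T ω 0) from rfl,
    integral_loopFold hm (test_gav' hf σ)]
  have hop : ∀ g, Test g → ∀ x,
      ∫ w, g (mv 0 w x) ∂(Measure.pi fun _ : Fin n => Measure.pi P).prod (stdGaussian (Space d))
        = stepOp (fun g v => ∫ W, g ((ladderAlg A).eval (oracle V) (W, v))
          ∂Measure.pi fun _ : Fin n => Measure.pi P) t g x := fun g hg x => by
    have hi : Test fun w : (Fin n → ∀ i, Ω i) × Space d => g (mv 0 w x) :=
      ⟨hg.meas.comp ((hm 0).comp (measurable_id.prodMk measurable_const)), fun _ => hg.nonneg _,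
        fun _ => hg.le_one _⟩
    rw [integral_prod_symm _ (hi.integrable _)]
    rfl
  have hK : ∀ g, Test g → Test fun x => ∫ w, g (mv 0 w x)
      ∂(Measure.pi fun _ : Fin n => Measure.pi P).prod (stdGaussian (Space d)) := fun g hg => by
    have hy : ∀ x, Test fun w : (Fin n → ∀ i, Ω i) × Space d => g (mv 0 w x) := fun x =>
      ⟨hg.meas.comp ((hm 0).comp (measurable_id.prodMk measurable_const)), fun _ => hg.nonneg _,
        fun _ => hg.le_one _⟩
    exact ⟨((hg.meas.comp ((hm 0).comp (measurable_snd.prodMk measurable_fst))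
      ).stronglyMeasurable.integral_prod_right').measurable,
      fun x => ((hy x).integral_mem _).1, fun x => ((hy x).integral_mem _).2⟩
  have key : ∀ k, iterOp (fun j g x => ∫ w, g (mv j w x)
        ∂(Measure.pi fun _ : Fin n => Measure.pi P).prod (stdGaussian (Space d))) k (Quarter.gav σ f)
      = iterOp (fun _ => stepOp (fun g v => ∫ W, g ((ladderAlg A).eval (oracle V) (W, v))
          ∂Measure.pi fun _ : Fin n => Measure.pi P) t) k (Quarter.gav σ f) := by
    intro k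
    induction k with
    | zero => rfl
    | succ k ih =>
      funext x
      rw [iterOp, iterOp, ← ih]
      exact hop _ (test_iterOp (fun _ => hK) (test_gav' hf σ) k) x
  rw [key]

omit [∀ i, MeasurableSpace (Ω i)]

theorem exp_neg_le_inv {x : ℝ} (hx : 0 < x) : Real.exp (-x) ≤ 1 / x := by
  rw [Real.exp_neg, one_div]
  exact inv_anti₀ hx (by linarith [Real.add_one_le_exp x])

theorem ballTail_le (d : ℕ) (L : ℝ) : ballTail d L ≤ Real.exp (d - L / 4) := by
  rw [ballTail, sub_eq_add_neg, Real.exp_add, neg_div]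
  gcongr
  rw [← Real.exp_one_pow d]
  exact pow_le_pow_left₀ zero_le_two (by linarith [Real.exp_one_gt_d9]) d

/-- The numbers. -/
theorem top_numbers (hd : 64 ≤ d) {e : ℝ} (he : 0 < e) (he3 : e ≤ 1 / 3) :
    let D : ℝ := d
    tailRatio d (D ^ 2 / 4) (3 * D ^ 2 / 4) ≤ 128 / D ∧ ballTail d ((D ^ 2 / 8) ^ 2) ≤ 1 / D ∧
    ballTail d (8 * D) ≤ 1 / D ∧
    (perturbConst * D + 1 / (1 / D ^ 6)) / √(D ^ (-e)) * √(D ^ (-(20 : ℝ))) * (3 * D ^ 2 / 4)
      ≤ (perturbConst + 1) / D ∧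
    √(8 * D) / √(D ^ (-e)) / (D ^ 2 / (8 * √(D ^ (-e)))) ≤ 24 / D ∧
    √(8 * D) / √(D ^ (-e)) ≤ 3 * D ^ 2 ∧
    (D / D ^ 3 * (8 * D + 1) + (2 * D ^ 3 + 2) * (1 / D ^ 6) * (1 + D)) ≤ 17 / D := by
  intro D
  have hD : (64 : ℝ) ≤ D := by simpa [D] using (show (64 : ℝ) ≤ d by exact_mod_cast hd)
  have hD0 : 0 < D := by linarith
  have hD1 : 1 ≤ D := by linarith
  have hDd : (d : ℝ) = D := rfl
  have hpc : 0 ≤ perturbConst := by unfold perturbConst; positivity
  have h4 : (64 : ℝ) ^ 3 * D ≤ D ^ 4 := by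
    rw [show D ^ 4 = D ^ 3 * D by ring]; gcongr
  have hsd : √(D + 1) ≤ D ^ 2 / 32 := by
    rw [Real.sqrt_le_left (by positivity)]; nlinarith
  have hb : √(D ^ (-e)) ≥ 1 / D := by
    rw [ge_iff_le, Real.le_sqrt (by positivity) (Real.rpow_nonneg hD0.le _)]
    calc (1 / D) ^ 2 ≤ 1 / D := by
          rw [sq]; exact mul_le_of_le_one_left (by positivity) ((div_le_one hD0).2 hD1)
      _ = D ^ (-1 : ℝ) := by rw [Real.rpow_neg_one, one_div]
      _ ≤ D ^ (-e) := Real.rpow_le_rpow_of_exponent_le hD1 (by linarith)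
  have hb0 : 0 < √(D ^ (-e)) := lt_of_lt_of_le (by positivity) hb
  have hs20 : √(D ^ (-(20 : ℝ))) = 1 / D ^ 10 := by
    rw [Real.sqrt_eq_iff_eq_sq (by positivity) (by positivity), Real.rpow_neg hD0.le,
      show (20 : ℝ) = ((20 : ℕ) : ℝ) by norm_num, Real.rpow_natCast]
    ring
  have h8 : √(8 * D) ≤ 3 * D := by
    rw [Real.sqrt_le_left (by positivity)]; nlinarith
  refine ⟨?_, ?_, ?_, ?_, ?_, ?_, ?_⟩
  · rw [tailRatio, normBound, hDd]
    have h1 : (D ^ 2 / 4 + 2 * √(D + 1)) ^ 2 ≤ (5 / 16 * D ^ 2) ^ 2 :=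
      pow_le_pow_left₀ (by positivity) (by linarith) 2
    calc ballTail d ((3 * D ^ 2 / 4) ^ 2) * (2 * Real.exp ((D ^ 2 / 4 + 2 * √(D + 1)) ^ 2))
        ≤ Real.exp (D - (3 * D ^ 2 / 4) ^ 2 / 4) * (2 * Real.exp ((5 / 16 * D ^ 2) ^ 2)) := by
          gcongr
          exact ballTail_le d _
      _ = 2 * Real.exp (D - (3 * D ^ 2 / 4) ^ 2 / 4 + (5 / 16 * D ^ 2) ^ 2) := by
          rw [Real.exp_add]; ring
      _ ≤ 2 * Real.exp (-(D / 64)) := by
          refine mul_le_mul_of_nonneg_left (Real.exp_le_exp.2 ?_) zero_le_two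
          nlinarith
      _ ≤ 2 * (1 / (D / 64)) := mul_le_mul_of_nonneg_left (exp_neg_le_inv (by positivity)) zero_le_two
      _ = 128 / D := by field_simp; norm_num
  · refine (ballTail_le d _).trans (le_trans (Real.exp_le_exp.2 ?_) (exp_neg_le_inv hD0))
    rw [hDd]; nlinarith
  · refine (ballTail_le d _).trans (le_trans (Real.exp_le_exp.2 ?_) (exp_neg_le_inv hD0))
    rw [hDd]; linarith
  · rw [hs20, one_div_one_div]
    have h1 : perturbConst * D + D ^ 6 ≤ (perturbConst + 1) * D ^ 6 := by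
      have h16 : D ≤ D ^ 6 := le_self_pow₀ hD1 (by norm_num)
      have := mul_le_mul_of_nonneg_left h16 hpc
      rw [add_mul, one_mul]; linarith
    calc (perturbConst * D + D ^ 6) / √(D ^ (-e)) * (1 / D ^ 10) * (3 * D ^ 2 / 4)
        ≤ (perturbConst + 1) * D ^ 6 / (1 / D) * (1 / D ^ 10) * D ^ 2 := by
          gcongr
          all_goals linarith [pow_nonneg hD0.le 2]
      _ = (perturbConst + 1) / D := by field_simp
  · rw [div_div, show √(D ^ (-e)) * (D ^ 2 / (8 * √(D ^ (-e)))) = D ^ 2 / 8 by field_simp,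
      div_div_eq_mul_div, div_le_div_iff₀ (by positivity) hD0]
    nlinarith
  · calc √(8 * D) / √(D ^ (-e)) ≤ 3 * D / (1 / D) := by gcongr
      _ = 3 * D ^ 2 := by field_simp
  · have a1 : D / D ^ 3 * (8 * D + 1) ≤ 9 / D := by
      rw [div_mul_eq_mul_div, div_le_div_iff₀ (by positivity) hD0]; nlinarith
    have a2 : (2 * D ^ 3 + 2) * (1 / D ^ 6) * (1 + D) ≤ 8 / D := by
      calc (2 * D ^ 3 + 2) * (1 / D ^ 6) * (1 + D) ≤ 4 * D ^ 3 * (1 / D ^ 6) * (2 * D) := by
            gcongr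
            · linarith [one_le_pow₀ hD1 (n := 3)]
            · linarith
        _ = 8 / D ^ 2 := by field_simp; ring
        _ ≤ 8 / D := by
            gcongr
            exact le_self_pow₀ hD1 (by norm_num)
    have : (9 : ℝ) / D + 8 / D = 17 / D := by ring
    linarith

theorem top_final {D t e K pc ε₁ bt q1 q2 w₁ w₂ : ℝ} {n N : ℕ} (ht : 0 < t) (ht1 : t ≤ 1)
    (hd1 : 1 ≤ D) (hd0 : 0 < D) (hpc : 0 ≤ pc) (hkey : ε₁ ≤ (129 * n + pc + 130) * (1 / D))
    (b3 : bt ≤ 1 / D) (b5 : q1 ≤ 24 / D) (b6 : q2 ≤ 3 * D ^ 2) (b7 : w₁ + w₂ ≤ 17 / D)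
    (hK : K = (8 / e + 2) * (129 * n + pc + 181) + 39 + 3 * pc)
    (hKD : K / D ^ (1 / 3 : ℝ) ≤ 1 / 10) (hN : ((N : ℝ) + 1) ≤ (8 / e + 2) * D ^ (2 * e))
    (hN' : 8 * Real.log D / t ≤ N) (hDD : D ^ (2 * e) * (1 / D) ≤ 1 / D ^ (1 / 3 : ℝ))
    (hD13 : 1 / D ≤ 1 / D ^ (1 / 3 : ℝ)) (he : 0 < e) :
    ((N : ℝ) + 1) * (ε₁ + 2 * q1 + 3 * bt) + 3 * bt + pc * D / (1 + t) ^ N * q2
      + 2 * ((w₁ + bt) + w₂) ≤ 1 / 10 := by
  have h1 : Real.exp (t / 2) ≤ 1 + t := by
    have := Real.exp_bound_div_one_sub_of_interval (show 0 ≤ t / 2 by linarith) (by linarith)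
    refine this.trans ?_
    rw [div_le_iff₀ (by linarith)]
    nlinarith
  have h2 : D ^ 4 ≤ (1 + t) ^ N := by
    refine le_trans ?_ (pow_le_pow_left₀ (Real.exp_pos _).le h1 N)
    rw [← Real.exp_nat_mul, ← Real.exp_log hd0, ← Real.exp_nat_mul]
    refine Real.exp_le_exp.2 ?_
    have := mul_le_mul_of_nonneg_right hN' (by linarith : 0 ≤ t / 2)
    push_cast
    refine le_trans (le_of_eq ?_) this
    field_simp
    ring
  have hpow : pc * D / (1 + t) ^ N * q2 ≤ 3 * pc / D := by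
    calc pc * D / (1 + t) ^ N * q2 ≤ pc * D / (1 + t) ^ N * (3 * D ^ 2) := by gcongr
      _ ≤ pc * D / D ^ 4 * (3 * D ^ 2) := by gcongr
      _ = _ := by field_simp
  have hper : ε₁ + 2 * q1 + 3 * bt ≤ (129 * n + pc + 181) * (1 / D) := by
    have : (129 * (n : ℝ) + pc + 130) * (1 / D) + 2 * (24 / D) + 3 * (1 / D)
        = (129 * n + pc + 181) * (1 / D) := by ring
    linarith
  have hmain : ((N : ℝ) + 1) * ((129 * n + pc + 181) * (1 / D))
      ≤ (8 / e + 2) * (129 * n + pc + 181) * (1 / D ^ (1 / 3 : ℝ)) := by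
    calc ((N : ℝ) + 1) * ((129 * n + pc + 181) * (1 / D))
        ≤ (8 / e + 2) * D ^ (2 * e) * ((129 * n + pc + 181) * (1 / D)) := by gcongr
      _ = (8 / e + 2) * (129 * n + pc + 181) * (D ^ (2 * e) * (1 / D)) := by ring
      _ ≤ _ := by gcongr
  have hrest : (39 + 3 * pc) * (1 / D) ≤ (39 + 3 * pc) * (1 / D ^ (1 / 3 : ℝ)) :=
    mul_le_mul_of_nonneg_left hD13 (by positivity)
  have := mul_le_mul_of_nonneg_left hper (show (0 : ℝ) ≤ N + 1 by positivity)
  have e1 : (8 / e + 2) * (129 * n + pc + 181) * (1 / D ^ (1 / 3 : ℝ))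
      + (39 + 3 * pc) * (1 / D ^ (1 / 3 : ℝ)) = K / D ^ (1 / 3 : ℝ) := by rw [hK]; ring
  have e2 : 3 * (1 / D) + 3 * pc / D + 2 * (17 / D + 1 / D) = (39 + 3 * pc) * (1 / D) := by ring
  linarith

theorem ladderOp_test [∀ i, MeasurableSpace (Ω i)] {V : Space d → ℝ}
    (hO : Measurable (oracle V)) {A : ∀ i, Alg d (Ω i × Space d) (Space d)} (hAm : ∀ i, (A i).Meas)
    (P : ∀ i, Measure (Ω i)) [∀ i, IsProbabilityMeasure (P i)] {g : Space d → ℝ} (hg : Test g) :
    Test fun v => ∫ W, g ((ladderAlg A).eval (oracle V) (W, v))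
      ∂Measure.pi fun _ : Fin n => Measure.pi P := by
  have hm : Measurable fun z : Space d × (Fin n → ∀ i, Ω i) =>
      g ((ladderAlg A).eval (oracle V) (z.2, z.1)) :=
    hg.meas.comp ((ladderAlg_meas hAm).eval (O := fun _ => oracle V) (hO.comp measurable_snd)
      (measurable_snd.prodMk measurable_fst))
  have hy : ∀ v, Test fun W : Fin n → ∀ i, Ω i => g ((ladderAlg A).eval (oracle V) (W, v)) :=
    fun v => ⟨hg.meas.comp ((ladderAlg_meas hAm).eval (O := fun _ => oracle V)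
      (hO.comp measurable_snd) (measurable_id.prodMk measurable_const)), fun _ => hg.nonneg _,
      fun _ => hg.le_one _⟩
  exact ⟨hm.stronglyMeasurable.integral_prod_right'.measurable,
    fun v => ((hy v).integral_mem _).1, fun v => ((hy v).integral_mem _).2⟩

/-- The error of a run in a large dimension. -/
theorem top_error [∀ i, MeasurableSpace (Ω i)] {V : Space d → ℝ} (hVc : Quarter.InClass V)
    {A : ∀ i, Alg d (Ω i × Space d) (Space d)} (hAm : ∀ i, (A i).Meas) (P : ∀ i, Measure (Ω i))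
    [∀ i, IsProbabilityMeasure (P i)] {e t K : ℝ} (hd64 : 64 ≤ d) (he : 0 < e) (he3 : e ≤ 1 / 3)
    (hte : t = (d : ℝ) ^ (-e)) (ht8 : t ≤ 1 / 8) {u : ℕ → ℝ} (hu0 : u 0 = (d : ℝ) ^ (-(20 : ℝ)))
    (hun : u n = t) (hmono : ∀ m, m < n → u m ≤ u (m + 1))
    (hclose : ∀ i : Fin n, ∀ g, Test g → ∀ z, ‖z‖ ≤ (d : ℝ) ^ 2 →
      |∫ ω, g ((A i).eval (oracle V) (ω, z)) ∂P i - condMean V (u (i + 1)) (u i) g z|
        ≤ (d : ℝ) ^ (-(4 : ℝ)))
    (hK : K = (8 / e + 2) * (129 * n + perturbConst + 181) + 39 + 3 * perturbConst)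
    (hKD : K / (d : ℝ) ^ (1 / 3 : ℝ) ≤ 1 / 10) {N : ℕ}
    (hN : ((N : ℝ) + 1) ≤ (8 / e + 2) * (d : ℝ) ^ (2 * e))
    (hN' : 8 * Real.log d / t ≤ N) {f : Space d → ℝ} (hf : Continuous f) (tf : Test f) :
    |iterOp (fun _ => stepOp (fun g v => ∫ W, g ((ladderAlg A).eval (oracle V) (W, v))
          ∂Measure.pi fun _ : Fin n => Measure.pi P) t) (N + 1)
        (Quarter.gav (1 / (d : ℝ) ^ 6) f) 0 - ∫ x, f x ∂gibbs V| ≤ 1 / 10 := by
  have hpc : 0 ≤ perturbConst := by unfold perturbConst; positivity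
  have hd1 : (1 : ℝ) ≤ d := by exact_mod_cast (show 1 ≤ d by omega)
  have hd0 : (0 : ℝ) < d := by linarith
  have hO : Measurable (oracle V) := Quarter.measurable_oracle hVc.smooth
  obtain ⟨b1, b2, b3, b4, b5, b6, b7⟩ := top_numbers hd64 he he3
  simp only [← hte, ← hu0] at b1 b2 b3 b4 b5 b6 b7
  have ht : 0 < t := hte ▸ Real.rpow_pos_of_pos hd0 _
  generalize hD_def : (d : ℝ) = D at *
  set ε : ℝ := n * (D ^ (-(4 : ℝ)) + tailRatio d (D ^ 2 / 4) (3 * D ^ 2 / 4)) with hε_def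
  have hε4 : D ^ (-(4 : ℝ)) ≤ 1 / D := by
    rw [one_div, ← Real.rpow_neg_one]
    exact Real.rpow_le_rpow_of_exponent_le hd1 (by norm_num)
  have hε0 : 0 ≤ ε := by
    have : 0 ≤ tailRatio d (D ^ 2 / 4) (3 * D ^ 2 / 4) :=
      mul_nonneg (by unfold ballTail; positivity) (normBound_pos d _).le
    positivity
  have hεb : ε ≤ 129 * n * (1 / D) := by
    rw [hε_def]
    calc (n : ℝ) * (D ^ (-(4 : ℝ)) + tailRatio d (D ^ 2 / 4) (3 * D ^ 2 / 4))
        ≤ n * (1 / D + 128 / D) := by gcongr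
      _ = _ := by ring
  have hDD : D ^ (2 * e) * (1 / D) ≤ 1 / D ^ (1 / 3 : ℝ) := by
    rw [one_div D, ← Real.rpow_neg_one, ← Real.rpow_add hd0, one_div (D ^ (1 / 3 : ℝ)),
      ← Real.rpow_neg hd0.le]
    exact Real.rpow_le_rpow_of_exponent_le hd1 (by linarith)
  have hD13 : 1 / D ≤ 1 / D ^ (1 / 3 : ℝ) := by
    refine one_div_le_one_div_of_le (Real.rpow_pos_of_pos hd0 _) ?_
    exact (Real.rpow_le_rpow_of_exponent_le hd1 (by norm_num)).trans_eq (Real.rpow_one _)
  have h8e : (2 : ℝ) ≤ 8 / e + 2 := by linarith [show (0 : ℝ) ≤ 8 / e by positivity]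
  have hst : u 0 ≤ t := by
    rw [hu0, hte]; exact Real.rpow_le_rpow_of_exponent_le hd1 (by linarith)
  have hu00 : 0 ≤ u 0 := by rw [hu0]; exact Real.rpow_nonneg hd0.le _
  have hkey : ε + (perturbConst * D + 1 / (1 / D ^ 6)) / √t * √(u 0) * (3 * D ^ 2 / 4)
      + tailRatio d (D ^ 2 / 4) (3 * D ^ 2 / 4) + ballTail d ((D ^ 2 / 8) ^ 2)
      ≤ (129 * n + perturbConst + 130) * (1 / D) := by
    have := add_le_add (add_le_add (add_le_add hεb b4) b1) b2
    refine this.trans (le_of_eq ?_)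
    ring
  have hsmall : ε + (perturbConst * D + 1 / (1 / D ^ 6)) / √t * √(u 0) * (3 * D ^ 2 / 4)
      + tailRatio d (D ^ 2 / 4) (3 * D ^ 2 / 4) + ballTail d ((D ^ 2 / 8) ^ 2) ≤ 1 := by
    refine hkey.trans ?_
    have h1 : 129 * (n : ℝ) + perturbConst + 130 ≤ K := by
      have h2 := mul_le_mul_of_nonneg_right h8e
        (show (0 : ℝ) ≤ 129 * n + perturbConst + 181 by positivity)
      rw [hK]; linarith
    have hK0 : 0 ≤ K := by rw [hK]; positivity
    calc (129 * (n : ℝ) + perturbConst + 130) * (1 / D) ≤ K * (1 / D ^ (1 / 3 : ℝ)) := by gcongr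
      _ = K / D ^ (1 / 3 : ℝ) := mul_one_div _ _
      _ ≤ 1 := hKD.trans (by norm_num)
  have hLd : ∀ g, Test g → Test fun v => ∫ W, g ((ladderAlg A).eval (oracle V) (W, v))
      ∂Measure.pi fun _ : Fin n => Measure.pi P := fun g hg => ladderOp_test hO hAm P hg
  have hrB : √t * (D ^ 2 / (8 * √t) + D ^ 2 / 8) ≤ D ^ 2 / 4 := by
    have h1 : √t * (D ^ 2 / (8 * √t)) = D ^ 2 / 8 := by
      field_simp
    have h2 : √t * (D ^ 2 / 8) ≤ D ^ 2 / 8 :=
      mul_le_of_le_one_left (by positivity) (Real.sqrt_le_one.2 (by linarith))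
    rw [mul_add]; linarith
  subst hD_def
  have h := outer (V := V) hVc (by omega : 1 ≤ d) ht ht8 hu00 hst
    (σ := 1 / (d : ℝ) ^ 6) (by positivity) hε0 (R := 3 * (d : ℝ) ^ 2 / 4) (by positivity)
    (ρ := (d : ℝ) ^ 2 / 8) (by positivity) (r := (d : ℝ) ^ 2 / (8 * √t)) (by positivity)
    (L := 8 * (d : ℝ)) (by positivity) (Rc := (d : ℝ) ^ 3) (by positivity) (B := (d : ℝ) ^ 2 / 4) hrB hsmall hLd
    (fun g hg v hv => by
      have := ladderAlg_close hVc hAm P hu00 (hmono)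
        (by rw [hun]; linarith) (ε := (d : ℝ) ^ (-(4 : ℝ))) (Real.rpow_nonneg hd0.le _)
        (R := 3 * (d : ℝ) ^ 2 / 4) (by positivity) (B := (d : ℝ) ^ 2 / 4)
        (fun i g hg z hz => hclose i g hg z (hz.trans (le_of_eq (by ring)))) hg hv
      rwa [hun] at this)
    hf tf N
  exact h.trans (top_final ht (by linarith) hd1 hd0 hpc hkey b3 b5 b6 b7 hK hKD hN hN' hDD hD13 he)

/-- The exponent zero from one cheap move to a finer scale. -/
theorem top : TopSpec := by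
  intro hDS a ha
  set e := min (a / 3) (1 / 3) with he_def
  have he : 0 < e := lt_min (by linarith) (by norm_num)
  have he3 : e ≤ 1 / 3 := min_le_right _ _
  have hea : 3 * e ≤ a := by have := min_le_left (a / 3) (1 / 3); linarith
  obtain ⟨c, hc, d₀, hds⟩ := hDS e he (by linarith)
  set n := ⌈(20 - e) / c⌉₊ with hn_def
  have hn : 0 < n := Nat.ceil_pos.2 (div_pos (by linarith) hc)
  have hn' : (0 : ℝ) < n := by exact_mod_cast hn
  set c' := (20 - e) / n with hc'_def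
  have hc' : c' ≤ c := by
    rw [hc'_def, div_le_iff₀ hn', mul_comm, ← div_le_iff₀ hc]; exact Nat.le_ceil _
  have hc'0 : 0 < c' := div_pos (by linarith) hn'
  have hpc : 0 ≤ perturbConst := by unfold perturbConst; positivity
  set K : ℝ := (8 / e + 2) * (129 * n + perturbConst + 181) + 39 + 3 * perturbConst with hK
  set d₁ := max (max 64 d₀) (max ⌈(10 * K) ^ 3⌉₊ ⌈(8 : ℝ) ^ (1 / e)⌉₊) with hd₁
  obtain ⟨C₄, hq⟩ := Quarter.quarter_of_step Quarter.step
  refine ⟨|C₄| * d₁ * (d₁ : ℝ) ^ 9 + ((8 / e + 2) * n + 1), fun d hd => ?_⟩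
  have hd1 : (1 : ℝ) ≤ d := by exact_mod_cast (show 1 ≤ d by omega)
  have hd0 : (0 : ℝ) < d := by linarith
  have hCb : 0 ≤ (8 / e + 2) * (n : ℝ) + 1 := by positivity
  rcases Nat.lt_or_ge d d₁ with hlt | hge
  · obtain ⟨q, hq1, rest⟩ := hq d hd
    refine ⟨q, hq1.trans ?_, rest⟩
    have h1 : (d : ℝ) ^ (1 / 4 : ℝ) ≤ d₁ :=
      ((Real.rpow_le_rpow_of_exponent_le hd1 (by norm_num)).trans_eq (Real.rpow_one _)).trans
        (by exact_mod_cast hlt.le)
    have h2 : Real.log d ≤ d₁ :=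
      (Real.log_le_self hd0.le).trans (by exact_mod_cast hlt.le)
    have h3 : (1 : ℝ) ≤ (d : ℝ) ^ a := Real.one_le_rpow hd1 ha.le
    have h4 := Real.log_natCast_nonneg d
    calc C₄ * (d : ℝ) ^ (1 / 4 : ℝ) * Real.log d ^ 9
        ≤ |C₄| * d₁ * (d₁ : ℝ) ^ 9 := by
          gcongr
          exact le_abs_self _
      _ ≤ _ := le_trans (le_add_of_nonneg_right hCb) (le_mul_of_one_le_right (by positivity) h3)
  simp only [hd₁, ge_iff_le, max_le_iff] at hge
  obtain ⟨⟨hd64, hdd⟩, hdK, hde⟩ := hge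
  set D : ℝ := (d : ℝ) with hD_def
  have hD64 : (64 : ℝ) ≤ D := by rw [hD_def]; exact_mod_cast hd64
  set t : ℝ := D ^ (-e) with ht_def
  have ht : 0 < t := Real.rpow_pos_of_pos hd0 _
  have ht8 : t ≤ 1 / 8 := by
    have h : (8 : ℝ) ^ (1 / e) ≤ D := (Nat.le_ceil _).trans (by rw [hD_def]; exact_mod_cast hde)
    have h8 : (8 : ℝ) ≤ D ^ e := by
      have := Real.rpow_le_rpow (by positivity) h he.le
      rwa [← Real.rpow_mul (by norm_num), one_div_mul_cancel he.ne', Real.rpow_one] at this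
    rw [ht_def, Real.rpow_neg hd0.le, one_div]
    exact inv_anti₀ (by norm_num) h8
  -- the levels
  set u : ℕ → ℝ := fun m => D ^ (-(20 : ℝ) + m * c') with hu_def
  have hun : u n = t := by
    simp only [hu_def, ht_def, hc'_def]
    congr 1
    field_simp
    ring
  have hu0 : u 0 = D ^ (-(20 : ℝ)) := by simp [hu_def]
  have hub : ∀ m : ℕ, m < n → (D ^ (-(20 : ℝ)) ≤ u m ∧ u (m + 1) ≤ D ^ (-e) ∧
      u (m + 1) * D ^ (-c) ≤ u m ∧ u m < u (m + 1)) := fun m hm => by
    have hm1 : ((m : ℝ) + 1) * c' ≤ 20 - e := by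
      have : ((m : ℝ) + 1) ≤ n := by exact_mod_cast hm
      calc ((m : ℝ) + 1) * c' ≤ n * c' := by gcongr
        _ = 20 - e := by rw [hc'_def]; field_simp
    have hm0 : 0 ≤ (m : ℝ) * c' := by positivity
    simp only [hu_def]
    push_cast
    refine ⟨Real.rpow_le_rpow_of_exponent_le hd1 (by linarith),
      Real.rpow_le_rpow_of_exponent_le hd1 (by linarith), ?_,
      Real.rpow_lt_rpow_of_exponent_lt (by linarith) (by linarith)⟩
    rw [← Real.rpow_add hd0]
    exact Real.rpow_le_rpow_of_exponent_le hd1 (by linarith)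
  have hex : ∀ i : Fin n, ∃ (Ω : Type) (_ : MeasurableSpace Ω) (P : Measure Ω)
      (A : Alg d (Ω × Space d) (Space d)),
      StandardBorelSpace Ω ∧ IsProbabilityMeasure P ∧ A.Meas ∧ (A.size : ℝ) ≤ D ^ e ∧
      ∀ V : Space d → ℝ, Quarter.InClass V → ∀ v : Space d, ‖v‖ ≤ D ^ 2 →
      ∀ f : Space d → ℝ, Test f →
        |(∫ ω, f (A.eval (oracle V) (ω, v)) ∂P) - condMean V (u (i + 1)) (u i) f v|
          ≤ D ^ (-(4 : ℝ)) := fun i => by
    obtain ⟨h1, h2, h3, h4⟩ := hub i i.2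
    exact hds d hdd (u (i + 1)) (u i) h1 h2 h3 h4
  choose Ω mΩ P A hsb hP hAm hsize hclose using hex
  have : ∀ i, IsProbabilityMeasure (P i) := hP
  have : ∀ i, StandardBorelSpace (Ω i) := hsb
  set N := ⌈8 * Real.log D / t⌉₊ with hN_def
  set S := topAlg A t (1 / D ^ 6) (N + 1) with hS
  set s₀ := ⌊D ^ e⌋₊
  have hDe : 0 ≤ D ^ e := Real.rpow_nonneg hd0.le _
  obtain ⟨hpos, hsz⟩ := topAlg_size (A := A) (s := s₀) (fun i => Nat.le_floor (hsize i)) t
    (1 / D ^ 6) (N + 1)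
  have hlog : Real.log D ≤ D ^ e / e := Real.log_le_rpow_div hd0.le he
  have hlog0 : 0 ≤ Real.log D := Real.log_nonneg hd1
  have hN : ((N : ℝ) + 1) ≤ (8 / e + 2) * D ^ (2 * e) := by
    have h1 : (N : ℝ) ≤ 8 * Real.log D / t + 1 :=
      (Nat.ceil_lt_add_one (by positivity)).le
    have h2 : 8 * Real.log D / t ≤ 8 / e * D ^ (2 * e) := by
      rw [ht_def, Real.rpow_neg hd0.le, div_inv_eq_mul, two_mul, Real.rpow_add hd0]
      calc 8 * Real.log D * D ^ e ≤ 8 * (D ^ e / e) * D ^ e := by gcongr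
        _ = 8 / e * (D ^ e * D ^ e) := by ring
    have h3 : 1 ≤ D ^ (2 * e) := Real.one_le_rpow hd1 (by linarith)
    rw [add_mul]; linarith
  have hAmeas : S.Meas := topAlg_meas hAm _ _ _
  refine ⟨S.size, ?_, TopSeed d Ω (N + 1), inferInstance, topLaw P (N + 1),
    AlgMemory d (Space d), inferInstance, (0, fun _ => 0, 0), S.machineQuery, S.machineUpdate,
    fun st => st.2.2, ?_, inferInstance, (Alg.machine_meas hAmeas).1, (Alg.machine_meas hAmeas).2,
    by fun_prop, fun V hV hV0 hg hH E hE => ?_⟩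
  · have h1 : (S.size : ℝ) ≤ ((N : ℝ) + 1) * (n * (s₀ : ℝ)) + 1 := by exact_mod_cast hsz
    have h2 : (s₀ : ℝ) ≤ D ^ e := Nat.floor_le hDe
    have h3 : D ^ (2 * e) * D ^ e ≤ D ^ a := by
      rw [← Real.rpow_add hd0]
      exact Real.rpow_le_rpow_of_exponent_le hd1 (by linarith)
    have h4 : 1 ≤ D ^ a := Real.one_le_rpow hd1 ha.le
    calc (S.size : ℝ) ≤ ((N : ℝ) + 1) * (n * (s₀ : ℝ)) + 1 := h1
      _ ≤ (8 / e + 2) * D ^ (2 * e) * (n * D ^ e) + 1 := by gcongr
      _ = (8 / e + 2) * n * (D ^ (2 * e) * D ^ e) + 1 := by ring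
      _ ≤ (8 / e + 2) * n * D ^ a + D ^ a := by gcongr
      _ = ((8 / e + 2) * n + 1) * D ^ a := by ring
      _ ≤ _ := mul_le_mul_of_nonneg_right (le_add_of_nonneg_left (by positivity)) (by linarith)
  · have h1 : StandardBorelSpace (Space d) := inferInstance
    have h2 : StandardBorelSpace (∀ i, Ω i) := StandardBorelSpace.pi_countable
    have h3 : StandardBorelSpace (Fin n → ∀ i, Ω i) := StandardBorelSpace.pi_countable
    have h4 : StandardBorelSpace ((Fin n → ∀ i, Ω i) × Space d) := StandardBorelSpace.prod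
    have h5 : StandardBorelSpace (Fin (N + 1) → (Fin n → ∀ i, Ω i) × Space d) :=
      StandardBorelSpace.pi_countable
    exact StandardBorelSpace.prod
  have hVc : Quarter.InClass V := ⟨hV, hV0, hg, hH⟩
  have hBl : Block V (gradient V) := block_of_hessian hV hV0 hg hH
  have hO : Measurable (oracle V) := Quarter.measurable_oracle hV
  have hmeas : Measurable fun ω : TopSeed d Ω (N + 1) => S.eval (oracle V) ω :=
    hAmeas.eval (O := fun _ => oracle V) (hO.comp measurable_snd) measurable_id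
  have hsame : (fun ω : TopSeed d Ω (N + 1) => ((fun st => S.machineUpdate ω st
      (V (S.machineQuery ω st), gradient V (S.machineQuery ω st)))^[S.size]
        (0, fun _ => 0, 0)).2.2) = fun ω => S.eval (oracle V) ω :=
    funext fun ω => S.machine_run (oracle V) ω 0 hpos
  rw [hsame, ← real_gibbs hBl hE]
  have := hVc.prob
  have := Measure.isProbabilityMeasure_map (μ := topLaw (d := d) P (N + 1)) hmeas.aemeasurable
  refine Quarter.set_bound (fun f hf h01 => ?_) hE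
  rw [integral_map hmeas.aemeasurable hf.aestronglyMeasurable]
  have tf : Test f := Quarter.test_of_mem hf h01
  rw [hS, topAlg_mean hVc hAm P t _ (N + 1) tf]
  have hKD : K / D ^ (1 / 3 : ℝ) ≤ 1 / 10 := by
    have hK0 : 0 ≤ 10 * K := by positivity
    have h1 : (10 * K) ^ 3 ≤ D := (Nat.le_ceil _).trans (by rw [hD_def]; exact_mod_cast hdK)
    have h2 : 10 * K ≤ D ^ (1 / 3 : ℝ) := by
      have := Real.rpow_le_rpow (by positivity) h1 (show (0 : ℝ) ≤ 1 / 3 by norm_num)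
      rwa [← Real.rpow_natCast (10 * K), ← Real.rpow_mul hK0,
        show ((3 : ℕ) : ℝ) * (1 / 3) = 1 by norm_num, Real.rpow_one] at this
    rw [div_le_iff₀ (Real.rpow_pos_of_pos hd0 _)]; linarith
  exact top_error hVc hAm P hd64 he he3 ht_def ht8 hu0 hun (fun m hm => (hub m hm).2.2.2.le)
    (fun i g hg z hz => hclose i V hVc z hz g hg) hK hKD hN (Nat.le_ceil _) hf tf

end

end P347.Zero
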